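import Vale.Agent.P042.Core

/-!
# P042, module E1: Abel summation against a periodic sequence
-/

open Finset

namespace Vale.Agent.P042

namespace Abelm

lemma summation (a ψ : ℕ → ℂ) (V : ℕ) :
    ∑ v ∈ range V, a v * ψ v = (∑ v ∈ range V, a v) * ψ V
      - ∑ v ∈ range V, (∑ w ∈ range (v + 1), a w) * (ψ (v + 1) - ψ v) := by
  induction V with
  | zero => simp
  | succ V ih =>
    rw [Finset.sum_range_succ, ih, Finset.sum_range_succ (fun v => (∑ w ∈ range (v + 1), a w)
      * (ψ (v + 1) - ψ v))]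
    rw [Finset.sum_range_succ (fun v => a v) V]
    ring

lemma block_zero (a : ℕ → ℂ) (q : ℕ) (hp : ∀ n, a (n + q) = a n)
    (h0 : ∑ n ∈ range q, a n = 0) (n : ℕ) : ∑ x ∈ range q, a (n + x) = 0 := by
  induction n with
  | zero => simpa using h0
  | succ n ih =>
    have h1 := Finset.sum_range_succ (fun x => a (n + x)) q
    have h2 := Finset.sum_range_succ' (fun x => a (n + x)) q
    rw [h1] at h2
    have h3 : ∑ x ∈ range q, a (n + (x + 1)) = ∑ x ∈ range q, a (n + 1 + x) :=
      Finset.sum_congr rfl fun x _ => by rw [add_assoc, add_comm 1 x]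
    rw [h3, ih, hp] at h2
    simp only [Nat.add_zero, zero_add] at h2
    have h4 : ∑ x ∈ range q, a (n + 1 + x) + a n = 0 + a n := by rw [← h2, zero_add]
    exact add_right_cancel h4

lemma periodic (a : ℕ → ℂ) (q : ℕ) (hp : ∀ n, a (n + q) = a n)
    (h0 : ∑ n ∈ range q, a n = 0) (n : ℕ) :
    ∑ w ∈ range (n + q), a w = ∑ w ∈ range n, a w := by
  rw [Finset.sum_range_add, block_zero a q hp h0 n, add_zero]

lemma partial_bound (a : ℕ → ℂ) (q : ℕ) (hq : 1 ≤ q) (hp : ∀ n, a (n + q) = a n)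
    (h0 : ∑ n ∈ range q, a n = 0) (hb : ∀ n, ‖a n‖ ≤ 2) (n : ℕ) :
    ‖∑ w ∈ range n, a w‖ ≤ 2 * q := by
  induction n using Nat.strong_induction_on with
  | _ n ih =>
    by_cases h : n < q
    · refine (norm_sum_le _ _).trans ?_
      refine (Finset.sum_le_sum (fun i _ => hb i)).trans ?_
      rw [Finset.sum_const, Finset.card_range, nsmul_eq_mul]
      have : (n : ℝ) ≤ q := by exact_mod_cast h.le
      linarith
    · obtain ⟨m, rfl⟩ : ∃ m, n = m + q := ⟨n - q, by omega⟩
      rw [periodic a q hp h0]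
      exact ih m (by omega)

end Abelm

open Abelm in
theorem abel : ABEL := by
  intro φ ψ q V G τ hq hp hφ hG hψ hτ
  have hG1 : ‖G‖ ≤ 1 := by
    have h1 : ‖(q : ℂ) * G‖ ≤ q := by
      rw [← hG]
      refine (norm_sum_le _ _).trans ?_
      refine (Finset.sum_le_sum (fun i _ => hφ i)).trans ?_
      simp
    rw [norm_mul, Complex.norm_natCast] at h1
    have hq0 : (0 : ℝ) < q := by exact_mod_cast hq
    nlinarith
  have hp' : ∀ n, (fun n => φ n - G) (n + q) = (fun n => φ n - G) n := by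
    intro n; simp [hp n]
  have h0' : ∑ n ∈ range q, (fun n => φ n - G) n = 0 := by
    simp only [Finset.sum_sub_distrib, Finset.sum_const, Finset.card_range, nsmul_eq_mul]
    rw [hG]; ring
  have hb' : ∀ n, ‖(fun n => φ n - G) n‖ ≤ 2 := by
    intro n
    have := norm_sub_le (φ n) G
    have := hφ n
    simp only
    linarith
  have e : ∑ v ∈ range V, φ v * ψ v - G * ∑ v ∈ range V, ψ v
      = ∑ v ∈ range V, (fun n => φ n - G) v * ψ v := by
    simp only [sub_mul, Finset.sum_sub_distrib, Finset.mul_sum]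
  rw [e, summation]
  refine (norm_sub_le _ _).trans ?_
  have h1 : ‖(∑ v ∈ range V, (fun n => φ n - G) v) * ψ V‖ ≤ 2 * q := by
    rw [norm_mul]
    have h2 := partial_bound _ q hq hp' h0' hb' V
    have h3 := hψ V
    have h4 := norm_nonneg (ψ V)
    have hq0 : (0 : ℝ) ≤ 2 * q := by positivity
    calc _ ≤ (2 * (q : ℝ)) * 1 := mul_le_mul h2 h3 h4 hq0
      _ = _ := mul_one _
  have h5 : ‖∑ v ∈ range V, (∑ w ∈ range (v + 1), (fun n => φ n - G) w) * (ψ (v + 1) - ψ v)‖
      ≤ 2 * q * τ := by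
    refine (norm_sum_le _ _).trans ?_
    calc ∑ v ∈ range V, ‖(∑ w ∈ range (v + 1), (fun n => φ n - G) w) * (ψ (v + 1) - ψ v)‖
        ≤ ∑ v ∈ range V, (2 * (q : ℝ)) * ‖ψ (v + 1) - ψ v‖ := by
          apply Finset.sum_le_sum
          intro v _
          rw [norm_mul]
          exact mul_le_mul_of_nonneg_right (partial_bound _ q hq hp' h0' hb' (v + 1))
            (norm_nonneg _)
      _ = (2 * (q : ℝ)) * ∑ v ∈ range V, ‖ψ (v + 1) - ψ v‖ := by rw [Finset.mul_sum]
      _ ≤ 2 * q * τ := mul_le_mul_of_nonneg_left hτ (by positivity)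
  linarith

end Vale.Agent.P042
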