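import Vale.Agent.P042.Core2

/-!
# P042, module D7: random covering modulus
-/

open Polynomial Finset

namespace Vale.Agent.P042

namespace CoverPf

/-! ### abstract product measure -/

theorem sum_prod_coord {ι : Type} [Fintype ι] [DecidableEq ι] (n : ℕ) (ρ : ι → ℕ → ℝ)
    (hρ : ∀ i v, 0 ≤ ρ i v) (i₀ : ι) (R : ℝ)
    (hR : ∑ v ∈ range n, ρ i₀ v * v ≤ R * ∑ v ∈ range n, ρ i₀ v) :
    ∑ e ∈ Fintype.piFinset (fun _ : ι => range n), (∏ i, ρ i (e i)) * (e i₀ : ℝ)
      ≤ R * ∏ i, ∑ v ∈ range n, ρ i v := by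
  have h1 : ∀ e : ι → ℕ, (∏ i, ρ i (e i)) * (e i₀ : ℝ)
      = ∏ i, (ρ i (e i) * (if i = i₀ then (e i : ℝ) else 1)) := by
    intro e
    rw [prod_mul_distrib, prod_ite_eq']
    simp
  simp only [h1]
  have h2 := prod_univ_sum (fun _ : ι => range n)
    (fun i v => ρ i v * (if i = i₀ then (v : ℝ) else 1))
  rw [← h2]
  have h3 : R * ∏ i, ∑ v ∈ range n, ρ i v
      = ∏ i, ((if i = i₀ then R else 1) * ∑ v ∈ range n, ρ i v) := by
    rw [prod_mul_distrib, prod_ite_eq']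
    simp
  rw [h3]
  apply prod_le_prod
  · intro i _
    apply sum_nonneg
    intro v _
    split_ifs
    · exact mul_nonneg (hρ i v) (Nat.cast_nonneg v)
    · rw [mul_one]; exact hρ i v
  · intro i _
    by_cases hi : i = i₀
    · subst hi
      simp only [if_true]
      exact hR
    · simp [hi]

theorem markov_prod {ι : Type} [Fintype ι] [DecidableEq ι] (n : ℕ) (ρ : ι → ℕ → ℝ)
    (hρ : ∀ i v, 0 ≤ ρ i v) (c R : ι → ℝ) (hc : ∀ i, 0 ≤ c i)
    (hR : ∀ i, ∑ v ∈ range n, ρ i v * v ≤ R i * ∑ v ∈ range n, ρ i v)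
    (Λ : ℝ) (hΛ : 0 < Λ) (hsum : ∑ i, c i * R i ≤ Λ / 2) :
    ∏ i, ∑ v ∈ range n, ρ i v
      ≤ 2 * ∑ e ∈ (Fintype.piFinset (fun _ : ι => range n)).filter
          (fun e => ∑ i, c i * (e i : ℝ) ≤ Λ), ∏ i, ρ i (e i) := by
  set Z := ∏ i, ∑ v ∈ range n, ρ i v with hZ
  have hZ0 : 0 ≤ Z := prod_nonneg fun i _ => sum_nonneg fun v _ => hρ i v
  have hZe : Z = ∑ e ∈ Fintype.piFinset (fun _ : ι => range n), ∏ i, ρ i (e i) := by
    rw [hZ, prod_univ_sum]
  have hP0 : ∀ e : ι → ℕ, 0 ≤ ∏ i, ρ i (e i) := fun e => prod_nonneg fun i _ => hρ i _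
  have hmom : ∑ e ∈ Fintype.piFinset (fun _ : ι => range n),
      (∏ i, ρ i (e i)) * (∑ i, c i * (e i : ℝ)) ≤ Λ / 2 * Z := by
    have h1 : ∑ e ∈ Fintype.piFinset (fun _ : ι => range n),
        (∏ i, ρ i (e i)) * (∑ i, c i * (e i : ℝ))
        = ∑ i₀, c i₀ * ∑ e ∈ Fintype.piFinset (fun _ : ι => range n),
          (∏ i, ρ i (e i)) * (e i₀ : ℝ) := by
      simp only [mul_sum]
      rw [sum_comm]
      apply sum_congr rfl
      intro i _
      apply sum_congr rfl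
      intro e _
      ring
    rw [h1]
    calc ∑ i₀, c i₀ * ∑ e ∈ Fintype.piFinset (fun _ : ι => range n),
          (∏ i, ρ i (e i)) * (e i₀ : ℝ)
        ≤ ∑ i₀, c i₀ * (R i₀ * Z) := by
          apply sum_le_sum
          intro i _
          exact mul_le_mul_of_nonneg_left (sum_prod_coord n ρ hρ i (R i) (hR i)) (hc i)
      _ = (∑ i₀, c i₀ * R i₀) * Z := by
          rw [sum_mul]; apply sum_congr rfl; intro i _; ring
      _ ≤ Λ / 2 * Z := mul_le_mul_of_nonneg_right hsum hZ0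
  have hS0 : ∀ e : ι → ℕ, 0 ≤ ∑ i, c i * (e i : ℝ) :=
    fun e => sum_nonneg fun i _ => mul_nonneg (hc i) (Nat.cast_nonneg _)
  have hbad : Λ * ∑ e ∈ (Fintype.piFinset (fun _ : ι => range n)).filter
      (fun e => ¬ ∑ i, c i * (e i : ℝ) ≤ Λ), ∏ i, ρ i (e i) ≤ Λ / 2 * Z := by
    refine le_trans ?_ hmom
    rw [mul_sum]
    calc ∑ e ∈ (Fintype.piFinset (fun _ : ι => range n)).filter
          (fun e => ¬ ∑ i, c i * (e i : ℝ) ≤ Λ), Λ * ∏ i, ρ i (e i)
        ≤ ∑ e ∈ (Fintype.piFinset (fun _ : ι => range n)).filter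
          (fun e => ¬ ∑ i, c i * (e i : ℝ) ≤ Λ), (∏ i, ρ i (e i)) * (∑ i, c i * (e i : ℝ)) := by
          apply sum_le_sum
          intro e he
          have := (mem_filter.1 he).2
          push Not at this
          rw [mul_comm]
          exact mul_le_mul_of_nonneg_left this.le (hP0 e)
      _ ≤ _ := by
          apply sum_le_sum_of_subset_of_nonneg (filter_subset _ _)
          intro e _ _
          exact mul_nonneg (hP0 e) (hS0 e)
  have hsplit := sum_filter_add_sum_filter_not (Fintype.piFinset (fun _ : ι => range n))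
    (fun e => ∑ i, c i * (e i : ℝ) ≤ Λ) (fun e => ∏ i, ρ i (e i))
  rw [← hZe] at hsplit
  have hbad' : ∑ e ∈ (Fintype.piFinset (fun _ : ι => range n)).filter
      (fun e => ¬ ∑ i, c i * (e i : ℝ) ≤ Λ), ∏ i, ρ i (e i) ≤ Z / 2 := by
    have h2 : Λ / 2 * Z = Λ * (Z / 2) := by ring
    rw [h2] at hbad
    exact le_of_mul_le_mul_left hbad hΛ
  linarith

/-! ### sums over primes -/

theorem theta_le (N : ℕ) :
    ∑ m ∈ range (N + 1), (if m.Prime then Real.log m else 0) ≤ Real.log 4 * N := by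
  have h1 : ∑ m ∈ range (N + 1), (if m.Prime then Real.log m else 0) = Real.log (primorial N) := by
    rw [primorial, ← sum_filter]
    push_cast
    rw [Real.log_prod]
    intro p hp
    have := (mem_filter.1 hp).2.pos
    positivity
  rw [h1]
  have h2 := primorial_le_four_pow N
  have h3 : ((primorial N : ℕ) : ℝ) ≤ (4 : ℝ) ^ N := by exact_mod_cast h2
  have h4 : (0 : ℝ) < (primorial N : ℕ) := by exact_mod_cast primorial_pos N
  have h5 := Real.log_le_log h4 h3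
  rw [Real.log_pow] at h5
  linarith

theorem abel_prime (f : ℕ → ℝ) (hf : ∀ n, 1 ≤ n → f (n + 1) ≤ f n) (N : ℕ) (hN : 1 ≤ N) :
    ∑ m ∈ Icc 1 N, f m * (if m.Prime then Real.log m else 0)
      + f N * (Real.log 4 * N - ∑ m ∈ range (N + 1), (if m.Prime then Real.log m else 0))
      ≤ Real.log 4 * ∑ m ∈ Icc 1 N, f m := by
  induction N, hN using Nat.le_induction with
  | base =>
    have : ∑ m ∈ range (1 + 1), (if m.Prime then Real.log m else 0) = 0 := by
      simp [sum_range_succ, Nat.not_prime_zero, Nat.not_prime_one]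
    rw [this]
    simp [Nat.not_prime_one]
    linarith
  | succ N hN ih =>
    rw [sum_Icc_succ_top (by omega), sum_Icc_succ_top (by omega), sum_range_succ _ (N + 1)]
    have h1 := theta_le N
    have h2 := hf N hN
    have h3 : f (N + 1) * (Real.log 4 * N
        - ∑ m ∈ range (N + 1), (if m.Prime then Real.log m else 0))
        ≤ f N * (Real.log 4 * N
        - ∑ m ∈ range (N + 1), (if m.Prime then Real.log m else 0)) :=
      mul_le_mul_of_nonneg_right h2 (by linarith)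
    push_cast
    nlinarith [h3, ih]

theorem rpow_anti {x y z : ℝ} (hy : 0 < y) (hxy : y ≤ x) (hz : z ≤ 0) : x ^ z ≤ y ^ z :=
  Real.antitoneOn_rpow_Ioi_of_exponent_nonpos hz (Set.mem_Ioi.2 hy)
    (Set.mem_Ioi.2 (hy.trans_le hxy)) hxy

theorem root_anti (s : ℝ) (hs : 0 ≤ s) (n : ℕ) (hn : 1 ≤ n) :
    ((n + 1 : ℕ) : ℝ) ^ (-s) ≤ (n : ℝ) ^ (-s) := by
  apply rpow_anti
  · exact_mod_cast hn
  · push_cast; linarith
  · linarith

theorem pow_sub_le (t y : ℕ) (ht : 1 ≤ t) : (y + 1) ^ t - y ^ t ≤ t * (y + 1) ^ (t - 1) := by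
  have h := Nat.sub_le_iff_le_add'.2 (?_ : (y + 1) ^ t ≤ y ^ t + t * (y + 1) ^ (t - 1))
  · exact h
  induction t, ht using Nat.le_induction with
  | base => simp
  | succ t ht ih =>
    have e1 : t + 1 - 1 = t := by omega
    rw [e1]
    have e2 : (y + 1) ^ t = (y + 1) ^ (t - 1) * (y + 1) := by
      rw [← pow_succ, Nat.sub_add_cancel ht]
    calc (y + 1) ^ (t + 1) = (y + 1) ^ t * y + (y + 1) ^ t := by rw [pow_succ]; ring
      _ ≤ (y ^ t + t * (y + 1) ^ (t - 1)) * y + (y + 1) ^ t := by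
          have := Nat.mul_le_mul_right y ih
          omega
      _ = y ^ (t + 1) + t * (y + 1) ^ (t - 1) * y + (y + 1) ^ t := by rw [pow_succ]; ring
      _ ≤ y ^ (t + 1) + t * (y + 1) ^ t + (y + 1) ^ t := by
          have : t * (y + 1) ^ (t - 1) * y ≤ t * (y + 1) ^ t := by
            rw [e2]
            calc t * (y + 1) ^ (t - 1) * y ≤ t * (y + 1) ^ (t - 1) * (y + 1) :=
                  Nat.mul_le_mul_left _ (by omega)
              _ = t * ((y + 1) ^ (t - 1) * (y + 1)) := by ring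
          omega
      _ = y ^ (t + 1) + (t + 1) * (y + 1) ^ t := by ring

theorem sum_root_le (t y : ℕ) (ht : 2 ≤ t) (hy : 1 ≤ y) :
    ∑ m ∈ Icc 1 (y ^ t), (m : ℝ) ^ (-(1 / (t : ℝ))) ≤ 2 * t * (y : ℝ) ^ (t - 1) := by
  induction y, hy using Nat.le_induction with
  | base =>
    simp
    have : (2 : ℝ) ≤ t := by exact_mod_cast ht
    linarith
  | succ y hy ih =>
    have hle : y ^ t ≤ (y + 1) ^ t := Nat.pow_le_pow_left (by omega) t
    have hsplit : ∑ m ∈ Icc 1 ((y + 1) ^ t), (m : ℝ) ^ (-(1 / (t : ℝ)))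
        = ∑ m ∈ Icc 1 (y ^ t), (m : ℝ) ^ (-(1 / (t : ℝ)))
          + ∑ m ∈ Ioc (y ^ t) ((y + 1) ^ t), (m : ℝ) ^ (-(1 / (t : ℝ))) := by
      rw [← sum_union]
      · congr 1
        ext m
        simp only [mem_Icc, mem_union, mem_Ioc]
        have : 1 ≤ y ^ t := Nat.one_le_pow _ _ hy
        omega
      · rw [disjoint_left]
        intro m h1 h2
        rw [mem_Icc] at h1
        rw [mem_Ioc] at h2
        omega
    have hyr : (1 : ℝ) ≤ y := by exact_mod_cast hy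
    have ht0 : (0 : ℝ) < t := by positivity
    have hterm : ∀ m ∈ Ioc (y ^ t) ((y + 1) ^ t), (m : ℝ) ^ (-(1 / (t : ℝ))) ≤ 1 / (y : ℝ) := by
      intro m hm
      rw [mem_Ioc] at hm
      have h1 : ((y : ℝ) ^ t) ≤ (m : ℝ) := by exact_mod_cast hm.1.le
      have h2 : (m : ℝ) ^ (-(1 / (t : ℝ))) ≤ ((y : ℝ) ^ t) ^ (-(1 / (t : ℝ))) := by
        apply rpow_anti (by positivity) h1
        have : 0 ≤ 1 / (t : ℝ) := by positivity
        linarith
      refine h2.trans (le_of_eq ?_)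
      rw [← Real.rpow_natCast, ← Real.rpow_mul (by linarith)]
      have : (t : ℝ) * -(1 / (t : ℝ)) = -1 := by field_simp
      rw [this, Real.rpow_neg_one, one_div]
    have hsum : ∑ m ∈ Ioc (y ^ t) ((y + 1) ^ t), (m : ℝ) ^ (-(1 / (t : ℝ)))
        ≤ t * ((y : ℝ) + 1) ^ (t - 1) * (1 / y) := by
      calc ∑ m ∈ Ioc (y ^ t) ((y + 1) ^ t), (m : ℝ) ^ (-(1 / (t : ℝ)))
          ≤ ∑ m ∈ Ioc (y ^ t) ((y + 1) ^ t), 1 / (y : ℝ) := sum_le_sum hterm
        _ = (((y + 1) ^ t - y ^ t : ℕ) : ℝ) * (1 / y) := by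
            rw [sum_const, Nat.card_Ioc, nsmul_eq_mul]
        _ ≤ ((t * (y + 1) ^ (t - 1) : ℕ) : ℝ) * (1 / y) := by
            apply mul_le_mul_of_nonneg_right _ (by positivity)
            exact_mod_cast pow_sub_le t y (by omega)
        _ = t * ((y : ℝ) + 1) ^ (t - 1) * (1 / y) := by push_cast; ring
    have hy1 : ((y : ℝ) + 1) ^ (t - 1) = ((y : ℝ) + 1) ^ (t - 2) * (y + 1) := by
      rw [← pow_succ]
      congr 1
      omega
    have hy2 : (y : ℝ) ^ (t - 1) ≤ ((y : ℝ) + 1) ^ (t - 2) * y := by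
      have : (y : ℝ) ^ (t - 1) = (y : ℝ) ^ (t - 2) * y := by
        rw [← pow_succ]; congr 1; omega
      rw [this]
      apply mul_le_mul_of_nonneg_right _ (by positivity)
      exact pow_le_pow_left₀ (by positivity) (by linarith) _
    have hinv : (y + 1 : ℝ) * (1 / y) ≤ 2 := by
      rw [mul_one_div, div_le_iff₀ (by linarith)]
      linarith
    have hP : 0 ≤ ((y : ℝ) + 1) ^ (t - 2) := by positivity
    have hfin : t * ((y : ℝ) + 1) ^ (t - 1) * (1 / y) ≤ 2 * t * ((y : ℝ) + 1) ^ (t - 2) := by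
      rw [hy1]
      calc (t : ℝ) * (((y : ℝ) + 1) ^ (t - 2) * (y + 1)) * (1 / y)
          = t * ((y : ℝ) + 1) ^ (t - 2) * ((y + 1 : ℝ) * (1 / y)) := by ring
        _ ≤ t * ((y : ℝ) + 1) ^ (t - 2) * 2 := mul_le_mul_of_nonneg_left hinv (by positivity)
        _ = 2 * t * ((y : ℝ) + 1) ^ (t - 2) := by ring
    rw [hsplit]
    push_cast
    calc _ ≤ 2 * t * (y : ℝ) ^ (t - 1) + 2 * t * ((y : ℝ) + 1) ^ (t - 2) := by linarith
      _ ≤ 2 * t * (((y : ℝ) + 1) ^ (t - 2) * y) + 2 * t * ((y : ℝ) + 1) ^ (t - 2) := by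
          have := mul_le_mul_of_nonneg_left hy2 (by positivity : (0 : ℝ) ≤ 2 * t)
          linarith
      _ = 2 * t * (((y : ℝ) + 1) ^ (t - 2) * (y + 1)) := by ring
      _ = 2 * t * ((y : ℝ) + 1) ^ (t - 1) := by rw [hy1]

theorem sum_prime_root (t y : ℕ) (ht : 2 ≤ t) (hy : 1 ≤ y) :
    ∑ p ∈ (Icc 1 (y ^ t)).filter Nat.Prime, (p : ℝ) ^ (-(1 / (t : ℝ))) * Real.log p
      ≤ 4 * t * (y : ℝ) ^ (t - 1) := by
  have hN : 1 ≤ y ^ t := Nat.one_le_pow _ _ hy
  have h1 := abel_prime (fun m => (m : ℝ) ^ (-(1 / (t : ℝ))))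
    (fun n hn => root_anti (1 / (t : ℝ)) (by positivity) n hn) (y ^ t) hN
  have h2 := theta_le (y ^ t)
  have h3 : 0 ≤ ((y ^ t : ℕ) : ℝ) ^ (-(1 / (t : ℝ))) * (Real.log 4 * ((y ^ t : ℕ) : ℝ)
      - ∑ m ∈ range (y ^ t + 1), (if m.Prime then Real.log m else 0)) :=
    mul_nonneg (by positivity) (by linarith)
  have h4 : ∑ p ∈ (Icc 1 (y ^ t)).filter Nat.Prime, (p : ℝ) ^ (-(1 / (t : ℝ))) * Real.log p
      = ∑ m ∈ Icc 1 (y ^ t), (m : ℝ) ^ (-(1 / (t : ℝ))) * (if m.Prime then Real.log m else 0) := by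
    rw [sum_filter]
    apply sum_congr rfl
    intro m _
    split_ifs <;> simp
  have h5 := sum_root_le t y ht hy
  have h6 : Real.log 4 ≤ 2 := by
    have : Real.log 4 = 2 * Real.log 2 := by
      rw [show (4 : ℝ) = 2 ^ 2 by norm_num, Real.log_pow]; push_cast; ring
    have := Real.log_two_lt_d9
    linarith
  have h7 : 0 ≤ ∑ m ∈ Icc 1 (y ^ t), (m : ℝ) ^ (-(1 / (t : ℝ))) :=
    sum_nonneg fun m _ => by positivity
  rw [h4]
  calc _ ≤ Real.log 4 * ∑ m ∈ Icc 1 (y ^ t), (m : ℝ) ^ (-(1 / (t : ℝ))) := by linarith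
    _ ≤ 2 * ∑ m ∈ Icc 1 (y ^ t), (m : ℝ) ^ (-(1 / (t : ℝ))) := mul_le_mul_of_nonneg_right h6 h7
    _ ≤ 2 * (2 * t * (y : ℝ) ^ (t - 1)) := by linarith
    _ = 4 * t * (y : ℝ) ^ (t - 1) := by ring


/-! ### local weights -/

/-- the ratio `x_p = p^{-1/(2 kap)}` -/
noncomputable def xk (k p : ℕ) : ℝ := (p : ℝ) ^ (-(1 / (2 * (kap k : ℝ))))

/-- the local weight -/
noncomputable def Ww (C : ℝ) (k t p j : ℕ) : ℝ :=
  if j = 0 then 1 else min 1 (C * (p : ℝ) ^ (-(1 / (t : ℝ))) * xk k p ^ (j - 1))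

theorem kap_pos (k : ℕ) (hk : 2 ≤ k) : 3 ≤ kap k := by unfold kap; omega

theorem xk_pos (k p : ℕ) (hp : 1 ≤ p) : 0 < xk k p := by
  unfold xk
  have : (0 : ℝ) < p := by exact_mod_cast hp
  positivity

theorem xk_le_two (k p : ℕ) (hp : 2 ≤ p) : xk k p ≤ xk k 2 := by
  unfold xk
  apply rpow_anti (by norm_num) (by exact_mod_cast hp)
  have : 0 ≤ 1 / (2 * (kap k : ℝ)) := by positivity
  linarith

theorem xk_two_lt (k : ℕ) (hk : 2 ≤ k) : xk k 2 < 1 := by
  unfold xk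
  have h := kap_pos k hk
  have h0 : (0 : ℝ) < kap k := by
    have : 0 < kap k := by omega
    exact_mod_cast this
  apply Real.rpow_lt_one_of_one_lt_of_neg (by norm_num)
  have : 0 < 1 / (2 * (kap k : ℝ)) := by positivity
  linarith

theorem root_pos (t p : ℕ) (hp : 1 ≤ p) : 0 < (p : ℝ) ^ (-(1 / (t : ℝ))) := by
  have : (0 : ℝ) < p := by exact_mod_cast hp
  positivity

theorem root_le_one (t p : ℕ) (hp : 1 ≤ p) : (p : ℝ) ^ (-(1 / (t : ℝ))) ≤ 1 := by
  apply Real.rpow_le_one_of_one_le_of_nonpos (by exact_mod_cast hp)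
  have : 0 ≤ 1 / (t : ℝ) := by positivity
  linarith

theorem Ww_pos (C : ℝ) (k t p j : ℕ) (hC : 1 ≤ C) (hp : 1 ≤ p) : 0 < Ww C k t p j := by
  unfold Ww
  split_ifs
  · norm_num
  · have h1 := root_pos t p hp
    have h2 := xk_pos k p hp
    have : 0 < C * (p : ℝ) ^ (-(1 / (t : ℝ))) * xk k p ^ (j - 1) := by positivity
    exact lt_min one_pos this

theorem Ww_le_one (C : ℝ) (k t p j : ℕ) : Ww C k t p j ≤ 1 := by
  unfold Ww
  split_ifs
  · exact le_rfl
  · exact min_le_left _ _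

theorem Ww_anti (C : ℝ) (k t p j : ℕ) (hC : 1 ≤ C) (hp : 2 ≤ p) (hk : 2 ≤ k) :
    Ww C k t p (j + 1) ≤ Ww C k t p j := by
  rcases Nat.eq_zero_or_pos j with rfl | hj
  · unfold Ww; simp
  · unfold Ww
    rw [if_neg (by omega), if_neg (by omega)]
    apply min_le_min le_rfl
    have h1 := root_pos t p (by omega)
    apply mul_le_mul_of_nonneg_left _ (by positivity)
    apply pow_le_pow_of_le_one (xk_pos k p (by omega)).le
    · exact ((xk_le_two k p hp).trans (xk_two_lt k hk).le)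
    · omega

/-- `w(i) ≤ C x^{i-j} w(j)` for `1 ≤ j ≤ i` -/
theorem Ww_ratio (C : ℝ) (k t p j i : ℕ) (hC : 1 ≤ C) (hp : 2 ≤ p) (hk : 2 ≤ k) (hj : 1 ≤ j)
    (hi : j ≤ i) : Ww C k t p i ≤ C * xk k p ^ (i - j) * Ww C k t p j := by
  have hx := xk_pos k p (by omega)
  have hx1 : xk k p ≤ 1 := (xk_le_two k p hp).trans (xk_two_lt k hk).le
  have hr := root_pos t p (by omega : 1 ≤ p)
  have hr1 := root_le_one t p (by omega : 1 ≤ p)
  have hwi : Ww C k t p i ≤ C * (p : ℝ) ^ (-(1 / (t : ℝ))) * xk k p ^ (i - 1) := by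
    unfold Ww
    rw [if_neg (by omega)]
    exact min_le_right _ _
  have hexp : xk k p ^ (i - 1) = xk k p ^ (i - j) * xk k p ^ (j - 1) := by
    rw [← pow_add]; congr 1; omega
  have hw : Ww C k t p j = min 1 (C * (p : ℝ) ^ (-(1 / (t : ℝ))) * xk k p ^ (j - 1)) := by
    unfold Ww
    rw [if_neg (by omega)]
  rw [hw]
  rcases le_total 1 (C * (p : ℝ) ^ (-(1 / (t : ℝ))) * xk k p ^ (j - 1)) with h | h
  · rw [min_eq_left h, mul_one]
    refine hwi.trans ?_
    rw [hexp]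
    have h2 : xk k p ^ (j - 1) ≤ 1 := pow_le_one₀ hx.le hx1
    have h3 : 0 ≤ xk k p ^ (i - j) := by positivity
    have h4 : (p : ℝ) ^ (-(1 / (t : ℝ))) * (xk k p ^ (i - j) * xk k p ^ (j - 1))
        ≤ 1 * (xk k p ^ (i - j) * 1) := by
      apply mul_le_mul hr1 _ (by positivity) (by norm_num)
      exact mul_le_mul_of_nonneg_left h2 h3
    calc C * (p : ℝ) ^ (-(1 / (t : ℝ))) * (xk k p ^ (i - j) * xk k p ^ (j - 1))
        = C * ((p : ℝ) ^ (-(1 / (t : ℝ))) * (xk k p ^ (i - j) * xk k p ^ (j - 1))) := by ring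
      _ ≤ C * (1 * (xk k p ^ (i - j) * 1)) := mul_le_mul_of_nonneg_left h4 (by linarith)
      _ = C * xk k p ^ (i - j) := by ring
  · rw [min_eq_right h]
    refine hwi.trans ?_
    rw [hexp]
    have h3 : 0 ≤ (p : ℝ) ^ (-(1 / (t : ℝ))) * (xk k p ^ (i - j) * xk k p ^ (j - 1)) := by
      positivity
    calc C * (p : ℝ) ^ (-(1 / (t : ℝ))) * (xk k p ^ (i - j) * xk k p ^ (j - 1))
        = 1 * (C * ((p : ℝ) ^ (-(1 / (t : ℝ))) * (xk k p ^ (i - j) * xk k p ^ (j - 1)))) := by ring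
      _ ≤ C * (C * ((p : ℝ) ^ (-(1 / (t : ℝ))) * (xk k p ^ (i - j) * xk k p ^ (j - 1)))) :=
          mul_le_mul_of_nonneg_right hC (by positivity)
      _ = C * xk k p ^ (i - j) * (C * (p : ℝ) ^ (-(1 / (t : ℝ))) * xk k p ^ (j - 1)) := by ring

/-- geometric sums -/
theorem geo_le (x : ℝ) (hx : 0 ≤ x) (y : ℝ) (hxy : x ≤ y) (hy : y < 1) (n : ℕ) :
    ∑ v ∈ range n, x ^ v ≤ 1 / (1 - y) := by
  have h1 : ∑ v ∈ range n, x ^ v ≤ ∑ v ∈ range n, y ^ v :=
    sum_le_sum fun v _ => pow_le_pow_left₀ hx hxy v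
  refine h1.trans ?_
  have hy0 : 0 ≤ y := hx.trans hxy
  rw [le_div_iff₀ (by linarith)]
  have h2 := geom_sum_mul_neg y n
  rw [h2]
  have : 0 ≤ y ^ n := by positivity
  linarith

/-- truncated weights -/
noncomputable def Wt (C : ℝ) (k t n p j : ℕ) : ℝ := if j < n then Ww C k t p j else 0

/-- the probabilities `P(e_p = v)` -/
noncomputable def pr (C : ℝ) (k t n p v : ℕ) : ℝ := Wt C k t n p v - Wt C k t n p (v + 1)

theorem pr_nonneg (C : ℝ) (k t n p v : ℕ) (hC : 1 ≤ C) (hp : 2 ≤ p) (hk : 2 ≤ k) :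
    0 ≤ pr C k t n p v := by
  unfold pr Wt
  have h1 := Ww_anti C k t p v hC hp hk
  have h2 := Ww_pos C k t p v hC (by omega : 1 ≤ p)
  split_ifs <;> first | omega | linarith

theorem sum_pr (C : ℝ) (k t n p j : ℕ) (hj : j < n) :
    ∑ v ∈ range n, pr C k t n p v * (if j ≤ v then 1 else 0) = Ww C k t p j := by
  have h1 : ∑ v ∈ range n, pr C k t n p v * (if j ≤ v then (1 : ℝ) else 0)
      = ∑ v ∈ Ico j n, pr C k t n p v := by
    rw [← sum_filter_add_sum_filter_not (range n) (fun v => j ≤ v)]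
    have e1 : (range n).filter (fun v => j ≤ v) = Ico j n := by
      ext v; simp only [mem_filter, mem_range, mem_Ico]; omega
    have e2 : ∑ v ∈ (range n).filter (fun v => ¬ j ≤ v),
        pr C k t n p v * (if j ≤ v then (1 : ℝ) else 0) = 0 := by
      apply sum_eq_zero
      intro v hv
      rw [if_neg (mem_filter.1 hv).2, mul_zero]
    rw [e2, add_zero, e1]
    apply sum_congr rfl
    intro v hv
    rw [if_pos (mem_Ico.1 hv).1, mul_one]
  rw [h1]
  have h2 : ∀ m, j ≤ m → ∑ v ∈ Ico j m, pr C k t n p v = Wt C k t n p j - Wt C k t n p m := by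
    intro m hm
    induction m, hm using Nat.le_induction with
    | base => simp
    | succ m hm ih =>
      rw [sum_Ico_succ_top hm, ih]
      unfold pr
      ring
  rw [h2 n hj.le]
  unfold Wt
  rw [if_pos hj, if_neg (by omega), sub_zero]

theorem sum_pr_mul (C : ℝ) (k t n p j : ℕ) (hj : j < n) :
    ∑ v ∈ range n, pr C k t n p v * (if j ≤ v then 1 else 0) * (v : ℝ)
      = j * Ww C k t p j + ∑ v ∈ Ico (j + 1) n, Ww C k t p v := by
  have h1 : ∑ v ∈ range n, pr C k t n p v * (if j ≤ v then (1 : ℝ) else 0) * (v : ℝ)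
      = ∑ v ∈ Ico j n, pr C k t n p v * (v : ℝ) := by
    rw [← sum_filter_add_sum_filter_not (range n) (fun v => j ≤ v)]
    have e1 : (range n).filter (fun v => j ≤ v) = Ico j n := by
      ext v; simp only [mem_filter, mem_range, mem_Ico]; omega
    have e2 : ∑ v ∈ (range n).filter (fun v => ¬ j ≤ v),
        pr C k t n p v * (if j ≤ v then (1 : ℝ) else 0) * (v : ℝ) = 0 := by
      apply sum_eq_zero
      intro v hv
      rw [if_neg (mem_filter.1 hv).2, mul_zero, zero_mul]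
    rw [e2, add_zero, e1]
    apply sum_congr rfl
    intro v hv
    rw [if_pos (mem_Ico.1 hv).1, mul_one]
  rw [h1]
  have h2 : ∀ m, j + 1 ≤ m → ∑ v ∈ Ico j m, pr C k t n p v * (v : ℝ)
      = j * Wt C k t n p j + ∑ v ∈ Ico (j + 1) m, Wt C k t n p v - (m - 1) * Wt C k t n p m := by
    intro m hm
    induction m, hm using Nat.le_induction with
    | base =>
      rw [sum_Ico_succ_top (le_refl j)]
      simp
      unfold pr
      ring
    | succ m hm ih =>
      rw [sum_Ico_succ_top (by omega), ih, sum_Ico_succ_top hm]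
      unfold pr
      push_cast
      ring
  rw [h2 n (by omega)]
  have h3 : Wt C k t n p n = 0 := by unfold Wt; rw [if_neg (by omega)]
  have h4 : Wt C k t n p j = Ww C k t p j := by unfold Wt; rw [if_pos hj]
  rw [h3, h4, mul_zero, sub_zero]
  congr 1
  apply sum_congr rfl
  intro v hv
  unfold Wt
  rw [if_pos (mem_Ico.1 hv).2]

/-- the constant `1/(1-x_2)` -/
noncomputable def DD (k : ℕ) : ℝ := 1 / (1 - xk k 2)

theorem DD_pos (k : ℕ) (hk : 2 ≤ k) : 0 < DD k := by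
  unfold DD
  have := xk_two_lt k hk
  apply div_pos one_pos
  linarith

/-- conditional expectation of the exponent -/
theorem cond_exp (C : ℝ) (k t n p j : ℕ) (hC : 1 ≤ C) (hp : 2 ≤ p) (hk : 2 ≤ k) (hj : j < n) :
    ∑ v ∈ range n, pr C k t n p v * (if j ≤ v then 1 else 0) * (v : ℝ)
      ≤ (j + ((if j = 0 then 0 else C * DD k * xk k p) + C * DD k * (p : ℝ) ^ (-(1 / (t : ℝ)))))
        * ∑ v ∈ range n, pr C k t n p v * (if j ≤ v then 1 else 0) := by
  rw [sum_pr_mul C k t n p j hj, sum_pr C k t n p j hj]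
  have hx := xk_pos k p (by omega)
  have hxl := xk_le_two k p hp
  have hx2 := xk_two_lt k hk
  have hr := root_pos t p (by omega : 1 ≤ p)
  have hD := DD_pos k hk
  have hW := Ww_pos C k t p j hC (by omega : 1 ≤ p)
  have hgeo : ∀ m : ℕ, ∑ v ∈ range m, xk k p ^ v ≤ DD k := fun m => geo_le _ hx.le _ hxl hx2 m
  have hC0 : (0 : ℝ) ≤ C := by linarith
  rcases Nat.eq_zero_or_pos j with rfl | hj0
  · have hW0 : Ww C k t p 0 = 1 := by unfold Ww; simp
    rw [hW0]
    have h1 : ∑ v ∈ Ico (0 + 1) n, Ww C k t p v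
        ≤ ∑ v ∈ Ico (0 + 1) n, C * (p : ℝ) ^ (-(1 / (t : ℝ))) * xk k p ^ (v - 1) := by
      apply sum_le_sum
      intro v hv
      rw [mem_Ico] at hv
      unfold Ww
      rw [if_neg (by omega)]
      exact min_le_right _ _
    have h2 : ∑ v ∈ Ico (0 + 1) n, C * (p : ℝ) ^ (-(1 / (t : ℝ))) * xk k p ^ (v - 1)
        = C * (p : ℝ) ^ (-(1 / (t : ℝ))) * ∑ v ∈ range (n - 1), xk k p ^ v := by
      rw [mul_sum, sum_Ico_eq_sum_range]
      apply sum_congr rfl
      intro v _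
      congr 2
      omega
    have h3 : C * (p : ℝ) ^ (-(1 / (t : ℝ))) * ∑ v ∈ range (n - 1), xk k p ^ v
        ≤ C * (p : ℝ) ^ (-(1 / (t : ℝ))) * DD k :=
      mul_le_mul_of_nonneg_left (hgeo _) (by positivity)
    simp only [if_true]
    push_cast
    nlinarith [h1, h2, h3]
  · have h1 : ∑ v ∈ Ico (j + 1) n, Ww C k t p v
        ≤ ∑ v ∈ Ico (j + 1) n, C * xk k p ^ (v - j) * Ww C k t p j := by
      apply sum_le_sum
      intro v hv
      rw [mem_Ico] at hv
      exact Ww_ratio C k t p j v hC hp hk hj0 (by omega)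
    have h2 : ∑ v ∈ Ico (j + 1) n, C * xk k p ^ (v - j) * Ww C k t p j
        = C * xk k p * Ww C k t p j * ∑ v ∈ range (n - (j + 1)), xk k p ^ v := by
      rw [mul_sum, sum_Ico_eq_sum_range]
      apply sum_congr rfl
      intro v _
      have : j + 1 + v - j = v + 1 := by omega
      rw [this, pow_succ]
      ring
    have h3 : C * xk k p * Ww C k t p j * ∑ v ∈ range (n - (j + 1)), xk k p ^ v
        ≤ C * xk k p * Ww C k t p j * DD k :=
      mul_le_mul_of_nonneg_left (hgeo _) (by positivity)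
    rw [if_neg (by omega)]
    have h4 : 0 ≤ C * DD k * (p : ℝ) ^ (-(1 / (t : ℝ))) * Ww C k t p j := by positivity
    nlinarith [h1, h2, h3, h4]


/-! ### local bounds -/

theorem norm_ee (x : ℝ) : ‖ee x‖ = 1 := by
  unfold ee
  exact Complex.norm_exp_ofReal_mul_I _

theorem Gs_le_one (g : ℤ[X]) (a : ℤ) (q : ℕ) (hq : 1 ≤ q) : ‖Gs g a q‖ ≤ 1 := by
  unfold Gs
  rw [norm_div, Complex.norm_natCast]
  have hq0 : (0 : ℝ) < q := by exact_mod_cast hq
  rw [div_le_one hq0]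
  refine (norm_sum_le _ _).trans ?_
  simp [norm_ee]

theorem root_pow (t p : ℕ) (ht : 1 ≤ t) : ((p : ℝ) ^ (-(1 / (t : ℝ)))) ^ t = 1 / (p : ℝ) := by
  have ht0 : (0 : ℝ) < t := by exact_mod_cast ht
  rw [← Real.rpow_natCast, ← Real.rpow_mul (Nat.cast_nonneg p)]
  have : -(1 / (t : ℝ)) * (t : ℝ) = -1 := by field_simp
  rw [this, Real.rpow_neg_one, one_div]

theorem xk_pow (k p : ℕ) (hk : 2 ≤ k) : xk k p ^ (2 * kap k) = 1 / (p : ℝ) := by
  have h := kap_pos k hk
  have h0 : (0 : ℝ) < kap k := by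
    have : 0 < kap k := by omega
    exact_mod_cast this
  unfold xk
  rw [← Real.rpow_natCast, ← Real.rpow_mul (Nat.cast_nonneg p)]
  have : -(1 / (2 * (kap k : ℝ))) * ((2 * kap k : ℕ) : ℝ) = -1 := by
    push_cast
    field_simp
  rw [this, Real.rpow_neg_one, one_div]

theorem xk_log (k p : ℕ) (hk : 2 ≤ k) (hp : 1 ≤ p) : xk k p * Real.log p ≤ 2 * kap k := by
  have h := kap_pos k hk
  have h0 : (0 : ℝ) < kap k := by
    have : 0 < kap k := by omega
    exact_mod_cast this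
  have hp0 : (0 : ℝ) < p := by exact_mod_cast hp
  have hu : 0 < 1 / (2 * (kap k : ℝ)) := by positivity
  have h1 := Real.log_le_rpow_div (x := (p : ℝ)) hp0.le hu
  have hx := xk_pos k p hp
  calc xk k p * Real.log p
      ≤ xk k p * ((p : ℝ) ^ (1 / (2 * (kap k : ℝ))) / (1 / (2 * (kap k : ℝ)))) :=
        mul_le_mul_of_nonneg_left h1 hx.le
    _ = ((p : ℝ) ^ (-(1 / (2 * (kap k : ℝ)))) * (p : ℝ) ^ (1 / (2 * (kap k : ℝ))))
        * (2 * kap k) := by
        unfold xk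
        rw [div_div_eq_mul_div, div_one]
        ring
    _ = 2 * kap k := by
        rw [← Real.rpow_add hp0, neg_add_cancel, Real.rpow_zero, one_mul]

theorem local_bound (k t : ℕ) (hk : 2 ≤ k) (ht : 2 ≤ t) (hP : PRM k t) (hL : LOC) (hL2 : LOC2) :
    ∃ C : ℝ, 1 ≤ C ∧ ∀ (g : ℤ[X]) (p : ℕ) (j : ℕ) (α : ℤ), g.natDegree ≤ k → p.Prime →
      (∃ i : ℕ, 1 ≤ i ∧ ¬ ((p : ℤ) ∣ g.coeff i)) → 1 ≤ j → ¬ ((p : ℤ) ∣ α) →
      ‖Gs g α (p ^ j)‖ ≤ Ww C k t p j := by
  obtain ⟨C1, hC1⟩ := hP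
  obtain ⟨C2, hC2⟩ := hL k hk
  obtain ⟨C3, hC3⟩ := hL2 k hk
  have b1 : (0 : ℝ) ≤ C1 := Nat.cast_nonneg _
  have b2 : (0 : ℝ) ≤ C2 := Nat.cast_nonneg _
  have b3 : (0 : ℝ) ≤ C3 := Nat.cast_nonneg _
  set C : ℝ := (C1 + 1) * ((C2 + 1) * (C3 + 1)) with hC
  have d1 : (1 : ℝ) ≤ (C1 : ℝ) + 1 := by linarith
  have d2 : (1 : ℝ) ≤ (C2 : ℝ) + 1 := by linarith
  have d3 : (1 : ℝ) ≤ (C3 : ℝ) + 1 := by linarith
  have d23 : (1 : ℝ) ≤ ((C2 : ℝ) + 1) * (C3 + 1) := by nlinarith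
  have hC1' : (C1 : ℝ) + 1 ≤ C := le_mul_of_one_le_right (by linarith) d23
  have hCge1 : 1 ≤ C := d1.trans hC1'
  have hC23 : ((C2 : ℝ) + 1) * (C3 + 1) ≤ C := le_mul_of_one_le_left (by linarith) d1
  have hC2' : (C2 : ℝ) + 1 ≤ C := (le_mul_of_one_le_right (by linarith) d3).trans hC23
  have hC3' : (C3 : ℝ) + 1 ≤ C := (le_mul_of_one_le_left (by linarith) d2).trans hC23
  refine ⟨C, hCge1, ?_⟩
  intro g p j α hg hp hnc hj hα
  have hp1 : 1 ≤ p := hp.one_lt.le
  have hp0 : (0 : ℝ) < p := by exact_mod_cast hp1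
  have hpr1 : (1 : ℝ) ≤ p := by exact_mod_cast hp1
  unfold Ww
  rw [if_neg (by omega)]
  apply le_min (Gs_le_one g α (p ^ j) (Nat.one_le_pow _ _ hp1))
  set R := (p : ℝ) ^ (-(1 / (t : ℝ))) with hR
  have hR0 : 0 < R := root_pos t p hp1
  have hR1 : R ≤ 1 := root_le_one t p hp1
  have hRt : R ^ t = 1 / (p : ℝ) := root_pow t p (by omega)
  have hx0 := xk_pos k p hp1
  set G := ‖Gs g α (p ^ j)‖ with hG
  have hG0 : 0 ≤ G := norm_nonneg _
  rcases Nat.lt_or_ge j 2 with hj2 | hj2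
  · have hj1 : j = 1 := by omega
    subst hj1
    have h1 := hC1 g p α hg hp hnc hα
    rw [pow_one] at hG
    rw [← hG] at h1
    simp only [Nat.sub_self, pow_zero, mul_one]
    have h2 : G ^ t ≤ (C * R) ^ t := by
      rw [mul_pow, hRt, mul_one_div, le_div_iff₀ hp0]
      refine h1.trans ?_
      calc (C1 : ℝ) ≤ C := by linarith
        _ = C ^ 1 := (pow_one C).symm
        _ ≤ C ^ t := pow_le_pow_right₀ hCge1 (by omega)
    exact (pow_le_pow_iff_left₀ hG0 (by positivity) (by omega)).1 h2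
  · have h1 := hC2 g p j α hg hp hnc (by omega) hα
    have h2 := hC3 g p j α hg hp hnc hj2 hα
    rw [← hG] at h1 h2
    set κ := kap k with hκ
    have hκ3 : 3 ≤ κ := kap_pos k hk
    have e1 : G ^ κ ≤ C2 / (p : ℝ) ^ j := by
      rw [le_div_iff₀ (by positivity)]; exact h1
    have e2 : G ≤ C3 / (p : ℝ) := by
      rw [le_div_iff₀ hp0]; exact h2
    have e3 : G ^ κ ≤ (C3 / (p : ℝ)) ^ κ := pow_le_pow_left₀ hG0 e2 κ
    have hR2 : 1 / (p : ℝ) ≤ R ^ 2 := by
      rw [← hRt]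
      exact pow_le_pow_of_le_one hR0.le hR1 ht
    have hxκ : xk k p ^ (2 * κ) = 1 / (p : ℝ) := xk_pow k p hk
    have hfin : G ^ (2 * κ) ≤ (C * R * xk k p ^ (j - 1)) ^ (2 * κ) := by
      have r1 : (C * R * xk k p ^ (j - 1)) ^ (2 * κ)
          = C ^ (2 * κ) * (R ^ 2) ^ κ * (xk k p ^ (2 * κ)) ^ (j - 1) := by
        rw [mul_pow, mul_pow, ← pow_mul R, ← pow_mul, ← pow_mul, mul_comm (j - 1)]
      rw [r1, hxκ]
      have r2 : G ^ (2 * κ) = G ^ κ * G ^ κ := by rw [two_mul, pow_add]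
      rw [r2]
      calc G ^ κ * G ^ κ ≤ (C3 / (p : ℝ)) ^ κ * (C2 / (p : ℝ) ^ j) :=
            mul_le_mul e3 e1 (by positivity) (by positivity)
        _ = (C3 : ℝ) ^ κ * C2 * (1 / (p : ℝ)) ^ κ * (1 / (p : ℝ)) ^ j := by
            rw [div_pow, one_div, inv_pow, inv_pow]
            field_simp
        _ ≤ C ^ κ * C ^ κ * (R ^ 2) ^ κ * (1 / (p : ℝ)) ^ (j - 1) := by
            have s1 : (C3 : ℝ) ^ κ ≤ C ^ κ := pow_le_pow_left₀ b3 (by linarith) κ
            have s2 : (C2 : ℝ) ≤ C ^ κ := by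
              calc (C2 : ℝ) ≤ C := by linarith
                _ = C ^ 1 := (pow_one C).symm
                _ ≤ C ^ κ := pow_le_pow_right₀ hCge1 (by omega)
            have s3 : (1 / (p : ℝ)) ^ κ ≤ (R ^ 2) ^ κ := pow_le_pow_left₀ (by positivity) hR2 κ
            have s4 : (1 / (p : ℝ)) ^ j ≤ (1 / (p : ℝ)) ^ (j - 1) := by
              apply pow_le_pow_of_le_one (by positivity) _ (by omega)
              rw [div_le_one hp0]; exact hpr1
            have hC0 : 0 ≤ C := by linarith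
            apply mul_le_mul _ s4 (by positivity) (by positivity)
            apply mul_le_mul _ s3 (by positivity) (by positivity)
            exact mul_le_mul s1 s2 b2 (by positivity)
        _ = C ^ (2 * κ) * (R ^ 2) ^ κ * (1 / (p : ℝ)) ^ (j - 1) := by
            rw [two_mul, pow_add]
    exact (pow_le_pow_iff_left₀ hG0 (by positivity) (by omega)).1 hfin

theorem exists_C5 (k : ℕ) (hk : 2 ≤ k) :
    ∃ C5 : ℝ, 1 ≤ C5 ∧ ∀ j : ℕ, 1 ≤ j → 4 * (j : ℝ) ^ 4 * xk k 2 ^ (j - 1) ≤ C5 := by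
  have hx0 := xk_pos k 2 (by norm_num)
  have hx1 := xk_two_lt k hk
  have ht := tendsto_pow_const_mul_const_pow_of_abs_lt_one 4
    (show |xk k 2| < 1 by rw [abs_of_pos hx0]; exact hx1)
  obtain ⟨M, hM⟩ := ht.bddAbove_range
  refine ⟨max 1 (4 * M / xk k 2), le_max_left _ _, ?_⟩
  intro j hj
  refine le_trans ?_ (le_max_right _ _)
  have h1 : (j : ℝ) ^ 4 * xk k 2 ^ j ≤ M := hM ⟨j, rfl⟩
  rw [le_div_iff₀ hx0]
  have h2 : xk k 2 ^ (j - 1) * xk k 2 = xk k 2 ^ j := by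
    rw [← pow_succ, Nat.sub_add_cancel hj]
  calc 4 * (j : ℝ) ^ 4 * xk k 2 ^ (j - 1) * xk k 2
      = 4 * ((j : ℝ) ^ 4 * (xk k 2 ^ (j - 1) * xk k 2)) := by ring
    _ = 4 * ((j : ℝ) ^ 4 * xk k 2 ^ j) := by rw [h2]
    _ ≤ 4 * M := by linarith

/-- large primes -/
theorem Ww_large (C C5 B : ℝ) (k t p j y : ℕ) (ht : 2 ≤ t) (hC : 1 ≤ C)
    (hC5 : ∀ j : ℕ, 1 ≤ j → 4 * (j : ℝ) ^ 4 * xk k 2 ^ (j - 1) ≤ C5) (hB : 0 < B)
    (hy : C * C5 * B ≤ y) (hy1 : 1 ≤ y) (hp : y ^ t < p) (hj : 1 ≤ j) :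
    Ww C k t p j ≤ lam j ^ 2 / B := by
  have hp1 : 1 ≤ p := by omega
  have hp2 : 2 ≤ p := by
    have : 1 ≤ y ^ t := Nat.one_le_pow _ _ hy1
    omega
  have hyr : (0 : ℝ) < y := by exact_mod_cast hy1
  have hjr : (0 : ℝ) < j := by exact_mod_cast hj
  have hw : Ww C k t p j ≤ C * (p : ℝ) ^ (-(1 / (t : ℝ))) * xk k p ^ (j - 1) := by
    unfold Ww
    rw [if_neg (by omega)]
    exact min_le_right _ _
  have hR : (p : ℝ) ^ (-(1 / (t : ℝ))) ≤ 1 / y := by
    have h1 : ((y : ℝ) ^ t) ≤ (p : ℝ) := by exact_mod_cast hp.le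
    have h2 : (p : ℝ) ^ (-(1 / (t : ℝ))) ≤ ((y : ℝ) ^ t) ^ (-(1 / (t : ℝ))) := by
      apply rpow_anti (by positivity) h1
      have : 0 ≤ 1 / (t : ℝ) := by positivity
      linarith
    refine h2.trans (le_of_eq ?_)
    have ht0 : (0 : ℝ) < t := by positivity
    rw [← Real.rpow_natCast, ← Real.rpow_mul hyr.le]
    have : (t : ℝ) * -(1 / (t : ℝ)) = -1 := by field_simp
    rw [this, Real.rpow_neg_one, one_div]
  have hx0 := xk_pos k p hp1
  have hxx : xk k p ^ (j - 1) ≤ xk k 2 ^ (j - 1) := pow_le_pow_left₀ hx0.le (xk_le_two k p hp2) _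
  have h5 := hC5 j hj
  have hx20 := xk_pos k 2 (by norm_num)
  have h6 : xk k 2 ^ (j - 1) ≤ C5 / (4 * (j : ℝ) ^ 4) := by
    rw [le_div_iff₀ (by positivity)]
    linarith
  have hlam : lam j ^ 2 = 1 / (4 * (j : ℝ) ^ 4) := by
    unfold lam
    rw [div_pow, one_pow, mul_pow]
    norm_num
    ring
  have hC0 : 0 ≤ C := by linarith
  calc Ww C k t p j ≤ C * (p : ℝ) ^ (-(1 / (t : ℝ))) * xk k p ^ (j - 1) := hw
    _ ≤ C * (1 / y) * (C5 / (4 * (j : ℝ) ^ 4)) := by
        apply mul_le_mul (mul_le_mul_of_nonneg_left hR hC0) (hxx.trans h6) (by positivity)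
          (by positivity)
    _ = (C * C5) / y * (1 / (4 * (j : ℝ) ^ 4)) := by ring
    _ ≤ (1 / B) * (1 / (4 * (j : ℝ) ^ 4)) := by
        apply mul_le_mul_of_nonneg_right _ (by positivity)
        rw [div_le_div_iff₀ hyr hB]
        linarith
    _ = lam j ^ 2 / B := by rw [hlam]; ring

/-! ### values of exponent vectors -/

/-- value of an exponent vector -/
def val {P : ℕ} (e : Idx P → ℕ) : ℕ := ∏ i : Idx P, (i : ℕ) ^ e i

theorem idx_prime {P : ℕ} (i : Idx P) : (i : ℕ).Prime := (mem_filter.1 i.2).2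

theorem val_pos {P : ℕ} (e : Idx P → ℕ) : 0 < val e :=
  prod_pos fun i _ => pow_pos (idx_prime i).pos _

theorem val_fact {P : ℕ} (e : Idx P → ℕ) (p : ℕ) :
    (val e).factorization p = ∑ i : Idx P, if (i : ℕ) = p then e i else 0 := by
  unfold val
  rw [Nat.factorization_prod (fun i _ => (pow_pos (idx_prime i).pos _).ne')]
  rw [Finsupp.finsetSum_apply]
  apply sum_congr rfl
  intro i _
  rw [Nat.Prime.factorization_pow (idx_prime i), Finsupp.single_apply]

theorem val_fact_mem {P : ℕ} (e : Idx P → ℕ) (i : Idx P) :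
    (val e).factorization (i : ℕ) = e i := by
  rw [val_fact]
  have : ∀ j : Idx P, (if (j : ℕ) = (i : ℕ) then e j else 0) = if j = i then e i else 0 := by
    intro j
    by_cases h : j = i
    · subst h; simp
    · have : (j : ℕ) ≠ (i : ℕ) := fun hh => h (Subtype.ext hh)
      simp [h, this]
  simp only [this]
  simp

theorem val_fact_not {P : ℕ} (e : Idx P → ℕ) (p : ℕ) (hp : P < p) :
    (val e).factorization p = 0 := by
  rw [val_fact]
  apply sum_eq_zero
  intro i _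
  rw [if_neg]
  intro h
  have := (mem_Icc.1 (mem_filter.1 i.2).1).2
  omega

theorem log_val {P : ℕ} (e : Idx P → ℕ) :
    Real.log (val e : ℝ) = ∑ i : Idx P, Real.log (i : ℕ) * (e i : ℝ) := by
  unfold val
  push_cast
  rw [Real.log_prod]
  · apply sum_congr rfl
    intro i _
    rw [Real.log_pow]
    ring
  · intro i _
    have : (0 : ℝ) < (i : ℕ) := by exact_mod_cast (idx_prime i).pos
    positivity

/-- the factor of a modulus -/
theorem F_eq {P : ℕ} (e : Idx P → ℕ) (q : ℕ) (B : ℝ)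
    (he : ∀ i : Idx P, q.factorization (i : ℕ) ≤ e i) :
    wq (val e) q / B ^ (bg (val e) q).card
      = ∏ p ∈ q.primeFactors.filter (fun p => P < p), (lam (q.factorization p) ^ 2 / B) := by
  have hbg : bg (val e) q = q.primeFactors.filter (fun p => P < p) := by
    unfold bg
    apply filter_congr
    intro p hp
    have hpp := Nat.prime_of_mem_primeFactors hp
    have hq0 : q ≠ 0 := by
      rintro rfl
      simp at hp
    have hv : 1 ≤ q.factorization p :=
      (hpp.dvd_iff_one_le_factorization hq0).1 (Nat.dvd_of_mem_primeFactors hp)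
    constructor
    · intro h
      by_contra hc
      push Not at hc
      have hmem : p ∈ (Icc 1 P).filter Nat.Prime :=
        mem_filter.2 ⟨mem_Icc.2 ⟨hpp.one_lt.le, hc⟩, hpp⟩
      have h1 := he ⟨p, hmem⟩
      have h2 := val_fact_mem e ⟨p, hmem⟩
      simp only at h1 h2
      omega
    · intro h
      rw [val_fact_not e p h]
      omega
  unfold wq
  rw [hbg, ← prod_const, ← prod_div_distrib]
  apply prod_congr rfl
  intro p hp
  rw [val_fact_not e p (mem_filter.1 hp).2, Nat.sub_zero]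

theorem F_nonneg (m q : ℕ) (B : ℝ) (hB : 0 < B) : 0 ≤ wq m q / B ^ (bg m q).card := by
  unfold wq
  apply div_nonneg (prod_nonneg fun p _ => sq_nonneg _)
  positivity


/-! ### assembly -/

theorem sum_log_fact (P q : ℕ) (hq : 1 ≤ q) :
    ∑ i : Idx P, Real.log (i : ℕ) * (q.factorization (i : ℕ) : ℝ) ≤ Real.log q := by
  have h1 : ∑ i : Idx P, Real.log (i : ℕ) * (q.factorization (i : ℕ) : ℝ)
      = ∑ p ∈ (Icc 1 P).filter Nat.Prime, Real.log (p : ℕ) * (q.factorization p : ℝ) :=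
    Finset.sum_coe_sort ((Icc 1 P).filter Nat.Prime)
      (fun p => Real.log (p : ℕ) * (q.factorization p : ℝ))
  rw [h1]
  have hlog : Real.log q = ∑ p ∈ q.primeFactors, Real.log (p : ℕ) * (q.factorization p : ℝ) := by
    have h2 := Nat.prod_factorization_pow_eq_self (n := q) (by omega)
    have h3 : (q : ℝ) = ∏ p ∈ q.primeFactors, ((p : ℝ) ^ q.factorization p) := by
      have h4 : (q : ℝ) = ((q.factorization.prod (fun x1 x2 => x1 ^ x2) : ℕ) : ℝ) := by rw [h2]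
      rw [h4, Finsupp.prod, Nat.support_factorization]
      push_cast
      rfl
    rw [h3, Real.log_prod]
    · apply sum_congr rfl
      intro p _
      rw [Real.log_pow]
      ring
    · intro p hp
      have : (0 : ℝ) < p := by exact_mod_cast (Nat.prime_of_mem_primeFactors hp).pos
      positivity
  rw [hlog]
  have h5 : ∑ p ∈ (Icc 1 P).filter Nat.Prime, Real.log (p : ℕ) * (q.factorization p : ℝ)
      = ∑ p ∈ ((Icc 1 P).filter Nat.Prime).filter (fun p => p ∈ q.primeFactors),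
        Real.log (p : ℕ) * (q.factorization p : ℝ) := by
    symm
    apply sum_subset (filter_subset _ _)
    intro p hp hp2
    have : q.factorization p = 0 := by
      by_contra hne
      apply hp2
      rw [mem_filter]
      refine ⟨hp, ?_⟩
      rw [← Nat.support_factorization, Finsupp.mem_support_iff]
      exact hne
    rw [this]; simp
  rw [h5]
  apply sum_le_sum_of_subset_of_nonneg
  · intro p hp
    exact (mem_filter.1 hp).2
  · intro p hp _
    have : (1 : ℝ) ≤ p := by exact_mod_cast (Nat.prime_of_mem_primeFactors hp).one_lt.le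
    exact mul_nonneg (Real.log_nonneg this) (Nat.cast_nonneg _)

theorem tilt_sum (C : ℝ) (k t y q a L : ℕ) (hC : 1 ≤ C) (hk : 2 ≤ k) (ht : 2 ≤ t) (hy : 1 ≤ y)
    (hq1 : 1 ≤ q) (hq : q ≤ 2 ^ (a * L)) :
    ∑ i : Idx (y ^ t), Real.log (i : ℕ) * ((q.factorization (i : ℕ) : ℝ)
        + ((if q.factorization (i : ℕ) = 0 then 0 else C * DD k * xk k (i : ℕ))
          + C * DD k * ((i : ℕ) : ℝ) ^ (-(1 / (t : ℝ)))))
      ≤ (1 + 2 * kap k * C * DD k / Real.log 2) * (a * L * Real.log 2)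
        + C * DD k * (4 * t * (y : ℝ) ^ (t - 1)) := by
  have hD := DD_pos k hk
  have hlog2 : 0 < Real.log 2 := Real.log_pos (by norm_num)
  have hS1 := sum_log_fact (y ^ t) q hq1
  have hlogq : Real.log q ≤ a * L * Real.log 2 := by
    have h1 : (q : ℝ) ≤ (2 : ℝ) ^ (a * L) := by exact_mod_cast hq
    have h0 : (0 : ℝ) < q := by exact_mod_cast hq1
    have h2 := Real.log_le_log h0 h1
    rw [Real.log_pow] at h2
    push_cast at h2
    exact h2
  have hS3 : ∑ i : Idx (y ^ t), Real.log (i : ℕ) * (C * DD k * ((i : ℕ) : ℝ) ^ (-(1 / (t : ℝ))))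
      ≤ C * DD k * (4 * t * (y : ℝ) ^ (t - 1)) := by
    have h1 : ∑ i : Idx (y ^ t),
        Real.log (i : ℕ) * (C * DD k * ((i : ℕ) : ℝ) ^ (-(1 / (t : ℝ))))
        = C * DD k * ∑ i : Idx (y ^ t),
          ((i : ℕ) : ℝ) ^ (-(1 / (t : ℝ))) * Real.log (i : ℕ) := by
      rw [mul_sum]
      apply sum_congr rfl
      intro i _
      ring
    have h2 : ∑ i : Idx (y ^ t), ((i : ℕ) : ℝ) ^ (-(1 / (t : ℝ))) * Real.log (i : ℕ)
        = ∑ p ∈ (Icc 1 (y ^ t)).filter Nat.Prime, (p : ℝ) ^ (-(1 / (t : ℝ))) * Real.log p :=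
      Finset.sum_coe_sort ((Icc 1 (y ^ t)).filter Nat.Prime)
        (fun p : ℕ => (p : ℝ) ^ (-(1 / (t : ℝ))) * Real.log p)
    rw [h1, h2]
    exact mul_le_mul_of_nonneg_left (sum_prime_root t y ht hy) (by positivity)
  have hS2 : ∑ i : Idx (y ^ t), Real.log (i : ℕ) *
        (if q.factorization (i : ℕ) = 0 then 0 else C * DD k * xk k (i : ℕ))
      ≤ (2 * kap k * C * DD k / Real.log 2) *
        ∑ i : Idx (y ^ t), Real.log (i : ℕ) * (q.factorization (i : ℕ) : ℝ) := by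
    rw [mul_sum]
    apply sum_le_sum
    intro i _
    have hip := idx_prime i
    have hi1 : (1 : ℝ) ≤ (i : ℕ) := by exact_mod_cast hip.one_lt.le
    have hi2 : (2 : ℝ) ≤ (i : ℕ) := by exact_mod_cast hip.two_le
    have hlogi : Real.log 2 ≤ Real.log (i : ℕ) := Real.log_le_log (by norm_num) hi2
    split_ifs with h0
    · rw [h0]; simp
    · have hv : (1 : ℝ) ≤ (q.factorization (i : ℕ) : ℝ) := by
        exact_mod_cast Nat.one_le_iff_ne_zero.2 h0
      have hx := xk_log k (i : ℕ) hk hip.one_lt.le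
      have hge : Real.log 2 ≤ Real.log (i : ℕ) * (q.factorization (i : ℕ) : ℝ) := by
        nlinarith
      have hCD : 0 ≤ C * DD k := by positivity
      calc Real.log (i : ℕ) * (C * DD k * xk k (i : ℕ))
          = C * DD k * (xk k (i : ℕ) * Real.log (i : ℕ)) := by ring
        _ ≤ C * DD k * (2 * kap k) := mul_le_mul_of_nonneg_left hx hCD
        _ = (2 * kap k * C * DD k / Real.log 2) * Real.log 2 := by field_simp
        _ ≤ (2 * kap k * C * DD k / Real.log 2) *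
            (Real.log (i : ℕ) * (q.factorization (i : ℕ) : ℝ)) :=
            mul_le_mul_of_nonneg_left hge (by positivity)
  have hcoef : 0 ≤ 2 * kap k * C * DD k / Real.log 2 := by positivity
  have hsplit : ∑ i : Idx (y ^ t), Real.log (i : ℕ) * ((q.factorization (i : ℕ) : ℝ)
        + ((if q.factorization (i : ℕ) = 0 then 0 else C * DD k * xk k (i : ℕ))
          + C * DD k * ((i : ℕ) : ℝ) ^ (-(1 / (t : ℝ)))))
      = ∑ i : Idx (y ^ t), Real.log (i : ℕ) * (q.factorization (i : ℕ) : ℝ)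
        + (∑ i : Idx (y ^ t), Real.log (i : ℕ) *
            (if q.factorization (i : ℕ) = 0 then 0 else C * DD k * xk k (i : ℕ))
          + ∑ i : Idx (y ^ t),
            Real.log (i : ℕ) * (C * DD k * ((i : ℕ) : ℝ) ^ (-(1 / (t : ℝ))))) := by
    rw [← sum_add_distrib, ← sum_add_distrib]
    apply sum_congr rfl
    intro i _
    ring
  rw [hsplit]
  set S := ∑ i : Idx (y ^ t), Real.log (i : ℕ) * (q.factorization (i : ℕ) : ℝ) with hS
  have h7 : S ≤ a * L * Real.log 2 := hS1.trans hlogq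
  have h8 := mul_le_mul_of_nonneg_left h7 hcoef
  nlinarith [hS2, hS3, h7, h8]

theorem Gs_le (C B : ℝ) (k t P q r : ℕ) (g : ℤ[X]) (hG : GPOW)
    (hloc : ∀ (g : ℤ[X]) (p : ℕ) (j : ℕ) (α : ℤ), g.natDegree ≤ k → p.Prime →
      (∃ i : ℕ, 1 ≤ i ∧ ¬ ((p : ℤ) ∣ g.coeff i)) → 1 ≤ j → ¬ ((p : ℤ) ∣ α) →
      ‖Gs g α (p ^ j)‖ ≤ Ww C k t p j)
    (hlarge : ∀ p j : ℕ, P < p → 1 ≤ j → Ww C k t p j ≤ lam j ^ 2 / B)
    (hq : 1 ≤ q) (hg : g.natDegree ≤ k) (hnc : NC g) (hr : Nat.Coprime r q) :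
    ‖Gs g r q‖ ≤ (∏ i : Idx P, Ww C k t (i : ℕ) (q.factorization (i : ℕ)))
      * ∏ p ∈ q.primeFactors.filter (fun p => P < p), (lam (q.factorization p) ^ 2 / B) := by
  obtain ⟨α, hα, hprod⟩ := hG g q (r : ℤ) hq (Nat.isCoprime_iff_coprime.2 hr)
  have hb : ∀ p ∈ q.primeFactors,
      ‖Gs g (α p) (p ^ q.factorization p)‖ ≤ Ww C k t p (q.factorization p) ∧
        1 ≤ q.factorization p := by
    intro p hp
    have hpp : p.Prime := Nat.prime_of_mem_primeFactors hp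
    have he : 1 ≤ q.factorization p :=
      (hpp.dvd_iff_one_le_factorization (by omega)).1 (Nat.dvd_of_mem_primeFactors hp)
    exact ⟨hloc g p _ (α p) hg hpp (hnc p hpp) he (hα p hp), he⟩
  have h1 : ‖Gs g r q‖ = ∏ p ∈ q.primeFactors, ‖Gs g (α p) (p ^ q.factorization p)‖ := by
    have : Gs g (r : ℤ) q = ∏ p ∈ q.primeFactors, Gs g (α p) (p ^ q.factorization p) := hprod
    rw [this, norm_prod]
  rw [h1, ← prod_filter_mul_prod_filter_not q.primeFactors (fun p => P < p), mul_comm]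
  have hWn : ∀ (p j : ℕ), p ∈ q.primeFactors → j = q.factorization p →
      0 ≤ Ww C k t p j := by
    intro p j hp hj
    subst hj
    exact (norm_nonneg _).trans (hb p hp).1
  have hA : ∏ i : Idx P, Ww C k t (i : ℕ) (q.factorization (i : ℕ))
      = ∏ p ∈ q.primeFactors.filter (fun p => ¬ P < p), Ww C k t p (q.factorization p) := by
    have e1 : ∏ i : Idx P, Ww C k t (i : ℕ) (q.factorization (i : ℕ))
        = ∏ p ∈ (Icc 1 P).filter Nat.Prime, Ww C k t p (q.factorization p) :=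
      Finset.prod_coe_sort ((Icc 1 P).filter Nat.Prime)
        (fun p => Ww C k t p (q.factorization p))
    rw [e1]
    symm
    apply prod_subset
    · intro p hp
      obtain ⟨hp1, hp2⟩ := mem_filter.1 hp
      have hpp := Nat.prime_of_mem_primeFactors hp1
      rw [mem_filter, mem_Icc]
      exact ⟨⟨hpp.one_lt.le, not_lt.1 hp2⟩, hpp⟩
    · intro p hp hp2
      have hle : p ≤ P := (mem_Icc.1 (mem_filter.1 hp).1).2
      have : q.factorization p = 0 := by
        by_contra hne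
        apply hp2
        rw [mem_filter]
        refine ⟨?_, not_lt.2 hle⟩
        rw [← Nat.support_factorization, Finsupp.mem_support_iff]
        exact hne
      rw [this]
      unfold Ww
      simp
  rw [hA]
  apply mul_le_mul
  · apply prod_le_prod (fun p _ => norm_nonneg _)
    intro p hp
    exact (hb p (mem_filter.1 hp).1).1
  · apply prod_le_prod (fun p _ => norm_nonneg _)
    intro p hp
    obtain ⟨hp1, hp2⟩ := mem_filter.1 hp
    exact (hb p hp1).1.trans (hlarge p _ hp2 (hb p hp1).2)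
  · exact prod_nonneg fun p _ => norm_nonneg _
  · apply prod_nonneg
    intro p hp
    exact hWn p _ (mem_filter.1 hp).1 rfl

theorem fact_lt (q p n : ℕ) (hq : 1 ≤ q) (hp : p.Prime) (h : q ≤ 2 ^ n) :
    q.factorization p < n + 1 := by
  have h1 : p ^ q.factorization p ≤ q := Nat.ordProj_le p (by omega)
  have h2 : 2 ^ q.factorization p ≤ p ^ q.factorization p := Nat.pow_le_pow_left hp.two_le _
  have h3 : 2 ^ q.factorization p ≤ 2 ^ n := h2.trans (h1.trans h)
  have h4 := (Nat.pow_le_pow_iff_right (by norm_num : 1 < 2)).1 h3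
  omega

/-- the measure -/
noncomputable def mu (C : ℝ) (k t n P m : ℕ) : ℝ :=
  ∑ e ∈ Fintype.piFinset (fun _ : Idx P => range n),
    if val e = m then ∏ i : Idx P, pr C k t n (i : ℕ) (e i) else 0

theorem mu_nonneg (C : ℝ) (k t n P m : ℕ) (hC : 1 ≤ C) (hk : 2 ≤ k) : 0 ≤ mu C k t n P m := by
  unfold mu
  apply sum_nonneg
  intro e _
  split_ifs
  · exact prod_nonneg fun i _ => pr_nonneg C k t n _ _ hC (idx_prime i).two_le hk
  · exact le_rfl

theorem sum_mu (C : ℝ) (k t n P M : ℕ) (F : ℕ → ℝ) :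
    ∑ m ∈ Icc 1 M, mu C k t n P m * F m
      = ∑ e ∈ (Fintype.piFinset (fun _ : Idx P => range n)).filter (fun e => val e ≤ M),
          (∏ i : Idx P, pr C k t n (i : ℕ) (e i)) * F (val e) := by
  unfold mu
  simp only [sum_mul]
  rw [sum_comm, sum_filter]
  apply sum_congr rfl
  intro e _
  have h1 : ∀ m, (if val e = m then ∏ i : Idx P, pr C k t n (i : ℕ) (e i) else 0) * F m
      = if val e = m then (∏ i : Idx P, pr C k t n (i : ℕ) (e i)) * F (val e) else 0 := by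
    intro m
    split_ifs with h
    · rw [h]
    · rw [zero_mul]
  simp only [h1]
  rw [sum_ite_eq]
  have h2 : (val e ∈ Icc 1 M) ↔ val e ≤ M := by
    rw [mem_Icc]
    have := val_pos e
    constructor
    · intro h; exact h.2
    · intro h; exact ⟨this, h⟩
  simp only [h2]

theorem sum_mu_le_one (C : ℝ) (k t n P M : ℕ) (hC : 1 ≤ C) (hk : 2 ≤ k) (hn : 0 < n) :
    ∑ m ∈ Icc 1 M, mu C k t n P m ≤ 1 := by
  have h1 := sum_mu C k t n P M (fun _ => 1)
  simp only [mul_one] at h1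
  rw [h1]
  have hpr : ∀ (i : Idx P) v, 0 ≤ pr C k t n (i : ℕ) v :=
    fun i v => pr_nonneg C k t n _ _ hC (idx_prime i).two_le hk
  calc ∑ e ∈ (Fintype.piFinset (fun _ : Idx P => range n)).filter (fun e => val e ≤ M),
          (∏ i : Idx P, pr C k t n (i : ℕ) (e i))
      ≤ ∑ e ∈ Fintype.piFinset (fun _ : Idx P => range n),
          (∏ i : Idx P, pr C k t n (i : ℕ) (e i)) := by
        apply sum_le_sum_of_subset_of_nonneg (filter_subset _ _)
        intro e _ _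
        exact prod_nonneg fun i _ => hpr i _
    _ = ∏ i : Idx P, ∑ v ∈ range n, pr C k t n (i : ℕ) v := by
        rw [prod_univ_sum]
    _ = 1 := by
        apply prod_eq_one
        intro i _
        have h2 := sum_pr C k t n (i : ℕ) 0 hn
        simp only [Nat.zero_le, if_true, mul_one] at h2
        rw [h2]
        unfold Ww
        simp

theorem core (C B Λ : ℝ) (k t a L y q r M : ℕ) (g : ℤ[X]) (hC : 1 ≤ C) (hk : 2 ≤ k)
    (ht : 2 ≤ t) (hy : 1 ≤ y) (hB : 0 < B) (hG : GPOW)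
    (hloc : ∀ (g : ℤ[X]) (p : ℕ) (j : ℕ) (α : ℤ), g.natDegree ≤ k → p.Prime →
      (∃ i : ℕ, 1 ≤ i ∧ ¬ ((p : ℤ) ∣ g.coeff i)) → 1 ≤ j → ¬ ((p : ℤ) ∣ α) →
      ‖Gs g α (p ^ j)‖ ≤ Ww C k t p j)
    (hlarge : ∀ p j : ℕ, y ^ t < p → 1 ≤ j → Ww C k t p j ≤ lam j ^ 2 / B)
    (hq1 : 1 ≤ q) (hq : q ≤ 2 ^ (a * L)) (hg : g.natDegree ≤ k) (hnc : NC g)
    (hr : Nat.Coprime r q) (hΛ : 0 < Λ) (hM : Real.exp Λ ≤ M)
    (hsum : (1 + 2 * kap k * C * DD k / Real.log 2) * (a * L * Real.log 2)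
        + C * DD k * (4 * t * (y : ℝ) ^ (t - 1)) ≤ Λ / 2) :
    ‖Gs g r q‖ ≤ 2 * ∑ m ∈ Icc 1 M,
      mu C k t (a * L + 1) (y ^ t) m * (wq m q / B ^ (bg m q).card) := by
  set n := a * L + 1 with hn
  set P := y ^ t with hP
  have hfl : ∀ i : Idx P, q.factorization (i : ℕ) < n := fun i => fact_lt q _ _ hq1 (idx_prime i) hq
  have hpr : ∀ (i : Idx P) v, 0 ≤ pr C k t n (i : ℕ) v :=
    fun i v => pr_nonneg C k t n _ _ hC (idx_prime i).two_le hk
  have h1 := Gs_le C B k t P q r g hG hloc hlarge hq1 hg hnc hr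
  set cq := ∏ p ∈ q.primeFactors.filter (fun p => P < p), (lam (q.factorization p) ^ 2 / B)
    with hcq
  have hcq0 : 0 ≤ cq := prod_nonneg fun p _ => div_nonneg (sq_nonneg _) hB.le
  have h2 := markov_prod n
    (fun (i : Idx P) v => pr C k t n (i : ℕ) v * (if q.factorization (i : ℕ) ≤ v then 1 else 0))
    (fun i v => mul_nonneg (hpr i v) (by split_ifs <;> norm_num))
    (fun i => Real.log (i : ℕ))
    (fun i => (q.factorization (i : ℕ) : ℝ)
        + ((if q.factorization (i : ℕ) = 0 then 0 else C * DD k * xk k (i : ℕ))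
          + C * DD k * ((i : ℕ) : ℝ) ^ (-(1 / (t : ℝ)))))
    (fun i => Real.log_nonneg (by exact_mod_cast (idx_prime i).one_lt.le))
    (fun i => cond_exp C k t n (i : ℕ) (q.factorization (i : ℕ)) hC (idx_prime i).two_le hk
      (hfl i))
    Λ hΛ ((tilt_sum C k t y q a L hC hk ht hy hq1 hq).trans hsum)
  have h3 : ∏ i : Idx P, ∑ v ∈ range n, pr C k t n (i : ℕ) v *
        (if q.factorization (i : ℕ) ≤ v then (1 : ℝ) else 0)
      = ∏ i : Idx P, Ww C k t (i : ℕ) (q.factorization (i : ℕ)) := by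
    apply prod_congr rfl
    intro i _
    exact sum_pr C k t n (i : ℕ) _ (hfl i)
  rw [h3] at h2
  rw [sum_mu]
  refine h1.trans ((mul_le_mul_of_nonneg_right h2 hcq0).trans ?_)
  rw [mul_assoc]
  apply mul_le_mul_of_nonneg_left _ (by norm_num)
  rw [sum_mul]
  have h4 : ∀ e : Idx P → ℕ, ∑ i : Idx P, Real.log (i : ℕ) * (e i : ℝ) ≤ Λ → val e ≤ M := by
    intro e he
    rw [← log_val] at he
    have hv : (0 : ℝ) < (val e : ℕ) := by exact_mod_cast val_pos e
    have h5 : ((val e : ℕ) : ℝ) ≤ Real.exp Λ := by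
      rw [← Real.exp_log hv]
      exact Real.exp_le_exp.2 he
    exact_mod_cast h5.trans hM
  calc ∑ e ∈ (Fintype.piFinset (fun _ : Idx P => range n)).filter
          (fun e => ∑ i : Idx P, Real.log (i : ℕ) * (e i : ℝ) ≤ Λ),
          (∏ i : Idx P, pr C k t n (i : ℕ) (e i) *
            (if q.factorization (i : ℕ) ≤ e i then (1 : ℝ) else 0)) * cq
      ≤ ∑ e ∈ (Fintype.piFinset (fun _ : Idx P => range n)).filter
          (fun e => ∑ i : Idx P, Real.log (i : ℕ) * (e i : ℝ) ≤ Λ),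
          (∏ i : Idx P, pr C k t n (i : ℕ) (e i)) * (wq (val e) q / B ^ (bg (val e) q).card) := by
        apply sum_le_sum
        intro e _
        rw [prod_mul_distrib]
        have hp0 : 0 ≤ ∏ i : Idx P, pr C k t n (i : ℕ) (e i) := prod_nonneg fun i _ => hpr i _
        by_cases hall : ∀ i : Idx P, q.factorization (i : ℕ) ≤ e i
        · have h6 : ∏ i : Idx P, (if q.factorization (i : ℕ) ≤ e i then (1 : ℝ) else 0) = 1 := by
            apply prod_eq_one
            intro i _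
            rw [if_pos (hall i)]
          rw [h6, mul_one, F_eq e q B hall]
        · push Not at hall
          obtain ⟨i, hi⟩ := hall
          have h6 : ∏ i : Idx P, (if q.factorization (i : ℕ) ≤ e i then (1 : ℝ) else 0) = 0 := by
            apply prod_eq_zero (mem_univ i)
            rw [if_neg (by omega)]
          rw [h6, mul_zero, zero_mul]
          exact mul_nonneg hp0 (F_nonneg _ _ _ hB)
    _ ≤ _ := by
        apply sum_le_sum_of_subset_of_nonneg
        · intro e he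
          rw [mem_filter] at he ⊢
          exact ⟨he.1, h4 e he.2⟩
        · intro e _ _
          exact mul_nonneg (prod_nonneg fun i _ => hpr i _) (F_nonneg _ _ _ hB)

end CoverPf

open CoverPf in
theorem cover : LOC → LOC2 → GPOW → COVER := by
  intro hL hL2 hG k t a hk ht hP
  obtain ⟨C, hC, hloc⟩ := local_bound k t hk ht hP hL hL2
  obtain ⟨C5, hC51, hC5⟩ := exists_C5 k hk
  have hD := DD_pos k hk
  have hlog2 : 0 < Real.log 2 := Real.log_pos (by norm_num)
  set Y0 : ℕ := ⌈C * C5 * (64 * 4096)⌉₊ with hY0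
  have hY0pos : 1 ≤ Y0 := Nat.ceil_pos.2 (by positivity)
  set C12 : ℝ := (1 + 2 * kap k * C * DD k / Real.log 2) * (a * Real.log 2)
    + C * DD k * (4 * t * (Y0 : ℝ) ^ (t - 1)) with hC12
  have hC120 : 0 ≤ C12 := by positivity
  refine ⟨⌈2 * C12 / Real.log 2⌉₊ + 1, ?_⟩
  intro L hL1
  set K := ⌈2 * C12 / Real.log 2⌉₊ + 1 with hK
  have hLr : (1 : ℝ) ≤ L := by exact_mod_cast hL1
  have hKr : 2 * C12 ≤ K * Real.log 2 := by
    have h1 : 2 * C12 / Real.log 2 ≤ ⌈2 * C12 / Real.log 2⌉₊ := Nat.le_ceil _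
    rw [div_le_iff₀ hlog2] at h1
    rw [hK]
    push_cast
    nlinarith
  refine ⟨mu C k t (a * L + 1) ((Y0 * L) ^ t), fun m => mu_nonneg C k t _ _ m hC hk,
    sum_mu_le_one C k t _ _ _ hC hk (by omega), ?_⟩
  intro q hq g r hg hnc hr
  rw [mem_Icc] at hq
  have hy1 : 1 ≤ Y0 * L := Nat.mul_pos hY0pos hL1
  have hB : (0 : ℝ) < 64 * (4096 * (L : ℝ)) := by positivity
  have hyB : C * C5 * (64 * (4096 * (L : ℝ))) ≤ ((Y0 * L : ℕ) : ℝ) := by
    have h1 : C * C5 * (64 * 4096) ≤ Y0 := Nat.le_ceil _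
    push_cast
    calc C * C5 * (64 * (4096 * (L : ℝ))) = C * C5 * (64 * 4096) * L := by ring
      _ ≤ Y0 * L := mul_le_mul_of_nonneg_right h1 (by positivity)
  have hLt : (L : ℝ) ≤ (L : ℝ) ^ (t - 1) := by
    calc (L : ℝ) = (L : ℝ) ^ 1 := (pow_one _).symm
      _ ≤ (L : ℝ) ^ (t - 1) := pow_le_pow_right₀ hLr (by omega)
  have hLt1 : (1 : ℝ) ≤ (L : ℝ) ^ (t - 1) := one_le_pow₀ hLr
  apply core C (64 * (4096 * (L : ℝ))) (K * (L : ℝ) ^ (t - 1) * Real.log 2) k t a L (Y0 * L) q r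
    (2 ^ (K * L ^ (t - 1))) g hC hk ht hy1 hB hG hloc
    (fun p j hp hj => Ww_large C C5 _ k t p j (Y0 * L) ht hC hC5 hB hyB hy1 hp hj)
    hq.1 hq.2 hg hnc hr
  · have : (0 : ℝ) < K := by rw [hK]; positivity
    positivity
  · rw [mul_comm, Real.exp_mul, Real.exp_log (by norm_num)]
    push_cast
    have : (2 : ℝ) ^ ((K : ℝ) * (L : ℝ) ^ (t - 1)) = (2 : ℝ) ^ (K * L ^ (t - 1)) := by
      have e1 : (K : ℝ) * (L : ℝ) ^ (t - 1) = ((K * L ^ (t - 1) : ℕ) : ℝ) := by push_cast; ring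
      rw [e1, Real.rpow_natCast]
    rw [this]
  · have h1 : (1 + 2 * kap k * C * DD k / Real.log 2) * (a * L * Real.log 2)
        ≤ (1 + 2 * kap k * C * DD k / Real.log 2) * (a * Real.log 2) * (L : ℝ) ^ (t - 1) := by
      calc (1 + 2 * kap k * C * DD k / Real.log 2) * (a * L * Real.log 2)
          = (1 + 2 * kap k * C * DD k / Real.log 2) * (a * Real.log 2) * L := by ring
        _ ≤ _ := mul_le_mul_of_nonneg_left hLt (by positivity)
    have h2 : C * DD k * (4 * t * ((Y0 * L : ℕ) : ℝ) ^ (t - 1))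
        = C * DD k * (4 * t * (Y0 : ℝ) ^ (t - 1)) * (L : ℝ) ^ (t - 1) := by
      push_cast
      rw [mul_pow]
      ring
    rw [h2]
    calc _ ≤ (1 + 2 * kap k * C * DD k / Real.log 2) * (a * Real.log 2) * (L : ℝ) ^ (t - 1)
          + C * DD k * (4 * t * (Y0 : ℝ) ^ (t - 1)) * (L : ℝ) ^ (t - 1) := by linarith
      _ = C12 * (L : ℝ) ^ (t - 1) := by rw [hC12]; ring
      _ ≤ (K * Real.log 2 / 2) * (L : ℝ) ^ (t - 1) :=
          mul_le_mul_of_nonneg_right (by linarith) (by positivity)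
      _ = K * (L : ℝ) ^ (t - 1) * Real.log 2 / 2 := by ring

end Vale.Agent.P042
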