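import Vale.Agent.P042.Core2

open Polynomial Finset

namespace Vale.Agent.P042

namespace KeyDAux

lemma card_cell_sum (A : Finset ℕ) (J l : ℕ) (hl : 1 ≤ l) (hA : A ⊆ Icc 1 (J * l)) :
    ∑ j ∈ range J, (cell A l j).card = A.card := by
  have h1 : ∀ n ∈ A, (n - 1) / l ∈ range J := by
    intro n hn
    have := Finset.mem_Icc.1 (hA hn)
    rw [Finset.mem_range, Nat.div_lt_iff_lt_mul (by omega)]
    omega
  rw [Finset.card_eq_sum_card_fiberwise h1]
  apply Finset.sum_congr rfl
  intro j _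
  congr 1
  unfold cell
  apply Finset.filter_congr
  intro n hn
  have h2 := Finset.mem_Icc.1 (hA hn)
  rw [Finset.mem_Ioc, Nat.div_eq_iff (by omega)]
  have h3 : (j + 1) * l = j * l + l := by ring
  rw [h3]
  constructor
  · rintro ⟨h4, h5⟩
    constructor <;> omega
  · rintro ⟨h4, h5⟩
    constructor <;> omega

lemma cell_card_le_sub (A : Finset ℕ) (l j : ℕ) :
    (cell A l j).card ≤ (sub (cell A l j) 1 (j * l) (l / 1 + 1) 0).card := by
  apply Finset.card_le_card_of_injOn (fun n => n - (j * l + 1))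
  · intro n hn
    have hn1 := Finset.mem_coe.1 hn
    have hn2 := (Finset.mem_filter.1 hn1).2
    rw [Finset.mem_Ioc] at hn2
    have h3 : (j + 1) * l = j * l + l := by ring
    rw [h3] at hn2
    unfold sub
    rw [Finset.mem_coe, Finset.mem_filter, Finset.mem_range, Nat.div_one]
    constructor
    · show n - (j * l + 1) < l + 1
      omega
    · have : j * l + 1 + 0 + 1 * (n - (j * l + 1)) = n := by omega
      show j * l + 1 + 0 + 1 * (n - (j * l + 1)) ∈ cell A l j
      rw [this]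
      exact hn1
  · intro n hn n' hn' h
    have hn2 := (Finset.mem_filter.1 (Finset.mem_coe.1 hn)).2
    have hn2' := (Finset.mem_filter.1 (Finset.mem_coe.1 hn')).2
    rw [Finset.mem_Ioc] at hn2 hn2'
    simp only at h
    omega

lemma card_bg_le (m q Q : ℕ) (hq : q ∈ Icc 1 Q) : (bg m q).card < Q + 1 := by
  have h1 := Finset.mem_Icc.1 hq
  have h2 : (bg m q).card ≤ q.primeFactors.card := Finset.card_le_card (Finset.filter_subset _ _)
  have h3 : q.primeFactors ⊆ Icc 1 q := by
    intro p hp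
    have := Nat.mem_primeFactors.1 hp
    exact Finset.mem_Icc.2 ⟨this.1.one_lt.le, Nat.le_of_dvd (by omega) this.2.1⟩
  have h4 := Finset.card_le_card h3
  rw [Nat.card_Icc] at h4
  omega

/-- distributing a double sum over the number of big primes -/
lemma split_d (m Q : ℕ) (F : ℕ → ℕ → ℝ) :
    ∑ q ∈ Icc 1 Q, ∑ r ∈ (range q).filter (fun r => Nat.Coprime r q), F q r
      = ∑ d ∈ range (Q + 1), ∑ q ∈ Icc 1 Q,
          ∑ r ∈ (range q).filter (fun r => Nat.Coprime r q ∧ (bg m q).card = d), F q r := by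
  rw [Finset.sum_comm]
  apply Finset.sum_congr rfl
  intro q hq
  have h1 : ∀ d, ∑ r ∈ (range q).filter (fun r => Nat.Coprime r q ∧ (bg m q).card = d), F q r
      = if (bg m q).card = d then
          ∑ r ∈ (range q).filter (fun r => Nat.Coprime r q), F q r else 0 := by
    intro d
    by_cases h : (bg m q).card = d
    · rw [if_pos h]
      apply Finset.sum_congr _ (fun _ _ => rfl)
      ext r
      simp [h]
    · rw [if_neg h]
      apply Finset.sum_eq_zero
      intro r hr
      exact absurd (Finset.mem_filter.1 hr).2.2 h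
  simp only [h1]
  rw [Finset.sum_ite_eq, if_pos (Finset.mem_range.2 (card_bg_le m q Q hq))]

lemma geom_bound (Q : ℕ) : ∑ d ∈ range Q, ((1 : ℝ) / 64) ^ (d + 1) ≤ 1 / 63 := by
  have h1 : ∑ d ∈ range Q, ((1 : ℝ) / 64) ^ (d + 1)
      = (1 / 64) * ∑ d ∈ range Q, ((1 : ℝ) / 64) ^ d := by
    rw [Finset.mul_sum]
    apply Finset.sum_congr rfl
    intro d _
    ring
  have h2 : ∑ d ∈ range Q, ((1 : ℝ) / 64) ^ d = (1 - (1 / 64) ^ Q) / (1 - 1 / 64) := by
    rw [geom_sum_eq (by norm_num)]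
    rw [← neg_div_neg_eq]
    congr 1 <;> ring
  rw [h1, h2]
  have h3 : (0 : ℝ) ≤ (1 / 64) ^ Q := by positivity
  rw [mul_div_assoc', div_le_iff₀ (by norm_num)]
  nlinarith

/-- the sum over all fractions, for one modulus and one cell -/
lemma one_cell (hen : ENERD) (hlev : LEVD) (m Q l j s : ℕ) (α : ℝ) (A : Finset ℕ)
    (hQ : 4 ≤ Q) (hs : 1 ≤ s) (hα : 0 < α) (hα1 : α ≤ 1) (hαs : 1 ≤ 2 * α * Real.exp (2 * s))
    (hm : 1 ≤ m) (hl : 1000 * m * Q ^ (10 * s) ≤ l)
    (hcell : ∀ c < m, ∀ D ∈ Icc 1 Q, ∀ X : ℕ,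
      (((sub (cell A l j) m (j * l) (l / m + 1) c).filter
          (fun n : ℕ => n ≡ X [MOD D])).card : ℝ)
        ≤ 17 / 16 * α * ((l / m + 1 : ℕ) : ℝ) / D) :
    ∑ q ∈ Icc 1 Q, ∑ r ∈ (range q).filter (fun r => Nat.Coprime r q),
        (wq m q / (64 * (4096 * (s : ℝ))) ^ (bg m q).card) *
          ‖∑ n ∈ cell A l j, ee ((n : ℝ) * ((r : ℝ) / q))‖ ^ 2
      ≤ 1.195 * α ^ 2 * (l : ℝ) ^ 2 := by
  set lm := l / m + 1 with hlm
  have hs' : (1 : ℝ) ≤ s := by exact_mod_cast hs
  have hmpos : 0 < m := hm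
  have hQpow : 1 ≤ Q ^ (10 * s) := Nat.one_le_pow _ _ (by omega)
  have hml : m * lm ≤ l + m := by
    rw [hlm, Nat.mul_add, mul_one]
    exact Nat.add_le_add_right (Nat.mul_div_le _ _) _
  have hlml : l ≤ m * lm := by
    rw [hlm]
    have := Nat.div_add_mod l m
    have h2 := Nat.mod_lt l hmpos
    nlinarith
  have hm1000 : 1000 * m ≤ l := by
    calc 1000 * m = 1000 * m * 1 := by ring
      _ ≤ 1000 * m * Q ^ (10 * s) := Nat.mul_le_mul_left _ hQpow
      _ ≤ l := hl
  have hQl : Q ^ (10 * s) ≤ lm := by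
    have h1 : m * Q ^ (10 * s) ≤ l := by
      calc m * Q ^ (10 * s) ≤ 1000 * m * Q ^ (10 * s) := by
            apply Nat.mul_le_mul_right
            omega
        _ ≤ l := hl
    have h2 : Q ^ (10 * s) ≤ l / m := by
      rw [Nat.le_div_iff_mul_le hmpos]
      linarith [mul_comm m (Q ^ (10 * s))]
    omega
  have hmlR : (m : ℝ) * lm ≤ 1.001 * l := by
    have h1 : ((m * lm : ℕ) : ℝ) ≤ ((l + m : ℕ) : ℝ) := by exact_mod_cast hml
    have h2 : ((1000 * m : ℕ) : ℝ) ≤ (l : ℝ) := by exact_mod_cast hm1000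
    push_cast at h1 h2
    linarith
  have hml2 : ((m : ℝ) * lm) ^ 2 ≤ (1.001 * l) ^ 2 := by
    apply pow_le_pow_left₀ (by positivity) hmlR
  rw [split_d m Q]
  -- bound for each d
  have hd : ∀ d, ∑ q ∈ Icc 1 Q,
      ∑ r ∈ (range q).filter (fun r => Nat.Coprime r q ∧ (bg m q).card = d),
        (wq m q / (64 * (4096 * (s : ℝ))) ^ (bg m q).card) *
          ‖∑ n ∈ cell A l j, ee ((n : ℝ) * ((r : ℝ) / q))‖ ^ 2
      ≤ (1 / (64 * (4096 * (s : ℝ))) ^ d) * ((m : ℝ) * ∑ c ∈ range m,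
          ∑ x ∈ univ.filter (fun x : (∀ i : Idx Q, ZMod (Mq Q i)) =>
              (spt (Mq Q) x).card = d ∧ md (Mq Q) x ≤ Q),
            wt (Mq Q) (prq Q) x *
              ‖∑ n ∈ sub (cell A l j) m (j * l) lm c,
                (starRingEnd ℂ) (chi (Mq Q) x (rv (Mq Q) n))‖ ^ 2) := by
    intro d
    have h1 := hen m Q lm (j * l) d (cell A l j) hm (by omega) (by
      intro n hn
      have hn2 := (Finset.mem_filter.1 hn).2
      rw [Finset.mem_Ioc] at hn2 ⊢
      have h3 : (j + 1) * l = j * l + l := by ring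
      rw [h3] at hn2
      omega)
    have h2 : ∑ q ∈ Icc 1 Q,
      ∑ r ∈ (range q).filter (fun r => Nat.Coprime r q ∧ (bg m q).card = d),
        (wq m q / (64 * (4096 * (s : ℝ))) ^ (bg m q).card) *
          ‖∑ n ∈ cell A l j, ee ((n : ℝ) * ((r : ℝ) / q))‖ ^ 2
      = (1 / (64 * (4096 * (s : ℝ))) ^ d) * ∑ q ∈ Icc 1 Q,
        ∑ r ∈ (range q).filter (fun r => Nat.Coprime r q ∧ (bg m q).card = d),
        wq m q * ‖∑ n ∈ cell A l j, ee ((n : ℝ) * ((r : ℝ) / q))‖ ^ 2 := by
      rw [Finset.mul_sum]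
      apply Finset.sum_congr rfl
      intro q _
      rw [Finset.mul_sum]
      apply Finset.sum_congr rfl
      intro r hr
      have := (Finset.mem_filter.1 hr).2.2
      rw [this]
      ring
    rw [h2]
    apply mul_le_mul_of_nonneg_left h1 (by positivity)
  rw [Finset.sum_range_succ']
  -- d = 0
  have hd0 : ∑ q ∈ Icc 1 Q,
      ∑ r ∈ (range q).filter (fun r => Nat.Coprime r q ∧ (bg m q).card = 0),
        (wq m q / (64 * (4096 * (s : ℝ))) ^ (bg m q).card) *
          ‖∑ n ∈ cell A l j, ee ((n : ℝ) * ((r : ℝ) / q))‖ ^ 2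
      ≤ 1.1312 * α ^ 2 * (l : ℝ) ^ 2 := by
    refine (hd 0).trans ?_
    have h1 : (univ.filter (fun x : (∀ i : Idx Q, ZMod (Mq Q i)) =>
              (spt (Mq Q) x).card = 0 ∧ md (Mq Q) x ≤ Q)) ⊆ {0} := by
      intro x hx
      have hx2 := (Finset.mem_filter.1 hx).2.1
      rw [Finset.card_eq_zero] at hx2
      rw [Finset.mem_singleton]
      funext i
      by_contra hne
      have : i ∈ spt (Mq Q) x := Finset.mem_filter.2 ⟨Finset.mem_univ _, hne⟩
      rw [hx2] at this
      exact absurd this (Finset.notMem_empty _)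
    have hterm : ∀ c ∈ range m, ∑ x ∈ univ.filter (fun x : (∀ i : Idx Q, ZMod (Mq Q i)) =>
              (spt (Mq Q) x).card = 0 ∧ md (Mq Q) x ≤ Q),
            wt (Mq Q) (prq Q) x *
              ‖∑ n ∈ sub (cell A l j) m (j * l) lm c,
                (starRingEnd ℂ) (chi (Mq Q) x (rv (Mq Q) n))‖ ^ 2
          ≤ (17 / 16 * α * lm) ^ 2 := by
      intro c hc
      have h3 : ∑ x ∈ univ.filter (fun x : (∀ i : Idx Q, ZMod (Mq Q i)) =>
              (spt (Mq Q) x).card = 0 ∧ md (Mq Q) x ≤ Q),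
            wt (Mq Q) (prq Q) x *
              ‖∑ n ∈ sub (cell A l j) m (j * l) lm c,
                (starRingEnd ℂ) (chi (Mq Q) x (rv (Mq Q) n))‖ ^ 2
          ≤ ∑ x ∈ ({0} : Finset (∀ i : Idx Q, ZMod (Mq Q i))),
            wt (Mq Q) (prq Q) x *
              ‖∑ n ∈ sub (cell A l j) m (j * l) lm c,
                (starRingEnd ℂ) (chi (Mq Q) x (rv (Mq Q) n))‖ ^ 2 := by
        apply Finset.sum_le_sum_of_subset_of_nonneg h1
        intro x _ _
        apply mul_nonneg _ (by positivity)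
        unfold wt
        apply Finset.prod_nonneg
        intro i _
        positivity
      refine h3.trans ?_
      rw [Finset.sum_singleton]
      have h4 : spt (Mq Q) 0 = ∅ := by
        unfold spt
        simp
      have h5 : wt (Mq Q) (prq Q) 0 = 1 := by
        unfold wt
        rw [h4]
        simp
      have h6 : ∀ n : ℕ, (starRingEnd ℂ) (chi (Mq Q) 0 (rv (Mq Q) n)) = 1 := by
        intro n
        unfold chi
        simp
      simp only [h5, h6, one_mul]
      rw [Finset.sum_const, nsmul_eq_mul, mul_one, Complex.norm_natCast]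
      apply pow_le_pow_left₀ (by positivity)
      have h7 := hcell c (Finset.mem_range.1 hc) 1 (Finset.mem_Icc.2 ⟨le_refl _, by omega⟩) 0
      have h8 : (sub (cell A l j) m (j * l) lm c).filter (fun n : ℕ => n ≡ 0 [MOD 1])
          = sub (cell A l j) m (j * l) lm c := by
        apply Finset.filter_true_of_mem
        intro n _
        exact Nat.modEq_one
      rw [h8] at h7
      simpa using h7
    have h9 : (m : ℝ) * ∑ c ∈ range m, ∑ x ∈ univ.filter (fun x : (∀ i : Idx Q, ZMod (Mq Q i)) =>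
              (spt (Mq Q) x).card = 0 ∧ md (Mq Q) x ≤ Q),
            wt (Mq Q) (prq Q) x *
              ‖∑ n ∈ sub (cell A l j) m (j * l) lm c,
                (starRingEnd ℂ) (chi (Mq Q) x (rv (Mq Q) n))‖ ^ 2
          ≤ (m : ℝ) * (m * (17 / 16 * α * lm) ^ 2) := by
      apply mul_le_mul_of_nonneg_left _ (by positivity)
      refine (Finset.sum_le_sum hterm).trans ?_
      rw [Finset.sum_const, Finset.card_range, nsmul_eq_mul]
    rw [pow_zero, div_one, one_mul]
    refine h9.trans ?_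
    have h10 : (m : ℝ) * (m * (17 / 16 * α * lm) ^ 2) = (17 / 16) ^ 2 * α ^ 2 * ((m : ℝ) * lm) ^ 2 := by
      ring
    rw [h10]
    have h11 : (17 / 16 : ℝ) ^ 2 * α ^ 2 * ((m : ℝ) * lm) ^ 2
        ≤ (17 / 16 : ℝ) ^ 2 * α ^ 2 * (1.001 * l) ^ 2 :=
      mul_le_mul_of_nonneg_left hml2 (by positivity)
    refine h11.trans ?_
    have h12 : (0 : ℝ) ≤ α ^ 2 * (l : ℝ) ^ 2 := by positivity
    nlinarith
  -- d >= 1
  have hd1 : ∀ d ∈ range Q, ∑ q ∈ Icc 1 Q,
      ∑ r ∈ (range q).filter (fun r => Nat.Coprime r q ∧ (bg m q).card = d + 1),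
        (wq m q / (64 * (4096 * (s : ℝ))) ^ (bg m q).card) *
          ‖∑ n ∈ cell A l j, ee ((n : ℝ) * ((r : ℝ) / q))‖ ^ 2
      ≤ (4 * α ^ 2 * (1.001 * l) ^ 2) * (1 / 64) ^ (d + 1) := by
    intro d _
    refine (hd (d + 1)).trans ?_
    have hlmpos : (0 : ℝ) < lm := by
      have : 0 < lm := by omega
      exact_mod_cast this
    have hterm : ∀ c ∈ range m, ∑ x ∈ univ.filter (fun x : (∀ i : Idx Q, ZMod (Mq Q i)) =>
              (spt (Mq Q) x).card = d + 1 ∧ md (Mq Q) x ≤ Q),
            wt (Mq Q) (prq Q) x *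
              ‖∑ n ∈ sub (cell A l j) m (j * l) lm c,
                (starRingEnd ℂ) (chi (Mq Q) x (rv (Mq Q) n))‖ ^ 2
          ≤ (lm : ℝ) ^ 2 * (4 * α ^ 2 * (4096 * (s : ℝ)) ^ (d + 1)) := by
      intro c hc
      have h1 := hlev (Idx Q) (Mq Q) (prq Q) (fun i => Nat.log i Q)
        (fun i => (Finset.mem_filter.1 i.2).2) (fun i i' h => Subtype.ext h) (fun i => rfl)
        Q lm s α (sub (cell A l j) m (j * l) lm c) hQ hs hα hα1 hαs
        (Finset.filter_subset _ _) hQl (by
          intro D X hD hDQ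
          refine (hcell c (Finset.mem_range.1 hc) D (Finset.mem_Icc.2 ⟨hD, hDQ⟩) X).trans ?_
          have hD' : (0 : ℝ) < D := by exact_mod_cast hD
          apply div_le_div_of_nonneg_right _ hD'.le
          have : (0 : ℝ) ≤ α * lm := by positivity
          nlinarith) (d + 1)
      have h2 : ∑ x ∈ univ.filter (fun x : (∀ i : Idx Q, ZMod (Mq Q i)) =>
              (spt (Mq Q) x).card = d + 1 ∧ md (Mq Q) x ≤ Q),
            wt (Mq Q) (prq Q) x *
              ‖∑ n ∈ sub (cell A l j) m (j * l) lm c,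
                (starRingEnd ℂ) (chi (Mq Q) x (rv (Mq Q) n))‖ ^ 2
          = (lm : ℝ) ^ 2 * ∑ x ∈ univ.filter (fun x : (∀ i : Idx Q, ZMod (Mq Q i)) =>
              (spt (Mq Q) x).card = d + 1 ∧ md (Mq Q) x ≤ Q),
            wt (Mq Q) (prq Q) x *
              ‖(∑ n ∈ sub (cell A l j) m (j * l) lm c,
                (starRingEnd ℂ) (chi (Mq Q) x (rv (Mq Q) n))) / (lm : ℂ)‖ ^ 2 := by
        rw [Finset.mul_sum]
        apply Finset.sum_congr rfl
        intro x _
        rw [norm_div, Complex.norm_natCast, div_pow]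
        field_simp
      rw [h2]
      apply mul_le_mul_of_nonneg_left h1 (by positivity)
    have h9 : (m : ℝ) * ∑ c ∈ range m, ∑ x ∈ univ.filter (fun x : (∀ i : Idx Q, ZMod (Mq Q i)) =>
              (spt (Mq Q) x).card = d + 1 ∧ md (Mq Q) x ≤ Q),
            wt (Mq Q) (prq Q) x *
              ‖∑ n ∈ sub (cell A l j) m (j * l) lm c,
                (starRingEnd ℂ) (chi (Mq Q) x (rv (Mq Q) n))‖ ^ 2
          ≤ (m : ℝ) * (m * ((lm : ℝ) ^ 2 * (4 * α ^ 2 * (4096 * (s : ℝ)) ^ (d + 1)))) := by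
      apply mul_le_mul_of_nonneg_left _ (by positivity)
      refine (Finset.sum_le_sum hterm).trans ?_
      rw [Finset.sum_const, Finset.card_range, nsmul_eq_mul]
    refine (mul_le_mul_of_nonneg_left h9 (by positivity)).trans ?_
    have h10 : (1 / (64 * (4096 * (s : ℝ))) ^ (d + 1)) *
        ((m : ℝ) * (m * ((lm : ℝ) ^ 2 * (4 * α ^ 2 * (4096 * (s : ℝ)) ^ (d + 1)))))
        = 4 * α ^ 2 * ((m : ℝ) * lm) ^ 2 * (1 / 64) ^ (d + 1) := by
      have h11 : (4096 * (s : ℝ)) ^ (d + 1) ≠ 0 := by positivity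
      rw [mul_pow 64, one_div_pow]
      field_simp
    rw [h10]
    apply mul_le_mul_of_nonneg_right _ (by positivity)
    apply mul_le_mul_of_nonneg_left hml2 (by positivity)
  have hsum := Finset.sum_le_sum hd1
  rw [← Finset.mul_sum] at hsum
  have hg := geom_bound Q
  have h13 : (4 * α ^ 2 * (1.001 * (l : ℝ)) ^ 2) * ∑ d ∈ range Q, ((1 : ℝ) / 64) ^ (d + 1)
      ≤ (4 * α ^ 2 * (1.001 * (l : ℝ)) ^ 2) * (1 / 63) :=
    mul_le_mul_of_nonneg_left hg (by positivity)
  have h12 : (0 : ℝ) ≤ α ^ 2 * (l : ℝ) ^ 2 := by positivity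
  have h14 : (4 * α ^ 2 * (1.001 * (l : ℝ)) ^ 2) * (1 / 63) ≤ 0.0638 * (α ^ 2 * (l : ℝ) ^ 2) := by
    nlinarith
  nlinarith [hsum, h13, hd0]

end KeyDAux

open KeyDAux

theorem keyd : CELL2 → CELL3 → ENERD → LEVD → KEYD := by
  intro h2 h3 hen hlev Q J l s₀ K₀ s mm α A Gc μ hQ hs hα hα1 hαs hJ hK₀ hQK hmm hl hμ hμ1
    hG1 hG0 hG hA hAc hcell
  have hs' : (1 : ℝ) ≤ s := by exact_mod_cast hs
  have hQpow : 1 ≤ Q ^ (10 * s) := Nat.one_le_pow _ _ (by omega)
  have hmmpos : 0 < mm := hmm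
  have hl1000 : 1000 ≤ l := by
    calc 1000 = 1000 * 1 * 1 := by ring
      _ ≤ 1000 * mm * Q ^ (10 * s) :=
        Nat.mul_le_mul (Nat.mul_le_mul_left _ hmm) hQpow
      _ ≤ l := hl
  have hl1 : 1 ≤ l := by omega
  have hlR : (1000 : ℝ) ≤ l := by exact_mod_cast hl1000
  have hlpos : (0 : ℝ) < l := by linarith
  have hK₀R : (256 : ℝ) ≤ K₀ := by exact_mod_cast hK₀
  have hK₀pos : (0 : ℝ) < K₀ := by linarith
  have hQR : (4 : ℝ) ≤ Q := by exact_mod_cast hQ
  have hJR : (256 : ℝ) * (s₀ + K₀) ≤ J := by exact_mod_cast hJ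
  have hJpos : (0 : ℝ) < J := by
    have : (0 : ℝ) ≤ s₀ := by positivity
    nlinarith
  have hAcR : (A.card : ℝ) = α * (J * l) := by
    rw [hAc]
    push_cast
    ring
  -- sizes of the cells
  have hcellsize : ∀ j < J, ((cell A l j).card : ℝ) ≤ (1.0636 * α) * l := by
    intro j hj
    have h4 := hcell j hj 1 (Finset.mem_Icc.2 ⟨le_refl _, hmm⟩) 0 (by omega) 1
      (Finset.mem_Icc.2 ⟨le_refl _, by omega⟩) 0
    have h5 : (sub (cell A l j) 1 (j * l) (l / 1 + 1) 0).filter (fun n : ℕ => n ≡ 0 [MOD 1])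
        = sub (cell A l j) 1 (j * l) (l / 1 + 1) 0 := by
      apply Finset.filter_true_of_mem
      intro n _
      exact Nat.modEq_one
    rw [h5] at h4
    have h6 : ((cell A l j).card : ℝ) ≤ ((sub (cell A l j) 1 (j * l) (l / 1 + 1) 0).card : ℝ) := by
      exact_mod_cast cell_card_le_sub A l j
    refine h6.trans (h4.trans ?_)
    rw [Nat.div_one]
    push_cast
    rw [div_one]
    nlinarith
  -- zero frequency
  have hzero : 0.987 * α ^ 2 * (J * l) ≤ ‖RR A l s₀ K₀ 0‖ := by
    have h4 := h3 A J l s₀ K₀ α (1.0636 * α) hl1 (by omega) hA hα.le (by nlinarith) hAcR hcellsize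
    have h5 : RR A l s₀ K₀ 0 = (((∑ x ∈ A, ∑ y ∈ A,
        (if x + s₀ * l < y ∧ y ≤ x + s₀ * l + K₀ * l then (1 : ℝ) else 0)) / ((K₀ * l : ℕ) : ℝ) : ℝ)
          : ℂ) := by
      unfold RR
      push_cast
      congr 1
      apply Finset.sum_congr rfl
      intro x _
      apply Finset.sum_congr rfl
      intro y _
      split_ifs
      · unfold ee
        simp
      · rfl
    rw [h5, Complex.norm_real, Real.norm_eq_abs]
    refine le_trans ?_ (le_abs_self _)
    rw [le_div_iff₀ (by push_cast; positivity)]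
    refine le_trans ?_ h4
    push_cast
    have h6 : ((s₀ : ℝ) + K₀) * (1.0636 * α) ^ 2 ≤ (J / 256) * (1.0636 * α) ^ 2 := by
      apply mul_le_mul_of_nonneg_right _ (by positivity)
      linarith
    have h7 : 0.9915 * (J * α ^ 2) ≤
        (J : ℝ) * (1.0636 * α) * (2 * α - 1.0636 * α) - (s₀ + K₀) * (1.0636 * α) ^ 2 := by
      have : (0 : ℝ) ≤ J * α ^ 2 := by positivity
      nlinarith
    have h8 : (0.996 : ℝ) * K₀ ≤ K₀ - 1 := by linarith
    have h9 : (l : ℝ) ^ 2 * (0.996 * K₀) * (0.9915 * (J * α ^ 2)) ≤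
        (l : ℝ) ^ 2 * (K₀ - 1) *
          ((J : ℝ) * (1.0636 * α) * (2 * α - 1.0636 * α) - (s₀ + K₀) * (1.0636 * α) ^ 2) := by
      apply mul_le_mul _ h7 (by positivity)
      · apply mul_nonneg (by positivity)
        linarith
      · apply mul_le_mul_of_nonneg_left h8 (by positivity)
    refine le_trans ?_ h9
    have : (0 : ℝ) ≤ α ^ 2 * (J * l) * (K₀ * l) := by positivity
    nlinarith
  -- splitting off the zero frequency
  have hIcc : Icc 1 Q = insert 1 (Icc 2 Q) := by
    ext q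
    simp only [Finset.mem_Icc, Finset.mem_insert]
    omega
  have h1not : (1 : ℕ) ∉ Icc 2 Q := by
    simp
  have hf1 : (range 1).filter (fun r => Nat.Coprime r 1) = {0} := by
    ext r
    simp
  have hsplitC : ∑ q ∈ Icc 1 Q, ∑ r ∈ (range q).filter (fun r => Nat.Coprime r q),
          Gc q r * RR A l s₀ K₀ ((r : ℝ) / q)
      = RR A l s₀ K₀ 0 + ∑ q ∈ Icc 2 Q, ∑ r ∈ (range q).filter (fun r => Nat.Coprime r q),
          Gc q r * RR A l s₀ K₀ ((r : ℝ) / q) := by
    rw [hIcc, Finset.sum_insert h1not, hf1, Finset.sum_singleton, hG0]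
    simp
  rw [hsplitC]
  have hrest : ‖∑ q ∈ Icc 2 Q, ∑ r ∈ (range q).filter (fun r => Nat.Coprime r q),
          Gc q r * RR A l s₀ K₀ ((r : ℝ) / q)‖
      ≤ (0.39 + 1 / 64) * α ^ 2 * (J * l) := by
    have hN : ‖∑ q ∈ Icc 2 Q, ∑ r ∈ (range q).filter (fun r => Nat.Coprime r q),
          Gc q r * RR A l s₀ K₀ ((r : ℝ) / q)‖
        ≤ ∑ q ∈ Icc 2 Q, ∑ r ∈ (range q).filter (fun r => Nat.Coprime r q),
          (‖Gc q r‖ * ((∑ j ∈ range J, ‖∑ n ∈ cell A l j, ee ((n : ℝ) * ((r : ℝ) / q))‖ ^ 2) / l)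
            + 2 * A.card / K₀) := by
      refine (norm_sum_le _ _).trans (Finset.sum_le_sum fun q hq => ?_)
      refine (norm_sum_le _ _).trans (Finset.sum_le_sum fun r hr => ?_)
      have hq1 : q ∈ Icc 1 Q := by
        have := Finset.mem_Icc.1 hq
        exact Finset.mem_Icc.2 ⟨by omega, this.2⟩
      rw [norm_mul]
      have h4 := h2 A J l s₀ K₀ ((r : ℝ) / q) hl1 (by omega) hA
      have h5 := hG1 q hq1 r hr
      have h6 := mul_le_mul_of_nonneg_left h4 (norm_nonneg (Gc q r))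
      refine h6.trans ?_
      rw [mul_add]
      apply add_le_add (le_refl _)
      exact mul_le_of_le_one_left (by positivity) h5
    refine hN.trans ?_
    simp only [Finset.sum_add_distrib]
    -- the error term
    have herr : ∑ q ∈ Icc 2 Q, ∑ r ∈ (range q).filter (fun r => Nat.Coprime r q),
        (2 * (A.card : ℝ) / K₀) ≤ 1 / 64 * α ^ 2 * (J * l) := by
      have h4 : ∀ q ∈ Icc 2 Q, ∑ r ∈ (range q).filter (fun r => Nat.Coprime r q),
          (2 * (A.card : ℝ) / K₀) ≤ (Q : ℝ) * (2 * (A.card : ℝ) / K₀) := by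
        intro q hq
        rw [Finset.sum_const, nsmul_eq_mul]
        apply mul_le_mul_of_nonneg_right _ (by positivity)
        have h5 : ((range q).filter (fun r => Nat.Coprime r q)).card ≤ q := by
          refine (Finset.card_filter_le _ _).trans ?_
          rw [Finset.card_range]
        have h6 := (Finset.mem_Icc.1 hq).2
        exact_mod_cast h5.trans h6
      refine (Finset.sum_le_sum h4).trans ?_
      rw [Finset.sum_const, nsmul_eq_mul, Nat.card_Icc]
      have h5 : ((Q + 1 - 2 : ℕ) : ℝ) ≤ Q := by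
        exact_mod_cast (by omega : Q + 1 - 2 ≤ Q)
      refine (mul_le_mul_of_nonneg_right h5 (by positivity)).trans ?_
      rw [hAcR]
      have h6 : (Q : ℝ) * ((Q : ℝ) * (2 * (α * (J * l)) / K₀))
          = (128 * (Q : ℝ) ^ 2) * (α * (J * l)) / (64 * K₀) := by
        field_simp
        ring
      rw [h6, div_le_iff₀ (by positivity)]
      have h7 : (0 : ℝ) ≤ α * (J * l) := by positivity
      have h8 := mul_le_mul_of_nonneg_right hQK h7
      refine h8.trans (le_of_eq ?_)
      ring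
    -- the main term
    have hmain : ∑ q ∈ Icc 2 Q, ∑ r ∈ (range q).filter (fun r => Nat.Coprime r q),
        ‖Gc q r‖ * ((∑ j ∈ range J, ‖∑ n ∈ cell A l j, ee ((n : ℝ) * ((r : ℝ) / q))‖ ^ 2) / l)
        ≤ 0.39 * α ^ 2 * (J * l) := by
      -- insert the bound for Gc
      have h4 : ∑ q ∈ Icc 2 Q, ∑ r ∈ (range q).filter (fun r => Nat.Coprime r q),
          ‖Gc q r‖ * ((∑ j ∈ range J, ‖∑ n ∈ cell A l j, ee ((n : ℝ) * ((r : ℝ) / q))‖ ^ 2) / l)
          ≤ ∑ q ∈ Icc 2 Q, ∑ r ∈ (range q).filter (fun r => Nat.Coprime r q),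
            ∑ m ∈ Icc 1 mm, ∑ j ∈ range J, (2 * μ m / l) *
              ((wq m q / (64 * (4096 * (s : ℝ))) ^ (bg m q).card) *
                ‖∑ n ∈ cell A l j, ee ((n : ℝ) * ((r : ℝ) / q))‖ ^ 2) := by
        refine Finset.sum_le_sum fun q hq => Finset.sum_le_sum fun r hr => ?_
        have hq1 : q ∈ Icc 1 Q := by
          have := Finset.mem_Icc.1 hq
          exact Finset.mem_Icc.2 ⟨by omega, this.2⟩
        have h5 := hG q hq1 r hr
        refine (mul_le_mul_of_nonneg_right h5 (by positivity)).trans (le_of_eq ?_)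
        rw [Finset.mul_sum, Finset.sum_mul]
        apply Finset.sum_congr rfl
        intro m _
        rw [Finset.sum_div, Finset.mul_sum]
        apply Finset.sum_congr rfl
        intro j _
        ring
      refine h4.trans ?_
      -- exchange of the sums
      have h5 : ∑ q ∈ Icc 2 Q, ∑ r ∈ (range q).filter (fun r => Nat.Coprime r q),
            ∑ m ∈ Icc 1 mm, ∑ j ∈ range J, (2 * μ m / l) *
              ((wq m q / (64 * (4096 * (s : ℝ))) ^ (bg m q).card) *
                ‖∑ n ∈ cell A l j, ee ((n : ℝ) * ((r : ℝ) / q))‖ ^ 2)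
          = ∑ m ∈ Icc 1 mm, ∑ j ∈ range J, (2 * μ m / l) *
              ∑ q ∈ Icc 2 Q, ∑ r ∈ (range q).filter (fun r => Nat.Coprime r q),
              ((wq m q / (64 * (4096 * (s : ℝ))) ^ (bg m q).card) *
                ‖∑ n ∈ cell A l j, ee ((n : ℝ) * ((r : ℝ) / q))‖ ^ 2) := by
        have e1 : ∀ q ∈ Icc 2 Q, ∑ r ∈ (range q).filter (fun r => Nat.Coprime r q),
            ∑ m ∈ Icc 1 mm, ∑ j ∈ range J, (2 * μ m / l) *
              ((wq m q / (64 * (4096 * (s : ℝ))) ^ (bg m q).card) *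
                ‖∑ n ∈ cell A l j, ee ((n : ℝ) * ((r : ℝ) / q))‖ ^ 2)
            = ∑ m ∈ Icc 1 mm, ∑ j ∈ range J, (2 * μ m / l) *
              ∑ r ∈ (range q).filter (fun r => Nat.Coprime r q),
              ((wq m q / (64 * (4096 * (s : ℝ))) ^ (bg m q).card) *
                ‖∑ n ∈ cell A l j, ee ((n : ℝ) * ((r : ℝ) / q))‖ ^ 2) := by
          intro q _
          rw [Finset.sum_comm]
          apply Finset.sum_congr rfl
          intro m _
          rw [Finset.sum_comm]
          apply Finset.sum_congr rfl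
          intro j _
          rw [Finset.mul_sum]
        rw [Finset.sum_congr rfl e1, Finset.sum_comm]
        apply Finset.sum_congr rfl
        intro m _
        rw [Finset.sum_comm]
        apply Finset.sum_congr rfl
        intro j _
        rw [Finset.mul_sum]
      rw [h5]
      -- the inner sums
      have hinner : ∀ m ∈ Icc 1 mm, ∀ j ∈ range J,
          ∑ q ∈ Icc 2 Q, ∑ r ∈ (range q).filter (fun r => Nat.Coprime r q),
              ((wq m q / (64 * (4096 * (s : ℝ))) ^ (bg m q).card) *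
                ‖∑ n ∈ cell A l j, ee ((n : ℝ) * ((r : ℝ) / q))‖ ^ 2)
            ≤ 1.195 * α ^ 2 * (l : ℝ) ^ 2 - ((cell A l j).card : ℝ) ^ 2 := by
        intro m hm j hj
        have hm' := Finset.mem_Icc.1 hm
        have hj' := Finset.mem_range.1 hj
        have h6 := one_cell hen hlev m Q l j s α A hQ hs hα hα1 hαs hm'.1 (by
            refine le_trans ?_ hl
            apply Nat.mul_le_mul_right
            apply Nat.mul_le_mul_left
            exact hm'.2)
          (fun c hc D hD X => hcell j hj' m hm c hc D hD X)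
        rw [hIcc, Finset.sum_insert h1not, hf1, Finset.sum_singleton] at h6
        have h7 : bg m 1 = ∅ := by
          unfold bg
          simp
        have h8 : wq m 1 = 1 := by
          unfold wq
          rw [h7]
          simp
        rw [h7, h8] at h6
        have h9 : ‖∑ n ∈ cell A l j, ee ((n : ℝ) * (((0 : ℕ) : ℝ) / ((1 : ℕ) : ℝ)))‖ ^ 2
            = ((cell A l j).card : ℝ) ^ 2 := by
          have : ∀ n ∈ cell A l j, ee ((n : ℝ) * (((0 : ℕ) : ℝ) / ((1 : ℕ) : ℝ))) = 1 := by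
            intro n _
            unfold ee
            simp
          rw [Finset.sum_congr rfl this, Finset.sum_const, nsmul_eq_mul, mul_one,
            Complex.norm_natCast]
        rw [h9] at h6
        simp only [Finset.card_empty, pow_zero, div_one, one_mul] at h6
        linarith
      -- the sum over the cells
      have hcs : α ^ 2 * J * (l : ℝ) ^ 2 ≤ ∑ j ∈ range J, ((cell A l j).card : ℝ) ^ 2 := by
        have h6 : (∑ j ∈ range J, ((cell A l j).card : ℝ)) ^ 2
            ≤ (range J).card * ∑ j ∈ range J, ((cell A l j).card : ℝ) ^ 2 :=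
          sq_sum_le_card_mul_sum_sq
        have h7 : ∑ j ∈ range J, ((cell A l j).card : ℝ) = A.card := by
          exact_mod_cast card_cell_sum A J l hl1 hA
        rw [h7, hAcR, Finset.card_range] at h6
        have h8 : (J : ℝ) * (α ^ 2 * J * (l : ℝ) ^ 2)
            ≤ J * ∑ j ∈ range J, ((cell A l j).card : ℝ) ^ 2 := by
          refine le_trans (le_of_eq ?_) h6
          ring
        exact le_of_mul_le_mul_left h8 hJpos
      have hperm : ∀ m ∈ Icc 1 mm, ∑ j ∈ range J, (2 * μ m / l) *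
              ∑ q ∈ Icc 2 Q, ∑ r ∈ (range q).filter (fun r => Nat.Coprime r q),
              ((wq m q / (64 * (4096 * (s : ℝ))) ^ (bg m q).card) *
                ‖∑ n ∈ cell A l j, ee ((n : ℝ) * ((r : ℝ) / q))‖ ^ 2)
            ≤ μ m * (0.39 * α ^ 2 * (J * l)) := by
        intro m hm
        rw [← Finset.mul_sum]
        have h6 := Finset.sum_le_sum (fun j hj => hinner m hm j hj)
        rw [Finset.sum_sub_distrib, Finset.sum_const, Finset.card_range, nsmul_eq_mul] at h6
        have h7 : ∑ j ∈ range J, ∑ q ∈ Icc 2 Q, ∑ r ∈ (range q).filter (fun r => Nat.Coprime r q),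
              ((wq m q / (64 * (4096 * (s : ℝ))) ^ (bg m q).card) *
                ‖∑ n ∈ cell A l j, ee ((n : ℝ) * ((r : ℝ) / q))‖ ^ 2)
            ≤ 0.195 * (J * (α ^ 2 * (l : ℝ) ^ 2)) := by
          linarith
        have h8 : 0 ≤ 2 * μ m / l := by
          have := hμ m
          positivity
        refine (mul_le_mul_of_nonneg_left h7 h8).trans (le_of_eq ?_)
        field_simp
        ring
      refine (Finset.sum_le_sum hperm).trans ?_
      rw [← Finset.sum_mul]
      exact mul_le_of_le_one_left (by positivity) hμ1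
    have h10 := add_le_add hmain herr
    refine h10.trans (le_of_eq ?_)
    ring
  have h11 := norm_sub_norm_le (RR A l s₀ K₀ 0)
    (-(∑ q ∈ Icc 2 Q, ∑ r ∈ (range q).filter (fun r => Nat.Coprime r q),
          Gc q r * RR A l s₀ K₀ ((r : ℝ) / q)))
  rw [norm_neg, sub_neg_eq_add] at h11
  have h12 : (0 : ℝ) ≤ α ^ 2 * (J * l) := by positivity
  push_cast
  nlinarith [h11, hrest, hzero]

end Vale.Agent.P042
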