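import Vale.Agent.P042.WeilB

/-!
# P042, module W3: logarithmic derivative of the L-function
-/

open Polynomial Finset

namespace Vale.Agent.P042

noncomputable section

section
variable (p : ℕ) [Fact p.Prime]

theorem sumlt_degree (m : ℕ) (a : Fin m → ZMod p) :
    (∑ i : Fin m, C (a i) * X ^ (i : ℕ) : (ZMod p)[X]).degree < (m : WithBot ℕ) := degree_sum_fin_lt a

theorem monicP_monic (m : ℕ) (a : Fin m → ZMod p) : (monicP p m a).Monic :=
  monic_X_pow_add (sumlt_degree p m a)

theorem monicP_natDegree (m : ℕ) (a : Fin m → ZMod p) : (monicP p m a).natDegree = m := by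
  apply natDegree_eq_of_degree_eq_some
  unfold monicP
  rw [degree_add_eq_left_of_degree_lt, degree_X_pow]
  rw [degree_X_pow]
  exact sumlt_degree p m a

theorem monicP_coeff (m : ℕ) (a : Fin m → ZMod p) (i : Fin m) : (monicP p m a).coeff i = a i := by
  unfold monicP
  rw [coeff_add, coeff_X_pow, if_neg (by have := i.2; omega), zero_add, finsetSum_coeff]
  rw [Finset.sum_eq_single i]
  · simp
  · intro b _ hb
    rw [coeff_C_mul, coeff_X_pow, if_neg, mul_zero]
    intro h
    exact hb (Fin.ext h.symm)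
  · simp

theorem monicP_inj (m : ℕ) : Function.Injective (monicP p m) := by
  intro a b h
  funext i
  rw [← monicP_coeff p m a i, ← monicP_coeff p m b i, h]

open Classical in
/-- the finite set of monic polynomials of degree `m` -/
def MS (m : ℕ) : Finset (ZMod p)[X] := univ.image (monicP p m)

theorem mem_MS (m : ℕ) (g : (ZMod p)[X]) : g ∈ MS p m ↔ g.Monic ∧ g.natDegree = m := by
  classical
  unfold MS
  rw [mem_image]
  constructor
  · rintro ⟨a, _, rfl⟩
    exact ⟨monicP_monic p m a, monicP_natDegree p m a⟩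
  · rintro ⟨h1, h2⟩
    refine ⟨fun i => g.coeff i, mem_univ _, ?_⟩
    conv_rhs => rw [h1.as_sum]
    unfold monicP
    rw [h2, Fin.sum_univ_eq_sum_range (fun i => C (g.coeff i) * X ^ i)]

theorem cc_eq (f : (ZMod p)[X]) (m : ℕ) : cc p f m = ∑ g ∈ MS p m, chiF p f g := by
  classical
  unfold cc MS
  rw [sum_image]
  intro a _ b _ h
  exact monicP_inj p m h

/-- orbit multiset -/
def OM (n : ℕ) (β : KK p) : Multiset (KK p) := (Multiset.range n).map (fun i => β ^ (p ^ i))

theorem OM_card (n : ℕ) (β : KK p) : Multiset.card (OM p n β) = n := by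
  unfold OM
  simp

/-- norm polynomial over the closure -/
def OP (n : ℕ) (β : KK p) : (KK p)[X] := ((OM p n β).map (fun a => X - C a)).prod

theorem OP_monic (n : ℕ) (β : KK p) : (OP p n β).Monic := by
  unfold OP
  exact monic_multiset_prod_of_monic _ _ (fun a _ => monic_X_sub_C a)

theorem OP_roots (n : ℕ) (β : KK p) : (OP p n β).roots = OM p n β := by
  unfold OP
  exact roots_multiset_prod_X_sub_C _

theorem OP_natDegree (n : ℕ) (β : KK p) : (OP p n β).natDegree = n := by
  unfold OP
  rw [natDegree_multiset_prod_X_sub_C_eq_card, OM_card]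

theorem OM_add (a b : ℕ) (β : KK p) : OM p (a + b) β = OM p a β + OM p b (β ^ (p ^ a)) := by
  unfold OM
  rw [Multiset.range_add, Multiset.map_add, Multiset.map_map]
  congr 1
  apply Multiset.map_congr rfl
  intro i _
  simp only [Function.comp]
  rw [← pow_mul, pow_add]

theorem OM_one (β : KK p) : OM p 1 β = {β} := by
  unfold OM
  simp [Multiset.range_succ]

theorem OM_map_fr (n : ℕ) (β : KK p) : (OM p n β).map (fr p) = OM p n (β ^ p) := by
  unfold OM
  rw [Multiset.map_map]
  apply Multiset.map_congr rfl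
  intro i _
  simp only [Function.comp]
  rw [fr_apply, ← pow_mul, ← pow_mul, mul_comm]

theorem OM_fr (n : ℕ) {β : KK p} (h : β ^ (p ^ n) = β) : (OM p n β).map (fr p) = OM p n β := by
  rw [OM_map_fr]
  have h1 := OM_add p 1 n β
  have h2 := OM_add p n 1 β
  rw [add_comm 1 n] at h1
  rw [h1, OM_one, OM_one, pow_one, h, add_comm] at h2
  exact add_right_cancel h2

theorem OP_fr (n : ℕ) {β : KK p} (h : β ^ (p ^ n) = β) : (OP p n β).map (fr p) = OP p n β := by
  unfold OP
  rw [Polynomial.map_multiset_prod, Multiset.map_map]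
  conv_rhs => rw [← OM_fr p n h, Multiset.map_map]
  congr 1
  apply Multiset.map_congr rfl
  intro i _
  simp

theorem OP_lift (n : ℕ) (β : KK p) : ∃ g : (ZMod p)[X], β ^ (p ^ n) = β → bc p g = OP p n β ∧ g.natDegree = n ∧ g.Monic := by
  by_cases h : β ^ (p ^ n) = β
  · have h1 : OP p n β ∈ lifts (algebraMap (ZMod p) (KK p)) := by
      rw [lifts_iff_coeff_lifts]
      intro i
      have h2 : ((OP p n β).coeff i) ^ p = (OP p n β).coeff i := by
        rw [← fr_apply, ← coeff_map, OP_fr p n h]
      exact fix_mem p h2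
    obtain ⟨g, hg1, hg2, hg3⟩ := lifts_and_natDegree_eq_and_monic h1 (OP_monic p n β)
    exact ⟨g, fun _ => ⟨hg1, by rw [hg2, OP_natDegree], hg3⟩⟩
  · exact ⟨1, fun h' => absurd h' h⟩

/-- norm polynomial -/
def NP (n : ℕ) (β : KK p) : (ZMod p)[X] := Classical.choose (OP_lift p n β)

theorem NP_spec (n : ℕ) {β : KK p} (h : β ^ (p ^ n) = β) :
    bc p (NP p n β) = OP p n β ∧ (NP p n β).natDegree = n ∧ (NP p n β).Monic :=
  Classical.choose_spec (OP_lift p n β) h

theorem chiF_NP (f : (ZMod p)[X]) (n : ℕ) {β : KK p} (h : β ^ (p ^ n) = β) :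
    chiF p f (NP p n β) = psK p (Tn p f n β) := by
  unfold chiF
  have h1 : (Polynomial.map (algebraMap (ZMod p) (KK p)) (NP p n β)).roots = OM p n β := by
    rw [← OP_roots, ← (NP_spec p n h).1]
  rw [h1]
  unfold OM Tn
  rw [Multiset.map_map]
  rfl

theorem NP_dvd (n : ℕ) {β : KK p} (h : β ^ (p ^ n) = β) {g : (ZMod p)[X]} (hg : g ≠ 0) :
    NP p n β ∣ g ↔ OM p n β ≤ (bc p g).roots := by
  have hg' : bc p g ≠ 0 := (Polynomial.map_ne_zero_iff (alg_inj p)).mpr hg
  rw [← map_dvd_map' (algebraMap (ZMod p) (KK p))]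
  rw [← Multiset.prod_X_sub_C_dvd_iff_le_roots hg']
  have h1 : (Polynomial.map (algebraMap (ZMod p) (KK p)) (NP p n β)) = OP p n β := (NP_spec p n h).1
  rw [h1]
  rfl

end

section orbit
variable (p : ℕ) [Fact p.Prime]

theorem mem_OM_self {n : ℕ} (hn : 1 ≤ n) (β : KK p) : β ∈ OM p n β := by
  unfold OM
  rw [Multiset.mem_map]
  exact ⟨0, Multiset.mem_range.mpr (by omega), by simp⟩

theorem exists_per {R : Multiset (KK p)} (hR : R.map (fr p) = R) {β : KK p} (hβ : β ∈ R) :
    β ∈ Function.periodicPts (fr p) := by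
  classical
  have h1 : ∀ i : ℕ, (fr p)^[i] β ∈ (R.toFinset : Set (KK p)) := by
    intro i
    induction i with
    | zero => simpa using hβ
    | succ i ih =>
      rw [Function.iterate_succ_apply']
      simp only [mem_coe, Multiset.mem_toFinset] at ih ⊢
      rw [← hR]
      exact Multiset.mem_map_of_mem _ ih
  obtain ⟨a, b, hab, he⟩ := Set.Finite.exists_lt_map_eq_of_forall_mem h1 (Finset.finite_toSet _)
  refine ⟨b - a, by omega, ?_⟩
  have hinj : Function.Injective (fr p)^[a] := (fr p).injective.iterate a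
  apply hinj
  rw [he, ← Function.iterate_add_apply]
  congr 2
  omega

theorem OM_mul (j r : ℕ) {β : KK p} (h : β ^ (p ^ r) = β) : OM p (j * r) β = j • OM p r β := by
  induction j with
  | zero => simp [OM]
  | succ j ih =>
    have h2 : β ^ (p ^ (j * r)) = β := by
      have : Function.IsPeriodicPt (fr p) r β := by
        unfold Function.IsPeriodicPt Function.IsFixedPt
        rw [fr_iter]
        exact h
      have h3 := this.const_mul j
      unfold Function.IsPeriodicPt Function.IsFixedPt at h3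
      rwa [fr_iter] at h3
    rw [Nat.succ_mul, OM_add, h2, ih, succ_nsmul]

open Classical in
theorem orbit_count {R : Multiset (KK p)} (hR : R.map (fr p) = R) {β : KK p} (hβ : β ∈ R) {m : ℕ}
    (hm : Multiset.card R = m) :
    ((Icc 1 m).filter (fun n => β ^ (p ^ n) = β ∧ OM p n β ≤ R)).card = R.count β := by
  have hper := exists_per p hR hβ
  set r := Function.minimalPeriod (fr p) β with hr
  have hr0 : 0 < r := Function.minimalPeriod_pos_of_mem_periodicPts hper
  have hrβ : β ^ (p ^ r) = β := by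
    have := Function.isPeriodicPt_minimalPeriod (fr p) β
    unfold Function.IsPeriodicPt Function.IsFixedPt at this
    rwa [fr_iter] at this
  have hdvd : ∀ n, β ^ (p ^ n) = β ↔ r ∣ n := by
    intro n
    rw [hr, ← Function.isPeriodicPt_iff_minimalPeriod_dvd]
    unfold Function.IsPeriodicPt Function.IsFixedPt
    rw [fr_iter]
  have hnodup : (OM p r β).Nodup := by
    unfold OM
    apply Multiset.Nodup.map_on _ (Multiset.nodup_range r)
    intro x hx y hy hxy
    have h1 := Function.iterate_injOn_Iio_minimalPeriod (f := fr p) (x := β)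
    apply h1
    · simpa using hx
    · simpa using hy
    · simp only [fr_iter]
      exact hxy
  have hcount : ∀ i, R.count ((fr p)^[i] β) = R.count β := by
    intro i
    induction i with
    | zero => rfl
    | succ i ih =>
      rw [Function.iterate_succ_apply', ← ih]
      conv_lhs => rw [← hR]
      exact Multiset.count_map_eq_count' _ _ (fr p).injective _
  have hle : ∀ j, OM p (j * r) β ≤ R ↔ j ≤ R.count β := by
    intro j
    rw [OM_mul p j r hrβ, Multiset.le_iff_count]
    constructor
    · intro h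
      have h1 := h β
      rw [Multiset.count_nsmul, Multiset.count_eq_one_of_mem hnodup (mem_OM_self p hr0 β), mul_one] at h1
      exact h1
    · intro h x
      rw [Multiset.count_nsmul]
      by_cases hx : x ∈ OM p r β
      · rw [Multiset.count_eq_one_of_mem hnodup hx, mul_one]
        unfold OM at hx
        rw [Multiset.mem_map] at hx
        obtain ⟨i, _, rfl⟩ := hx
        rw [← fr_iter, hcount]
        exact h
      · rw [Multiset.count_eq_zero_of_notMem hx, mul_zero]
        exact Nat.zero_le _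
  have h1 : ((Icc 1 m).filter (fun n => β ^ (p ^ n) = β ∧ OM p n β ≤ R)) = (Icc 1 (R.count β)).image (fun j => j * r) := by
    ext n
    simp only [mem_filter, mem_Icc, mem_image]
    constructor
    · rintro ⟨⟨h1, h2⟩, h3, h4⟩
      rw [hdvd] at h3
      obtain ⟨j, rfl⟩ := h3
      rw [mul_comm r j] at h4
      refine ⟨j, ⟨?_, (hle j).mp h4⟩, mul_comm _ _⟩
      rcases Nat.eq_zero_or_pos j with h5 | h5
      · subst h5
        simp at h1
      · exact h5
    · rintro ⟨j, ⟨h1, h2⟩, rfl⟩
      have h3 := (hle j).mpr h2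
      refine ⟨⟨Nat.mul_pos h1 hr0, ?_⟩, (hdvd _).mpr (Dvd.intro_left j rfl), h3⟩
      have h4 := Multiset.card_le_card h3
      rwa [OM_card, hm] at h4
  rw [h1, card_image_of_injective]
  · simp
  · intro a b hab
    exact Nat.eq_of_mul_eq_mul_right hr0 hab

open Classical in
theorem total_count (g : (ZMod p)[X]) {m : ℕ} (hg : g.Monic) (hd : g.natDegree = m) :
    ∑ n ∈ Icc 1 m, ((Fx p n).filter (fun β => NP p n β ∣ g)).card = m := by
  have hg0 : g ≠ 0 := hg.ne_zero
  set R := (bc p g).roots with hRdef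
  have hR : R.map (fr p) = R := roots_fr p g
  have hm : Multiset.card R = m := by
    rw [hRdef]
    have hs : (bc p g).Splits := IsAlgClosed.splits _
    rw [← hs.natDegree_eq_card_roots]
    exact (natDegree_map _).trans hd
  have h1 : ∀ n ∈ Icc 1 m, ((Fx p n).filter (fun β => NP p n β ∣ g)).card
      = ∑ β ∈ R.toFinset, if (β ^ (p ^ n) = β ∧ OM p n β ≤ R) then 1 else 0 := by
    intro n hn
    rw [mem_Icc] at hn
    rw [← Finset.card_filter]
    congr 1
    ext β
    simp only [mem_filter, Multiset.mem_toFinset]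
    rw [mem_Fx p hn.1]
    constructor
    · rintro ⟨h1, h2⟩
      rw [NP_dvd p n h1 hg0] at h2
      exact ⟨Multiset.mem_of_le h2 (mem_OM_self p hn.1 β), h1, h2⟩
    · rintro ⟨_, h1, h2⟩
      exact ⟨h1, (NP_dvd p n h1 hg0).mpr h2⟩
  rw [Finset.sum_congr rfl h1, Finset.sum_comm]
  have h2 : ∀ β ∈ R.toFinset, (∑ n ∈ Icc 1 m, if (β ^ (p ^ n) = β ∧ OM p n β ≤ R) then 1 else 0) = R.count β := by
    intro β hβ
    rw [← Finset.card_filter]
    exact orbit_count p hR (Multiset.mem_toFinset.mp hβ) hm
  rw [Finset.sum_congr rfl h2, Multiset.toFinset_sum_count_eq, hm]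

end orbit

theorem lfn : LFN := by
  classical
  intro p _ f m
  have h1 : ∀ n ∈ Icc 1 m, SS p f n * cc p f (m - n)
      = ∑ β ∈ Fx p n, ∑ g ∈ MS p m, if NP p n β ∣ g then chiF p f g else 0 := by
    intro n hn
    rw [mem_Icc] at hn
    unfold SS
    rw [Finset.sum_mul]
    apply Finset.sum_congr rfl
    intro β hβ
    rw [mem_Fx p hn.1] at hβ
    obtain ⟨hN1, hN2, hN3⟩ := NP_spec p n hβ
    rw [← chiF_NP p f n hβ, cc_eq, Finset.mul_sum, ← Finset.sum_filter]
    refine Finset.sum_bij (fun h _ => NP p n β * h) ?_ ?_ ?_ ?_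
    · intro h hh
      rw [mem_MS] at hh
      rw [mem_filter, mem_MS]
      refine ⟨⟨hN3.mul hh.1, ?_⟩, Dvd.intro _ rfl⟩
      rw [hN3.natDegree_mul hh.1, hN2, hh.2]
      omega
    · intro a _ b _ hab
      exact mul_left_cancel₀ hN3.ne_zero hab
    · intro g hg
      rw [mem_filter, mem_MS] at hg
      obtain ⟨⟨hg1, hg2⟩, k, hk⟩ := hg
      refine ⟨k, ?_, hk.symm⟩
      rw [mem_MS]
      have hk1 : k.Monic := by
        rw [hk] at hg1
        exact hN3.of_mul_monic_left hg1
      refine ⟨hk1, ?_⟩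
      rw [hk, hN3.natDegree_mul hk1, hN2] at hg2
      omega
    · intro h hh
      rw [mem_MS] at hh
      rw [chiF_mul p f _ _ hN3.ne_zero hh.1.ne_zero]
  rw [Finset.sum_congr rfl h1]
  have h2 : ∀ n ∈ Icc 1 m, (∑ β ∈ Fx p n, ∑ g ∈ MS p m, if NP p n β ∣ g then chiF p f g else 0)
      = ∑ g ∈ MS p m, chiF p f g * (((Fx p n).filter (fun β => NP p n β ∣ g)).card : ℂ) := by
    intro n _
    rw [Finset.sum_comm]
    apply Finset.sum_congr rfl
    intro g _
    rw [← Finset.sum_filter, Finset.sum_const, nsmul_eq_mul, mul_comm]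
  rw [Finset.sum_congr rfl h2, Finset.sum_comm, cc_eq, Finset.mul_sum]
  apply Finset.sum_congr rfl
  intro g hg
  rw [mem_MS] at hg
  rw [← Finset.mul_sum, ← Nat.cast_sum, total_count p g hg.1 hg.2, mul_comm]

end

end Vale.Agent.P042
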