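import Vale.Agent.P042.WeilCore

open Polynomial Finset

namespace Vale.Agent.P042

theorem newt : NEWT := by
  classical
  intro c S D hc0 hcD hrec
  -- the polynomial with coefficients `c`
  obtain ⟨P, hP⟩ : ∃ P : ℂ[X], P = ∑ j ∈ range (D + 1), monomial (D - j) (c j) := ⟨_, rfl⟩
  have hcoeff : ∀ m ≤ D, P.coeff (D - m) = c m := by
    intro m hm
    rw [hP, finsetSum_coeff, sum_eq_single m]
    · rw [coeff_monomial, if_pos rfl]
    · intro j hj hne
      rw [coeff_monomial, if_neg]
      have := mem_range.1 hj
      omega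
    · intro h
      exact absurd (mem_range.2 (by omega)) h
  have hdeg : P.natDegree ≤ D := by
    rw [hP]
    apply natDegree_sum_le_of_forall_le
    intro j _
    exact (natDegree_monomial_le _).trans (Nat.sub_le _ _)
  have hlead : P.coeff D = 1 := by
    have := hcoeff 0 (Nat.zero_le _)
    rwa [Nat.sub_zero, hc0] at this
  have hmonic : P.Monic := monic_of_natDegree_le_of_coeff_eq_one D hdeg hlead
  have hnd : P.natDegree = D := by
    apply le_antisymm hdeg
    apply le_natDegree_of_ne_zero
    rw [hlead]; exact one_ne_zero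
  have hcard : Multiset.card P.roots = P.natDegree :=
    splits_iff_card_roots.mp (IsAlgClosed.splits P)
  obtain ⟨l, hl⟩ : ∃ l : List ℂ, (l : Multiset ℂ) = P.roots := Quot.exists_rep P.roots
  have hlen : l.length = D := by
    rw [← hnd, ← hcard, ← hl, Multiset.coe_card]
  set α : Fin D → ℂ := fun i => l.get (Fin.cast hlen.symm i) with hα
  have hmap : (univ : Finset (Fin D)).val.map α = P.roots := by
    rw [Fin.univ_val_map, ← hl]
    congr 1
    apply List.ext_get
    · rw [List.length_ofFn, hlen]
    · intro n h1 h2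
      simp [hα]
  -- elementary symmetric functions
  have hc : ∀ m, c m = (-1) ^ m * (MvPolynomial.aeval α (MvPolynomial.esymm (Fin D) ℂ m)) := by
    intro m
    rw [MvPolynomial.aeval_esymm_eq_multiset_esymm, hmap]
    rcases le_or_gt m D with h | h
    · have h1 := Polynomial.coeff_eq_esymm_roots_of_card hcard (k := D - m) (by omega)
      rw [hcoeff m h, hmonic.leadingCoeff, one_mul, hnd, Nat.sub_sub_self h] at h1
      exact h1
    · rw [hcD m h]
      have : P.roots.esymm m = 0 := by
        unfold Multiset.esymm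
        rw [Multiset.powersetCard_eq_empty m (by rw [hcard, hnd]; exact h)]
        simp
      rw [this, mul_zero]
  have hps : ∀ n, MvPolynomial.aeval α (MvPolynomial.psum (Fin D) ℂ n) = ∑ i, α i ^ n := by
    intro n
    simp [MvPolynomial.psum]
  have hnewton : ∀ m : ℕ, (m : ℂ) * c m
      = - ∑ n ∈ Icc 1 m, (∑ i, α i ^ n) * c (m - n) := by
    intro m
    have h := congrArg (MvPolynomial.aeval α) (MvPolynomial.mul_esymm_eq_sum (Fin D) ℂ m)
    rw [map_mul, map_natCast, map_mul, map_pow, map_neg, map_one, map_sum] at h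
    have e1 : ∑ x ∈ antidiagonal m with x.1 < m,
        MvPolynomial.aeval α ((-1) ^ x.1 * MvPolynomial.esymm (Fin D) ℂ x.1 *
          MvPolynomial.psum (Fin D) ℂ x.2)
        = ∑ n ∈ Icc 1 m, (∑ i, α i ^ n) * c (m - n) := by
      apply sum_nbij' (fun x => x.2) (fun n => (m - n, n))
      · intro x hx
        obtain ⟨h1, h2⟩ := mem_filter.1 hx
        have h3 := HasAntidiagonal.mem_antidiagonal.1 h1
        rw [mem_Icc]; omega
      · intro n hn
        have := mem_Icc.1 hn
        rw [mem_filter, HasAntidiagonal.mem_antidiagonal]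
        constructor
        · simp only; omega
        · simp only; omega
      · intro x hx
        obtain ⟨h1, h2⟩ := mem_filter.1 hx
        have h3 := HasAntidiagonal.mem_antidiagonal.1 h1
        ext
        · simp only; omega
        · rfl
      · intro n _; rfl
      · intro x hx
        obtain ⟨h1, h2⟩ := mem_filter.1 hx
        have h3 := HasAntidiagonal.mem_antidiagonal.1 h1
        have h4 : m - x.2 = x.1 := by omega
        rw [h4, hc x.1, map_mul, map_mul, map_pow, map_neg, map_one, hps]
        ring
    rw [e1] at h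
    rw [hc m]
    calc (m : ℂ) * ((-1) ^ m * MvPolynomial.aeval α (MvPolynomial.esymm (Fin D) ℂ m))
        = (-1) ^ m * ((m : ℂ) * MvPolynomial.aeval α (MvPolynomial.esymm (Fin D) ℂ m)) := by ring
      _ = (-1) ^ m * ((-1) ^ (m + 1) * ∑ n ∈ Icc 1 m, (∑ i, α i ^ n) * c (m - n)) := by rw [h]
      _ = - (((-1) ^ m * (-1) ^ m) * ∑ n ∈ Icc 1 m, (∑ i, α i ^ n) * c (m - n)) := by
          rw [pow_succ]; ring
      _ = _ := by
          rw [← mul_pow]; norm_num
  refine ⟨α, ?_⟩
  intro n
  induction n using Nat.strong_induction_on with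
  | _ n ih =>
    intro hn
    have h1 := hrec n
    have h2 := hnewton n
    have h3 : ∑ j ∈ Icc 1 n, (S j + ∑ i, α i ^ j) * c (n - j) = 0 := by
      simp only [add_mul, sum_add_distrib]
      rw [← h1, h2]; ring
    rw [sum_eq_single n] at h3
    · rw [Nat.sub_self, hc0, mul_one] at h3
      exact eq_neg_of_add_eq_zero_left h3
    · intro j hj hne
      have hj' := mem_Icc.1 hj
      rw [ih j (by omega) hj'.1]
      ring
    · intro h
      exact absurd (mem_Icc.2 ⟨hn, le_rfl⟩) h

end Vale.Agent.P042
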