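import Vale.Agent.P042.WeilCore

open Polynomial Finset

namespace Vale.Agent.P042

theorem rootb : ROOTB := by
  classical
  intro D α R C hR h i₀
  set β : Fin D → ℂ := fun i => α i ^ 2 with hβ
  have hpow : ∀ n : ℕ, ∑ i, α i ^ (2 * n) = ∑ i, β i ^ n := by
    intro n
    apply sum_congr rfl
    intro i _
    rw [hβ]; simp only; rw [← pow_mul]
  set Q : ℂ[X] := ∏ γ ∈ (univ.image β).erase (β i₀), (X - Polynomial.C γ) with hQ
  have hQ0 : Q.eval (β i₀) ≠ 0 := by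
    rw [hQ, eval_prod]
    apply prod_ne_zero_iff.2
    intro γ hγ
    rw [eval_sub, eval_X, eval_C]
    have := (mem_erase.1 hγ).1
    exact sub_ne_zero.2 (Ne.symm this)
  have hQ1 : ∀ j, β j ≠ β i₀ → Q.eval (β j) = 0 := by
    intro j hj
    rw [hQ, eval_prod]
    apply prod_eq_zero (mem_erase.2 ⟨hj, mem_image_of_mem β (mem_univ j)⟩)
    simp
  set N : ℕ := (univ.filter (fun j => β j = β i₀)).card with hN
  have hN1 : 1 ≤ N := card_pos.2 ⟨i₀, by simp⟩
  have hkey : ∀ n : ℕ, ∑ k ∈ range (Q.natDegree + 1), Q.coeff k * ∑ i, β i ^ (n + k)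
      = (N : ℂ) * Q.eval (β i₀) * β i₀ ^ n := by
    intro n
    have e1 : ∑ k ∈ range (Q.natDegree + 1), Q.coeff k * ∑ i, β i ^ (n + k)
        = ∑ i, β i ^ n * Q.eval (β i) := by
      simp only [mul_sum]
      rw [sum_comm]
      apply sum_congr rfl
      intro i _
      rw [eval_eq_sum_range, mul_sum]
      apply sum_congr rfl
      intro k _
      rw [pow_add]; ring
    rw [e1, ← sum_filter_add_sum_filter_not univ (fun j => β j = β i₀)]
    have e2 : ∑ j ∈ univ.filter (fun j => ¬ β j = β i₀), β j ^ n * Q.eval (β j) = 0 := by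
      apply sum_eq_zero
      intro j hj
      rw [hQ1 j (mem_filter.1 hj).2, mul_zero]
    rw [e2, add_zero]
    have e3 : ∀ j ∈ univ.filter (fun j => β j = β i₀), β j ^ n * Q.eval (β j)
        = β i₀ ^ n * Q.eval (β i₀) := by
      intro j hj
      rw [(mem_filter.1 hj).2]
    rw [sum_congr rfl e3, sum_const, nsmul_eq_mul]
    ring
  have hβn : ‖β i₀‖ = ‖α i₀‖ ^ 2 := by rw [hβ]; simp
  rw [← hβn]
  by_contra hlt
  rw [not_le] at hlt
  set K : ℝ := ∑ k ∈ range (Q.natDegree + 1), ‖Q.coeff k‖ * (C * R ^ k) with hK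
  have hbound : ∀ n : ℕ, 1 ≤ n → ‖(N : ℂ) * Q.eval (β i₀)‖ * ‖β i₀‖ ^ n ≤ K * R ^ n := by
    intro n hn
    rw [← norm_pow, ← norm_mul, ← hkey n]
    refine (norm_sum_le _ _).trans ?_
    rw [hK, sum_mul]
    apply sum_le_sum
    intro k _
    rw [norm_mul]
    have h1 := h (n + k) (by omega)
    rw [hpow] at h1
    calc ‖Q.coeff k‖ * ‖∑ i, β i ^ (n + k)‖ ≤ ‖Q.coeff k‖ * (C * R ^ (n + k)) :=
          mul_le_mul_of_nonneg_left h1 (norm_nonneg _)
      _ = _ := by rw [pow_add]; ring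
  have hpos : 0 < ‖(N : ℂ) * Q.eval (β i₀)‖ := by
    rw [norm_pos_iff]
    exact mul_ne_zero (by exact_mod_cast (by omega : N ≠ 0)) hQ0
  have hx : 1 < ‖β i₀‖ / R := by rw [one_lt_div hR]; exact hlt
  obtain ⟨n, hn⟩ := pow_unbounded_of_one_lt (K / ‖(N : ℂ) * Q.eval (β i₀)‖) hx
  have hn1 : K / ‖(N : ℂ) * Q.eval (β i₀)‖ < (‖β i₀‖ / R) ^ (n + 1) := by
    refine hn.trans_le ?_
    exact pow_le_pow_right₀ hx.le (by omega)
  have h2 := hbound (n + 1) (by omega)
  rw [div_lt_iff₀ hpos, div_pow, div_mul_eq_mul_div, lt_div_iff₀ (pow_pos hR _)] at hn1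
  linarith

end Vale.Agent.P042
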