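import Vale.Agent.P042.WeilCore

open Polynomial Finset

namespace Vale.Agent.P042

namespace SnbAux

/-- the solutions of `y^q = y` -/
lemma range_eq {E : Type} [Field E] {S : Type} [Fintype S] (j : S → E)
    (hj : Function.Injective j) (q : ℕ) (hq : 1 < q) (hc : Fintype.card S = q)
    (h : ∀ s, j s ^ q = j s) (y : E) (hy : y ^ q = y) : ∃ s, j s = y := by
  classical
  have h0 : (X ^ q - X : E[X]) ≠ 0 := FiniteField.X_pow_card_sub_X_ne_zero E hq
  have hmem : ∀ z : E, z ∈ (X ^ q - X : E[X]).roots.toFinset ↔ z ^ q = z := by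
    intro z
    rw [Multiset.mem_toFinset, mem_roots h0, IsRoot.def, eval_sub, eval_pow, eval_X, sub_eq_zero]
  have hsub : (univ : Finset S).image j ⊆ (X ^ q - X : E[X]).roots.toFinset := by
    intro z hz
    rw [Finset.mem_image] at hz
    obtain ⟨s, _, rfl⟩ := hz
    rw [hmem]
    exact h s
  have hcard : (X ^ q - X : E[X]).roots.toFinset.card ≤ ((univ : Finset S).image j).card := by
    rw [Finset.card_image_of_injective _ hj, Finset.card_univ, hc]
    refine (Multiset.toFinset_card_le _).trans ((card_roots' _).trans ?_)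
    rw [FiniteField.X_pow_card_sub_X_natDegree_eq E hq]
  have heq := Finset.eq_of_subset_of_card_le hsub hcard
  have h1 := (hmem y).2 hy
  rw [← heq, Finset.mem_image] at h1
  obtain ⟨s, _, hs⟩ := h1
  exact ⟨s, hs⟩

lemma range_iff {E : Type} [Field E] {S : Type} [Fintype S] (j : S → E)
    (hj : Function.Injective j) (q : ℕ) (hq : 1 < q) (hc : Fintype.card S = q)
    (h : ∀ s, j s ^ q = j s) [DecidableEq E] :
    (X ^ q - X : E[X]).roots.toFinset = (univ : Finset S).image j := by
  have h0 : (X ^ q - X : E[X]) ≠ 0 := FiniteField.X_pow_card_sub_X_ne_zero E hq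
  ext z
  rw [Multiset.mem_toFinset, mem_roots h0, IsRoot.def, eval_sub, eval_pow, eval_X, sub_eq_zero,
    Finset.mem_image]
  constructor
  · intro hz
    obtain ⟨s, hs⟩ := range_eq j hj q hq hc h z hz
    exact ⟨s, Finset.mem_univ _, hs⟩
  · rintro ⟨s, _, rfl⟩
    exact h s

/-- evaluation commutes with Frobenius -/
lemma eval_frob (p : ℕ) [Fact p.Prime] {E : Type} [Field E] [Algebra (ZMod p) E]
    (f : (ZMod p)[X]) (y : E) (i : ℕ) :
    (f.map (algebraMap (ZMod p) E)).eval (y ^ (p ^ i))
      = ((f.map (algebraMap (ZMod p) E)).eval y) ^ (p ^ i) := by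
  have : CharP E p := charP_of_injective_algebraMap (algebraMap (ZMod p) E).injective p
  have : ExpChar E p := ExpChar.prime Fact.out
  rw [eval_map, eval_map, ← iterateFrobenius_def, ← iterateFrobenius_def, hom_eval₂]
  congr 1
  exact Subsingleton.elim _ _

/-- signed sums -/
lemma abs_sum (ι : Type) (s : Finset ι) (D : ι → ℝ) (B : ℝ) (hB : 0 ≤ B)
    (h0 : ∑ c ∈ s, D c = 0) (h : ∀ c ∈ s, D c ≤ B) : ∑ c ∈ s, |D c| ≤ 2 * (s.card * B) := by
  have h1 : ∀ c ∈ s, |D c| ≤ 2 * B - D c := by
    intro c hc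
    have h2 := h c hc
    rw [abs_le]
    constructor <;> linarith
  have h3 := Finset.sum_le_sum h1
  rw [Finset.sum_sub_distrib, h0, Finset.sum_const, nsmul_eq_mul] at h3
  linarith

end SnbAux

open SnbAux

theorem snb : BOMB → SNB := by
  intro hBomb p hp f d hf hd hdp
  classical
  have hpr : p.Prime := hp.out
  have hnd : ¬ p ∣ d := by
    intro h
    have := Nat.le_of_dvd (by omega) h
    omega
  obtain ⟨C, hC⟩ := hBomb p d hpr hd hnd
  refine ⟨2 * C, ?_⟩
  intro n hn
  set F := GaloisField p (2 * n) with hFdef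
  have : Finite F := inferInstance
  let _ : Fintype F := Fintype.ofFinite F
  have hFcard : Fintype.card F = (p ^ n) ^ 2 := by
    rw [← Nat.card_eq_fintype_card, hFdef, GaloisField.card p (2 * n) (by omega), ← pow_mul,
      mul_comm]
  have hq1 : 1 < (p ^ n) ^ 2 := by
    have h1 := Nat.one_lt_pow (by omega : n ≠ 0) hpr.one_lt
    nlinarith
  have hcharF : CharP F p := inferInstance
  let _ : Algebra.IsAlgebraic (ZMod p) F := inferInstance
  let ι : F →ₐ[ZMod p] KK p := IsAlgClosed.lift
  have hι : Function.Injective ι := ι.toRingHom.injective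
  have hFx : Fx p (2 * n) = (univ : Finset F).image ι := by
    unfold Fx
    have h1 : p ^ (2 * n) = (p ^ n) ^ 2 := by rw [← pow_mul, mul_comm]
    rw [h1]
    have h2 := range_iff (E := KK p) (S := F) ι hι ((p ^ n) ^ 2) hq1 hFcard (by
      intro s
      rw [← map_pow, ← hFcard, FiniteField.pow_card])
    convert h2
  set w : F → F := fun x => (f.map (algebraMap (ZMod p) F)).eval x with hw
  set T : F → F := fun x => ∑ i ∈ range (2 * n), w x ^ (p ^ i) with hT
  have hTn : ∀ x : F, Tn p f (2 * n) (ι x) = ι (T x) := by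
    intro x
    unfold Tn
    rw [hT]
    simp only [map_sum, map_pow]
    apply Finset.sum_congr rfl
    intro i _
    unfold evK
    rw [eval_frob]
    congr 1
    rw [hw]
    simp only
    have h1 : algebraMap (ZMod p) (KK p) = (ι : F →+* KK p).comp (algebraMap (ZMod p) F) :=
      Subsingleton.elim _ _
    rw [h1, ← Polynomial.map_map]
    have h2 := Polynomial.eval_map_apply (ι : F →+* KK p) (p := f.map (algebraMap (ZMod p) F)) x
    exact h2
  have hTp : ∀ x, T x ^ p = T x := by
    intro x
    rw [hT]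
    simp only
    have h1 : (∑ i ∈ range (2 * n), w x ^ (p ^ i)) ^ p = ∑ i ∈ range (2 * n), w x ^ (p ^ (i + 1)) := by
      rw [sum_pow_char]
      apply Finset.sum_congr rfl
      intro i _
      rw [← pow_mul, pow_succ]
    rw [h1]
    have h2 := Finset.sum_range_succ' (fun i => w x ^ (p ^ i)) (2 * n)
    have h3 := Finset.sum_range_succ (fun i => w x ^ (p ^ i)) (2 * n)
    rw [h2] at h3
    have h4 : w x ^ (p ^ (2 * n)) = w x := by
      have h5 : p ^ (2 * n) = Fintype.card F := by rw [hFcard, ← pow_mul, mul_comm]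
      rw [h5, FiniteField.pow_card]
    rw [h4] at h3
    simp only [pow_zero, pow_one] at h3
    exact add_right_cancel h3
  have hTr : ∀ x, ∃ c : ZMod p, algebraMap (ZMod p) F c = T x := by
    intro x
    apply range_eq (algebraMap (ZMod p) F) (algebraMap (ZMod p) F).injective p hpr.one_lt
      (ZMod.card p)
    · intro s
      rw [← map_pow, ZMod.pow_card]
    · exact hTp x
  set N : ZMod p → ℕ := fun c => (univ.filter (fun x : F => algebraMap (ZMod p) F c = T x)).card
    with hN
  have hSS : SS p f (2 * n) = ∑ c : ZMod p, (ZMod.stdAddChar : AddChar (ZMod p) ℂ) c * N c := by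
    unfold SS
    rw [hFx, Finset.sum_image (fun x _ y _ h => hι h)]
    simp only [hTn]
    unfold psK
    rw [Finset.sum_comm]
    apply Finset.sum_congr rfl
    intro c _
    rw [hN]
    simp only
    rw [Finset.card_filter, Nat.cast_sum, Finset.mul_sum]
    apply Finset.sum_congr rfl
    intro x _
    have h1 : algebraMap (ZMod p) (KK p) c = ι (T x) ↔ algebraMap (ZMod p) F c = T x := by
      rw [← AlgHom.commutes ι]
      exact hι.eq_iff
    by_cases h2 : algebraMap (ZMod p) F c = T x
    · rw [if_pos h2, if_pos (h1.2 h2)]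
      simp
    · rw [if_neg h2, if_neg (fun h => h2 (h1.1 h))]
      simp
  have hNsum : ∑ c : ZMod p, N c = (p ^ n) ^ 2 := by
    rw [hN, ← hFcard, ← Finset.card_univ]
    simp only
    rw [← Finset.card_biUnion]
    · congr 1
      ext x
      rw [Finset.mem_biUnion]
      constructor
      · intro _
        exact Finset.mem_univ _
      · intro _
        obtain ⟨c, hc⟩ := hTr x
        exact ⟨c, Finset.mem_univ _, by rw [Finset.mem_filter]; exact ⟨Finset.mem_univ _, hc⟩⟩
    · intro c _ c' _ hcc
      simp only [Function.onFun]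
      rw [Finset.disjoint_left]
      intro x hx hx'
      rw [Finset.mem_filter] at hx hx'
      exact hcc ((algebraMap (ZMod p) F).injective (hx.2.trans hx'.2.symm))
  have hNle : ∀ c, N c * p ≤ (p ^ n) ^ 2 + C * p ^ n := by
    intro c
    have hfd : (f.map (algebraMap (ZMod p) F)).natDegree = d := by
      rw [natDegree_map, hf]
    have h1 := hC F n (f.map (algebraMap (ZMod p) F)) (algebraMap (ZMod p) F c) hn hFcard hfd
    refine le_trans ?_ h1
    rw [hN]
    simp only
    apply le_of_eq
    congr 2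
    apply Finset.filter_congr
    intro x _
    have h2 : T x = (∑ i ∈ range n, (eval x (f.map (algebraMap (ZMod p) F))) ^ (p ^ i))
          + (∑ i ∈ range n, (eval x (f.map (algebraMap (ZMod p) F))) ^ (p ^ i)) ^ (p ^ n) := by
      rw [hT]
      simp only
      have h3 : ∑ i ∈ range (2 * n), w x ^ (p ^ i)
          = ∑ i ∈ range n, w x ^ (p ^ i) + ∑ i ∈ range n, w x ^ (p ^ (n + i)) := by
        have h4 := Finset.sum_range_add (fun i => w x ^ (p ^ i)) n n
        have h5 : 2 * n = n + n := two_mul n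
        have h6 : range (2 * n) = range (n + n) := congrArg range h5
        rw [h6]
        exact h4
      rw [h3, sum_pow_char_pow]
      congr 1
      apply Finset.sum_congr rfl
      intro i _
      rw [← pow_mul, ← pow_add, add_comm]
    rw [← h2]
    exact eq_comm
  have hQ0 : (0 : ℝ) < (p : ℝ) ^ n := by
    have := hpr.pos
    positivity
  have hp0 : (0 : ℝ) < (p : ℝ) := by exact_mod_cast hpr.pos
  set D : ZMod p → ℝ := fun c => (N c : ℝ) * p - ((p : ℝ) ^ n) ^ 2 with hD
  have hDsum : ∑ c : ZMod p, D c = 0 := by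
    rw [hD]
    simp only
    rw [Finset.sum_sub_distrib, ← Finset.sum_mul, Finset.sum_const, Finset.card_univ, ZMod.card,
      nsmul_eq_mul]
    have h1 : ∑ c : ZMod p, (N c : ℝ) = ((p : ℝ) ^ n) ^ 2 := by exact_mod_cast hNsum
    rw [h1]
    ring
  have hDle : ∀ c ∈ (univ : Finset (ZMod p)), D c ≤ C * (p : ℝ) ^ n := by
    intro c _
    have h1 : (N c : ℝ) * p ≤ ((p : ℝ) ^ n) ^ 2 + C * (p : ℝ) ^ n := by exact_mod_cast hNle c
    rw [hD]
    simp only
    linarith
  have habs := abs_sum (ZMod p) univ D (C * (p : ℝ) ^ n) (by positivity) hDsum hDle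
  rw [Finset.card_univ, ZMod.card] at habs
  have hchi : ∑ c : ZMod p, (ZMod.stdAddChar : AddChar (ZMod p) ℂ) c = 0 := by
    have h1 := AddChar.sum_mulShift (R := ZMod p) (1 : ZMod p) (ZMod.isPrimitive_stdAddChar p)
    simpa using h1
  have hSS2 : (p : ℂ) * SS p f (2 * n)
      = ∑ c : ZMod p, (ZMod.stdAddChar : AddChar (ZMod p) ℂ) c * (D c : ℂ) := by
    rw [hSS, hD]
    simp only
    push_cast
    simp only [mul_sub]
    rw [Finset.sum_sub_distrib, ← Finset.sum_mul, hchi, zero_mul, sub_zero, Finset.mul_sum]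
    apply Finset.sum_congr rfl
    intro c _
    ring
  have h1 : (p : ℝ) * ‖SS p f (2 * n)‖ ≤ 2 * (p * (C * (p : ℝ) ^ n)) := by
    calc (p : ℝ) * ‖SS p f (2 * n)‖ = ‖(p : ℂ) * SS p f (2 * n)‖ := by
          rw [norm_mul, Complex.norm_natCast]
      _ = ‖∑ c : ZMod p, (ZMod.stdAddChar : AddChar (ZMod p) ℂ) c * (D c : ℂ)‖ := by rw [hSS2]
      _ ≤ ∑ c : ZMod p, |D c| := by
          refine (norm_sum_le _ _).trans (le_of_eq ?_)
          apply Finset.sum_congr rfl
          intro c _
          rw [norm_mul, AddChar.norm_apply, one_mul, Complex.norm_real, Real.norm_eq_abs]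
      _ ≤ _ := habs
  have h2 : (p : ℝ) * ‖SS p f (2 * n)‖ ≤ p * (2 * C * (p : ℝ) ^ n) := by linarith
  exact le_of_mul_le_mul_left h2 hp0

end Vale.Agent.P042
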