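import Vale.Agent.P042.WeilCore

open Polynomial Finset

namespace Vale.Agent.P042

namespace VanAux

section newton
variable {K : Type} [Field K] {m : ℕ}

/-- elementary symmetric function -/
noncomputable def E (u : Fin m → K) (n : ℕ) : K :=
  MvPolynomial.aeval u (MvPolynomial.esymm (Fin m) K n)

/-- power sum -/
def PS (u : Fin m → K) (n : ℕ) : K := ∑ i, u i ^ n

lemma newton (u : Fin m → K) (k : ℕ) (hk : 0 < k) :
    PS u k = (-1) ^ (k + 1) * k * E u k -
      ∑ a ∈ (antidiagonal k).filter (fun a => a.1 ∈ Set.Ioo 0 k),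
        (-1) ^ a.1 * E u a.1 * PS u a.2 := by
  have h := MvPolynomial.psum_eq_mul_esymm_sub_sum (Fin m) K k hk
  have h1 := congrArg (MvPolynomial.aeval u) h
  have h2 : ∀ n, MvPolynomial.aeval u (MvPolynomial.psum (Fin m) K n) = PS u n := by
    intro n
    simp [MvPolynomial.psum, PS]
  simp only [map_sub, map_mul, map_natCast, map_pow, map_neg, map_one, map_sum, h2] at h1
  exact h1

lemma PS_eq (u u' : Fin m → K) (d : ℕ) (h : ∀ j, 1 ≤ j → j < d → E u j = E u' j) :
    ∀ k, 1 ≤ k → k < d → PS u k = PS u' k := by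
  intro k
  induction k using Nat.strong_induction_on with
  | _ k ih =>
    intro hk1 hkd
    rw [newton u k hk1, newton u' k hk1, h k hk1 hkd]
    congr 1
    apply Finset.sum_congr rfl
    intro a ha
    rw [Finset.mem_filter, Finset.HasAntidiagonal.mem_antidiagonal] at ha
    obtain ⟨ha1, ha2, ha3⟩ := ha
    rw [h a.1 (by omega) (by omega), ih a.2 (by omega) (by omega) (by omega)]

lemma PS_top (u u' : Fin m → K) (d : ℕ) (hd : 1 ≤ d) (h : ∀ j, 1 ≤ j → j < d → E u j = E u' j) :
    PS u' d = PS u d + (-1) ^ (d + 1) * d * (E u' d - E u d) := by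
  rw [newton u d hd, newton u' d hd]
  have h1 : ∑ a ∈ (antidiagonal d).filter (fun a => a.1 ∈ Set.Ioo 0 d),
        (-1) ^ a.1 * E u a.1 * PS u a.2
      = ∑ a ∈ (antidiagonal d).filter (fun a => a.1 ∈ Set.Ioo 0 d),
        (-1) ^ a.1 * E u' a.1 * PS u' a.2 := by
    apply Finset.sum_congr rfl
    intro a ha
    rw [Finset.mem_filter, Finset.HasAntidiagonal.mem_antidiagonal] at ha
    obtain ⟨ha1, ha2, ha3⟩ := ha
    rw [h a.1 (by omega) (by omega), PS_eq u u' d h a.2 (by omega) (by omega)]
  rw [h1]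
  ring

lemma PS_mem (S : Subring K) (u : Fin m → K) (d : ℕ) (h : ∀ j, 1 ≤ j → j ≤ d → E u j ∈ S) :
    ∀ k, 1 ≤ k → k ≤ d → PS u k ∈ S := by
  intro k
  induction k using Nat.strong_induction_on with
  | _ k ih =>
    intro hk1 hkd
    rw [newton u k hk1]
    apply S.sub_mem
    · apply S.mul_mem (S.mul_mem _ (natCast_mem S k)) (h k hk1 hkd)
      exact S.pow_mem (S.neg_mem S.one_mem) _
    · apply S.sum_mem
      intro a ha
      rw [Finset.mem_filter, Finset.HasAntidiagonal.mem_antidiagonal] at ha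
      obtain ⟨ha1, ha2, ha3⟩ := ha
      exact S.mul_mem (S.mul_mem (S.pow_mem (S.neg_mem S.one_mem) _)
        (h a.1 (by omega) (by omega))) (ih a.2 (by omega) (by omega) (by omega))

omit [Field K] in
lemma exists_fun (B : Multiset K) (hB : Multiset.card B = m) :
    ∃ u : Fin m → K, (univ : Finset (Fin m)).val.map u = B := by
  subst hB
  induction B using Quotient.inductionOn with
  | _ l =>
    refine ⟨fun i => l.get i, ?_⟩
    rw [Fin.univ_val_map]
    have : List.ofFn (fun i => l.get i) = l := List.ofFn_get l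
    exact congrArg _ this

end newton

section
variable (p : ℕ) [hp : Fact p.Prime]

lemma psK_apply (c : ZMod p) :
    psK p (algebraMap (ZMod p) (KK p) c) = (ZMod.stdAddChar : AddChar (ZMod p) ℂ) c := by
  classical
  unfold psK
  rw [Finset.sum_eq_single c]
  · rw [if_pos rfl]
  · intro b _ hb
    rw [if_neg]
    intro h
    exact hb ((algebraMap (ZMod p) (KK p)).injective h)
  · intro h
    exact absurd (Finset.mem_univ c) h

lemma monicP_coeff (m : ℕ) (a : Fin m → ZMod p) (j : Fin m) :
    (monicP p m a).coeff (j : ℕ) = a j := by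
  unfold monicP
  rw [coeff_add, coeff_X_pow, if_neg (by have := j.2; omega), zero_add, finsetSum_coeff]
  simp only [coeff_C_mul, coeff_X_pow]
  rw [Finset.sum_eq_single j]
  · simp
  · intro b _ hb
    rw [if_neg, mul_zero]
    intro h
    exact hb (Fin.ext h.symm)
  · intro h
    exact absurd (Finset.mem_univ j) h

lemma monicP_lt (m : ℕ) (a : Fin m → ZMod p) :
    (∑ i : Fin m, C (a i) * X ^ (i : ℕ) : (ZMod p)[X]).degree < m := by
  rw [Polynomial.degree_lt_iff_coeff_zero]
  intro n hn
  rw [finsetSum_coeff]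
  apply Finset.sum_eq_zero
  intro i _
  rw [coeff_C_mul, coeff_X_pow, if_neg, mul_zero]
  have := i.2
  omega

lemma monicP_monic (m : ℕ) (a : Fin m → ZMod p) : (monicP p m a).Monic :=
  monic_X_pow_add (monicP_lt p m a)

lemma monicP_natDegree (m : ℕ) (a : Fin m → ZMod p) : (monicP p m a).natDegree = m :=
  natDegree_eq_of_degree_eq_some (by
    unfold monicP
    rw [degree_add_eq_left_of_degree_lt, degree_X_pow]
    rw [degree_X_pow]
    exact monicP_lt p m a)

/-- roots as a function -/
lemma roots_fun (m : ℕ) (a : Fin m → ZMod p) : ∃ u : Fin m → KK p,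
    (univ : Finset (Fin m)).val.map u
      = ((monicP p m a).map (algebraMap (ZMod p) (KK p))).roots ∧
    ∀ (j : ℕ) (_ : 1 ≤ j) (_ : j ≤ m), E u j = (-1) ^ j *
      algebraMap (ZMod p) (KK p) (a ⟨m - j, by omega⟩) := by
  set g := (monicP p m a).map (algebraMap (ZMod p) (KK p)) with hg
  have hdeg : g.natDegree = m := by
    rw [hg, natDegree_map, monicP_natDegree]
  have hcard : Multiset.card g.roots = g.natDegree :=
    IsAlgClosed.card_roots_eq_natDegree
  obtain ⟨u, hu⟩ := exists_fun g.roots (hcard.trans hdeg)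
  refine ⟨u, hu, ?_⟩
  intro j hj1 hj
  have h1 := Polynomial.coeff_eq_esymm_roots_of_card hcard (k := m - j) (by omega)
  have h2 : g.leadingCoeff = 1 := by
    rw [hg, leadingCoeff_map, monicP_monic, map_one]
  rw [h2, one_mul, hdeg] at h1
  have h3 : m - (m - j) = j := by omega
  rw [h3, ← hu] at h1
  have h4 : g.coeff (m - j) = algebraMap (ZMod p) (KK p) (a ⟨m - j, by omega⟩) := by
    rw [hg, coeff_map, ← monicP_coeff p m a ⟨m - j, by omega⟩]
  unfold E
  rw [MvPolynomial.aeval_esymm_eq_multiset_esymm, ← h4, h1, ← mul_assoc, ← pow_add, ← two_mul,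
    pow_mul]
  simp

lemma sum_roots (f : (ZMod p)[X]) (m : ℕ) (u : Fin m → KK p) :
    ((((univ : Finset (Fin m)).val.map u)).map (fun β => evK p f β)).sum
      = ∑ k ∈ range (f.natDegree + 1), algebraMap (ZMod p) (KK p) (f.coeff k) * PS u k := by
  rw [Multiset.map_map]
  change ∑ i, evK p f (u i) = _
  unfold PS
  simp_rw [Finset.mul_sum]
  rw [Finset.sum_comm]
  apply Finset.sum_congr rfl
  intro i _
  unfold evK
  rw [Polynomial.eval_map, Polynomial.eval₂_eq_sum_range]

/-- change of `chiF` under the shift -/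
lemma shift (f : (ZMod p)[X]) (d m : ℕ) (hf : f.natDegree = d) (hd : 1 ≤ d) (hdm : d ≤ m)
    (a : Fin m → ZMod p) (c : ZMod p) :
    chiF p f (monicP p m (a + Pi.single ⟨m - d, by omega⟩ c))
      = (ZMod.stdAddChar : AddChar (ZMod p) ℂ) (- (d * f.coeff d * c))
        * chiF p f (monicP p m a) := by
  classical
  set a' := a + Pi.single (⟨m - d, by omega⟩ : Fin m) c with ha'
  obtain ⟨u, hu1, hu2⟩ := roots_fun p m a
  obtain ⟨u', hu1', hu2'⟩ := roots_fun p m a'
  have hE : ∀ j, 1 ≤ j → j < d → E u j = E u' j := by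
    intro j hj1 hjd
    rw [hu2 j hj1 (by omega), hu2' j hj1 (by omega), ha', Pi.add_apply, Pi.single_apply,
      if_neg, add_zero]
    intro h
    have := congrArg Fin.val h
    simp only at this
    omega
  have hEd : E u' d - E u d = (-1) ^ d * algebraMap (ZMod p) (KK p) c := by
    rw [hu2 d hd hdm, hu2' d hd hdm, ha', Pi.add_apply, Pi.single_apply, if_pos rfl, map_add]
    ring
  have hPS := PS_eq u u' d hE
  have hPSd := PS_top u u' d hd hE
  rw [hEd] at hPSd
  have hPSd' : PS u' d = PS u d - algebraMap (ZMod p) (KK p) (d * c) := by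
    rw [hPSd, map_mul, map_natCast]
    have h1 : ((-1 : KK p)) ^ (d + 1) * d * ((-1) ^ d * algebraMap (ZMod p) (KK p) c)
        = - (((-1) ^ d * (-1) ^ d) * (d * algebraMap (ZMod p) (KK p) c)) := by ring
    rw [h1, ← mul_pow]
    simp
    ring
  -- the trace is in the prime field
  have hmem : ∀ k, k ≤ d → PS u k ∈ (algebraMap (ZMod p) (KK p)).range := by
    intro k hk
    rcases Nat.eq_zero_or_pos k with h0 | h0
    · subst h0
      refine ⟨(m : ZMod p), ?_⟩
      simp [PS]
    · apply PS_mem _ u d _ k h0 hk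
      intro j hj1 hjd
      rw [hu2 j hj1 (by omega)]
      refine ⟨(-1) ^ j * a ⟨m - j, by omega⟩, ?_⟩
      simp
  have hS : ∃ T : ZMod p, algebraMap (ZMod p) (KK p) T
      = ∑ k ∈ range (f.natDegree + 1), algebraMap (ZMod p) (KK p) (f.coeff k) * PS u k := by
    have : ∑ k ∈ range (f.natDegree + 1), algebraMap (ZMod p) (KK p) (f.coeff k) * PS u k
        ∈ (algebraMap (ZMod p) (KK p)).range := by
      apply Subring.sum_mem
      intro k hk
      rw [hf] at hk
      apply Subring.mul_mem
      · exact ⟨_, rfl⟩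
      · exact hmem k (by have := Finset.mem_range.1 hk; omega)
    exact this
  obtain ⟨T, hT⟩ := hS
  have hT' : algebraMap (ZMod p) (KK p) (- (d * f.coeff d * c) + T)
      = ∑ k ∈ range (f.natDegree + 1), algebraMap (ZMod p) (KK p) (f.coeff k) * PS u' k := by
    rw [map_add, hT, hf, Finset.sum_range_succ, Finset.sum_range_succ, hPSd']
    have h1 : ∑ k ∈ range d, algebraMap (ZMod p) (KK p) (f.coeff k) * PS u' k
        = ∑ k ∈ range d, algebraMap (ZMod p) (KK p) (f.coeff k) * PS u k := by
      apply Finset.sum_congr rfl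
      intro k hk
      rcases Nat.eq_zero_or_pos k with h0 | h0
      · subst h0
        simp [PS]
      · rw [hPS k h0 (Finset.mem_range.1 hk)]
    rw [h1]
    simp only [map_mul, map_neg, map_natCast]
    ring
  unfold chiF
  rw [← hu1, ← hu1', sum_roots, sum_roots, ← hT, ← hT', psK_apply, psK_apply,
    AddChar.map_add_eq_mul]

end

end VanAux

open VanAux

theorem van : VAN := by
  intro p hp f d m hf hd hdp hdm
  classical
  have hj : m - d < m := by omega
  have h1 : cc p f m = (ZMod.stdAddChar : AddChar (ZMod p) ℂ) (- (d * f.coeff d * 1))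
      * cc p f m := by
    conv_lhs => unfold cc
    rw [← Equiv.sum_comp (Equiv.addRight (Pi.single (⟨m - d, hj⟩ : Fin m) (1 : ZMod p)))]
    simp only [Equiv.coe_addRight]
    rw [Finset.sum_congr rfl (fun a _ => shift p f d m hf hd hdm a 1), ← Finset.mul_sum]
    rfl
  have h2 : (ZMod.stdAddChar : AddChar (ZMod p) ℂ) (- (d * f.coeff d * 1)) ≠ 1 := by
    intro h
    have h3 : (ZMod.stdAddChar : AddChar (ZMod p) ℂ) (- (d * f.coeff d * 1))
        = (ZMod.stdAddChar : AddChar (ZMod p) ℂ) 0 := by
      rw [h, AddChar.map_zero_eq_one]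
    have h4 := ZMod.injective_stdAddChar h3
    rw [mul_one, neg_eq_zero, mul_eq_zero] at h4
    rcases h4 with h4 | h4
    · rw [ZMod.natCast_eq_zero_iff] at h4
      have := Nat.le_of_dvd (by omega) h4
      omega
    · rw [← hf] at h4
      have h5 : f = 0 := leadingCoeff_eq_zero.1 h4
      rw [h5, natDegree_zero] at hf
      omega
  have h3 : (1 - (ZMod.stdAddChar : AddChar (ZMod p) ℂ) (- (d * f.coeff d * 1)))
      * cc p f m = 0 := by
    rw [sub_mul, one_mul, ← h1, sub_self]
  rcases mul_eq_zero.1 h3 with h | h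
  · exact absurd (sub_eq_zero.1 h).symm h2
  · exact h

end Vale.Agent.P042
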