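import Vale.Agent.P042.WeilCore

open Polynomial Finset

namespace Vale.Agent.P042
namespace WeilP

section
variable (p : ℕ) [hpf : Fact p.Prime]

theorem psK_alg (z : ZMod p) : psK p (algebraMap (ZMod p) (KK p) z) = ZMod.stdAddChar z := by
  classical
  unfold psK
  rw [sum_eq_single z]
  · rw [if_pos rfl]
  · intro c _ hc
    rw [if_neg]
    intro h
    exact hc ((algebraMap (ZMod p) (KK p)).injective h)
  · intro h; exact absurd (mem_univ z) h

theorem sum_Fx_one (φ : KK p → ℂ) :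
    ∑ x ∈ Fx p 1, φ x = ∑ c : ZMod p, φ (algebraMap (ZMod p) (KK p) c) := by
  classical
  have hp := hpf.out
  have hne : (X ^ (p ^ 1) - X : (KK p)[X]) ≠ 0 := by
    rw [pow_one]
    exact FiniteField.X_pow_card_sub_X_ne_zero (KK p) hp.one_lt
  have hdeg : (X ^ (p ^ 1) - X : (KK p)[X]).natDegree = p := by
    rw [pow_one]
    exact FiniteField.X_pow_card_sub_X_natDegree_eq (KK p) hp.one_lt
  have hmem : ∀ x : KK p, x ∈ Fx p 1 ↔ x ^ p = x := by
    intro x
    unfold Fx
    rw [Multiset.mem_toFinset, mem_roots hne, IsRoot, eval_sub, eval_pow, eval_X, pow_one,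
      sub_eq_zero]
  have hsub : (univ : Finset (ZMod p)).image (algebraMap (ZMod p) (KK p)) ⊆ Fx p 1 := by
    intro x hx
    obtain ⟨c, _, rfl⟩ := mem_image.1 hx
    rw [hmem, ← map_pow, ZMod.pow_card]
  have hcard1 : ((univ : Finset (ZMod p)).image (algebraMap (ZMod p) (KK p))).card = p := by
    rw [card_image_of_injective _ (algebraMap (ZMod p) (KK p)).injective, card_univ, ZMod.card]
  have hcard2 : (Fx p 1).card ≤ p := by
    unfold Fx
    refine (Multiset.toFinset_card_le _).trans ?_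
    refine (card_roots' _).trans ?_
    rw [hdeg]
  have heq := eq_of_subset_of_card_le hsub (by rw [hcard1]; exact hcard2)
  rw [← heq, sum_image (fun a _ b _ h => (algebraMap (ZMod p) (KK p)).injective h)]

theorem SS_one (f : (ZMod p)[X]) : SS p f 1 = ∑ c : ZMod p, ZMod.stdAddChar (f.eval c) := by
  unfold SS
  rw [sum_Fx_one]
  apply sum_congr rfl
  intro c _
  have : Tn p f 1 (algebraMap (ZMod p) (KK p) c) = algebraMap (ZMod p) (KK p) (f.eval c) := by
    unfold Tn
    rw [sum_range_one, pow_zero, pow_one]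
    unfold evK
    rw [eval_map_algebraMap, aeval_algebraMap_apply_eq_algebraMap_eval]
  rw [this, psK_alg]

theorem cc_zero (f : (ZMod p)[X]) : cc p f 0 = 1 := by
  classical
  unfold cc
  rw [Fintype.sum_eq_single (fun i : Fin 0 => Fin.elim0 i) (fun a ha => absurd (Subsingleton.elim _ _) ha)]
  unfold monicP chiF
  have h0 := psK_alg p 0
  rw [map_zero] at h0
  simp only [pow_zero, univ_eq_empty, sum_empty, add_zero, Polynomial.map_one, roots_one]
  have e : (Multiset.map (fun x => evK p f x) (∅ : Multiset (KK p))).sum = 0 := by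
    rw [Multiset.empty_eq_zero, Multiset.map_zero, Multiset.sum_zero]
  rw [e, h0]
  exact AddChar.map_zero_eq_one _

theorem norm_Gs_le_one (g : ℤ[X]) (a : ℤ) (q : ℕ) : ‖Gs g a q‖ ≤ 1 := by
  unfold Gs
  rw [norm_div, Complex.norm_natCast]
  rcases Nat.eq_zero_or_pos q with h | h
  · subst h; simp
  · have hq : (0 : ℝ) < q := by exact_mod_cast h
    rw [div_le_one hq]
    calc ‖∑ u ∈ range q, ee ((a : ℝ) * ((g.eval (u : ℤ) : ℤ) : ℝ) / (q : ℝ))‖
        ≤ ∑ u ∈ range q, ‖ee ((a : ℝ) * ((g.eval (u : ℤ) : ℤ) : ℝ) / (q : ℝ))‖ := norm_sum_le _ _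
      _ = ∑ u ∈ range q, (1 : ℝ) := sum_congr rfl (fun u _ => by
          unfold ee; exact Complex.norm_exp_ofReal_mul_I _)
      _ = q := by simp

theorem Gs_eq (g : ℤ[X]) (a : ℤ) : Gs g a p
    = (∑ c : ZMod p, ZMod.stdAddChar
        (((Polynomial.C a * g).map (Int.castRingHom (ZMod p))).eval c)) / (p : ℂ) := by
  have hp := hpf.out
  unfold Gs
  congr 1
  have h1 : ∀ u ∈ range p, ee ((a : ℝ) * ((g.eval (u : ℤ) : ℤ) : ℝ) / (p : ℝ))
      = ZMod.stdAddChar
        (((Polynomial.C a * g).map (Int.castRingHom (ZMod p))).eval ((u : ℕ) : ZMod p)) := by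
    intro u _
    have e1 : ((Polynomial.C a * g).map (Int.castRingHom (ZMod p))).eval ((u : ℕ) : ZMod p)
        = (((a * g.eval (u : ℤ) : ℤ)) : ZMod p) := by
      have : ((u : ℕ) : ZMod p) = Int.castRingHom (ZMod p) (u : ℤ) := by simp
      rw [this, eval_map_apply, eval_mul, eval_C]
      simp
    rw [e1, ZMod.stdAddChar_coe]
    unfold ee
    congr 1
    push_cast
    ring
  rw [sum_congr rfl h1]
  apply sum_nbij' (fun u : ℕ => ((u : ℕ) : ZMod p)) (fun c : ZMod p => c.val)
  · intro u _; exact mem_univ _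
  · intro c _; exact mem_range.2 (ZMod.val_lt c)
  · intro u hu; exact ZMod.val_cast_of_lt (mem_range.1 hu)
  · intro c _; exact ZMod.natCast_zmod_val c
  · intro u _; rfl

end

end WeilP

open WeilP

theorem weil : LFN → VAN → SNB → NEWT → ROOTB → WEIL := by
  intro hLFN hVAN hSNB hNEWT hROOTB k hk
  refine ⟨k ^ 2, ?_⟩
  intro g p a hg hp hcoef ha
  have : Fact p.Prime := ⟨hp⟩
  have hk1 : (1 : ℝ) ≤ k := by exact_mod_cast hk
  rcases le_or_gt p k with hpk | hpk
  · have h1 := norm_Gs_le_one g a p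
    have h0 := norm_nonneg (Gs g a p)
    have h2 : (p : ℝ) ≤ k := by exact_mod_cast hpk
    have h3 : (0 : ℝ) ≤ p := Nat.cast_nonneg _
    push_cast
    calc ‖Gs g a p‖ ^ 2 * (p : ℝ) ≤ 1 * p :=
          mul_le_mul_of_nonneg_right (pow_le_one₀ h0 h1) h3
      _ ≤ (k : ℝ) ^ 2 := by nlinarith
  · set f : (ZMod p)[X] := (Polynomial.C a * g).map (Int.castRingHom (ZMod p)) with hf
    have haz : ((a : ℤ) : ZMod p) ≠ 0 := by
      rw [Ne, ZMod.intCast_zmod_eq_zero_iff_dvd]; exact ha
    have hfc : ∀ i, f.coeff i = (a : ZMod p) * ((g.coeff i : ℤ) : ZMod p) := by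
      intro i
      rw [hf, coeff_map, coeff_C_mul]
      simp
    obtain ⟨i, hi1, hi2⟩ := hcoef
    have hfi : f.coeff i ≠ 0 := by
      rw [hfc]
      apply mul_ne_zero haz
      rw [Ne, ZMod.intCast_zmod_eq_zero_iff_dvd]; exact hi2
    set d := f.natDegree with hd
    have hd1 : 1 ≤ d := hi1.trans (le_natDegree_of_ne_zero hfi)
    have hdk : d ≤ k := by
      rw [hd, hf]
      refine (natDegree_map_le).trans ?_
      exact (natDegree_C_mul_le a g).trans hg
    have hdp : d < p := lt_of_le_of_lt hdk hpk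
    obtain ⟨α, hα⟩ := hNEWT (cc p f) (SS p f) (d - 1) (cc_zero p f)
      (fun m hm => hVAN p f d m rfl hd1 hdp (by omega))
      (fun m => hLFN p f m)
    obtain ⟨C, hC⟩ := hSNB p f d rfl hd1 hdp
    have hp0 : (0 : ℝ) < p := by exact_mod_cast hp.pos
    have hroot : ∀ i, ‖α i‖ ^ 2 ≤ p := by
      apply hROOTB (d - 1) α p C hp0
      intro n hn
      have h1 := hC n hn
      rw [hα (2 * n) (by omega), norm_neg] at h1
      exact h1
    have hroot2 : ∀ i, ‖α i‖ ≤ Real.sqrt p := fun i => Real.le_sqrt_of_sq_le (hroot i)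
    have hS1 : ‖SS p f 1‖ ≤ (k : ℝ) * Real.sqrt p := by
      rw [hα 1 le_rfl, norm_neg]
      refine (norm_sum_le _ _).trans ?_
      calc ∑ i, ‖α i ^ 1‖ ≤ ∑ _i : Fin (d - 1), Real.sqrt p := by
            apply sum_le_sum
            intro i _
            rw [pow_one]; exact hroot2 i
        _ = ((d - 1 : ℕ) : ℝ) * Real.sqrt p := by
            rw [sum_const, card_univ, Fintype.card_fin, nsmul_eq_mul]
        _ ≤ (k : ℝ) * Real.sqrt p := by
            apply mul_le_mul_of_nonneg_right _ (Real.sqrt_nonneg _)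
            have : d - 1 ≤ k := by omega
            exact_mod_cast this
    rw [Gs_eq p g a, ← hf, ← SS_one p f, norm_div, Complex.norm_natCast, div_pow]
    have hsq : ‖SS p f 1‖ ^ 2 ≤ (k : ℝ) ^ 2 * p := by
      calc ‖SS p f 1‖ ^ 2 ≤ ((k : ℝ) * Real.sqrt p) ^ 2 :=
            pow_le_pow_left₀ (norm_nonneg _) hS1 2
        _ = (k : ℝ) ^ 2 * p := by rw [mul_pow, Real.sq_sqrt hp0.le]
    push_cast
    rw [div_mul_eq_mul_div, div_le_iff₀ (by positivity)]
    nlinarith

end Vale.Agent.P042
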