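import Vale.Agent.P042.Core

/-!
# P042, module C2: inverse form of Weyl's inequality
-/

open Polynomial Finset

namespace Vale.Agent.P042

namespace Weylm

theorem ee_add (x y : ℝ) : ee (x + y) = ee x * ee y := by
  unfold ee
  rw [← Complex.exp_add]
  congr 1
  push_cast
  ring

theorem norm_ee (x : ℝ) : ‖ee x‖ = 1 := by
  unfold ee
  exact Complex.norm_exp_ofReal_mul_I _

theorem ee_int (n : ℤ) : ee (n : ℝ) = 1 := by
  unfold ee
  have : (((2 * Real.pi * (n : ℝ) : ℝ) : ℂ) * Complex.I) = n * (2 * Real.pi * Complex.I) := by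
    push_cast
    ring
  rw [this]
  exact Complex.exp_int_mul_two_pi_mul_I n

theorem ee_conj (x : ℝ) : (starRingEnd ℂ) (ee x) = ee (-x) := by
  unfold ee
  rw [← Complex.exp_conj]
  congr 1
  rw [map_mul, Complex.conj_I, Complex.conj_ofReal]
  push_cast
  ring

theorem ee_sub (x y : ℝ) : ee x * (starRingEnd ℂ) (ee y) = ee (x - y) := by
  rw [ee_conj, ← ee_add, sub_eq_add_neg]

theorem norm_ee_sub_one (x : ℝ) : ‖ee x - 1‖ = 2 * |Real.sin (Real.pi * x)| := by
  unfold ee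
  have h := Complex.norm_exp_I_mul_ofReal_sub_one (2 * Real.pi * x)
  rw [mul_comm] at h
  rw [h]
  rw [Real.norm_eq_abs, abs_mul]
  have : (2 * Real.pi * x / 2) = Real.pi * x := by ring
  rw [this]
  norm_num

theorem ee_sub_one_ge (x : ℝ) : 4 * nn x ≤ ‖ee x - 1‖ := by
  set y : ℝ := x - round x with hy
  have hy2 : |y| ≤ 1 / 2 := abs_sub_round x
  have hxy : ee x = ee y := by
    have : x = y + (round x : ℤ) := by rw [hy]; ring
    rw [this, ee_add, ee_int, mul_one]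
  have hn : nn x = |y| := rfl
  rw [hxy, hn, norm_ee_sub_one]
  have h1 : |Real.sin (Real.pi * y)| = Real.sin (Real.pi * |y|) := by
    rcases le_total 0 y with h | h
    · rw [abs_of_nonneg h]
      apply abs_of_nonneg
      apply Real.sin_nonneg_of_nonneg_of_le_pi
      · positivity
      · rw [abs_of_nonneg h] at hy2
        nlinarith [Real.pi_pos]
    · rw [abs_of_nonpos h]
      rw [mul_neg, Real.sin_neg]
      apply abs_of_nonpos
      rw [abs_of_nonpos h] at hy2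
      have : 0 ≤ Real.sin (Real.pi * (-y)) := by
        apply Real.sin_nonneg_of_nonneg_of_le_pi
        · have : 0 ≤ -y := by linarith
          positivity
        · nlinarith [Real.pi_pos]
      rw [mul_neg, Real.sin_neg] at this
      linarith
  rw [h1]
  have h2 : 2 / Real.pi * (Real.pi * |y|) ≤ Real.sin (Real.pi * |y|) := by
    apply Real.mul_le_sin
    · positivity
    · nlinarith [Real.pi_pos]
  have h3 : 2 / Real.pi * (Real.pi * |y|) = 2 * |y| := by
    field_simp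
  linarith

/-- `|∑ e(β v + γ)| nn β ≤ 1/2` -/
lemma linear_sum (β γ : ℝ) (V : ℕ) :
    ‖∑ v ∈ range V, ee (β * v + γ)‖ * nn β ≤ 1 / 2 := by
  have h1 : (∑ v ∈ range V, ee (β * v + γ)) * (ee β - 1)
      = ee (β * V + γ) - ee γ := by
    induction V with
    | zero => simp
    | succ V ih =>
      rw [Finset.sum_range_succ, add_mul, ih]
      have e : ee (β * ((V + 1 : ℕ) : ℝ) + γ) = ee (β * V + γ) * ee β := by
        rw [← ee_add]; congr 1; push_cast; ring
      rw [e]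
      ring
  have h2 : ‖∑ v ∈ range V, ee (β * v + γ)‖ * ‖ee β - 1‖ ≤ 2 := by
    rw [← norm_mul, h1]
    refine (norm_sub_le _ _).trans ?_
    rw [norm_ee, norm_ee]; norm_num
  have h3 := mul_le_mul_of_nonneg_left (ee_sub_one_ge β)
    (norm_nonneg (∑ v ∈ range V, ee (β * v + γ)))
  linarith

/-- off-diagonal part by differences -/
lemma offdiag (f : ℕ → ℕ → ℂ) (V : ℕ) :
    ∑ w ∈ range V, ∑ v ∈ (range V).filter (fun v => w < v), f v w
      = ∑ h ∈ Ico 1 V, ∑ w ∈ range (V - h), f (w + h) w := by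
  rw [Finset.sum_sigma', Finset.sum_sigma']
  refine Finset.sum_nbij' (fun p => ⟨p.2 - p.1, p.1⟩) (fun p => ⟨p.2, p.2 + p.1⟩) ?_ ?_ ?_ ?_ ?_
  · rintro ⟨w, v⟩ h
    simp only [Finset.mem_sigma, Finset.mem_range, Finset.mem_filter, Finset.mem_Ico] at h ⊢
    omega
  · rintro ⟨h, w⟩ h'
    simp only [Finset.mem_sigma, Finset.mem_range, Finset.mem_filter, Finset.mem_Ico] at h' ⊢
    omega
  · rintro ⟨w, v⟩ h
    simp only [Finset.mem_sigma, Finset.mem_range, Finset.mem_filter] at h ⊢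
    have : w + (v - w) = v := by omega
    rw [this]
  · rintro ⟨h, w⟩ h'
    simp only [Finset.mem_sigma, Finset.mem_range, Finset.mem_Ico] at h' ⊢
    have : w + h - w = h := by omega
    rw [this]
  · rintro ⟨w, v⟩ h
    simp only [Finset.mem_sigma, Finset.mem_range, Finset.mem_filter] at h ⊢
    have : w + (v - w) = v := by omega
    rw [this]

/-- Weyl differencing -/
lemma differencing (a : ℕ → ℂ) (ha : ∀ v, ‖a v‖ = 1) (V : ℕ) :
    ‖∑ v ∈ range V, a v‖ ^ 2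
      ≤ V + 2 * ∑ h ∈ Ico 1 V, ‖∑ w ∈ range (V - h), a (w + h) * (starRingEnd ℂ) (a w)‖ := by
  set c := starRingEnd ℂ with hc
  set A : ℂ := ∑ w ∈ range V, ∑ v ∈ (range V).filter (fun v => w < v), a v * c (a w) with hA
  have h1 : (∑ v ∈ range V, a v) * c (∑ v ∈ range V, a v) = V + A + c A := by
    rw [map_sum, Finset.sum_mul_sum]
    rw [Finset.sum_comm]
    have split : ∀ w ∈ range V, ∑ v ∈ range V, a v * c (a w)
        = 1 + ∑ v ∈ (range V).filter (fun v => w < v), a v * c (a w)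
          + ∑ v ∈ (range V).filter (fun v => v < w), a v * c (a w) := by
      intro w hw
      have e1 := Finset.sum_filter_add_sum_filter_not (range V) (fun v => w < v)
        (fun v => a v * c (a w))
      have e2 := Finset.sum_filter_add_sum_filter_not ((range V).filter (fun v => ¬ w < v))
        (fun v => v < w) (fun v => a v * c (a w))
      have e3 : ((range V).filter (fun v => ¬ w < v)).filter (fun v => v < w)
          = (range V).filter (fun v => v < w) := by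
        ext v; simp only [Finset.mem_filter, Finset.mem_range]; omega
      have e4 : ((range V).filter (fun v => ¬ w < v)).filter (fun v => ¬ v < w) = {w} := by
        ext v; simp only [Finset.mem_filter, Finset.mem_range, Finset.mem_singleton]
        have := Finset.mem_range.1 hw
        omega
      rw [e3, e4, Finset.sum_singleton] at e2
      have e5 : a w * c (a w) = 1 := by
        rw [hc, Complex.mul_conj, Complex.normSq_eq_norm_sq, ha w]; norm_num
      rw [← e1, ← e2, e5]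
      ring
    rw [Finset.sum_congr rfl split, Finset.sum_add_distrib, Finset.sum_add_distrib]
    simp only [Finset.sum_const, Finset.card_range, nsmul_eq_mul, mul_one]
    congr 1
    -- lower triangle is the conjugate of the upper one
    rw [hA, map_sum]
    have e6 : ∀ w, c (∑ v ∈ (range V).filter (fun v => w < v), a v * c (a w))
        = ∑ v ∈ (range V).filter (fun v => w < v), a w * c (a v) := by
      intro w
      rw [map_sum]
      refine Finset.sum_congr rfl fun v _ => ?_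
      rw [map_mul, hc, Complex.conj_conj]; ring
    rw [Finset.sum_congr rfl (fun w _ => e6 w)]
    simp only [Finset.sum_filter]
    rw [Finset.sum_comm]
  have h2 : ‖∑ v ∈ range V, a v‖ ^ 2 = ‖(V : ℂ) + A + c A‖ := by
    rw [← h1, norm_mul, hc, Complex.norm_conj, sq]
  have h3 : A = ∑ h ∈ Ico 1 V, ∑ w ∈ range (V - h), a (w + h) * c (a w) := by
    rw [hA]
    exact offdiag (fun v w => a v * c (a w)) V
  rw [h2]
  have h4 : ‖A‖ ≤ ∑ h ∈ Ico 1 V, ‖∑ w ∈ range (V - h), a (w + h) * c (a w)‖ := by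
    rw [h3]; exact norm_sum_le _ _
  calc ‖(V : ℂ) + A + c A‖ ≤ ‖(V : ℂ) + A‖ + ‖c A‖ := norm_add_le _ _
    _ ≤ ‖(V : ℂ)‖ + ‖A‖ + ‖c A‖ := by linarith [norm_add_le (V : ℂ) A]
    _ = V + 2 * ‖A‖ := by rw [Complex.norm_natCast, hc, Complex.norm_conj]; ring
    _ ≤ _ := by linarith

/-- the differenced polynomial -/
lemma diffpoly (P : ℝ[X]) (k : ℕ) (hP : P.natDegree ≤ k + 1) (h : ℝ) :
    (taylor h P - P).natDegree ≤ k ∧
      (taylor h P - P).coeff k = ((k : ℝ) + 1) * h * P.coeff (k + 1) := by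
  have key : ∀ n, (taylor h P).coeff n = ∑ i ∈ range (k + 1 - n + 1),
      (((i + n).choose n : ℕ) : ℝ) * P.coeff (i + n) * h ^ i := by
    intro n
    rw [taylor_coeff]
    have hd : (hasseDeriv n P).natDegree < k + 1 - n + 1 := by
      have := natDegree_hasseDeriv_le P n
      omega
    rw [eval_eq_sum_range' hd]
    refine Finset.sum_congr rfl fun i _ => ?_
    rw [hasseDeriv_coeff]
  constructor
  · rw [natDegree_le_iff_coeff_eq_zero]
    intro N hN
    rw [coeff_sub]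
    rcases Nat.lt_or_ge (k + 1) N with h1 | h1
    · rw [coeff_eq_zero_of_natDegree_lt (by rw [natDegree_taylor]; omega),
        coeff_eq_zero_of_natDegree_lt (by omega)]
      ring
    · have : N = k + 1 := by omega
      subst this
      rw [key]
      simp
  · rw [coeff_sub, key]
    have e : k + 1 - k + 1 = 2 := by omega
    rw [e, Finset.sum_range_succ, Finset.sum_range_one]
    have e2 : (1 + k).choose k = k + 1 := by
      rw [add_comm, Nat.choose_succ_self_right]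
    rw [e2]
    simp
    rw [add_comm 1 k]
    ring

lemma nn_le_half (x : ℝ) : nn x ≤ 1 / 2 := abs_sub_round x

/-- the trivial choice `y = 1` -/
lemma trivial_case (α : ℝ) (k V e : ℕ) (B : ℝ) (hV : 1 ≤ V) (hB : (V : ℝ) ^ k ≤ 2 * B ^ e)
    (hB1 : 1 ≤ B) :
    ∃ y : ℕ, 1 ≤ y ∧ (y : ℝ) ≤ B ^ e ∧ nn ((y : ℝ) * α) ≤ B ^ e / (V : ℝ) ^ k := by
  refine ⟨1, le_rfl, ?_, ?_⟩
  · rw [Nat.cast_one]; exact one_le_pow₀ hB1
  · refine (nn_le_half _).trans ?_
    have hV0 : (0 : ℝ) < (V : ℝ) ^ k := by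
      have : (0 : ℝ) < V := by exact_mod_cast hV
      positivity
    rw [le_div_iff₀ hV0]
    linarith

/-- large set of good differences -/
lemma good_diff (b : ℕ → ℝ) (V : ℕ) (δ S : ℝ) (hV : 1 ≤ V) (hδ : 0 < δ)
    (hS : δ * V ≤ S) (hVδ : 2 / δ ^ 2 ≤ V)
    (hb : ∀ h ∈ Ico 1 V, b h ≤ V)
    (hdiff : S ^ 2 ≤ V + 2 * ∑ h ∈ Ico 1 V, b h) :
    δ ^ 2 * V / 8 ≤ (((Ico 1 V).filter (fun h => δ ^ 2 * V / 8 ≤ b h)).card : ℝ) := by
  classical
  have hV0 : (0 : ℝ) < V := by exact_mod_cast hV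
  have hδ2 : 0 < δ ^ 2 := by positivity
  have h1 : (V : ℝ) ≤ δ ^ 2 * V ^ 2 / 2 := by
    rw [div_le_iff₀ hδ2] at hVδ
    nlinarith
  have h2 : (δ * V) ^ 2 ≤ S ^ 2 := pow_le_pow_left₀ (by positivity) hS 2
  have h3 : δ ^ 2 * V ^ 2 / 4 ≤ ∑ h ∈ Ico 1 V, b h := by
    have e : (δ * V) ^ 2 = δ ^ 2 * V ^ 2 := by ring
    rw [e] at h2
    linarith
  have h4 : ∑ h ∈ Ico 1 V, b h
      ≤ (((Ico 1 V).filter (fun h => δ ^ 2 * V / 8 ≤ b h)).card : ℝ) * V
        + V * (δ ^ 2 * V / 8) := by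
    rw [← Finset.sum_filter_add_sum_filter_not (Ico 1 V) (fun h => δ ^ 2 * V / 8 ≤ b h)]
    apply add_le_add
    · refine (Finset.sum_le_sum (g := fun _ => (V : ℝ)) ?_).trans ?_
      · intro h hh; exact hb h (Finset.mem_filter.1 hh).1
      · rw [Finset.sum_const, nsmul_eq_mul]
    · refine (Finset.sum_le_sum (g := fun _ => δ ^ 2 * V / 8) ?_).trans ?_
      · intro h hh; exact (not_le.1 (Finset.mem_filter.1 hh).2).le
      · rw [Finset.sum_const, nsmul_eq_mul]
        apply mul_le_mul_of_nonneg_right _ (by positivity)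
        have : ((Ico 1 V).filter (fun h => ¬ δ ^ 2 * V / 8 ≤ b h)).card ≤ V := by
          refine (Finset.card_filter_le _ _).trans ?_
          rw [Nat.card_Ico]; omega
        exact_mod_cast this
  have h5 : δ ^ 2 * V / 8 * V
      ≤ (((Ico 1 V).filter (fun h => δ ^ 2 * V / 8 ≤ b h)).card : ℝ) * V := by
    have e1 : δ ^ 2 * V / 8 * V = δ ^ 2 * V ^ 2 / 4 - V * (δ ^ 2 * V / 8) := by ring
    rw [e1]
    linarith
  exact le_of_mul_le_mul_right h5 hV0

/-- numerical facts -/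
lemma numB (B R : ℝ) (hB : 2 ≤ B) (hR : R = 4 * B ^ 2) (e k : ℕ) :
    R ≤ B ^ 4 ∧ 32 * R ^ (2 * (e + 1)) * (R ^ e * ((k : ℝ) + 1)) ≤ B ^ (24 * (e + k + 1) + 40) ∧
    32 * R ^ (2 * (e + 1)) * R ^ (e + k) ≤ B ^ (24 * (e + k + 1) + 40) ∧
    (64 * R ^ (2 * e + k + 1)) ^ 2 ≤ B ^ (24 * (e + k + 1) + 40) := by
  have hB1 : (1 : ℝ) ≤ B := by linarith
  have hR0 : 0 ≤ R := by rw [hR]; positivity
  have h2 : (4 : ℝ) ≤ B ^ 2 := by nlinarith
  have hR4 : R ≤ B ^ 4 := by
    rw [hR]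
    have e4 : B ^ 4 = B ^ 2 * B ^ 2 := by ring
    rw [e4]
    exact mul_le_mul_of_nonneg_right h2 (by positivity)
  have pR : ∀ n, R ^ n ≤ B ^ (4 * n) := by
    intro n; rw [pow_mul]; exact pow_le_pow_left₀ hR0 hR4 n
  have p2 : ∀ n : ℕ, (2 : ℝ) ^ n ≤ B ^ n := fun n => pow_le_pow_left₀ (by norm_num) hB n
  have h32 : (32 : ℝ) ≤ B ^ 5 := by have := p2 5; norm_num at this; exact this
  have h64 : (64 : ℝ) ≤ B ^ 6 := by have := p2 6; norm_num at this; exact this
  have hk : (k : ℝ) + 1 ≤ B ^ (k + 1) := by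
    have h3 : k + 1 ≤ 2 ^ (k + 1) := Nat.lt_two_pow_self.le
    have h4 : ((k + 1 : ℕ) : ℝ) ≤ (2 : ℝ) ^ (k + 1) := by exact_mod_cast h3
    push_cast at h4
    exact h4.trans (p2 _)
  refine ⟨hR4, ?_, ?_, ?_⟩
  · calc 32 * R ^ (2 * (e + 1)) * (R ^ e * ((k : ℝ) + 1))
        ≤ B ^ 5 * B ^ (4 * (2 * (e + 1))) * (B ^ (4 * e) * B ^ (k + 1)) := by
          have a1 := pR (2 * (e + 1))
          have a2 := pR e
          gcongr
      _ = B ^ (5 + 4 * (2 * (e + 1)) + (4 * e + (k + 1))) := by rw [← pow_add, ← pow_add, ← pow_add]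
      _ ≤ _ := pow_le_pow_right₀ hB1 (by omega)
  · calc 32 * R ^ (2 * (e + 1)) * R ^ (e + k)
        ≤ B ^ 5 * B ^ (4 * (2 * (e + 1))) * B ^ (4 * (e + k)) := by
          have a1 := pR (2 * (e + 1))
          have a2 := pR (e + k)
          gcongr
      _ = B ^ (5 + 4 * (2 * (e + 1)) + 4 * (e + k)) := by rw [← pow_add, ← pow_add]
      _ ≤ _ := pow_le_pow_right₀ hB1 (by omega)
  · calc (64 * R ^ (2 * e + k + 1)) ^ 2 ≤ (B ^ 6 * B ^ (4 * (2 * e + k + 1))) ^ 2 := by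
          have a1 := pR (2 * e + k + 1)
          gcongr
      _ = B ^ ((6 + 4 * (2 * e + k + 1)) * 2) := by rw [← pow_add, ← pow_mul]
      _ ≤ _ := pow_le_pow_right₀ hB1 (by omega)

/-- the statement for one degree -/
def WK (k : ℕ) (e : ℕ) : Prop :=
  ∀ (P : ℝ[X]) (V : ℕ) (δ : ℝ), P.natDegree ≤ k → 1 ≤ V →
    0 < δ → δ ≤ 1 → δ * V ≤ ‖∑ v ∈ range V, ee (P.eval (v : ℝ))‖ →
    ∃ y : ℕ, 1 ≤ y ∧ (y : ℝ) ≤ (2 / δ) ^ e ∧
      nn ((y : ℝ) * P.coeff k) ≤ (2 / δ) ^ e / (V : ℝ) ^ k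

lemma base : WK 1 1 := by
  intro P V δ hP hV hδ hδ1 hS
  have hV0 : (0 : ℝ) < V := by exact_mod_cast hV
  have e : ∀ v : ℕ, P.eval (v : ℝ) = P.coeff 1 * v + P.coeff 0 := by
    intro v
    rw [eval_eq_sum_range' (n := 2) (by omega)]
    rw [Finset.sum_range_succ, Finset.sum_range_one]
    ring
  simp only [e] at hS
  have h1 := linear_sum (P.coeff 1) (P.coeff 0) V
  refine ⟨1, le_rfl, ?_, ?_⟩
  · rw [pow_one, le_div_iff₀ hδ]; push_cast; linarith
  · rw [pow_one, pow_one, le_div_iff₀ hV0, le_div_iff₀ hδ]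
    push_cast
    rw [one_mul]
    have h2 := mul_le_mul_of_nonneg_right hS (abs_nonneg (P.coeff 1 - round (P.coeff 1)))
    have h3 : δ * V * nn (P.coeff 1) ≤ 1 / 2 := h2.trans h1
    nlinarith

/-- for a good difference the induction hypothesis applies -/
lemma step_one (k e : ℕ) (ih : WK k e) (P : ℝ[X]) (V h : ℕ) (δ R : ℝ)
    (hP : P.natDegree ≤ k + 1) (hV : 1 ≤ V) (hδ : 0 < δ) (hδ1 : δ ≤ 1) (hR : R = 16 / δ ^ 2)
    (hh : h ∈ Ico 1 V)
    (hg : δ ^ 2 * V / 8 ≤ ‖∑ w ∈ range (V - h), ee ((taylor (h : ℝ) P - P).eval (w : ℝ))‖) :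
    ∃ y : ℕ, 1 ≤ y ∧ (y : ℝ) ≤ R ^ e ∧
      nn ((h : ℝ) * (y * (((k : ℝ) + 1) * P.coeff (k + 1)))) ≤ R ^ (e + k) / (V : ℝ) ^ k := by
  have hV0 : (0 : ℝ) < V := by exact_mod_cast hV
  obtain ⟨h1, h2⟩ := Finset.mem_Ico.1 hh
  have hδ2 : 0 < δ ^ 2 := by positivity
  have hδ2' : δ ^ 2 ≤ 1 := pow_le_one₀ hδ.le hδ1
  have hVh : 1 ≤ V - h := by omega
  have hVh' : ((V - h : ℕ) : ℝ) ≤ V := by exact_mod_cast Nat.sub_le _ _
  obtain ⟨d1, d2⟩ := diffpoly P k hP (h : ℝ)
  obtain ⟨y, hy1, hy2, hy3⟩ := ih (taylor (h : ℝ) P - P) (V - h) (δ ^ 2 / 8) d1 hVh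
    (by positivity) (by linarith) (by
      refine le_trans ?_ hg
      have := mul_le_mul_of_nonneg_left hVh' (by positivity : 0 ≤ δ ^ 2 / 8)
      linarith)
  have hR2 : 2 / (δ ^ 2 / 8) = R := by rw [hR]; field_simp; norm_num
  have hR0 : 0 < R := by rw [hR]; positivity
  rw [hR2] at hy2 hy3
  refine ⟨y, hy1, hy2, ?_⟩
  rw [d2] at hy3
  have e1 : (h : ℝ) * (y * (((k : ℝ) + 1) * P.coeff (k + 1)))
      = y * (((k : ℝ) + 1) * h * P.coeff (k + 1)) := by ring
  rw [e1]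
  refine hy3.trans ?_
  -- lower bound for `V - h`
  have hb : δ ^ 2 * V / 8 ≤ ((V - h : ℕ) : ℝ) := by
    refine hg.trans ?_
    refine (norm_sum_le _ _).trans ?_
    simp [norm_ee]
  have hb2 : (V : ℝ) / R ≤ ((V - h : ℕ) : ℝ) := by
    refine le_trans ?_ hb
    rw [hR, div_div_eq_mul_div]
    have : (V : ℝ) * δ ^ 2 / 16 ≤ δ ^ 2 * V / 8 := by
      have : 0 ≤ δ ^ 2 * V := by positivity
      linarith
    exact this
  have hVR : 0 < (V : ℝ) / R := by positivity
  have hb3 : ((V : ℝ) / R) ^ k ≤ ((V - h : ℕ) : ℝ) ^ k := pow_le_pow_left₀ hVR.le hb2 k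
  have hVk : 0 < ((V : ℝ) / R) ^ k := by positivity
  calc R ^ e / ((V - h : ℕ) : ℝ) ^ k ≤ R ^ e / ((V : ℝ) / R) ^ k :=
        div_le_div_of_nonneg_left (by positivity) hVk hb3
    _ = R ^ (e + k) / (V : ℝ) ^ k := by
        rw [div_pow, div_div_eq_mul_div, pow_add]

lemma step (hvin : VIN) (k e : ℕ) (hk : 1 ≤ k) (ih : WK k e) :
    WK (k + 1) (24 * (e + k + 1) + 40) := by
  classical
  intro P V δ hP hV hδ hδ1 hS
  have hV0 : (0 : ℝ) < V := by exact_mod_cast hV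
  have hV1 : (1 : ℝ) ≤ V := by exact_mod_cast hV
  obtain ⟨B, hB⟩ : ∃ B, B = 2 / δ := ⟨_, rfl⟩
  obtain ⟨R, hR⟩ : ∃ R, R = 16 / δ ^ 2 := ⟨_, rfl⟩
  have hB2 : 2 ≤ B := by rw [hB, le_div_iff₀ hδ]; linarith
  have hB1 : 1 ≤ B := by linarith
  have hRB : R = 4 * B ^ 2 := by rw [hR, hB, div_pow]; field_simp; norm_num
  obtain ⟨n1, n2, n3, n4⟩ := numB B R hB2 hRB e k
  have hR16 : 16 ≤ R := by rw [hRB]; nlinarith
  have hR0 : 0 < R := by linarith
  have hR1 : 1 ≤ R := by linarith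
  rw [← hB]
  by_cases hcase : (V : ℝ) < 2 / δ ^ 2
  · apply trivial_case _ _ _ _ _ hV _ hB1
    have h1 : (V : ℝ) ≤ B ^ 2 := by
      have : B ^ 2 = 4 / δ ^ 2 := by rw [hB, div_pow]; norm_num
      rw [this]
      refine hcase.le.trans ?_
      apply div_le_div_of_nonneg_right (by norm_num) (by positivity)
    calc (V : ℝ) ^ (k + 1) ≤ (B ^ 2) ^ (k + 1) := pow_le_pow_left₀ hV0.le h1 _
      _ = B ^ (2 * (k + 1)) := by rw [← pow_mul]
      _ ≤ B ^ (24 * (e + k + 1) + 40) := pow_le_pow_right₀ hB1 (by omega)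
      _ ≤ 2 * B ^ (24 * (e + k + 1) + 40) := by
          have : 0 ≤ B ^ (24 * (e + k + 1) + 40) := by positivity
          linarith
  · push Not at hcase
    obtain ⟨b, hb⟩ : ∃ b : ℕ → ℝ, ∀ h, b h
      = ‖∑ w ∈ range (V - h), ee ((taylor (h : ℝ) P - P).eval (w : ℝ))‖ := ⟨_, fun _ => rfl⟩
    have hdiff := differencing (fun v => ee (P.eval (v : ℝ))) (fun v => norm_ee _) V
    have hrew : ∀ h : ℕ, ‖∑ w ∈ range (V - h), ee (P.eval ((w + h : ℕ) : ℝ))
        * (starRingEnd ℂ) (ee (P.eval (w : ℝ)))‖ = b h := by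
      intro h
      rw [hb]
      congr 1
      refine Finset.sum_congr rfl fun w _ => ?_
      rw [ee_sub, eval_sub, taylor_eval]
      push_cast
      rfl
    simp only [hrew] at hdiff
    have hbV : ∀ h ∈ Ico 1 V, b h ≤ V := by
      intro h _
      rw [hb]
      refine (norm_sum_le _ _).trans ?_
      simp [norm_ee]
    have hgood := good_diff b V δ _ hV hδ hS hcase hbV hdiff
    obtain ⟨HH, hHH⟩ : ∃ HH, HH = (Ico 1 V).filter (fun h => δ ^ 2 * V / 8 ≤ b h) := ⟨_, rfl⟩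
    rw [← hHH] at hgood
    have hstep : ∀ h ∈ HH, ∃ y : ℕ, 1 ≤ y ∧ (y : ℝ) ≤ R ^ e ∧
        nn ((h : ℝ) * (y * (((k : ℝ) + 1) * P.coeff (k + 1)))) ≤ R ^ (e + k) / (V : ℝ) ^ k := by
      intro h hh
      rw [hHH, Finset.mem_filter, hb] at hh
      exact step_one k e ih P V h δ R hP hV hδ hδ1 hR hh.1 hh.2
    choose! yy hy1 hy2 hy3 using hstep
    obtain ⟨δ', hδ'⟩ : ∃ δ' : ℝ, δ' = 1 / R ^ (e + 1) := ⟨_, rfl⟩
    have hRe : 0 < R ^ (e + 1) := by positivity
    have hδ'0 : 0 < δ' := by rw [hδ']; positivity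
    have hδ'1 : δ' ≤ 1 := by
      rw [hδ', div_le_one hRe]; exact one_le_pow₀ hR1
    -- pigeonhole
    have hmaps : ∀ h ∈ HH, yy h ∈ Icc 1 ⌊R ^ e⌋₊ := by
      intro h hh
      exact Finset.mem_Icc.2 ⟨hy1 h hh, Nat.le_floor (hy2 h hh)⟩
    have hne : (Icc 1 ⌊R ^ e⌋₊).Nonempty := by
      refine ⟨1, Finset.mem_Icc.2 ⟨le_rfl, Nat.le_floor ?_⟩⟩
      rw [Nat.cast_one]; exact one_le_pow₀ hR1
    obtain ⟨y, hyI, hyc⟩ := Finset.exists_le_card_fiber_of_nsmul_le_card_of_maps_to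
      (b := δ' * V) hmaps hne (by
        rw [Nat.card_Icc, Nat.add_sub_cancel, nsmul_eq_mul]
        refine le_trans ?_ hgood
        calc ((⌊R ^ e⌋₊ : ℕ) : ℝ) * (δ' * V) ≤ R ^ e * (δ' * V) :=
              mul_le_mul_of_nonneg_right (Nat.floor_le (by positivity)) (by positivity)
          _ = V / R := by rw [hδ', pow_succ]; field_simp
          _ = δ ^ 2 * V / 16 := by rw [hR, div_div_eq_mul_div]; ring
          _ ≤ δ ^ 2 * V / 8 := by
              have : 0 ≤ δ ^ 2 * V := by positivity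
              linarith)
    have hyI1 := (Finset.mem_Icc.1 hyI).1
    have hyI2 : (y : ℝ) ≤ R ^ e :=
      le_trans (by exact_mod_cast (Finset.mem_Icc.1 hyI).2) (Nat.floor_le (by positivity))
    obtain ⟨ε, hε⟩ : ∃ ε : ℝ, ε = R ^ (e + k) / (V : ℝ) ^ k := ⟨_, rfl⟩
    have hε0 : 0 ≤ ε := by rw [hε]; positivity
    obtain ⟨ψ, hψ⟩ : ∃ ψ : ℝ, ψ = y * (((k : ℝ) + 1) * P.coeff (k + 1)) := ⟨_, rfl⟩
    by_cases hc2 : ε ≤ δ' / 64
    · obtain ⟨y', hy'1, hy'2, hy'3⟩ := hvin ψ ε δ' V hV hδ'0 hδ'1 hε0 hc2 (by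
        refine hyc.trans ?_
        norm_cast
        apply Finset.card_le_card
        intro h hh
        rw [Finset.mem_filter] at hh
        have hh2 := hh.1
        rw [hHH, Finset.mem_filter, Finset.mem_Ico] at hh2
        rw [Finset.mem_filter, Finset.mem_Icc]
        refine ⟨⟨hh2.1.1, hh2.1.2.le⟩, ?_⟩
        have := hy3 h hh.1
        rw [hh.2, ← hψ, ← hε] at this
        exact this)
      have hδR : 32 / δ' ^ 2 = 32 * R ^ (2 * (e + 1)) := by
        rw [hδ', div_pow, one_pow, ← pow_mul, div_div_eq_mul_div, div_one, mul_comm 2 (e + 1)]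
      refine ⟨y' * (y * (k + 1)), ?_, ?_, ?_⟩
      · exact Nat.one_le_iff_ne_zero.2 (by positivity)
      · push_cast
        rw [hδR] at hy'2
        refine le_trans ?_ n2
        exact mul_le_mul hy'2 (mul_le_mul_of_nonneg_right hyI2 (by positivity)) (by positivity)
          (by positivity)
      · have e2 : ((y' * (y * (k + 1)) : ℕ) : ℝ) * P.coeff (k + 1) = y' * ψ := by
          rw [hψ]; push_cast; ring
        rw [e2]
        refine hy'3.trans ?_
        have e3 : 32 * ε / (δ' ^ 2 * V) = (32 * R ^ (2 * (e + 1)) * R ^ (e + k)) / (V : ℝ) ^ (k + 1) := by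
          rw [← hδR, hε, pow_succ (V : ℝ) k]
          field_simp
        rw [e3]
        exact div_le_div_of_nonneg_right n3 (by positivity)
    · push Not at hc2
      apply trivial_case _ _ _ _ _ hV _ hB1
      have h1 : (V : ℝ) ^ k ≤ 64 * R ^ (2 * e + k + 1) := by
        have hVk : 0 < (V : ℝ) ^ k := by positivity
        rw [hδ', hε, div_div, div_lt_div_iff₀ (by positivity) hVk] at hc2
        have e4 : R ^ (e + k) * (R ^ (e + 1) * 64) = 64 * R ^ (2 * e + k + 1) := by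
          rw [show 2 * e + k + 1 = (e + k) + (e + 1) by ring, pow_add R (e + k) (e + 1)]; ring
        rw [e4] at hc2
        linarith
      have h2 : (V : ℝ) ^ (k + 1) ≤ ((V : ℝ) ^ k) ^ 2 := by
        rw [← pow_mul]
        exact pow_le_pow_right₀ hV1 (by omega)
      have h3 : ((V : ℝ) ^ k) ^ 2 ≤ (64 * R ^ (2 * e + k + 1)) ^ 2 :=
        pow_le_pow_left₀ (by positivity) h1 2
      have h4 : 0 ≤ B ^ (24 * (e + k + 1) + 40) := by positivity
      linarith

end Weylm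

open Weylm in
theorem weyl : VIN → WEYL := by
  intro hvin k hk
  have : ∃ e, WK k e := by
    induction k, hk using Nat.le_induction with
    | base => exact ⟨1, base⟩
    | succ k hk ih =>
      obtain ⟨e, he⟩ := ih
      exact ⟨_, step hvin k e hk he⟩
  exact this

end Vale.Agent.P042
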