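import Vale.Agent.P042.AssemblyPre
import Vale.Agent.P042.Weyl
import Vale.Agent.P042.Cover
import Vale.Agent.P042.KeyD
import Vale.Agent.P042.Snb
import Vale.Agent.P042.Lfn
import Vale.Agent.P042.Van
import Vale.Agent.P042.Newt
import Vale.Agent.P042.RootB
import Vale.Agent.P042.Weil

/-!
# P042: assembly
-/

namespace Vale.Agent.P042

theorem weil_full : WEIL := weil lfn van (snb bomb) newt rootb

theorem finale_full : FINALE := assemblyPre weyl cover keyd

end Vale.Agent.P042
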