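import Vale.Agent.P042.Core

/-!
# P042, module H2: auxiliary polynomials
-/

open Polynomial Finset

namespace Vale.Agent.P042

namespace AuxPf

/-- gcd of the nonconstant coefficients of `T (D u)` -/
noncomputable def lam (T : ℤ[X]) (k D : ℕ) : ℕ :=
  (Finset.Icc 1 k).gcd (fun i => (T.coeff i).natAbs * D ^ i)

theorem lam_dvd (T : ℤ[X]) (k D i : ℕ) (hi : i ∈ Finset.Icc 1 k) :
    lam T k D ∣ (T.coeff i).natAbs * D ^ i :=
  Finset.gcd_dvd (f := fun i => (T.coeff i).natAbs * D ^ i) hi

theorem lam_mul_dvd (T : ℤ[X]) (k D q : ℕ) : lam T k D * q ∣ lam T k (D * q) := by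
  apply Finset.dvd_gcd
  intro i hi
  obtain ⟨h1, _⟩ := Finset.mem_Icc.1 hi
  have h := lam_dvd T k D i hi
  have e : (T.coeff i).natAbs * (D * q) ^ i
      = ((T.coeff i).natAbs * D ^ i) * (q * q ^ (i - 1)) := by
    rw [mul_pow, ← pow_succ', Nat.sub_add_cancel h1]; ring
  rw [e]
  exact Nat.mul_dvd_mul h (Dvd.intro _ rfl)

theorem lam_dvd_mul (T : ℤ[X]) (k D q : ℕ) : lam T k (D * q) ∣ q ^ k * lam T k D := by
  have e0 : q ^ k * lam T k D
      = (Finset.Icc 1 k).gcd (fun i => q ^ k * ((T.coeff i).natAbs * D ^ i)) := by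
    rw [Finset.gcd_mul_left]; simp [lam]
  rw [e0]
  apply Finset.dvd_gcd
  intro i hi
  obtain ⟨_, h2⟩ := Finset.mem_Icc.1 hi
  refine (lam_dvd T k (D * q) i hi).trans ?_
  have e : q ^ k * ((T.coeff i).natAbs * D ^ i)
      = ((T.coeff i).natAbs * (D * q) ^ i) * q ^ (k - i) := by
    have : q ^ k = q ^ i * q ^ (k - i) := by rw [← pow_add, Nat.add_sub_cancel' h2]
    rw [this, mul_pow]; ring
  rw [e]
  exact Dvd.intro _ rfl

theorem lam_pos (T : ℤ[X]) (k D : ℕ) (hk : 1 ≤ k) (hT : T.coeff k ≠ 0) (hD : 1 ≤ D) :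
    1 ≤ lam T k D := by
  rcases Nat.eq_zero_or_pos (lam T k D) with h | h
  · exfalso
    have := lam_dvd T k D k (Finset.mem_Icc.2 ⟨hk, le_rfl⟩)
    rw [h, zero_dvd_iff] at this
    rcases mul_eq_zero.1 this with h1 | h1
    · exact hT (Int.natAbs_eq_zero.1 h1)
    · have : 0 < D ^ k := pow_pos hD k
      omega
  · exact h

/-- divisibility of all nonconstant coefficients is invariant under translation -/
theorem dvd_taylor (p : ℤ) (G : ℤ[X]) (m : ℤ) (h : ∀ i : ℕ, 1 ≤ i → p ∣ G.coeff i) :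
    ∀ i : ℕ, 1 ≤ i → p ∣ (taylor m G).coeff i := by
  have h1 : C p ∣ G - C (G.coeff 0) := by
    rw [C_dvd_iff_dvd_coeff]
    intro i
    rcases Nat.eq_zero_or_pos i with rfl | hi
    · simp
    · rw [coeff_sub, coeff_C_of_ne_zero (by omega), sub_zero]
      exact h i hi
  obtain ⟨Q, hQ⟩ := h1
  have e : G = C (G.coeff 0) + C p * Q := by rw [← hQ]; ring
  intro i hi
  rw [e, map_add, taylor_C, taylor_mul, taylor_C, coeff_add, coeff_C_of_ne_zero (by omega), zero_add,
    coeff_C_mul]
  exact Dvd.intro _ rfl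

/-- sum of the absolute values of the coefficients -/
def sz (h : ℤ[X]) : ℕ := ∑ j ∈ range (h.natDegree + 1), (h.coeff j).natAbs

theorem taylor_coeff_le (h : ℤ[X]) (r : ℤ) (D i : ℕ) (hr0 : 0 ≤ r) (hrD : r ≤ D) (hD : 1 ≤ D)
    (hi : i ≤ h.natDegree) :
    |(taylor r h).coeff i| ≤ ((2 ^ h.natDegree * sz h * D ^ (h.natDegree - i) : ℕ) : ℤ) := by
  have e : (taylor r h).coeff i
      = ∑ j ∈ range (h.natDegree + 1), ((j.choose i : ℕ) : ℤ) * h.coeff j * r ^ (j - i) := by
    rw [taylor_coeff, hasseDeriv_apply, sum_def, eval_finsetSum]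
    have : ∀ j : ℕ, eval r (monomial (j - i) (((j.choose i : ℕ) : ℤ) * h.coeff j))
        = ((j.choose i : ℕ) : ℤ) * h.coeff j * r ^ (j - i) := by
      intro j; rw [eval_monomial]
    simp only [this]
    apply Finset.sum_subset
    · intro j hj
      rw [Finset.mem_range]
      have := le_natDegree_of_mem_supp j hj
      omega
    · intro j _ hj
      rw [notMem_support_iff] at hj
      rw [hj]; simp
  rw [e]
  refine (Finset.abs_sum_le_sum_abs _ _).trans ?_
  have : ((2 ^ h.natDegree * sz h * D ^ (h.natDegree - i) : ℕ) : ℤ)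
      = ∑ j ∈ range (h.natDegree + 1),
        (2 : ℤ) ^ h.natDegree * |h.coeff j| * (D : ℤ) ^ (h.natDegree - i) := by
    rw [← Finset.sum_mul, ← Finset.mul_sum, sz]
    push_cast
    rfl
  rw [this]
  apply Finset.sum_le_sum
  intro j hj
  have hj' : j ≤ h.natDegree := by
    have := Finset.mem_range.1 hj
    omega
  rw [abs_mul, abs_mul]
  rcases lt_or_ge j i with hji | hji
  · rw [Nat.choose_eq_zero_of_lt hji]
    simp only [Nat.cast_zero, abs_zero, zero_mul]
    positivity
  have h1 : |((j.choose i : ℕ) : ℤ)| ≤ (2 : ℤ) ^ h.natDegree := by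
    rw [Nat.abs_cast]
    have : j.choose i ≤ 2 ^ h.natDegree :=
      (Nat.choose_le_two_pow j i).trans (Nat.pow_le_pow_right (by norm_num) hj')
    exact_mod_cast this
  have h2 : |r ^ (j - i)| ≤ (D : ℤ) ^ (h.natDegree - i) := by
    rw [abs_pow, abs_of_nonneg hr0]
    calc r ^ (j - i) ≤ (D : ℤ) ^ (j - i) := pow_le_pow_left₀ hr0 hrD _
      _ ≤ (D : ℤ) ^ (h.natDegree - i) := by
        apply pow_le_pow_right₀
        · exact_mod_cast hD
        · omega
  apply mul_le_mul (mul_le_mul_of_nonneg_right h1 (abs_nonneg _)) h2 (abs_nonneg _) (by positivity)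

end AuxPf

open AuxPf in
theorem aux : AUX := by
  intro k h hk hdeg hlc hint
  have hne : h ≠ 0 := by
    rintro rfl
    simp at hlc
  have hcoef : h.coeff k = h.leadingCoeff := by rw [leadingCoeff, hdeg]
  have hsz : h.leadingCoeff.natAbs ≤ sz h := by
    have : (h.coeff h.natDegree).natAbs ≤ sz h :=
      Finset.single_le_sum (f := fun j => (h.coeff j).natAbs) (fun _ _ => Nat.zero_le _)
        (Finset.mem_range.2 (Nat.lt_succ_self _))
    exact this
  have hlc1 : 1 ≤ h.leadingCoeff.natAbs := by omega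
  have hp2 : 1 ≤ 2 ^ k := Nat.one_le_two_pow
  have hszCh : sz h ≤ 2 ^ k * sz h := Nat.le_mul_of_pos_left _ hp2
  refine ⟨2 ^ k * sz h, by omega, ?_⟩
  intro X hX
  have hfac : 1 ≤ X.factorial := Nat.factorial_pos X
  obtain ⟨r, hr⟩ := hint (h.leadingCoeff.natAbs * X.factorial ^ k)
    (Nat.mul_pos hlc1 (pow_pos hfac k))
  set T := taylor r h with hTdef
  have hTdeg : T.natDegree = k := by rw [hTdef, natDegree_taylor, hdeg]
  have hTk : T.coeff k = h.leadingCoeff := by
    have : T.leadingCoeff = h.leadingCoeff := leadingCoeff_taylor r h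
    rw [leadingCoeff, hTdeg] at this
    exact this
  have hT0 : T.coeff 0 = h.eval r := by rw [hTdef, taylor_coeff_zero]
  have hTk0 : T.coeff k ≠ 0 := by rw [hTk]; exact hlc.ne'
  -- existence of the quotient polynomials
  have key : ∀ D : ℕ, 1 ≤ D → D ≤ X → ∃ P : ℤ[X],
      T.comp (C (D : ℤ) * Polynomial.X) = C ((lam T k D : ℕ) : ℤ) * P := by
    intro D hD hDX
    have : C ((lam T k D : ℕ) : ℤ) ∣ T.comp (C (D : ℤ) * Polynomial.X) := by
      rw [C_dvd_iff_dvd_coeff]
      intro i
      rw [comp_C_mul_X_coeff]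
      rcases Nat.eq_zero_or_pos i with rfl | hi
      · rw [pow_zero, mul_one, hT0]
        refine dvd_trans ?_ hr
        rw [Int.natCast_dvd_natCast]
        refine (lam_dvd T k D k (Finset.mem_Icc.2 ⟨hk, le_rfl⟩)).trans ?_
        rw [hTk]
        apply Nat.mul_dvd_mul_left
        exact pow_dvd_pow_of_dvd (Nat.dvd_factorial hD hDX) k
      · rcases le_or_gt i k with hik | hik
        · have := lam_dvd T k D i (Finset.mem_Icc.2 ⟨hi, hik⟩)
          have h2 : ((lam T k D : ℕ) : ℤ) ∣ (((T.coeff i).natAbs * D ^ i : ℕ) : ℤ) :=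
            Int.natCast_dvd_natCast.2 this
          push_cast at h2
          have h4 : |T.coeff i| * (D : ℤ) ^ i = |T.coeff i * (D : ℤ) ^ i| := by
            rw [abs_mul, abs_of_nonneg (a := (D : ℤ) ^ i) (by positivity)]
          rw [h4, dvd_abs] at h2
          exact h2
        · rw [coeff_eq_zero_of_natDegree_lt (by rw [hTdeg]; exact hik), zero_mul]
          exact dvd_zero _
    exact this
  choose! P hP using key
  refine ⟨lam T k, fun D => taylor (-(r / (D : ℤ))) (P D), ?_, ?_⟩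
  · -- lam 1 ≤ Ch
    have h1 := lam_dvd T k 1 k (Finset.mem_Icc.2 ⟨hk, le_rfl⟩)
    rw [one_pow, mul_one, hTk] at h1
    exact (Nat.le_of_dvd (by omega) h1).trans (hsz.trans hszCh)
  intro D hD hDX
  have hPD := hP D hD hDX
  have hlam := lam_pos T k D hk hTk0 hD
  have hlamZ : (0 : ℤ) < ((lam T k D : ℕ) : ℤ) := by exact_mod_cast hlam
  have hDZ : (0 : ℤ) < (D : ℤ) := by exact_mod_cast hD
  -- the polynomial F
  have hcoefS : ∀ i, ((lam T k D : ℕ) : ℤ) * (P D).coeff i = T.coeff i * (D : ℤ) ^ i := by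
    intro i
    rw [← comp_C_mul_X_coeff, hPD, coeff_C_mul]
  have hPdeg : (P D).natDegree = k := by
    apply le_antisymm
    · rw [natDegree_le_iff_coeff_eq_zero]
      intro i hi
      have := hcoefS i
      have hT0i : T.coeff i = 0 := coeff_eq_zero_of_natDegree_lt (by rw [hTdeg]; exact hi)
      rw [hT0i, zero_mul] at this
      rcases mul_eq_zero.1 this with h1 | h1
      · omega
      · exact h1
    · apply le_natDegree_of_ne_zero
      intro h0
      have := hcoefS k
      rw [h0, mul_zero] at this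
      have h2 : T.coeff k * (D : ℤ) ^ k ≠ 0 := mul_ne_zero hTk0 (by positivity)
      exact h2 this.symm
  have hF : C ((lam T k D : ℕ) : ℤ) * taylor (-(r / (D : ℤ))) (P D)
      = (taylor (r % (D : ℤ)) h).comp (C (D : ℤ) * Polynomial.X) := by
    have h1 : C ((lam T k D : ℕ) : ℤ) * taylor (-(r / (D : ℤ))) (P D)
        = taylor (-(r / (D : ℤ))) (T.comp (C (D : ℤ) * Polynomial.X)) := by
      rw [hPD, taylor_mul, taylor_C]
    rw [h1]
    apply Polynomial.funext
    intro u
    rw [taylor_eval, eval_comp, eval_comp, hTdef, taylor_eval, taylor_eval]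
    congr 1
    simp only [eval_mul, eval_C, eval_X]
    have := Int.emod_add_mul_ediv r D
    linarith
  refine ⟨hlam, ?_, ?_, ?_, ?_, ?_, ?_⟩
  · rw [natDegree_taylor, hPdeg]
  · have h1 : (taylor (-(r / (D : ℤ))) (P D)).leadingCoeff = (P D).leadingCoeff :=
      leadingCoeff_taylor _ _
    rw [h1, leadingCoeff, hPdeg]
    have h2 := hcoefS k
    have h3 : 0 < T.coeff k * (D : ℤ) ^ k := by
      rw [hTk]; positivity
    rw [← h2] at h3
    exact (mul_pos_iff_of_pos_left hlamZ).1 h3
  · -- NC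
    intro p hp
    by_contra hcon
    push Not at hcon
    have h1 := dvd_taylor (p : ℤ) _ (r / (D : ℤ)) hcon
    rw [taylor_taylor] at h1
    have h2 : taylor (r / (D : ℤ) + -(r / (D : ℤ))) (P D) = P D := by
      rw [add_neg_cancel, taylor_zero]
    have h3 : ∀ i : ℕ, 1 ≤ i → (p : ℤ) ∣ (P D).coeff i := by
      intro i hi
      have := h1 i hi
      rw [h2] at this
      exact this
    have h4 : lam T k D * p ∣ lam T k D := by
      conv_rhs => rw [lam]
      apply Finset.dvd_gcd
      intro i hi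
      obtain ⟨hi1, _⟩ := Finset.mem_Icc.1 hi
      have h5 : ((lam T k D * p : ℕ) : ℤ) ∣ T.coeff i * (D : ℤ) ^ i := by
        rw [← hcoefS i]
        push_cast
        exact mul_dvd_mul_left _ (h3 i hi1)
      have h6 := Int.natAbs_dvd_natAbs.2 h5
      rw [Int.natAbs_mul, Int.natAbs_natCast, Int.natAbs_pow, Int.natAbs_natCast] at h6
      exact h6
    have h5 := Nat.le_of_dvd hlam h4
    have h6 := hp.two_le
    nlinarith
  · -- size of the coefficients
    intro i
    rcases le_or_gt i k with hik | hik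
    · have h1 : ((lam T k D : ℕ) : ℤ) * (taylor (-(r / (D : ℤ))) (P D)).coeff i
          = (taylor (r % (D : ℤ)) h).coeff i * (D : ℤ) ^ i := by
        rw [← coeff_C_mul, hF, comp_C_mul_X_coeff]
      have h2 := taylor_coeff_le h (r % (D : ℤ)) D i (Int.emod_nonneg _ hDZ.ne')
        (Int.emod_lt_of_pos _ hDZ).le hD (by rw [hdeg]; exact hik)
      rw [hdeg] at h2
      have h3 : |(taylor (-(r / (D : ℤ))) (P D)).coeff i|
          ≤ |((lam T k D : ℕ) : ℤ) * (taylor (-(r / (D : ℤ))) (P D)).coeff i| := by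
        rw [abs_mul, abs_of_pos hlamZ]
        have : (1 : ℤ) ≤ ((lam T k D : ℕ) : ℤ) := by exact_mod_cast hlam
        nlinarith [abs_nonneg ((taylor (-(r / (D : ℤ))) (P D)).coeff i)]
      refine h3.trans ?_
      rw [h1, abs_mul, abs_of_nonneg (a := (D : ℤ) ^ i) (by positivity)]
      calc |(taylor (r % (D : ℤ)) h).coeff i| * (D : ℤ) ^ i
          ≤ ((2 ^ k * sz h * D ^ (k - i) : ℕ) : ℤ) * (D : ℤ) ^ i :=
            mul_le_mul_of_nonneg_right h2 (by positivity)
        _ = ((2 ^ k * sz h * D ^ k : ℕ) : ℤ) := by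
            have : D ^ k = D ^ (k - i) * D ^ i := by rw [← pow_add, Nat.sub_add_cancel hik]
            rw [this]
            push_cast
            ring
    · rw [coeff_eq_zero_of_natDegree_lt (by rw [natDegree_taylor, hPdeg]; exact hik), abs_zero]
      positivity
  · -- values
    intro u hu
    refine ⟨(r % (D : ℤ)).toNat + D * u, ?_, ?_⟩
    · have : 1 ≤ D * u := Nat.mul_pos hD hu
      omega
    · have h1 := congrArg (fun q : ℤ[X] => q.eval (u : ℤ)) hF
      simp only [eval_mul, eval_C, eval_comp, eval_X, taylor_eval] at h1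
      rw [taylor_eval] 
      rw [h1]
      congr 1
      push_cast
      rw [Int.toNat_of_nonneg (Int.emod_nonneg _ hDZ.ne')]
      ring
  · intro q _ _
    exact ⟨lam_mul_dvd T k D q, lam_dvd_mul T k D q⟩

end Vale.Agent.P042
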