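import Vale.Agent.P042.WeilCore

/-!
# P042, module W1: the Bombieri-Stepanov count, in one variable
-/

open Polynomial Finset

namespace Vale.Agent.P042

namespace BombAux

section
variable {F : Type} [Field F] [Fintype F] [DecidableEq F] (p : ℕ) [CharP F p]

/-- partial trace of a polynomial -/
noncomputable def uu (p m : ℕ) (f : F[X]) : F[X] := ∑ i ∈ range m, f ^ (p ^ i)

theorem uu_eval (m : ℕ) (f : F[X]) (x : F) :
    (uu p m f).eval x = ∑ i ∈ range m, (f.eval x) ^ (p ^ i) := by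
  unfold uu
  rw [eval_finsetSum]
  refine Finset.sum_congr rfl fun i _ => ?_
  rw [eval_pow]

theorem uu_natDegree (hp : p.Prime) (m d : ℕ) (f : F[X]) (hf : f.natDegree = d) (hd : 1 ≤ d) :
    (uu p (m + 1) f).natDegree = d * p ^ m := by
  induction m with
  | zero => simp [uu, hf]
  | succ n ih =>
    have h1 : uu p (n + 1 + 1) f = uu p (n + 1) f + f ^ (p ^ (n + 1)) := by
      unfold uu
      rw [Finset.sum_range_succ]
    have h2 : (f ^ (p ^ (n + 1))).natDegree = d * p ^ (n + 1) := by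
      rw [natDegree_pow, hf]; ring
    rw [h1, natDegree_add_eq_right_of_natDegree_lt, h2]
    rw [ih, h2]
    apply Nat.mul_lt_mul_of_pos_left _ hd
    exact Nat.pow_lt_pow_right hp.one_lt (Nat.lt_succ_self n)

/-- the polynomial that must vanish -/
noncomputable def GG (Q E J0 : ℕ) (u : F[X]) (c : F) (a : Fin J0 × Fin p × Fin E → F) : F[X] :=
  ∑ t : Fin J0 × Fin p × Fin E, C (a t ^ Q) * X ^ ((t.2.2 : ℕ) * Q + (t.1 : ℕ)) *
    (C c - u) ^ (t.2.1 : ℕ)

/-- the auxiliary polynomial -/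
noncomputable def HH (Q E J0 : ℕ) (u : F[X]) (a : Fin J0 × Fin p × Fin E → F) : F[X] :=
  ∑ t : Fin J0 × Fin p × Fin E, C (a t) * X ^ ((t.2.2 : ℕ) + (t.1 : ℕ) * Q) * u ^ (t.2.1 : ℕ)

theorem GG_sub (hp : p.Prime) (m E J0 : ℕ) (u : F[X]) (c : F) (a b : Fin J0 × Fin p × Fin E → F) :
    GG p (p ^ m) E J0 u c (a - b) = GG p (p ^ m) E J0 u c a - GG p (p ^ m) E J0 u c b := by
  haveI : Fact p.Prime := ⟨hp⟩
  unfold GG
  rw [← Finset.sum_sub_distrib]
  refine Finset.sum_congr rfl fun t _ => ?_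
  rw [Pi.sub_apply, sub_pow_char_pow, C_sub]
  ring

theorem HH_eval_pow (hp : p.Prime) (m E J0 : ℕ) (u : F[X]) (c : F)
    (a : Fin J0 × Fin p × Fin E → F) (x : F) (hx : x ^ ((p ^ m) ^ 2) = x)
    (hu : (u.eval x) + (u.eval x) ^ (p ^ m) = c) :
    ((HH p (p ^ m) E J0 u a).eval x) ^ (p ^ m) = (GG p (p ^ m) E J0 u c a).eval x := by
  haveI : Fact p.Prime := ⟨hp⟩
  unfold HH GG
  rw [eval_finsetSum, eval_finsetSum, sum_pow_char_pow]
  refine Finset.sum_congr rfl fun t _ => ?_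
  simp only [eval_mul, eval_pow, eval_C, eval_X, eval_sub]
  have hu' : c - u.eval x = (u.eval x) ^ (p ^ m) := by rw [← hu]; ring
  rw [hu', mul_pow, mul_pow]
  congr 1
  · congr 1
    rw [← pow_mul, add_mul, pow_add]
    have h1 : x ^ ((t.1 : ℕ) * p ^ m * p ^ m) = x ^ (t.1 : ℕ) := by
      have : (t.1 : ℕ) * p ^ m * p ^ m = (p ^ m) ^ 2 * (t.1 : ℕ) := by ring
      rw [this, pow_mul, hx]
    rw [h1, pow_add]
  · rw [← pow_mul, ← pow_mul, mul_comm]

theorem GG_natDegree_le (Q E J0 D : ℕ) (u : F[X]) (c : F) (a : Fin J0 × Fin p × Fin E → F)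
    (hE : 1 ≤ E) (hJ0 : 1 ≤ J0) (hu : u.natDegree ≤ D) :
    (GG p Q E J0 u c a).natDegree ≤ (E - 1) * Q + (J0 - 1) + (p - 1) * D := by
  unfold GG
  apply natDegree_sum_le_of_forall_le
  rintro ⟨j, k, i⟩ _
  simp only
  have h1 : (C c - u).natDegree ≤ D := by
    refine (natDegree_sub_le _ _).trans ?_
    rw [natDegree_C]
    simp [hu]
  have h2 : ((C c - u) ^ (k : ℕ)).natDegree ≤ (p - 1) * D := by
    refine natDegree_pow_le.trans ?_
    apply Nat.mul_le_mul _ h1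
    have := k.2
    omega
  have h3 : (C (a (j, k, i) ^ Q) * X ^ ((i : ℕ) * Q + (j : ℕ))).natDegree
      ≤ (E - 1) * Q + (J0 - 1) := by
    refine (natDegree_C_mul_X_pow_le _ _).trans ?_
    have h4 : (i : ℕ) ≤ E - 1 := by have := i.2; omega
    have h5 : (j : ℕ) ≤ J0 - 1 := by have := j.2; omega
    exact Nat.add_le_add (Nat.mul_le_mul_right _ h4) h5
  exact natDegree_mul_le.trans (Nat.add_le_add h3 h2)

theorem exists_GG_zero (hp : p.Prime) (m E J0 D : ℕ) (u : F[X]) (c : F) (hE : 1 ≤ E)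
    (hJ0 : 1 ≤ J0) (hu : u.natDegree ≤ D)
    (hlt : (E - 1) * p ^ m + (J0 - 1) + (p - 1) * D + 1 < J0 * (p * E)) :
    ∃ a : Fin J0 × Fin p × Fin E → F, a ≠ 0 ∧ GG p (p ^ m) E J0 u c a = 0 := by
  set N := (E - 1) * p ^ m + (J0 - 1) + (p - 1) * D + 1 with hN
  have hcard : Fintype.card (Fin N → F) < Fintype.card (Fin J0 × Fin p × Fin E → F) := by
    rw [Fintype.card_fun, Fintype.card_fun, Fintype.card_fin, Fintype.card_prod, Fintype.card_prod,
      Fintype.card_fin, Fintype.card_fin, Fintype.card_fin]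
    exact Nat.pow_lt_pow_right Fintype.one_lt_card hlt
  obtain ⟨a, b, hab, heq⟩ := Fintype.exists_ne_map_eq_of_card_lt
    (fun a : Fin J0 × Fin p × Fin E → F => fun i : Fin N => (GG p (p ^ m) E J0 u c a).coeff i) hcard
  refine ⟨a - b, sub_ne_zero.2 hab, ?_⟩
  rw [GG_sub p hp, sub_eq_zero]
  ext n
  by_cases hn : n < N
  · exact congrFun heq ⟨n, hn⟩
  · rw [coeff_eq_zero_of_natDegree_lt, coeff_eq_zero_of_natDegree_lt]
    · have := GG_natDegree_le p (p ^ m) E J0 D u c b hE hJ0 hu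
      omega
    · have := GG_natDegree_le p (p ^ m) E J0 D u c a hE hJ0 hu
      omega

theorem term_natDegree (Q E J0 : ℕ) (u : F[X]) (D : ℕ) (hu : u.natDegree = D) (hu0 : u ≠ 0)
    (a : Fin J0 × Fin p × Fin E → F) (t : Fin J0 × Fin p × Fin E) (ht : a t ≠ 0) :
    (C (a t) * X ^ ((t.2.2 : ℕ) + (t.1 : ℕ) * Q) * u ^ (t.2.1 : ℕ)).natDegree
      = (t.2.2 : ℕ) + (t.1 : ℕ) * Q + (t.2.1 : ℕ) * D := by
  have h1 : C (a t) * X ^ ((t.2.2 : ℕ) + (t.1 : ℕ) * Q) ≠ 0 :=
    mul_ne_zero (C_ne_zero.2 ht) (pow_ne_zero _ X_ne_zero)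
  have h2 : u ^ (t.2.1 : ℕ) ≠ 0 := pow_ne_zero _ hu0
  rw [natDegree_mul h1 h2, natDegree_C_mul_X_pow _ _ ht, natDegree_pow, hu]

theorem index_inj (hp : p.Prime) (d E : ℕ) (hpd : ¬ p ∣ d) (j j' k k' i i' : ℕ) (hk : k < p)
    (hk' : k' < p) (hi : i < E) (hi' : i' < E)
    (h : i + j * (p * E) + k * (d * E) = i' + j' * (p * E) + k' * (d * E)) :
    i = i' ∧ j = j' ∧ k = k' := by
  have hE : 0 < E := by omega
  have h1 : i + E * (j * p + k * d) = i' + E * (j' * p + k' * d) := by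
    have e1 : i + j * (p * E) + k * (d * E) = i + E * (j * p + k * d) := by ring
    have e2 : i' + j' * (p * E) + k' * (d * E) = i' + E * (j' * p + k' * d) := by ring
    rw [← e1, ← e2, h]
  have hii : i = i' := by
    have := congrArg (· % E) h1
    simp only [Nat.add_mul_mod_self_left] at this
    rwa [Nat.mod_eq_of_lt hi, Nat.mod_eq_of_lt hi'] at this
  subst hii
  have h2 : j * p + k * d = j' * p + k' * d := by
    have : E * (j * p + k * d) = E * (j' * p + k' * d) := by omega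
    exact Nat.eq_of_mul_eq_mul_left hE this
  have hkk : k = k' := by
    have h3 : k * d ≡ k' * d [MOD p] := by
      have := congrArg (· % p) h2
      simp only [Nat.mul_add_mod_self_right] at this
      exact this
    have hcop : Nat.gcd p d = 1 := (Nat.Prime.coprime_iff_not_dvd hp).2 hpd
    have h4 : k ≡ k' [MOD p] := Nat.ModEq.cancel_right_of_coprime hcop h3
    have h5 := h4
    unfold Nat.ModEq at h5
    rwa [Nat.mod_eq_of_lt hk, Nat.mod_eq_of_lt hk'] at h5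
  subst hkk
  refine ⟨rfl, ?_, rfl⟩
  have h6 : j * p = j' * p := by omega
  exact Nat.eq_of_mul_eq_mul_right hp.pos h6

theorem HH_ne_zero (hp : p.Prime) (d E J0 : ℕ) (u : F[X]) (hpd : ¬ p ∣ d)
    (hu : u.natDegree = d * E) (hu0 : u ≠ 0) (a : Fin J0 × Fin p × Fin E → F) (ha : a ≠ 0) :
    HH p (p * E) E J0 u a ≠ 0 := by
  intro h0
  obtain ⟨t₀, ht₀⟩ : ∃ t, a t ≠ 0 := by
    by_contra hcon
    push Not at hcon
    exact ha (funext hcon)
  have hdis : Set.Pairwise {t | t ∈ (univ : Finset (Fin J0 × Fin p × Fin E)) ∧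
      C (a t) * X ^ ((t.2.2 : ℕ) + (t.1 : ℕ) * (p * E)) * u ^ (t.2.1 : ℕ) ≠ 0}
      (Function.onFun Ne (degree ∘ fun t => C (a t) * X ^ ((t.2.2 : ℕ) + (t.1 : ℕ) * (p * E)) *
        u ^ (t.2.1 : ℕ))) := by
    intro t ht t' ht' hne hdeg
    apply hne
    simp only [Function.comp] at hdeg
    have hat : a t ≠ 0 := by
      intro h
      apply ht.2
      rw [h]; simp
    have hat' : a t' ≠ 0 := by
      intro h
      apply ht'.2
      rw [h]; simp
    have h1 := natDegree_eq_of_degree_eq hdeg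
    rw [term_natDegree p (p * E) E J0 u (d * E) hu hu0 a t hat,
      term_natDegree p (p * E) E J0 u (d * E) hu hu0 a t' hat'] at h1
    obtain ⟨h2, h3, h4⟩ := index_inj p hp d E hpd _ _ _ _ _ _ t.2.1.2 t'.2.1.2 t.2.2.2 t'.2.2.2 h1
    ext
    · exact h3
    · exact h4
    · exact h2
  have hsup := degree_sum_eq_of_disjoint
    (fun t : Fin J0 × Fin p × Fin E => C (a t) * X ^ ((t.2.2 : ℕ) + (t.1 : ℕ) * (p * E)) *
        u ^ (t.2.1 : ℕ)) univ hdis
  have h5 : (∑ t : Fin J0 × Fin p × Fin E, C (a t) * X ^ ((t.2.2 : ℕ) + (t.1 : ℕ) * (p * E)) *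
        u ^ (t.2.1 : ℕ)) = 0 := h0
  rw [h5, degree_zero] at hsup
  have h6 : degree (C (a t₀) * X ^ ((t₀.2.2 : ℕ) + (t₀.1 : ℕ) * (p * E)) * u ^ (t₀.2.1 : ℕ))
      ≤ ⊥ := by
    rw [hsup]
    exact Finset.le_sup (f := fun t : Fin J0 × Fin p × Fin E => degree (C (a t) *
      X ^ ((t.2.2 : ℕ) + (t.1 : ℕ) * (p * E)) * u ^ (t.2.1 : ℕ))) (Finset.mem_univ t₀)
  rw [le_bot_iff, degree_eq_bot] at h6
  exact (mul_ne_zero (mul_ne_zero (C_ne_zero.2 ht₀) (pow_ne_zero _ X_ne_zero))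
    (pow_ne_zero _ hu0)) h6

theorem HH_natDegree_le (Q E J0 D : ℕ) (u : F[X]) (a : Fin J0 × Fin p × Fin E → F)
    (hu : u.natDegree ≤ D) :
    (HH p Q E J0 u a).natDegree ≤ E + (J0 - 1) * Q + (p - 1) * D := by
  unfold HH
  apply natDegree_sum_le_of_forall_le
  rintro ⟨j, k, i⟩ _
  simp only
  have h2 : (u ^ (k : ℕ)).natDegree ≤ (p - 1) * D := by
    refine natDegree_pow_le.trans ?_
    apply Nat.mul_le_mul _ hu
    have := k.2
    omega
  have h3 : (C (a (j, k, i)) * X ^ ((i : ℕ) + (j : ℕ) * Q)).natDegree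
      ≤ E + (J0 - 1) * Q := by
    refine (natDegree_C_mul_X_pow_le _ _).trans ?_
    have h4 : (i : ℕ) ≤ E := by have := i.2; omega
    have h5 : (j : ℕ) ≤ J0 - 1 := by have := j.2; omega
    exact Nat.add_le_add h4 (Nat.mul_le_mul_right _ h5)
  exact natDegree_mul_le.trans (Nat.add_le_add h3 h2)

end

end BombAux

open BombAux in
theorem bomb : BOMB := by
  intro p d hp hd hpd
  refine ⟨1 + p * (3 * d + 1), ?_⟩
  intro F _ _ _ _ m f c hm hcard hf
  obtain ⟨n, rfl⟩ : ∃ n, m = n + 1 := ⟨m - 1, by omega⟩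
  have hp2 : 2 ≤ p := hp.two_le
  obtain ⟨E, hE⟩ : ∃ E, E = p ^ n := ⟨_, rfl⟩
  have hE1 : 1 ≤ E := by rw [hE]; exact Nat.one_le_pow _ _ hp.pos
  have hQ : p ^ (n + 1) = p * E := by rw [hE, pow_succ]; ring
  obtain ⟨u, hu⟩ : ∃ u, u = uu p (n + 1) f := ⟨_, rfl⟩
  have hudeg : u.natDegree = d * E := by rw [hu, uu_natDegree p hp n d f hf hd, hE]
  have hu0 : u ≠ 0 := by
    intro h
    rw [h, natDegree_zero] at hudeg
    have : 0 < d * E := Nat.mul_pos hd hE1
    omega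
  obtain ⟨J0, hJ0⟩ : ∃ J0, J0 = E + 2 * d + 2 := ⟨_, rfl⟩
  have hlt : (E - 1) * p ^ (n + 1) + (J0 - 1) + (p - 1) * (d * E) + 1 < J0 * (p * E) := by
    rw [hQ]
    have h1 : (E - 1) * (p * E) + p * E = E * (p * E) := by
      obtain ⟨e, rfl⟩ : ∃ e, E = e + 1 := ⟨E - 1, by omega⟩
      simp only [Nat.add_sub_cancel]
      ring
    have h2 : (p - 1) * (d * E) ≤ p * (d * E) := Nat.mul_le_mul_right _ (by omega)
    have h3 : J0 * (p * E) = E * (p * E) + 2 * (d * (p * E)) + 2 * (p * E) := by rw [hJ0]; ring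
    have h4 : p * (d * E) = d * (p * E) := by ring
    have h5 : 2 * E ≤ p * E := Nat.mul_le_mul_right _ hp2
    have h6 : d * 2 ≤ d * (p * E) := Nat.mul_le_mul_left _ (by nlinarith)
    omega
  obtain ⟨a, ha0, haG⟩ := exists_GG_zero p hp (n + 1) E J0 (d * E) u c hE1 (by omega) hudeg.le hlt
  have hH0 := HH_ne_zero p hp d E J0 u hpd hudeg hu0 a ha0
  have hHdeg := HH_natDegree_le p (p * E) E J0 (d * E) u a hudeg.le
  have hsub : (univ.filter (fun x : F => (∑ i ∈ range (n + 1), (f.eval x) ^ (p ^ i))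
          + (∑ i ∈ range (n + 1), (f.eval x) ^ (p ^ i)) ^ (p ^ (n + 1)) = c))
      ⊆ (HH p (p * E) E J0 u a).roots.toFinset := by
    intro x hx
    rw [Finset.mem_filter] at hx
    rw [Multiset.mem_toFinset, mem_roots hH0, IsRoot.def]
    have hxq : x ^ ((p ^ (n + 1)) ^ 2) = x := by
      rw [← hcard]
      exact FiniteField.pow_card x
    have h1 := HH_eval_pow p hp (n + 1) E J0 u c a x hxq (by
      rw [hu, uu_eval]
      exact hx.2)
    rw [haG, eval_zero, hQ] at h1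
    exact pow_eq_zero_iff (by positivity) |>.1 h1
  have hle : (univ.filter (fun x : F => (∑ i ∈ range (n + 1), (f.eval x) ^ (p ^ i))
          + (∑ i ∈ range (n + 1), (f.eval x) ^ (p ^ i)) ^ (p ^ (n + 1)) = c)).card
      ≤ E + (J0 - 1) * (p * E) + (p - 1) * (d * E) := by
    refine (Finset.card_le_card hsub).trans ?_
    refine (Multiset.toFinset_card_le _).trans ?_
    exact (card_roots' _).trans hHdeg
  refine (Nat.mul_le_mul_right _ hle).trans ?_
  rw [hQ]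
  calc (E + (J0 - 1) * (p * E) + (p - 1) * (d * E)) * p ≤ (E + (E + 2 * d + 1) * (p * E) + p * (d * E)) * p := by
        apply Nat.mul_le_mul_right
        have h2 : (p - 1) * (d * E) ≤ p * (d * E) := Nat.mul_le_mul_right _ (by omega)
        have h3 : J0 - 1 = E + 2 * d + 1 := by omega
        rw [h3]
        omega
    _ = (p * E) ^ 2 + (1 + p * (3 * d + 1)) * (p * E) := by ring

end Vale.Agent.P042
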