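import Vale.Agent.P042.Core

/-!
# P042 module F2: upper bound for one frequency
-/

open Polynomial Finset

namespace Vale.Agent.P042.Cells

open Vale.Agent.P042

/-- the part of `A` in `(a l, b l]` is the union of the cells `a, …, b - 1` -/
theorem sum_cells {β : Type*} [AddCommMonoid β] (A : Finset ℕ) (l a b : ℕ) (hab : a ≤ b)
    (f : ℕ → β) :
    ∑ y ∈ A.filter (fun n => n ∈ Ioc (a * l) (b * l)), f y
      = ∑ v ∈ Ico a b, ∑ y ∈ cell A l v, f y := by
  induction b, hab using Nat.le_induction with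
  | base => simp
  | succ b hab ih =>
    rw [Finset.sum_Ico_succ_top hab, ← ih]
    have hd : Disjoint (A.filter (fun n => n ∈ Ioc (a * l) (b * l))) (cell A l b) := by
      unfold cell
      rw [Finset.disjoint_filter]
      intro n _ h1 h2
      rw [Finset.mem_Ioc] at h1 h2
      omega
    rw [← Finset.sum_union hd]
    refine Finset.sum_congr ?_ fun _ _ => rfl
    ext n
    have h1 : a * l ≤ b * l := Nat.mul_le_mul_right l hab
    have h2 : b * l ≤ (b + 1) * l := Nat.mul_le_mul_right l (Nat.le_succ b)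
    simp only [cell, Finset.mem_union, Finset.mem_filter, Finset.mem_Ioc]
    constructor
    · rintro ⟨hA, h3, h4⟩
      by_cases h5 : n ≤ b * l
      · exact Or.inl ⟨hA, h3, h5⟩
      · exact Or.inr ⟨hA, by omega, h4⟩
    · rintro (⟨hA, h3, h4⟩ | ⟨hA, h3, h4⟩)
      · exact ⟨hA, h3, by omega⟩
      · exact ⟨hA, by omega, h4⟩

theorem sum_all {β : Type*} [AddCommMonoid β] (A : Finset ℕ) (l J : ℕ) (hA : A ⊆ Icc 1 (J * l))
    (f : ℕ → β) : ∑ y ∈ A, f y = ∑ v ∈ range J, ∑ y ∈ cell A l v, f y := by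
  rw [Finset.range_eq_Ico, ← sum_cells A l 0 J (Nat.zero_le _)]
  refine Finset.sum_congr ?_ fun _ _ => rfl
  ext n
  rw [Finset.mem_filter, Finset.mem_Ioc]
  constructor
  · intro h
    have := Finset.mem_Icc.1 (hA h)
    exact ⟨h, by omega, by omega⟩
  · exact fun h => h.1

theorem cell_empty (A : Finset ℕ) (l J : ℕ) (hA : A ⊆ Icc 1 (J * l)) (v : ℕ) (hv : J ≤ v) :
    cell A l v = ∅ := by
  unfold cell
  rw [Finset.filter_eq_empty_iff]
  intro n hn h
  have h1 := Finset.mem_Icc.1 (hA hn)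
  rw [Finset.mem_Ioc] at h
  have : J * l ≤ v * l := Nat.mul_le_mul_right l hv
  omega

theorem mem_cell {A : Finset ℕ} {l j n : ℕ} (h : n ∈ cell A l j) :
    n ∈ A ∧ j * l < n ∧ n ≤ (j + 1) * l := by
  unfold cell at h
  rw [Finset.mem_filter, Finset.mem_Ioc] at h
  exact h

/-- the middle part of the window of `x` in the cell `j` is contained in the window -/
theorem mid_sub {l s₀ K₀ j x y : ℕ} (hx1 : j * l < x) (hx2 : x ≤ (j + 1) * l)
    (h1 : (j + (s₀ + 1)) * l < y) (h2 : y ≤ (j + (s₀ + K₀)) * l) :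
    x + s₀ * l < y ∧ y ≤ x + s₀ * l + K₀ * l := by
  constructor <;> nlinarith

theorem sum_mid {β : Type*} [AddCommMonoid β] (A : Finset ℕ) (l j a b : ℕ) (hab : a ≤ b)
    (f : ℕ → β) :
    ∑ v ∈ Ico a b, ∑ y ∈ cell A l (j + v), f y
      = ∑ y ∈ A.filter (fun n => n ∈ Ioc ((j + a) * l) ((j + b) * l)), f y := by
  rw [sum_cells A l (j + a) (j + b) (by omega), Finset.sum_Ico_eq_sum_range,
    Finset.sum_Ico_eq_sum_range]
  have : j + b - (j + a) = b - a := by omega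
  rw [this]
  refine Finset.sum_congr rfl fun v _ => ?_
  rw [show j + (a + v) = j + a + v by omega]

theorem shift_le (J v : ℕ) (g : ℕ → ℝ) (h0 : ∀ j, 0 ≤ g j) (hJ : ∀ j, J ≤ j → g j = 0) :
    ∑ j ∈ range J, g (j + v) ≤ ∑ j ∈ range J, g j := by
  have h1 : ∑ j ∈ range J, g (j + v) = ∑ j ∈ Ico v (J + v), g j := by
    rw [Finset.sum_Ico_eq_sum_range, Nat.add_sub_cancel]
    exact Finset.sum_congr rfl fun j _ => by rw [add_comm]
  have h2 : ∑ j ∈ Ico v (J + v), g j ≤ ∑ j ∈ range (J + v), g j := by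
    refine Finset.sum_le_sum_of_subset_of_nonneg ?_ fun _ _ _ => h0 _
    intro i hi
    rw [Finset.mem_Ico] at hi
    exact Finset.mem_range.2 hi.2
  have h3 : ∑ j ∈ range (J + v), g j = ∑ j ∈ range J, g j := by
    rw [Finset.sum_range_add]
    rw [Finset.sum_eq_zero (s := range v) (fun i _ => hJ _ (by omega)), add_zero]
  linarith

theorem ee_add (x y : ℝ) : ee (x + y) = ee x * ee y := by
  unfold ee
  rw [← Complex.exp_add]
  congr 1
  push_cast
  ring

theorem ee_conj (x : ℝ) : (starRingEnd ℂ) (ee x) = ee (-x) := by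
  unfold ee
  rw [← Complex.exp_conj]
  congr 1
  rw [map_mul, Complex.conj_ofReal, Complex.conj_I]
  push_cast
  ring

theorem norm_ee (x : ℝ) : ‖ee x‖ = 1 := by
  unfold ee
  exact Complex.norm_exp_ofReal_mul_I _

/-- number of elements of the window outside its middle part -/
theorem card_out {A : Finset ℕ} {l s₀ K₀ j x : ℕ} (hK : 1 ≤ K₀) (hx1 : j * l < x)
    (hx2 : x ≤ (j + 1) * l) :
    (A.filter (fun y => (x + s₀ * l < y ∧ y ≤ x + s₀ * l + K₀ * l) ∧
      ¬ (y ∈ Ioc ((j + (s₀ + 1)) * l) ((j + (s₀ + K₀)) * l)))).card ≤ l := by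
  obtain ⟨K, rfl⟩ : ∃ K, K₀ = K + 1 := ⟨K₀ - 1, by omega⟩
  have hsub : A.filter (fun y => (x + s₀ * l < y ∧ y ≤ x + s₀ * l + (K + 1) * l) ∧
      ¬ (y ∈ Ioc ((j + (s₀ + 1)) * l) ((j + (s₀ + (K + 1))) * l)))
      ⊆ Ioc (x + s₀ * l) (x + s₀ * l + (K + 1) * l) \
        Ioc ((j + (s₀ + 1)) * l) ((j + (s₀ + (K + 1))) * l) := by
    intro y hy
    rw [Finset.mem_filter] at hy
    rw [Finset.mem_sdiff, Finset.mem_Ioc]
    exact hy.2
  refine (Finset.card_le_card hsub).trans ?_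
  rw [Finset.card_sdiff_of_subset, Nat.card_Ioc, Nat.card_Ioc]
  · have h1 : (j + (s₀ + (K + 1))) * l - (j + (s₀ + 1)) * l = K * l := by
      rw [← Nat.sub_mul]
      congr 1
      omega
    rw [h1]
    have : (K + 1) * l = K * l + l := by ring
    omega
  · intro y hy
    rw [Finset.mem_Ioc] at hy ⊢
    exact mid_sub hx1 hx2 hy.1 hy.2

end Vale.Agent.P042.Cells

namespace Vale.Agent.P042

open Cells

theorem cell2 : CELL2 := by
  intro A J l s₀ K₀ θ hl hK hA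
  have hlr : (0 : ℝ) < l := by exact_mod_cast hl
  have hKr : (0 : ℝ) < K₀ := by exact_mod_cast hK
  -- the transforms of the cells
  set F : ℕ → ℂ := fun j => ∑ n ∈ cell A l j, ee ((n : ℝ) * θ) with hF
  set S : ℝ := ∑ j ∈ range J, ‖F j‖ ^ 2 with hS
  have hS0 : 0 ≤ S := Finset.sum_nonneg fun _ _ => sq_nonneg _
  have hF0 : ∀ j, J ≤ j → F j = 0 := by
    intro j hj
    simp only [hF]
    rw [cell_empty A l J hA j hj]
    simp
  set e : ℕ → ℕ → ℂ := fun x y => ee (-(θ * ((y : ℝ) - (x : ℝ)))) with he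
  -- one `x`
  have hone : ∀ j, ∀ x ∈ cell A l j,
      ‖(∑ y ∈ A, (if x + s₀ * l < y ∧ y ≤ x + s₀ * l + K₀ * l then e x y else 0))
        - ∑ v ∈ Ico (s₀ + 1) (s₀ + K₀), ∑ y ∈ cell A l (j + v), e x y‖ ≤ l := by
    intro j x hx
    obtain ⟨hxA, hx1, hx2⟩ := mem_cell hx
    rw [sum_mid A l j (s₀ + 1) (s₀ + K₀) (by omega), Finset.sum_filter, ← Finset.sum_sub_distrib]
    have h1 : ∀ y ∈ A, ((if x + s₀ * l < y ∧ y ≤ x + s₀ * l + K₀ * l then e x y else 0)
        - (if y ∈ Ioc ((j + (s₀ + 1)) * l) ((j + (s₀ + K₀)) * l) then e x y else 0))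
        = if ((x + s₀ * l < y ∧ y ≤ x + s₀ * l + K₀ * l) ∧
          ¬ (y ∈ Ioc ((j + (s₀ + 1)) * l) ((j + (s₀ + K₀)) * l))) then e x y else 0 := by
      intro y _
      by_cases hV : y ∈ Ioc ((j + (s₀ + 1)) * l) ((j + (s₀ + K₀)) * l)
      · have hW : x + s₀ * l < y ∧ y ≤ x + s₀ * l + K₀ * l := by
          rw [Finset.mem_Ioc] at hV
          exact mid_sub hx1 hx2 hV.1 hV.2
        rw [if_pos hW, if_pos hV, if_neg (by tauto), sub_self]
      · by_cases hW : x + s₀ * l < y ∧ y ≤ x + s₀ * l + K₀ * l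
        · rw [if_pos hW, if_neg hV, if_pos ⟨hW, hV⟩, sub_zero]
        · rw [if_neg hW, if_neg hV, if_neg (by tauto), sub_zero]
    rw [Finset.sum_congr rfl h1, ← Finset.sum_filter]
    refine (norm_sum_le _ _).trans ?_
    simp only [he, norm_ee]
    rw [Finset.sum_const, nsmul_eq_mul, mul_one]
    exact_mod_cast card_out hK hx1 hx2
  -- the main term
  have hmain : ∑ j ∈ range J, ∑ x ∈ cell A l j, ∑ v ∈ Ico (s₀ + 1) (s₀ + K₀),
      ∑ y ∈ cell A l (j + v), e x y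
      = ∑ v ∈ Ico (s₀ + 1) (s₀ + K₀), ∑ j ∈ range J, F j * (starRingEnd ℂ) (F (j + v)) := by
    have h1 : ∀ j ∈ range J, ∑ x ∈ cell A l j, ∑ v ∈ Ico (s₀ + 1) (s₀ + K₀),
        ∑ y ∈ cell A l (j + v), e x y
        = ∑ v ∈ Ico (s₀ + 1) (s₀ + K₀), F j * (starRingEnd ℂ) (F (j + v)) := by
      intro j _
      rw [Finset.sum_comm]
      refine Finset.sum_congr rfl fun v _ => ?_
      simp only [hF]
      rw [map_sum, Finset.sum_mul_sum]
      refine Finset.sum_congr rfl fun x _ => Finset.sum_congr rfl fun y _ => ?_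
      rw [ee_conj, ← ee_add]
      simp only [he]
      congr 1
      ring
    rw [Finset.sum_congr rfl h1, Finset.sum_comm]
  have hmainle : ‖∑ v ∈ Ico (s₀ + 1) (s₀ + K₀), ∑ j ∈ range J,
      F j * (starRingEnd ℂ) (F (j + v))‖ ≤ K₀ * S := by
    have h1 : ∀ v ∈ Ico (s₀ + 1) (s₀ + K₀),
        ‖∑ j ∈ range J, F j * (starRingEnd ℂ) (F (j + v))‖ ≤ S := by
      intro v _
      have h2 : ∀ j ∈ range J, ‖F j * (starRingEnd ℂ) (F (j + v))‖
          ≤ (‖F j‖ ^ 2 + ‖F (j + v)‖ ^ 2) / 2 := by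
        intro j _
        rw [norm_mul, RCLike.norm_conj]
        nlinarith [sq_nonneg (‖F j‖ - ‖F (j + v)‖)]
      refine (norm_sum_le _ _).trans ((Finset.sum_le_sum h2).trans ?_)
      rw [← Finset.sum_div, Finset.sum_add_distrib]
      have h3 := shift_le J v (fun j => ‖F j‖ ^ 2) (fun _ => sq_nonneg _)
        (fun j hj => by rw [hF0 j hj]; simp)
      rw [div_le_iff₀ (by norm_num)]
      linarith
    refine (norm_sum_le _ _).trans ((Finset.sum_le_sum h1).trans ?_)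
    rw [Finset.sum_const, nsmul_eq_mul, Nat.card_Ico]
    refine mul_le_mul_of_nonneg_right ?_ hS0
    have : s₀ + K₀ - (s₀ + 1) ≤ K₀ := by omega
    exact_mod_cast this
  -- the difference
  have hdiff : ‖(∑ x ∈ A, ∑ y ∈ A,
      (if x + s₀ * l < y ∧ y ≤ x + s₀ * l + K₀ * l then e x y else 0))
      - ∑ j ∈ range J, ∑ x ∈ cell A l j, ∑ v ∈ Ico (s₀ + 1) (s₀ + K₀),
      ∑ y ∈ cell A l (j + v), e x y‖ ≤ l * A.card := by
    rw [sum_all A l J hA (fun x => ∑ y ∈ A,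
      (if x + s₀ * l < y ∧ y ≤ x + s₀ * l + K₀ * l then e x y else 0)),
      ← Finset.sum_sub_distrib]
    have h1 : ∀ j ∈ range J, ‖(∑ x ∈ cell A l j, ∑ y ∈ A,
        (if x + s₀ * l < y ∧ y ≤ x + s₀ * l + K₀ * l then e x y else 0))
        - ∑ x ∈ cell A l j, ∑ v ∈ Ico (s₀ + 1) (s₀ + K₀),
          ∑ y ∈ cell A l (j + v), e x y‖ ≤ ∑ x ∈ cell A l j, (l : ℝ) := by
      intro j _
      rw [← Finset.sum_sub_distrib]
      exact (norm_sum_le _ _).trans (Finset.sum_le_sum (hone j))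
    refine (norm_sum_le _ _).trans ((Finset.sum_le_sum h1).trans ?_)
    rw [← sum_all A l J hA (fun _ => (l : ℝ)), Finset.sum_const, nsmul_eq_mul, mul_comm]
  rw [hmain] at hdiff
  have hnum : ‖∑ x ∈ A, ∑ y ∈ A,
      (if x + s₀ * l < y ∧ y ≤ x + s₀ * l + K₀ * l then e x y else 0)‖
      ≤ K₀ * S + l * A.card := by
    have := norm_le_norm_add_norm_sub' (∑ x ∈ A, ∑ y ∈ A,
      (if x + s₀ * l < y ∧ y ≤ x + s₀ * l + K₀ * l then e x y else 0))
      (∑ v ∈ Ico (s₀ + 1) (s₀ + K₀), ∑ j ∈ range J, F j * (starRingEnd ℂ) (F (j + v)))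
    linarith
  have hRR : ‖RR A l s₀ K₀ θ‖ = ‖∑ x ∈ A, ∑ y ∈ A,
      (if x + s₀ * l < y ∧ y ≤ x + s₀ * l + K₀ * l then e x y else 0)‖ / (K₀ * l) := by
    unfold RR
    rw [norm_div, Complex.norm_natCast]
    push_cast
    rfl
  rw [hRR]
  rw [div_le_iff₀ (by positivity)]
  have hA0 : (0 : ℝ) ≤ A.card := Nat.cast_nonneg _
  have hexp : (S / l + 2 * A.card / K₀) * (K₀ * l) = K₀ * S + 2 * (l * A.card) := by
    field_simp
  rw [hexp]
  have : 0 ≤ (l : ℝ) * A.card := by positivity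
  linarith

end Vale.Agent.P042
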