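import Vale.Agent.P042.Cell2

/-!
# P042 module F3: lower bound for the zero frequency
-/

open Polynomial Finset

namespace Vale.Agent.P042

open Cells

/-- one shift -/
theorem Cells.shift_lower (J v : ℕ) (a : ℕ → ℝ) (α β : ℝ) (ha : ∀ j, a j ≤ β)
    (hJ : ∀ j, J ≤ j → a j = 0) (hs : ∑ j ∈ range J, a j = α * J) :
    J * β * (2 * α - β) - v * β ^ 2 ≤ ∑ j ∈ range J, a j * a (j + v) ∨ β < 0 := by
  by_cases hβ : β < 0
  · exact Or.inr hβ
  left
  rw [not_lt] at hβ
  have h1 : ∀ j ∈ range J, β * a j + β * a (j + v) - β ^ 2 ≤ a j * a (j + v) := by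
    intro j _
    nlinarith [mul_nonneg (sub_nonneg.2 (ha j)) (sub_nonneg.2 (ha (j + v)))]
  refine le_trans ?_ (Finset.sum_le_sum h1)
  rw [Finset.sum_sub_distrib, Finset.sum_add_distrib, ← Finset.mul_sum, ← Finset.mul_sum, hs,
    Finset.sum_const, Finset.card_range, nsmul_eq_mul]
  have h2 : ∑ j ∈ range J, a (j + v) = α * J - ∑ j ∈ range v, a j := by
    have e1 : ∑ j ∈ range (J + v), a j = ∑ j ∈ range J, a j := by
      rw [Finset.sum_range_add]
      rw [Finset.sum_eq_zero (s := range v) (fun i _ => hJ _ (by omega)), add_zero]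
    have e2 : ∑ j ∈ range (v + J), a j = ∑ j ∈ range v, a j + ∑ j ∈ range J, a (v + j) :=
      Finset.sum_range_add _ _ _
    rw [add_comm v J, e1, hs] at e2
    have e3 : ∑ j ∈ range J, a (j + v) = ∑ j ∈ range J, a (v + j) :=
      Finset.sum_congr rfl fun j _ => by rw [add_comm]
    linarith
  have h3 : ∑ j ∈ range v, a j ≤ v * β := by
    refine (Finset.sum_le_sum fun j _ => ha j).trans ?_
    rw [Finset.sum_const, Finset.card_range, nsmul_eq_mul]
  rw [h2]
  nlinarith [mul_le_mul_of_nonneg_left h3 hβ]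

theorem cell3 : CELL3 := by
  intro A J l s₀ K₀ α β hl hK hA hα hαβ hcard hcell
  have hlr : (0 : ℝ) < l := by exact_mod_cast hl
  have hβ : 0 ≤ β := hα.trans hαβ
  -- densities of the cells
  set a : ℕ → ℝ := fun j => ((cell A l j).card : ℝ) / l with ha
  have hc : ∀ j, ((cell A l j).card : ℝ) = a j * l := by
    intro j
    simp only [ha]
    field_simp
  have haJ : ∀ j, J ≤ j → a j = 0 := by
    intro j hj
    simp only [ha]
    rw [cell_empty A l J hA j hj]
    simp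
  have haβ : ∀ j, a j ≤ β := by
    intro j
    by_cases hj : j < J
    · simp only [ha]
      rw [div_le_iff₀ hlr]
      exact hcell j hj
    · rw [haJ j (not_lt.1 hj)]
      exact hβ
  have hsum : ∑ j ∈ range J, a j = α * J := by
    have h1 : (A.card : ℝ) = ∑ j ∈ range J, ((cell A l j).card : ℝ) := by
      have := sum_all A l J hA (fun _ => (1 : ℝ))
      simpa using this
    simp only [hc] at h1
    rw [← Finset.sum_mul, hcard] at h1
    have h2 : (∑ j ∈ range J, a j) * l = (α * J) * l := by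
      rw [← h1]
      ring
    exact mul_right_cancel₀ hlr.ne' h2
  -- lower bound by the middle parts
  have hlow : ∑ j ∈ range J, ∑ x ∈ cell A l j, ∑ v ∈ Ico (s₀ + 1) (s₀ + K₀),
      ∑ y ∈ cell A l (j + v), (1 : ℝ)
      ≤ ∑ x ∈ A, ∑ y ∈ A,
        (if x + s₀ * l < y ∧ y ≤ x + s₀ * l + K₀ * l then (1 : ℝ) else 0) := by
    rw [sum_all A l J hA (fun x => ∑ y ∈ A,
      (if x + s₀ * l < y ∧ y ≤ x + s₀ * l + K₀ * l then (1 : ℝ) else 0))]
    refine Finset.sum_le_sum fun j _ => Finset.sum_le_sum fun x hx => ?_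
    obtain ⟨hxA, hx1, hx2⟩ := mem_cell hx
    rw [sum_mid A l j (s₀ + 1) (s₀ + K₀) (by omega), Finset.sum_filter]
    refine Finset.sum_le_sum fun y _ => ?_
    by_cases hV : y ∈ Ioc ((j + (s₀ + 1)) * l) ((j + (s₀ + K₀)) * l)
    · have hW : x + s₀ * l < y ∧ y ≤ x + s₀ * l + K₀ * l := by
        rw [Finset.mem_Ioc] at hV
        exact mid_sub hx1 hx2 hV.1 hV.2
      rw [if_pos hV, if_pos hW]
    · rw [if_neg hV]
      split_ifs <;> norm_num
  refine le_trans ?_ hlow
  have hmain : ∑ j ∈ range J, ∑ x ∈ cell A l j, ∑ v ∈ Ico (s₀ + 1) (s₀ + K₀),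
      ∑ y ∈ cell A l (j + v), (1 : ℝ)
      = (l : ℝ) ^ 2 * ∑ v ∈ Ico (s₀ + 1) (s₀ + K₀), ∑ j ∈ range J, a j * a (j + v) := by
    have h1 : ∀ j ∈ range J, ∑ x ∈ cell A l j, ∑ v ∈ Ico (s₀ + 1) (s₀ + K₀),
        ∑ y ∈ cell A l (j + v), (1 : ℝ)
        = ∑ v ∈ Ico (s₀ + 1) (s₀ + K₀), (l : ℝ) ^ 2 * (a j * a (j + v)) := by
      intro j _
      rw [Finset.sum_comm]
      refine Finset.sum_congr rfl fun v _ => ?_
      simp only [Finset.sum_const, nsmul_eq_mul, mul_one]
      rw [hc, hc]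
      ring
    rw [Finset.sum_congr rfl h1, Finset.sum_comm, Finset.mul_sum]
    exact Finset.sum_congr rfl fun v _ => by rw [← Finset.mul_sum]
  rw [hmain, mul_assoc]
  refine mul_le_mul_of_nonneg_left ?_ (sq_nonneg _)
  have h2 : ∀ v ∈ Ico (s₀ + 1) (s₀ + K₀), J * β * (2 * α - β) - (s₀ + K₀) * β ^ 2
      ≤ ∑ j ∈ range J, a j * a (j + v) := by
    intro v hv
    have h3 := (Cells.shift_lower J v a α β haβ haJ hsum).resolve_right (not_lt.2 hβ)
    refine le_trans ?_ h3
    have hv' : (v : ℝ) ≤ s₀ + K₀ := by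
      have := (Finset.mem_Ico.1 hv).2
      exact_mod_cast this.le
    nlinarith [mul_le_mul_of_nonneg_right hv' (sq_nonneg β)]
  have h4 := Finset.sum_le_sum h2
  rw [Finset.sum_const, Nat.card_Ico, nsmul_eq_mul] at h4
  refine le_trans (le_of_eq ?_) h4
  have : s₀ + K₀ - (s₀ + 1) = K₀ - 1 := by omega
  rw [this, Nat.cast_sub hK]
  push_cast
  ring

end Vale.Agent.P042
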