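import Vale.Agent.P042.Core2

/-!
# P042, module B7: number of frequencies with denominator at most `R`
-/

open Polynomial Finset

set_option linter.unusedSectionVars false

namespace Vale.Agent.P042

namespace CntAux

variable {ι : Type} [Fintype ι] [DecidableEq ι] (M : ι → ℕ) [∀ i, NeZero (M i)]

lemma card_fixed (p J : ι → ℕ) (hp : ∀ i, (p i).Prime) (hinj : Function.Injective p)
    (hM : ∀ i, M i = p i ^ J i) (m : ℕ) (hm : 1 ≤ m) :
    (univ.filter (fun a : (∀ i, ZMod (M i)) => md M a = m)).card ≤ m := by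
  classical
  have hm0 : m ≠ 0 := by omega
  have hsub : univ.filter (fun a : (∀ i, ZMod (M i)) => md M a = m)
      ⊆ Fintype.piFinset (fun i => univ.filter (fun z : ZMod (M i) =>
          (p i ^ m.factorization (p i)) • z = 0)) := by
    intro a ha
    rw [mem_filter] at ha
    rw [Fintype.mem_piFinset]
    intro i
    rw [mem_filter]
    refine ⟨mem_univ _, ?_⟩
    rw [← addOrderOf_dvd_iff_nsmul_eq_zero]
    have h1 : addOrderOf (a i) ∣ p i ^ J i := by
      have h2 : addOrderOf (a i) ∣ M i :=
        addOrderOf_dvd_of_nsmul_eq_zero (by rw [nsmul_eq_mul, ZMod.natCast_self, zero_mul])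
      exact h2.trans (dvd_of_eq (hM i))
    obtain ⟨k, _, hk2⟩ := (Nat.dvd_prime_pow (hp i)).1 h1
    have h3 : addOrderOf (a i) ∣ m := by
      rw [← ha.2]
      exact Finset.dvd_prod_of_mem (fun i => addOrderOf (a i)) (mem_univ i)
    rw [hk2] at h3 ⊢
    exact pow_dvd_pow _ (((hp i).pow_dvd_iff_le_factorization hm0).1 h3)
  have hprod : ∏ i, p i ^ m.factorization (p i) ∣ m := by
    refine Finset.prod_dvd_of_isRelPrime ?_ ?_
    · intro i _ j _ hij
      refine Nat.coprime_iff_isRelPrime.1 (Nat.Coprime.pow _ _ ?_)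
      rw [Nat.coprime_primes (hp i) (hp j)]
      exact fun h => hij (hinj h)
    · intro i _
      exact Nat.ordProj_dvd m (p i)
  calc (univ.filter (fun a : (∀ i, ZMod (M i)) => md M a = m)).card
      ≤ (Fintype.piFinset (fun i => univ.filter (fun z : ZMod (M i) =>
          (p i ^ m.factorization (p i)) • z = 0))).card := Finset.card_le_card hsub
    _ = ∏ i, (univ.filter (fun z : ZMod (M i) =>
          (p i ^ m.factorization (p i)) • z = 0)).card := Fintype.card_piFinset _
    _ ≤ ∏ i, p i ^ m.factorization (p i) := by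
        refine Finset.prod_le_prod' (fun i _ => ?_)
        exact IsAddCyclic.card_nsmul_eq_zero_le (Nat.pow_pos (hp i).pos)
    _ ≤ m := Nat.le_of_dvd hm hprod

end CntAux

open CntAux in
theorem cnt : CNT := by
  classical
  intro ι _ _ M _ p J hp hinj hM R
  have hsub : univ.filter (fun a : (∀ i, ZMod (M i)) => md M a ≤ R)
      ⊆ (Icc 1 R).biUnion (fun m => univ.filter (fun a : (∀ i, ZMod (M i)) => md M a = m)) := by
    intro a ha
    rw [mem_filter] at ha
    rw [mem_biUnion]
    have hpos : 0 < md M a := Finset.prod_pos (fun i _ => addOrderOf_pos _)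
    refine ⟨md M a, ?_, ?_⟩
    · rw [mem_Icc]
      exact ⟨hpos, ha.2⟩
    · rw [mem_filter]
      exact ⟨mem_univ _, rfl⟩
  calc (univ.filter (fun a : (∀ i, ZMod (M i)) => md M a ≤ R)).card
      ≤ ((Icc 1 R).biUnion (fun m =>
          univ.filter (fun a : (∀ i, ZMod (M i)) => md M a = m))).card :=
        Finset.card_le_card hsub
    _ ≤ ∑ m ∈ Icc 1 R, (univ.filter (fun a : (∀ i, ZMod (M i)) => md M a = m)).card :=
        Finset.card_biUnion_le
    _ ≤ ∑ m ∈ Icc 1 R, R := by
        refine Finset.sum_le_sum (fun m hm => ?_)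
        rw [mem_Icc] at hm
        exact (card_fixed M p J hp hinj hM m hm.1).trans hm.2
    _ = R ^ 2 := by
        rw [Finset.sum_const, Nat.card_Icc, smul_eq_mul, sq]
        simp

end Vale.Agent.P042
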