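import Vale.Agent.P042.Core2

/-!
# P042, module G2n: energy inequality
-/

open Polynomial Finset

set_option linter.unusedSectionVars false

namespace Vale.Agent.P042

namespace EnerAux

lemma ee_add (x y : ℝ) : ee (x + y) = ee x * ee y := by
  unfold ee
  rw [← Complex.exp_add]
  congr 1
  push_cast
  ring

lemma ee_zero : ee 0 = 1 := by
  unfold ee
  simp

lemma ee_int (n : ℤ) : ee (n : ℝ) = 1 := by
  unfold ee
  rw [Complex.exp_eq_one_iff]
  refine ⟨n, ?_⟩
  push_cast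
  ring

lemma ee_add_int (x : ℝ) (n : ℤ) : ee (x + n) = ee x := by
  rw [ee_add, ee_int, mul_one]

lemma norm_ee (x : ℝ) : ‖ee x‖ = 1 := by
  unfold ee
  exact Complex.norm_exp_ofReal_mul_I _

lemma ee_eq_one {x : ℝ} (h : ee x = 1) : ∃ n : ℤ, x = n := by
  unfold ee at h
  rw [Complex.exp_eq_one_iff] at h
  obtain ⟨n, hn⟩ := h
  refine ⟨n, ?_⟩
  have hpi : (2 * (Real.pi : ℂ) * Complex.I) ≠ 0 := Complex.two_pi_I_ne_zero
  have h2 : (x : ℂ) * (2 * (Real.pi : ℂ) * Complex.I) = (n : ℂ) * (2 * (Real.pi : ℂ) * Complex.I) := by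
    rw [← hn]
    push_cast
    ring
  have h3 : (x : ℂ) = (n : ℂ) := mul_right_cancel₀ hpi h2
  exact_mod_cast h3

lemma conj_ee (x : ℝ) : (starRingEnd ℂ) (ee x) = ee (-x) := by
  unfold ee
  rw [← Complex.exp_conj]
  congr 1
  rw [map_mul, Complex.conj_ofReal, Complex.conj_I]
  push_cast
  ring

lemma ee_nat_mul (n : ℕ) (x : ℝ) : ee ((n : ℝ) * x) = ee x ^ n := by
  unfold ee
  rw [← Complex.exp_nat_mul]
  congr 1
  push_cast
  ring

lemma ee_sum {α : Type*} (s : Finset α) (f : α → ℝ) : ee (∑ i ∈ s, f i) = ∏ i ∈ s, ee (f i) := by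
  classical
  induction s using Finset.induction_on with
  | empty => simp [ee_zero]
  | insert a s ha ih => rw [Finset.sum_insert ha, Finset.prod_insert ha, ee_add, ih]

lemma std_eq (N : ℕ) [NeZero N] (j : ℤ) : ZMod.stdAddChar (j : ZMod N) = ee ((j : ℝ) / N) := by
  rw [ZMod.stdAddChar_coe]
  unfold ee
  congr 1
  push_cast
  ring

/-- orthogonality -/
lemma orth (m : ℕ) (hm : 1 ≤ m) (c c' : ℕ) (hc : c < m) (hc' : c' < m) :
    ∑ b ∈ range m, ee ((c : ℝ) * ((b : ℝ) / m)) * (starRingEnd ℂ) (ee ((c' : ℝ) * ((b : ℝ) / m)))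
      = if c = c' then (m : ℂ) else 0 := by
  have hm0 : (m : ℝ) ≠ 0 := by
    have : (0 : ℝ) < m := by exact_mod_cast hm
    exact this.ne'
  have h1 : ∀ b ∈ range m,
      ee ((c : ℝ) * ((b : ℝ) / m)) * (starRingEnd ℂ) (ee ((c' : ℝ) * ((b : ℝ) / m)))
      = ee (((c : ℝ) - c') / m) ^ b := by
    intro b _
    rw [conj_ee, ← ee_add, ← ee_nat_mul]
    congr 1
    ring
  rw [Finset.sum_congr rfl h1]
  by_cases hcc : c = c'
  · subst hcc
    rw [if_pos rfl]
    simp [ee_zero]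
  · rw [if_neg hcc]
    have hne : ee (((c : ℝ) - c') / m) ≠ 1 := by
      intro h
      obtain ⟨n, hn⟩ := ee_eq_one h
      rw [div_eq_iff hm0] at hn
      have h2 : ((c : ℤ) - (c' : ℤ)) = n * (m : ℤ) := by exact_mod_cast hn
      have hn0 : n = 0 := by
        by_contra hn0
        have h3 : (m : ℤ) ≤ |n * (m : ℤ)| := by
          rw [abs_mul]
          have h4 : (1 : ℤ) ≤ |n| := Int.one_le_abs hn0
          have h5 : |(m : ℤ)| = m := abs_of_nonneg (by positivity)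
          rw [h5]
          nlinarith
        rw [← h2] at h3
        have h6 : |(c : ℤ) - (c' : ℤ)| < m := by
          rw [abs_lt]
          constructor <;> omega
        omega
      rw [hn0, zero_mul] at h2
      omega
    rw [geom_sum_eq hne]
    have hpow : ee (((c : ℝ) - c') / m) ^ m = 1 := by
      rw [← ee_nat_mul]
      have : (m : ℝ) * (((c : ℝ) - c') / m) = (((c : ℤ) - (c' : ℤ) : ℤ) : ℝ) := by
        push_cast
        field_simp
      rw [this, ee_int]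
    rw [hpow, sub_self, zero_div]

/-- Parseval modulo `m` -/
lemma pars_m (m : ℕ) (hm : 1 ≤ m) (G : ℕ → ℂ) :
    ∑ b ∈ range m, ‖∑ c ∈ range m, ee ((c : ℝ) * ((b : ℝ) / m)) * G c‖ ^ 2
      = m * ∑ c ∈ range m, ‖G c‖ ^ 2 := by
  have h : ∀ z : ℂ, ((‖z‖ ^ 2 : ℝ) : ℂ) = z * (starRingEnd ℂ) z := by
    intro z
    rw [Complex.mul_conj, Complex.normSq_eq_norm_sq]
  have key : ((∑ b ∈ range m, ‖∑ c ∈ range m, ee ((c : ℝ) * ((b : ℝ) / m)) * G c‖ ^ 2 : ℝ) : ℂ)
      = ((m * ∑ c ∈ range m, ‖G c‖ ^ 2 : ℝ) : ℂ) := by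
    rw [Complex.ofReal_sum]
    have e1 : ∀ b ∈ range m,
        ((‖∑ c ∈ range m, ee ((c : ℝ) * ((b : ℝ) / m)) * G c‖ ^ 2 : ℝ) : ℂ)
        = ∑ c ∈ range m, ∑ c' ∈ range m,
          (ee ((c : ℝ) * ((b : ℝ) / m)) * (starRingEnd ℂ) (ee ((c' : ℝ) * ((b : ℝ) / m))))
            * (G c * (starRingEnd ℂ) (G c')) := by
      intro b _
      rw [h, map_sum, Finset.sum_mul_sum]
      refine Finset.sum_congr rfl (fun c _ => Finset.sum_congr rfl (fun c' _ => ?_))
      rw [map_mul]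
      ring
    rw [Finset.sum_congr rfl e1, Finset.sum_comm]
    have e2 : ∀ c ∈ range m, ∑ b ∈ range m, ∑ c' ∈ range m,
          (ee ((c : ℝ) * ((b : ℝ) / m)) * (starRingEnd ℂ) (ee ((c' : ℝ) * ((b : ℝ) / m))))
            * (G c * (starRingEnd ℂ) (G c')) = (m : ℂ) * (G c * (starRingEnd ℂ) (G c)) := by
      intro c hc
      rw [Finset.sum_comm]
      have e3 : ∀ c' ∈ range m, ∑ b ∈ range m,
          (ee ((c : ℝ) * ((b : ℝ) / m)) * (starRingEnd ℂ) (ee ((c' : ℝ) * ((b : ℝ) / m))))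
            * (G c * (starRingEnd ℂ) (G c'))
          = if c = c' then (m : ℂ) * (G c * (starRingEnd ℂ) (G c')) else 0 := by
        intro c' hc'
        rw [← Finset.sum_mul, orth m hm c c' (mem_range.1 hc) (mem_range.1 hc')]
        split_ifs <;> simp
      rw [Finset.sum_congr rfl e3, Finset.sum_ite_eq, if_pos hc]
    rw [Finset.sum_congr rfl e2]
    push_cast
    rw [Finset.mul_sum]
    refine Finset.sum_congr rfl (fun c _ => ?_)
    rw [← h (G c)]
    push_cast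
    ring
  exact_mod_cast key

/-- one fiber -/
lemma fiber {σ : Type*} [DecidableEq σ] (F : Finset σ) (θ : σ → ℝ) (m : ℕ) (hm : 1 ≤ m)
    (h0 : ∀ s ∈ F, 0 ≤ θ s) (h1 : ∀ s ∈ F, θ s < 1)
    (hinj : ∀ s ∈ F, ∀ s' ∈ F, θ s = θ s' → s = s')
    (hint : ∀ s ∈ F, ∀ s' ∈ F, ∃ k : ℤ, (m : ℝ) * (θ s - θ s') = k) (z : ℕ) (g : ℕ → ℂ) :
    ∑ s ∈ F, ‖∑ c ∈ range m, ee (((z + 1 + c : ℕ) : ℝ) * θ s) * g c‖ ^ 2
      ≤ m * ∑ c ∈ range m, ‖g c‖ ^ 2 := by
  rcases F.eq_empty_or_nonempty with hF | ⟨s0, hs0⟩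
  · rw [hF, Finset.sum_empty]
    positivity
  · have hm0 : (0 : ℝ) < m := by exact_mod_cast hm
    choose! k hk using hint
    set β : σ → ℕ := fun s => (k s s0 % (m : ℤ)).toNat with hβ
    have hmz : (0 : ℤ) < m := by exact_mod_cast hm
    have hβlt : ∀ s, β s < m := by
      intro s
      have h2 := Int.emod_nonneg (k s s0) hmz.ne'
      have h3 := Int.emod_lt_of_pos (k s s0) hmz
      rw [hβ]
      simp only
      omega
    have hβeq : ∀ s, ((β s : ℕ) : ℤ) = k s s0 % (m : ℤ) := by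
      intro s
      rw [hβ]
      exact Int.toNat_of_nonneg (Int.emod_nonneg _ hmz.ne')
    have hβk : ∀ s, (k s s0 : ℝ) = β s + m * ((k s s0 / (m : ℤ) : ℤ) : ℝ) := by
      intro s
      have h2 := Int.emod_add_mul_ediv (k s s0) m
      rw [← hβeq s] at h2
      have h3 : ((β s : ℤ) : ℝ) + (m : ℝ) * ((k s s0 / (m : ℤ) : ℤ) : ℝ) = (k s s0 : ℝ) := by
        exact_mod_cast h2
      rw [← h3]
      push_cast
      ring
    have hnorm : ∀ s ∈ F, ‖∑ c ∈ range m, ee (((z + 1 + c : ℕ) : ℝ) * θ s) * g c‖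
        = ‖∑ c ∈ range m, ee ((c : ℝ) * ((β s : ℝ) / m)) * (ee ((c : ℝ) * θ s0) * g c)‖ := by
      intro s hs
      have e1 : ∀ c ∈ range m, ee (((z + 1 + c : ℕ) : ℝ) * θ s) * g c
          = ee (((z + 1 : ℕ) : ℝ) * θ s) *
            (ee ((c : ℝ) * ((β s : ℝ) / m)) * (ee ((c : ℝ) * θ s0) * g c)) := by
        intro c _
        have h4 : θ s = θ s0 + (k s s0 : ℝ) / m := by
          have := hk s hs s0 hs0
          rw [eq_comm, ← this]
          field_simp
          ring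
        have h5 : ((z + 1 + c : ℕ) : ℝ) * θ s = ((z + 1 : ℕ) : ℝ) * θ s
            + ((c : ℝ) * ((β s : ℝ) / m) + (c : ℝ) * θ s0)
            + (((c : ℤ) * (k s s0 / (m : ℤ)) : ℤ) : ℝ) := by
          have h6 : (c : ℝ) * θ s = (c : ℝ) * ((β s : ℝ) / m) + (c : ℝ) * θ s0
              + (((c : ℤ) * (k s s0 / (m : ℤ)) : ℤ) : ℝ) := by
            rw [h4, hβk s]
            push_cast
            field_simp
            ring
          push_cast at h6 ⊢
          linarith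
        rw [h5, ee_add_int, ee_add, ee_add]
        ring
      rw [Finset.sum_congr rfl e1, ← Finset.mul_sum, norm_mul, norm_ee, one_mul]
    have hβinj : Set.InjOn β (F : Set σ) := by
      intro s hs s' hs' hss
      apply hinj s hs s' hs'
      have h7 : (m : ℤ) ∣ k s s0 - k s' s0 := by
        apply Int.ModEq.dvd
        unfold Int.ModEq
        rw [← hβeq, ← hβeq, hss]
      obtain ⟨j, hj⟩ := h7
      have h8 : (m : ℝ) * (θ s - θ s') = m * (j : ℝ) := by
        have a1 := hk s hs s0 hs0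
        have a2 := hk s' hs' s0 hs0
        have a3 : ((k s s0 - k s' s0 : ℤ) : ℝ) = ((m * j : ℤ) : ℝ) := by rw [hj]
        push_cast at a3
        linarith
      have h9 : θ s - θ s' = j := mul_left_cancel₀ hm0.ne' h8
      have b1 := h0 s hs
      have b2 := h1 s hs
      have b3 := h0 s' hs'
      have b4 := h1 s' hs'
      have hj0 : j = 0 := by
        have c1 : (-1 : ℝ) < j := by linarith
        have c2 : (j : ℝ) < 1 := by linarith
        have c3 : (-1 : ℤ) < j := by exact_mod_cast c1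
        have c4 : j < 1 := by exact_mod_cast c2
        omega
      rw [hj0] at h9
      push_cast at h9
      linarith
    calc ∑ s ∈ F, ‖∑ c ∈ range m, ee (((z + 1 + c : ℕ) : ℝ) * θ s) * g c‖ ^ 2
        = ∑ s ∈ F, ‖∑ c ∈ range m, ee ((c : ℝ) * ((β s : ℝ) / m)) *
            (ee ((c : ℝ) * θ s0) * g c)‖ ^ 2 := by
          refine Finset.sum_congr rfl (fun s hs => ?_)
          rw [hnorm s hs]
      _ = ∑ b ∈ F.image β, ‖∑ c ∈ range m, ee ((c : ℝ) * ((b : ℝ) / m)) *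
            (ee ((c : ℝ) * θ s0) * g c)‖ ^ 2 := by
          rw [Finset.sum_image hβinj]
      _ ≤ ∑ b ∈ range m, ‖∑ c ∈ range m, ee ((c : ℝ) * ((b : ℝ) / m)) *
            (ee ((c : ℝ) * θ s0) * g c)‖ ^ 2 := by
          refine Finset.sum_le_sum_of_subset_of_nonneg ?_ (fun _ _ _ => by positivity)
          intro b hb
          obtain ⟨s, _, rfl⟩ := Finset.mem_image.1 hb
          exact mem_range.2 (hβlt s)
      _ = m * ∑ c ∈ range m, ‖ee ((c : ℝ) * θ s0) * g c‖ ^ 2 := pars_m m hm _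
      _ = m * ∑ c ∈ range m, ‖g c‖ ^ 2 := by
          congr 1
          refine Finset.sum_congr rfl (fun c _ => ?_)
          rw [norm_mul, norm_ee, one_mul]

/-! ### the frequency vector -/

lemma idx_prime {Q : ℕ} (i : Idx Q) : (i : ℕ).Prime := (Finset.mem_filter.1 i.2).2

lemma idx_le {Q : ℕ} (i : Idx Q) : (i : ℕ) ≤ Q :=
  (Finset.mem_Icc.1 (Finset.mem_filter.1 i.2).1).2

lemma Mq_coprime {Q : ℕ} (i j : Idx Q) (h : i ≠ j) : Nat.Coprime (Mq Q i) (Mq Q j) := by
  unfold Mq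
  refine Nat.Coprime.pow _ _ ?_
  rw [Nat.coprime_primes (idx_prime i) (idx_prime j)]
  intro hij
  exact h (Subtype.ext hij)

/-- `q` divides the product of all moduli -/
lemma dvd_prod_Mq {Q q : ℕ} (hq1 : 1 ≤ q) (hqQ : q ≤ Q) : q ∣ ∏ i : Idx Q, Mq Q i := by
  have hq0 : q ≠ 0 := by omega
  have hprod : ∏ i : Idx Q, Mq Q i = ∏ p ∈ (Icc 1 Q).filter Nat.Prime, p ^ Nat.log p Q := by
    rw [← Finset.prod_coe_sort ((Icc 1 Q).filter Nat.Prime) (fun p => p ^ Nat.log p Q)]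
    rfl
  rw [hprod]
  have h1 : q = ∏ p ∈ q.primeFactors, p ^ q.factorization p := by
    exact (Nat.prod_factorization_pow_eq_self hq0).symm
  have hsub : q.primeFactors ⊆ (Icc 1 Q).filter Nat.Prime := by
    intro p hp
    have hpp := Nat.prime_of_mem_primeFactors hp
    rw [mem_filter, mem_Icc]
    exact ⟨⟨hpp.one_lt.le, (Nat.le_of_mem_primeFactors hp).trans hqQ⟩, hpp⟩
  have h2 : ∏ p ∈ q.primeFactors, p ^ q.factorization p
      ∣ ∏ p ∈ q.primeFactors, p ^ Nat.log p Q := by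
    refine Finset.prod_dvd_prod_of_dvd _ _ (fun p hp => ?_)
    refine pow_dvd_pow _ ?_
    have hpp := Nat.prime_of_mem_primeFactors hp
    refine Nat.le_log_of_pow_le hpp.one_lt ?_
    exact (Nat.le_of_dvd (by omega) (Nat.ordProj_dvd q p)).trans hqQ
  conv_lhs => rw [h1]
  exact h2.trans (Finset.prod_dvd_prod_of_subset _ _ _ hsub)

/-- idempotents -/
lemma exists_idem (Q : ℕ) : ∃ e : Idx Q → ℕ,
    (∀ i, e i ≡ 1 [MOD Mq Q i]) ∧ ∀ i j, j ≠ i → Mq Q j ∣ e i := by
  classical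
  have h : ∀ i : Idx Q, ∃ k : ℕ, k ≡ 1 [MOD Mq Q i] ∧ ∀ j, j ≠ i → Mq Q j ∣ k := by
    intro i
    have hne : ∀ j ∈ (univ : Finset (Idx Q)), Mq Q j ≠ 0 := fun j _ => NeZero.ne _
    have hpw : Set.Pairwise ((univ : Finset (Idx Q)) : Set (Idx Q))
        (Function.onFun Nat.Coprime (Mq Q)) := fun a _ b _ hab => Mq_coprime a b hab
    obtain ⟨k, hk⟩ := Nat.chineseRemainderOfFinset (fun j => if j = i then 1 else 0) (Mq Q)
      univ hne hpw
    refine ⟨k, ?_, ?_⟩
    · have := hk i (mem_univ _)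
      simpa using this
    · intro j hj
      have := hk j (mem_univ _)
      rw [if_neg hj] at this
      exact (Nat.modEq_zero_iff_dvd).1 this
  choose e he using h
  exact ⟨e, fun i => (he i).1, fun i j hj => (he i).2 j hj⟩

section vec
variable {Q : ℕ} (e : Idx Q → ℕ)

/-- numerator -/
def yy (m q r : ℕ) (i : Idx Q) : ℕ := (e i * Mq Q i / q) * m * r

/-- the frequency vector of `m r / q` -/
def xx (m q r : ℕ) : ∀ i : Idx Q, ZMod (Mq Q i) := fun i => -((yy e m q r i : ℕ) : ZMod (Mq Q i))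

variable (he1 : ∀ i, e i ≡ 1 [MOD Mq Q i]) (he2 : ∀ i j, j ≠ i → Mq Q j ∣ e i)

include he2 in
lemma prod_erase_dvd (i : Idx Q) : ∏ j ∈ univ.erase i, Mq Q j ∣ e i := by
  refine Finset.prod_dvd_of_isRelPrime ?_ ?_
  · intro a _ b _ hab
    exact Nat.coprime_iff_isRelPrime.1 (Mq_coprime a b hab)
  · intro j hj
    exact he2 i j (mem_erase.1 hj).1

include he2 in
lemma prod_dvd_e (i : Idx Q) : ∏ j, Mq Q j ∣ e i * Mq Q i := by
  rw [← Finset.prod_erase_mul univ (Mq Q) (mem_univ i)]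
  exact Nat.mul_dvd_mul_right (prod_erase_dvd e he2 i) _

include he2 in
lemma yy_mul {m q r : ℕ} (hq1 : 1 ≤ q) (hqQ : q ≤ Q) (i : Idx Q) :
    yy e m q r i * q = e i * Mq Q i * m * r := by
  unfold yy
  have h : q ∣ e i * Mq Q i := (dvd_prod_Mq hq1 hqQ).trans (prod_dvd_e e he2 i)
  calc (e i * Mq Q i / q) * m * r * q = (e i * Mq Q i / q * q) * m * r := by ring
    _ = e i * Mq Q i * m * r := by rw [Nat.div_mul_cancel h]

include he1 he2 in
lemma sum_e : ((∏ j, Mq Q j : ℕ) : ℤ) ∣ (∑ i, (e i : ℤ)) - 1 := by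
  push_cast
  refine Finset.prod_dvd_of_coprime ?_ ?_
  · intro a _ b _ hab
    exact Nat.isCoprime_iff_coprime.2 (Mq_coprime a b hab)
  · intro j _
    rw [← Finset.add_sum_erase univ (fun i => (e i : ℤ)) (mem_univ j)]
    have h1 : ((Mq Q j : ℕ) : ℤ) ∣ (e j : ℤ) - 1 := by
      have := (he1 j).symm
      rw [Nat.modEq_iff_dvd] at this
      simpa using this
    have h2 : ((Mq Q j : ℕ) : ℤ) ∣ ∑ i ∈ univ.erase j, (e i : ℤ) := by
      refine Finset.dvd_sum (fun i hi => ?_)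
      exact_mod_cast he2 i j (mem_erase.1 hi).1.symm
    have h3 := dvd_add h1 h2
    convert h3 using 1
    ring

include he1 he2 in
lemma chi_xx {m q r : ℕ} (hq1 : 1 ≤ q) (hqQ : q ≤ Q) (n : ℕ) :
    (starRingEnd ℂ) (chi (Mq Q) (xx e m q r) (rv (Mq Q) n))
      = ee ((m : ℝ) * (n : ℝ) * ((r : ℝ) / q)) := by
  have hq0 : (q : ℝ) ≠ 0 := by
    have : (0 : ℝ) < q := by exact_mod_cast hq1
    exact this.ne'
  unfold chi rv
  rw [map_prod]
  have h1 : ∀ i : Idx Q, (starRingEnd ℂ) (ZMod.stdAddChar (xx e m q r i * ((n : ℕ) : ZMod (Mq Q i))))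
      = ee ((e i : ℝ) * ((m : ℝ) * (n : ℝ) * ((r : ℝ) / q))) := by
    intro i
    have hM0 : (Mq Q i : ℝ) ≠ 0 := by exact_mod_cast NeZero.ne (Mq Q i)
    rw [← AddChar.map_neg_eq_conj]
    have h2 : -(xx e m q r i * ((n : ℕ) : ZMod (Mq Q i)))
        = (((yy e m q r i * n : ℕ) : ℤ) : ZMod (Mq Q i)) := by
      unfold xx
      push_cast
      ring
    rw [h2, std_eq]
    congr 1
    have h3 : ((yy e m q r i : ℕ) : ℝ) * q = e i * Mq Q i * m * r := by
      exact_mod_cast yy_mul e he2 hq1 hqQ i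
    have h4 : ((yy e m q r i : ℕ) : ℝ) = e i * Mq Q i * m * r / q := by
      rw [eq_div_iff hq0]
      exact h3
    push_cast
    rw [h4]
    field_simp
  rw [Finset.prod_congr rfl (fun i _ => h1 i), ← ee_sum, ← Finset.sum_mul]
  obtain ⟨w, hw⟩ := sum_e e he1 he2
  obtain ⟨v, hv⟩ := dvd_prod_Mq (Q := Q) hq1 hqQ
  have h5 : (∑ i : Idx Q, (e i : ℝ)) = 1 + (q : ℝ) * v * w := by
    have : (∑ i, (e i : ℤ)) = 1 + (q : ℤ) * v * w := by
      rw [hv] at hw
      push_cast at hw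
      linarith
    exact_mod_cast this
  rw [h5]
  have h6 : (1 + (q : ℝ) * v * w) * ((m : ℝ) * (n : ℝ) * ((r : ℝ) / q))
      = (m : ℝ) * (n : ℝ) * ((r : ℝ) / q) + (((v : ℤ) * w * m * n * r : ℤ) : ℝ) := by
    push_cast
    field_simp
  rw [h6, ee_add_int]

include he1 he2 in
lemma ord_xx {m q r : ℕ} (hm : 1 ≤ m) (hq1 : 1 ≤ q) (hqQ : q ≤ Q) (hr : Nat.Coprime r q)
    (i : Idx Q) :
    addOrderOf (xx e m q r i) = (i : ℕ) ^ (q.factorization i - m.factorization i) := by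
  set p : ℕ := (i : ℕ) with hp
  have hpp : p.Prime := idx_prime i
  have hpQ : p ≤ Q := idx_le i
  have hq0 : q ≠ 0 := by omega
  have hm0 : m ≠ 0 := by omega
  set a := q.factorization p with ha
  have hMq : Mq Q i = p ^ Nat.log p Q := rfl
  have hlog : 1 ≤ Nat.log p Q := Nat.log_pos hpp.one_lt hpQ
  have hpe : ¬ p ∣ e i := by
    intro h
    have h1 : p ∣ Mq Q i := by
      rw [hMq]
      exact dvd_pow_self _ (by omega)
    have h2 : e i ≡ 1 [MOD p] := (he1 i).of_dvd h1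
    have h3 : e i ≡ 0 [MOD p] := (Nat.modEq_zero_iff_dvd).2 h
    have h4 : 1 ≡ 0 [MOD p] := h2.symm.trans h3
    have h5 : p ∣ 1 := (Nat.modEq_zero_iff_dvd).1 h4
    exact hpp.one_lt.ne' (Nat.dvd_one.1 h5)
  -- the rest of q divides e i
  have hq' : q / p ^ a ∣ e i := by
    refine dvd_trans ?_ (prod_erase_dvd e he2 i)
    have h1 : q / p ^ a ∣ (∏ j ∈ univ.erase i, Mq Q j) * Mq Q i := by
      rw [Finset.prod_erase_mul univ (Mq Q) (mem_univ i)]
      exact (Nat.div_dvd_of_dvd (Nat.ordProj_dvd q p)).trans (dvd_prod_Mq hq1 hqQ)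
    have h2 : Nat.Coprime (q / p ^ a) (Mq Q i) := by
      rw [hMq]
      exact (Nat.Coprime.pow_left _ (Nat.coprime_ordCompl hpp hq0)).symm
    exact h2.dvd_of_dvd_mul_right h1
  have hqfac : p ^ a * (q / p ^ a) = q := Nat.mul_div_cancel' (Nat.ordProj_dvd q p)
  have hiff : ∀ k : ℕ, addOrderOf (xx e m q r i) ∣ k ↔ q ∣ k * (e i * m * r) := by
    intro k
    rw [addOrderOf_dvd_iff_nsmul_eq_zero]
    have h1 : k • xx e m q r i = -((k * yy e m q r i : ℕ) : ZMod (Mq Q i)) := by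
      unfold xx
      rw [nsmul_eq_mul]
      push_cast
      ring
    rw [h1, neg_eq_zero, ZMod.natCast_eq_zero_iff]
    have hMpos : 0 < Mq Q i := Nat.pos_of_ne_zero (NeZero.ne _)
    constructor
    · intro h
      have h2 : Mq Q i * q ∣ (k * yy e m q r i) * q := Nat.mul_dvd_mul_right h q
      have h3 : (k * yy e m q r i) * q = Mq Q i * (k * (e i * m * r)) := by
        rw [mul_assoc, yy_mul e he2 hq1 hqQ i]
        ring
      rw [h3] at h2
      exact Nat.dvd_of_mul_dvd_mul_left hMpos h2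
    · intro h
      have h2 : Mq Q i * q ∣ Mq Q i * (k * (e i * m * r)) := Nat.mul_dvd_mul_left _ h
      have h3 : (k * yy e m q r i) * q = Mq Q i * (k * (e i * m * r)) := by
        rw [mul_assoc, yy_mul e he2 hq1 hqQ i]
        ring
      rw [← h3] at h2
      exact Nat.dvd_of_mul_dvd_mul_right (by omega) h2
  apply Nat.dvd_antisymm
  · rw [hiff]
    -- q | p^(a - v) * (e i * m * r)
    have h1 : p ^ a ∣ p ^ (a - m.factorization p) * m := by
      have h2 : p ^ (a - m.factorization p) * p ^ (m.factorization p)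
          ∣ p ^ (a - m.factorization p) * m := Nat.mul_dvd_mul_left _ (Nat.ordProj_dvd m p)
      refine dvd_trans ?_ h2
      rw [← pow_add]
      exact pow_dvd_pow _ (by omega)
    have h3 : p ^ a * (q / p ^ a) ∣ (p ^ (a - m.factorization p) * m) * e i :=
      Nat.mul_dvd_mul h1 hq'
    rw [hqfac] at h3
    have h4 : p ^ (a - m.factorization p) * (e i * m * r)
        = (p ^ (a - m.factorization p) * m * e i) * r := by ring
    rw [h4]
    exact Dvd.dvd.mul_right h3 r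
  · set k := addOrderOf (xx e m q r i) with hk
    have hkpos : k ≠ 0 := (addOrderOf_pos _).ne'
    have h1 : q ∣ k * (e i * m * r) := (hiff k).1 dvd_rfl
    by_cases ha0 : a = 0
    · rw [ha0]
      simp
    · have hpq : p ∣ q := by
        have := Nat.ordProj_dvd q p
        exact (dvd_pow_self p ha0).trans this
      have hpr : ¬ p ∣ r := by
        intro h
        have h2 : p ∣ Nat.gcd r q := Nat.dvd_gcd h hpq
        rw [hr] at h2
        exact hpp.one_lt.ne' (Nat.dvd_one.1 h2)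
      have h2 : p ^ a ∣ (k * m) * (e i * r) := by
        have : k * (e i * m * r) = (k * m) * (e i * r) := by ring
        rw [← this]
        exact (Nat.ordProj_dvd q p).trans h1
      have hcop : Nat.Coprime (p ^ a) (e i * r) := by
        refine Nat.Coprime.pow_left _ ?_
        rw [hpp.coprime_iff_not_dvd, hpp.dvd_mul]
        push Not
        exact ⟨hpe, hpr⟩
      have h3 : p ^ a ∣ k * m := hcop.dvd_of_dvd_mul_right h2
      have h4 : a ≤ (k * m).factorization p :=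
        (hpp.pow_dvd_iff_le_factorization (Nat.mul_ne_zero hkpos hm0)).1 h3
      rw [Nat.factorization_mul hkpos hm0, Finsupp.add_apply] at h4
      rw [hpp.pow_dvd_iff_le_factorization hkpos]
      omega

include he1 he2 in
lemma mem_spt_xx {m q r : ℕ} (hm : 1 ≤ m) (hq1 : 1 ≤ q) (hqQ : q ≤ Q) (hr : Nat.Coprime r q)
    (i : Idx Q) : i ∈ spt (Mq Q) (xx e m q r) ↔ m.factorization i < q.factorization i := by
  unfold spt
  rw [mem_filter]
  simp only [mem_univ, true_and]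
  have h := ord_xx e he1 he2 hm hq1 hqQ hr i
  rw [Ne, ← AddMonoid.addOrderOf_eq_one_iff, h, Nat.pow_eq_one]
  have := (idx_prime i).one_lt
  omega

include he1 he2 in
lemma spt_map {m q r : ℕ} (hm : 1 ≤ m) (hq1 : 1 ≤ q) (hqQ : q ≤ Q) (hr : Nat.Coprime r q) :
    (spt (Mq Q) (xx e m q r)).map (Function.Embedding.subtype _) = bg m q := by
  ext p
  rw [Finset.mem_map]
  unfold bg
  rw [mem_filter]
  constructor
  · rintro ⟨i, hi, rfl⟩
    have h1 := (mem_spt_xx e he1 he2 hm hq1 hqQ hr i).1 hi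
    refine ⟨?_, h1⟩
    rw [Nat.mem_primeFactors]
    refine ⟨idx_prime i, ?_, by omega⟩
    by_contra hcon
    have h3 : q.factorization (i : ℕ) = 0 := Nat.factorization_eq_zero_of_not_dvd hcon
    have h2 : m.factorization (i : ℕ) < q.factorization (i : ℕ) := h1
    rw [h3] at h2
    exact Nat.not_lt_zero _ h2
  · rintro ⟨hp1, hp2⟩
    have hpp := Nat.prime_of_mem_primeFactors hp1
    have hmem : p ∈ (Icc 1 Q).filter Nat.Prime := by
      rw [mem_filter, mem_Icc]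
      exact ⟨⟨hpp.one_lt.le, (Nat.le_of_mem_primeFactors hp1).trans hqQ⟩, hpp⟩
    refine ⟨⟨p, hmem⟩, ?_, rfl⟩
    exact (mem_spt_xx e he1 he2 hm hq1 hqQ hr ⟨p, hmem⟩).2 hp2

include he1 he2 in
lemma wt_xx {m q r : ℕ} (hm : 1 ≤ m) (hq1 : 1 ≤ q) (hqQ : q ≤ Q) (hr : Nat.Coprime r q) :
    wt (Mq Q) (prq Q) (xx e m q r) = wq m q := by
  unfold wt wq
  rw [← spt_map e he1 he2 hm hq1 hqQ hr, Finset.prod_map]
  refine Finset.prod_congr rfl (fun i _ => ?_)
  unfold lev prq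
  rw [ord_xx e he1 he2 hm hq1 hqQ hr i, Nat.log_pow (idx_prime i).one_lt]
  rfl

include he1 he2 in
lemma md_xx {m q r : ℕ} (hm : 1 ≤ m) (hq1 : 1 ≤ q) (hqQ : q ≤ Q) (hr : Nat.Coprime r q) :
    md (Mq Q) (xx e m q r) ≤ Q := by
  refine le_trans ?_ hqQ
  have hq0 : q ≠ 0 := by omega
  unfold md
  calc ∏ i : Idx Q, addOrderOf (xx e m q r i)
      ≤ ∏ i : Idx Q, (i : ℕ) ^ q.factorization i := by
        refine Finset.prod_le_prod' (fun i _ => ?_)
        rw [ord_xx e he1 he2 hm hq1 hqQ hr i]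
        exact Nat.pow_le_pow_right (idx_prime i).pos (Nat.sub_le _ _)
    _ = ∏ p ∈ (Icc 1 Q).filter Nat.Prime, p ^ q.factorization p := by
        rw [← Finset.prod_coe_sort ((Icc 1 Q).filter Nat.Prime) (fun p => p ^ q.factorization p)]
    _ = ∏ p ∈ q.primeFactors, p ^ q.factorization p := by
        symm
        refine Finset.prod_subset ?_ ?_
        · intro p hp
          have hpp := Nat.prime_of_mem_primeFactors hp
          rw [mem_filter, mem_Icc]
          exact ⟨⟨hpp.one_lt.le, (Nat.le_of_mem_primeFactors hp).trans hqQ⟩, hpp⟩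
        · intro p hp hnp
          have hpp := (mem_filter.1 hp).2
          have : q.factorization p = 0 := by
            refine Nat.factorization_eq_zero_of_not_dvd ?_
            intro hd
            exact hnp (Nat.mem_primeFactors.2 ⟨hpp, hd, hq0⟩)
          rw [this, pow_zero]
    _ = q := Nat.prod_factorization_pow_eq_self hq0

end vec

/-- splitting into classes modulo `m` -/
lemma sum_split (A : Finset ℕ) (m z l' : ℕ) (hm : 1 ≤ m) (hA : A ⊆ Ioc z (z + m * l'))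
    (f : ℕ → ℂ) :
    ∑ n ∈ A, f n = ∑ c ∈ range m, ∑ n ∈ sub A m z l' c, f (z + 1 + c + m * n) := by
  rw [Finset.sum_sigma']
  symm
  refine Finset.sum_bij (fun s _ => z + 1 + s.1 + m * s.2) ?_ ?_ ?_ ?_
  · rintro ⟨c, n⟩ hs
    rw [mem_sigma] at hs
    exact (mem_filter.1 hs.2).2
  · rintro ⟨c, n⟩ hs ⟨c', n'⟩ hs' h
    rw [mem_sigma, mem_range] at hs hs'
    simp only at hs hs' h
    have h1 : c + m * n = c' + m * n' := by omega
    have h2 : c = c' := by
      have := congrArg (· % m) h1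
      simp only [Nat.add_mul_mod_self_left] at this
      rwa [Nat.mod_eq_of_lt hs.1, Nat.mod_eq_of_lt hs'.1] at this
    subst h2
    have h3 : m * n = m * n' := by omega
    have h4 : n = n' := Nat.eq_of_mul_eq_mul_left hm h3
    subst h4
    rfl
  · intro n hn
    have h1 := mem_Ioc.1 (hA hn)
    set t := n - z - 1 with ht
    have hdm := Nat.div_add_mod t m
    refine ⟨⟨t % m, t / m⟩, ?_, ?_⟩
    · rw [mem_sigma, mem_range]
      refine ⟨Nat.mod_lt _ hm, ?_⟩
      unfold sub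
      rw [mem_filter, mem_range]
      constructor
      · rw [Nat.div_lt_iff_lt_mul hm]
        have : t < m * l' := by omega
        rwa [mul_comm] at this
      · have : z + 1 + t % m + m * (t / m) = n := by omega
        simp only
        rw [this]
        exact hn
    · simp only
      omega
  · rintro ⟨c, n⟩ _
    rfl

end EnerAux

open EnerAux in
theorem enerd : ENERD := by
  classical
  intro m Q l' z d A hm hQ hA
  obtain ⟨e, he1, he2⟩ := exists_idem Q
  set S : Finset (Σ _ : ℕ, ℕ) := (Icc 1 Q).sigma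
    (fun q => (range q).filter (fun r => Nat.Coprime r q ∧ (bg m q).card = d)) with hS
  have hmemS : ∀ s ∈ S, 1 ≤ s.1 ∧ s.1 ≤ Q ∧ s.2 < s.1 ∧ Nat.Coprime s.2 s.1 ∧
      (bg m s.1).card = d := by
    intro s hs
    rw [hS, mem_sigma, mem_Icc, mem_filter, mem_range] at hs
    exact ⟨hs.1.1, hs.1.2, hs.2.1, hs.2.2.1, hs.2.2.2⟩
  set U : Finset (∀ i : Idx Q, ZMod (Mq Q i)) := univ.filter (fun x =>
    (spt (Mq Q) x).card = d ∧ md (Mq Q) x ≤ Q) with hU
  set X : (Σ _ : ℕ, ℕ) → (∀ i : Idx Q, ZMod (Mq Q i)) := fun s => xx e m s.1 s.2 with hX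
  have hXU : ∀ s ∈ S, X s ∈ U := by
    intro s hs
    obtain ⟨h1, h2, h3, h4, h5⟩ := hmemS s hs
    rw [hU, mem_filter]
    refine ⟨mem_univ _, ?_, md_xx e he1 he2 hm h1 h2 h4⟩
    rw [← h5, ← spt_map e he1 he2 hm h1 h2 h4, Finset.card_map]
  set g : (∀ i : Idx Q, ZMod (Mq Q i)) → ℕ → ℂ := fun x c =>
    ∑ n ∈ sub A m z l' c, (starRingEnd ℂ) (chi (Mq Q) x (rv (Mq Q) n)) with hg
  have hsum : ∀ s ∈ S, ∑ n ∈ A, ee ((n : ℝ) * ((s.2 : ℝ) / s.1))
      = ∑ c ∈ range m, ee (((z + 1 + c : ℕ) : ℝ) * ((s.2 : ℝ) / s.1)) * g (X s) c := by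
    intro s hs
    obtain ⟨h1, h2, h3, h4, h5⟩ := hmemS s hs
    rw [sum_split A m z l' hm hA]
    refine Finset.sum_congr rfl (fun c _ => ?_)
    rw [hg]
    simp only
    rw [Finset.mul_sum]
    refine Finset.sum_congr rfl (fun n _ => ?_)
    rw [hX]
    simp only
    rw [chi_xx e he1 he2 h1 h2 n, ← ee_add]
    congr 1
    push_cast
    ring
  have hLHS : ∑ q ∈ Icc 1 Q, ∑ r ∈ (range q).filter (fun r => Nat.Coprime r q ∧ (bg m q).card = d),
        wq m q * ‖∑ n ∈ A, ee ((n : ℝ) * ((r : ℝ) / q))‖ ^ 2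
      = ∑ s ∈ S, wt (Mq Q) (prq Q) (X s) *
          ‖∑ c ∈ range m, ee (((z + 1 + c : ℕ) : ℝ) * ((s.2 : ℝ) / s.1)) * g (X s) c‖ ^ 2 := by
    rw [Finset.sum_sigma']
    refine Finset.sum_congr rfl (fun s hs => ?_)
    have hs' : s ∈ S := hs
    obtain ⟨h1, h2, h3, h4, h5⟩ := hmemS s hs'
    rw [← hsum s hs', hX]
    simp only
    rw [wt_xx e he1 he2 hm h1 h2 h4]
  rw [hLHS, ← Finset.sum_fiberwise_of_maps_to hXU, Finset.mul_sum]
  have hswap : ∑ c ∈ range m, (m : ℝ) * ∑ x ∈ U, wt (Mq Q) (prq Q) x *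
      ‖∑ n ∈ sub A m z l' c, (starRingEnd ℂ) (chi (Mq Q) x (rv (Mq Q) n))‖ ^ 2
      = ∑ x ∈ U, wt (Mq Q) (prq Q) x * ((m : ℝ) * ∑ c ∈ range m, ‖g x c‖ ^ 2) := by
    simp only [Finset.mul_sum]
    rw [Finset.sum_comm]
    refine Finset.sum_congr rfl (fun x _ => Finset.sum_congr rfl (fun c _ => ?_))
    rw [hg]
    ring
  rw [hswap]
  refine Finset.sum_le_sum (fun x _ => ?_)
  have hwt : 0 ≤ wt (Mq Q) (prq Q) x := by
    unfold wt
    exact Finset.prod_nonneg (fun i _ => sq_nonneg _)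
  set F := S.filter (fun s => X s = x) with hF
  have hrw : ∑ s ∈ F, wt (Mq Q) (prq Q) (X s) *
          ‖∑ c ∈ range m, ee (((z + 1 + c : ℕ) : ℝ) * ((s.2 : ℝ) / s.1)) * g (X s) c‖ ^ 2
      = wt (Mq Q) (prq Q) x * ∑ s ∈ F,
          ‖∑ c ∈ range m, ee (((z + 1 + c : ℕ) : ℝ) * ((s.2 : ℝ) / s.1)) * g x c‖ ^ 2 := by
    rw [Finset.mul_sum]
    refine Finset.sum_congr rfl (fun s hs => ?_)
    rw [(mem_filter.1 hs).2]
  rw [hrw]
  refine mul_le_mul_of_nonneg_left ?_ hwt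
  refine fiber F (fun s => (s.2 : ℝ) / s.1) m hm ?_ ?_ ?_ ?_ z (g x)
  · intro s _
    positivity
  · intro s hs
    obtain ⟨h1, h2, h3, h4, h5⟩ := hmemS s (mem_filter.1 hs).1
    have : (0 : ℝ) < s.1 := by exact_mod_cast h1
    rw [div_lt_one this]
    exact_mod_cast h3
  · intro s hs s' hs' h
    obtain ⟨h1, h2, h3, h4, h5⟩ := hmemS s (mem_filter.1 hs).1
    obtain ⟨h1', h2', h3', h4', h5'⟩ := hmemS s' (mem_filter.1 hs').1
    have p1 : (0 : ℝ) < s.1 := by exact_mod_cast h1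
    have p2 : (0 : ℝ) < s'.1 := by exact_mod_cast h1'
    rw [div_eq_div_iff p1.ne' p2.ne'] at h
    have hN : s.2 * s'.1 = s'.2 * s.1 := by exact_mod_cast h
    have d1 : s.1 ∣ s'.1 := by
      have : s.1 ∣ s.2 * s'.1 := by rw [hN]; exact dvd_mul_left _ _
      exact (Nat.Coprime.symm h4).dvd_of_dvd_mul_left this
    have d2 : s'.1 ∣ s.1 := by
      have : s'.1 ∣ s'.2 * s.1 := by rw [← hN]; exact dvd_mul_left _ _
      exact (Nat.Coprime.symm h4').dvd_of_dvd_mul_left this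
    have e1 : s.1 = s'.1 := Nat.dvd_antisymm d1 d2
    have e2 : s.2 = s'.2 := by
      rw [e1] at hN
      exact Nat.eq_of_mul_eq_mul_right (by omega) hN
    obtain ⟨a, b⟩ := s
    obtain ⟨a', b'⟩ := s'
    simp only at e1 e2
    rw [e1, e2]
  · intro s hs s' hs'
    obtain ⟨h1, h2, h3, h4, h5⟩ := hmemS s (mem_filter.1 hs).1
    obtain ⟨h1', h2', h3', h4', h5'⟩ := hmemS s' (mem_filter.1 hs').1
    have c1 := chi_xx e he1 he2 (m := m) (r := s.2) h1 h2 1
    have c2 := chi_xx e he1 he2 (m := m) (r := s'.2) h1' h2' 1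
    have x1 : xx e m s.1 s.2 = x := (mem_filter.1 hs).2
    have x2 : xx e m s'.1 s'.2 = x := (mem_filter.1 hs').2
    rw [x1] at c1
    rw [x2] at c2
    rw [c1] at c2
    have h6 : ee ((m : ℝ) * ((s.2 : ℝ) / s.1 - (s'.2 : ℝ) / s'.1)) = 1 := by
      have : (m : ℝ) * ((s.2 : ℝ) / s.1 - (s'.2 : ℝ) / s'.1)
          = (m : ℝ) * ((1 : ℕ) : ℝ) * ((s.2 : ℝ) / s.1)
            + -((m : ℝ) * ((1 : ℕ) : ℝ) * ((s'.2 : ℝ) / s'.1)) := by
        push_cast
        ring
      rw [this, ee_add, c2, ← ee_add, add_neg_cancel, ee_zero]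
    exact ee_eq_one h6

end Vale.Agent.P042
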