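import Vale.Agent.P042.Core

/-!
# P042 module F1: Fourier sup bound
-/

open Polynomial Finset

namespace Vale.Agent.P042.FSup

open Vale.Agent.P042

theorem ee_add (x y : ℝ) : ee (x + y) = ee x * ee y := by
  unfold ee
  rw [← Complex.exp_add]
  congr 1
  push_cast
  ring

theorem ee_zero : ee 0 = 1 := by
  unfold ee
  simp

theorem ee_nat_mul (n : ℕ) (x : ℝ) : ee (n * x) = ee x ^ n := by
  unfold ee
  rw [← Complex.exp_nat_mul]
  congr 1
  push_cast
  ring

theorem ee_int (z : ℤ) : ee (z : ℝ) = 1 := by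
  unfold ee
  rw [Complex.exp_eq_one_iff]
  exact ⟨z, by push_cast; ring⟩

theorem ee_conj (x : ℝ) : (starRingEnd ℂ) (ee x) = ee (-x) := by
  unfold ee
  rw [← Complex.exp_conj]
  congr 1
  rw [map_mul, Complex.conj_ofReal, Complex.conj_I]
  push_cast
  ring

theorem norm_ee (x : ℝ) : ‖ee x‖ = 1 := by
  unfold ee
  exact Complex.norm_exp_ofReal_mul_I _

theorem ee_eq_one {x : ℝ} (h : ee x = 1) : ∃ n : ℤ, x = n := by
  unfold ee at h
  rw [Complex.exp_eq_one_iff] at h
  obtain ⟨n, hn⟩ := h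
  refine ⟨n, ?_⟩
  have hI : (2 * Real.pi : ℂ) * Complex.I ≠ 0 := Complex.two_pi_I_ne_zero
  have h2 : ((x : ℂ)) * (2 * Real.pi * Complex.I) = (n : ℂ) * (2 * Real.pi * Complex.I) := by
    rw [← hn]
    push_cast
    ring
  have h3 := mul_right_cancel₀ hI h2
  exact_mod_cast h3

theorem orth (M : ℕ) (hM : 1 ≤ M) (z : ℤ) (hz : |z| < M) :
    ∑ j ∈ range M, ee ((j : ℝ) * ((z : ℝ) / M)) = if z = 0 then (M : ℂ) else 0 := by
  have hM0 : (M : ℝ) ≠ 0 := by
    have : 0 < M := hM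
    positivity
  split_ifs with h
  · subst h
    simp [ee_zero]
  · have h1 : ee ((z : ℝ) / M) ≠ 1 := by
      intro h1
      obtain ⟨n, hn⟩ := ee_eq_one h1
      rw [div_eq_iff hM0] at hn
      have hn' : z = n * M := by exact_mod_cast hn
      have hn0 : n ≠ 0 := by
        rintro rfl
        apply h
        simpa using hn'
      have : (1 : ℤ) ≤ |n| := Int.one_le_abs hn0
      rw [hn', abs_mul, Nat.abs_cast] at hz
      have hMz : (0 : ℤ) < M := by exact_mod_cast hM
      nlinarith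
    have h2 : ee ((z : ℝ) / M) ^ M = 1 := by
      rw [← ee_nat_mul, mul_div_cancel₀ _ hM0]
      exact ee_int z
    have h3 := geom_sum_mul (ee ((z : ℝ) / M)) M
    rw [h2, sub_self] at h3
    have h4 := (mul_eq_zero.1 h3).resolve_right (sub_ne_zero.2 h1)
    rw [← h4]
    exact Finset.sum_congr rfl fun j _ => ee_nat_mul j _

end Vale.Agent.P042.FSup

namespace Vale.Agent.P042

open FSup

theorem fsup : FSUP := by
  intro A w R δ hR hδ
  obtain ⟨B, hB⟩ : ∃ B : ℕ, ∀ x ∈ A, x ≤ B := ⟨A.sup id, fun x hx => Finset.le_sup (f := id) hx⟩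
  obtain ⟨C, hC⟩ : ∃ C : ℕ, ∀ t ∈ R, t.natAbs ≤ C :=
    ⟨R.sup Int.natAbs, fun t ht => Finset.le_sup (f := Int.natAbs) ht⟩
  set M : ℕ := B + C + 1 with hM
  have hM1 : 1 ≤ M := by omega
  have hMc : (M : ℂ) ≠ 0 := by
    have : M ≠ 0 := by omega
    exact_mod_cast this
  have hMr : (0 : ℝ) < M := by exact_mod_cast hM1
  -- the transforms
  set F : ℕ → ℂ := fun j => ∑ x ∈ A, ee (((j : ℝ) / M) * x) with hF
  set S : ℕ → ℂ := fun j => ∑ t ∈ R, w t * ee (((j : ℝ) / M) * (t : ℝ)) with hS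
  have hFF : ∀ j, F j * (starRingEnd ℂ) (F j)
      = ∑ x ∈ A, ∑ y ∈ A, ee ((j : ℝ) * ((((x : ℤ) - (y : ℤ) : ℤ) : ℝ) / M)) := by
    intro j
    simp only [hF]
    rw [map_sum, Finset.sum_mul_sum]
    refine Finset.sum_congr rfl fun x _ => Finset.sum_congr rfl fun y _ => ?_
    rw [ee_conj, ← ee_add]
    congr 1
    push_cast
    ring
  have hpars : ∑ j ∈ range M, F j * (starRingEnd ℂ) (F j) = (M : ℂ) * A.card := by
    simp only [hFF]
    rw [Finset.sum_comm]
    have : ∀ x ∈ A, ∑ j ∈ range M, ∑ y ∈ A, ee ((j : ℝ) * ((((x : ℤ) - (y : ℤ) : ℤ) : ℝ) / M))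
        = (M : ℂ) := by
      intro x hx
      rw [Finset.sum_comm]
      have h2 : ∀ y ∈ A, ∑ j ∈ range M, ee ((j : ℝ) * ((((x : ℤ) - (y : ℤ) : ℤ) : ℝ) / M))
          = if y = x then (M : ℂ) else 0 := by
        intro y hy
        rw [orth M hM1]
        · by_cases hxy : y = x
          · subst hxy
            simp
          · rw [if_neg hxy, if_neg]
            intro h
            apply hxy
            omega
        · have := hB x hx
          have := hB y hy
          rw [abs_lt]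
          constructor <;> omega
      rw [Finset.sum_congr rfl h2, Finset.sum_ite_eq' A x, if_pos hx]
    rw [Finset.sum_congr rfl this, Finset.sum_const, nsmul_eq_mul, mul_comm]
  have hSF : ∑ j ∈ range M, S j * (F j * (starRingEnd ℂ) (F j))
      = (M : ℂ) * ∑ x ∈ A, ∑ y ∈ A, w ((y : ℤ) - (x : ℤ)) := by
    have h1 : ∀ j, S j * (F j * (starRingEnd ℂ) (F j))
        = ∑ x ∈ A, ∑ y ∈ A, ∑ t ∈ R, w t *
          ee ((j : ℝ) * (((t + (x : ℤ) - (y : ℤ) : ℤ) : ℝ) / M)) := by
      intro j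
      rw [hFF, Finset.mul_sum]
      refine Finset.sum_congr rfl fun x _ => ?_
      rw [Finset.mul_sum]
      refine Finset.sum_congr rfl fun y _ => ?_
      simp only [hS]
      rw [Finset.sum_mul]
      refine Finset.sum_congr rfl fun t _ => ?_
      rw [mul_assoc, ← ee_add]
      congr 2
      push_cast
      ring
    simp only [h1]
    rw [Finset.sum_comm, Finset.mul_sum]
    refine Finset.sum_congr rfl fun x hx => ?_
    rw [Finset.sum_comm, Finset.mul_sum]
    refine Finset.sum_congr rfl fun y hy => ?_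
    rw [Finset.sum_comm]
    have h2 : ∀ t ∈ R, ∑ j ∈ range M, w t *
          ee ((j : ℝ) * (((t + (x : ℤ) - (y : ℤ) : ℤ) : ℝ) / M))
        = if t = (y : ℤ) - (x : ℤ) then (M : ℂ) * w t else 0 := by
      intro t ht
      rw [← Finset.mul_sum, orth M hM1]
      · by_cases h : t = (y : ℤ) - (x : ℤ)
        · rw [if_pos h, if_pos (by omega), mul_comm]
        · rw [if_neg h, if_neg (by omega), mul_zero]
      · have := hB x hx
        have := hB y hy
        have := hC t ht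
        rw [abs_lt]
        constructor <;> omega
    rw [Finset.sum_congr rfl h2, Finset.sum_ite_eq']
    split_ifs with h
    · rfl
    · rw [hR _ h, mul_zero]
  have hnn : ∀ j, ‖F j * (starRingEnd ℂ) (F j)‖ = ‖F j‖ ^ 2 := by
    intro j
    rw [norm_mul, RCLike.norm_conj, sq]
  have hp2 : ∑ j ∈ range M, ‖F j‖ ^ 2 = (M : ℝ) * A.card := by
    have h := hpars
    have h3 : ∀ j, F j * (starRingEnd ℂ) (F j) = ((‖F j‖ ^ 2 : ℝ) : ℂ) := by
      intro j
      rw [Complex.mul_conj, Complex.normSq_eq_norm_sq]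
    simp only [h3] at h
    rw [← Complex.ofReal_sum] at h
    exact_mod_cast h
  have hfin : (M : ℝ) * ‖∑ x ∈ A, ∑ y ∈ A, w ((y : ℤ) - (x : ℤ))‖ ≤ (M : ℝ) * (δ * A.card) := by
    have e1 : (M : ℝ) * ‖∑ x ∈ A, ∑ y ∈ A, w ((y : ℤ) - (x : ℤ))‖
        = ‖(M : ℂ) * ∑ x ∈ A, ∑ y ∈ A, w ((y : ℤ) - (x : ℤ))‖ := by
      rw [norm_mul, Complex.norm_natCast]
    rw [e1, ← hSF]
    calc ‖∑ j ∈ range M, S j * (F j * (starRingEnd ℂ) (F j))‖
        ≤ ∑ j ∈ range M, ‖S j * (F j * (starRingEnd ℂ) (F j))‖ := norm_sum_le _ _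
      _ ≤ ∑ j ∈ range M, δ * ‖F j‖ ^ 2 := by
          refine Finset.sum_le_sum fun j _ => ?_
          rw [norm_mul, hnn]
          exact mul_le_mul_of_nonneg_right (hδ _) (sq_nonneg _)
      _ = (M : ℝ) * (δ * A.card) := by
          rw [← Finset.mul_sum, hp2]
          ring
  exact le_of_mul_le_mul_left hfin hMr

end Vale.Agent.P042
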