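import Vale.Agent.P042.Core2

/-!
# P042, module H4n: from the dyadic form to the final statement
-/

open Polynomial Finset

namespace Vale.Agent.P042

namespace FinalDPf

/-- a maximiser for `rh` -/
theorem exists_max (h : ℤ[X]) (N : ℕ) (hN : 1 ≤ N) :
    ∃ A : Finset ℕ, A ⊆ Icc 1 N ∧ Avoids h A ∧ A.card = rh h N ∧ 1 ≤ A.card := by
  classical
  have hne : ((Finset.Icc 1 N).powerset.filter (fun A => Avoids h A)).Nonempty := by
    refine ⟨{1}, ?_⟩
    rw [mem_filter, mem_powerset]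
    refine ⟨?_, ?_⟩
    · intro x hx
      rw [mem_singleton] at hx
      rw [hx, mem_Icc]
      exact ⟨le_rfl, hN⟩
    · intro a ha b hb n _ _
      rw [mem_singleton] at ha hb
      rw [ha, hb]; simp
  obtain ⟨A, hA, hA2⟩ := Finset.exists_mem_eq_sup _ hne Finset.card
  have hA' := hA
  rw [mem_filter, mem_powerset] at hA'
  have h1 : A.card = rh h N := by
    rw [rh]
    convert hA2.symm
  refine ⟨A, hA'.1, hA'.2, h1, ?_⟩
  have h2 : ({1} : Finset ℕ).card ≤ A.card := by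
    rw [← hA2]
    apply Finset.le_sup (f := Finset.card)
    rw [mem_filter, mem_powerset]
    refine ⟨?_, ?_⟩
    · intro x hx
      rw [mem_singleton] at hx
      rw [hx, mem_Icc]
      exact ⟨le_rfl, hN⟩
    · intro a ha b hb n _ _
      rw [mem_singleton] at ha hb
      rw [ha, hb]; simp
  simpa using h2

/-- the dyadic scale of the density -/
theorem exists_scale (N a : ℕ) (ha : 1 ≤ a) (haN : a ≤ N) :
    ∃ L : ℕ, 1 ≤ L ∧ N ≤ 2 ^ L * a ∧ 2 ^ L * a ≤ 2 * N := by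
  classical
  have hex : ∃ L : ℕ, 1 ≤ L ∧ N ≤ 2 ^ L * a := by
    refine ⟨N + 1, by omega, ?_⟩
    calc N ≤ 2 ^ N := Nat.lt_two_pow_self.le
      _ ≤ 2 ^ (N + 1) := Nat.pow_le_pow_right (by norm_num) (by omega)
      _ = 2 ^ (N + 1) * 1 := by ring
      _ ≤ 2 ^ (N + 1) * a := Nat.mul_le_mul_left _ ha
  refine ⟨Nat.find hex, (Nat.find_spec hex).1, (Nat.find_spec hex).2, ?_⟩
  set L := Nat.find hex with hL
  have hL1 : 1 ≤ L := (Nat.find_spec hex).1
  rcases Nat.lt_or_ge L 2 with h | h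
  · have : L = 1 := by omega
    rw [this]; omega
  · have h1 : ¬ (1 ≤ L - 1 ∧ N ≤ 2 ^ (L - 1) * a) := Nat.find_min hex (by omega)
    have h2 : 2 ^ (L - 1) * a < N := by
      by_contra hc
      push Not at hc
      exact h1 ⟨by omega, hc⟩
    have h3 : 2 ^ L = 2 * 2 ^ (L - 1) := by
      rw [← pow_succ', Nat.sub_add_cancel hL1]
    rw [h3]
    nlinarith

theorem root_bound (t C L : ℕ) (x : ℝ) (ht : 1 ≤ t) (hx : 0 ≤ x)
    (h : x ≤ C * L ^ t * Real.log 2) (hL : 1 ≤ L) :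
    x ^ ((1 : ℝ) / t) ≤ (C + 1) * L := by
  have ht0 : (0 : ℝ) < t := by exact_mod_cast ht
  have hlog : Real.log 2 ≤ 1 := by
    have := Real.log_two_lt_d9
    linarith
  have hlog0 : 0 ≤ Real.log 2 := Real.log_nonneg (by norm_num)
  have h1 : x ≤ (((C : ℝ) + 1) * L) ^ t := by
    have h2 : (C : ℝ) * L ^ t * Real.log 2 ≤ (C : ℝ) * L ^ t := by
      have : 0 ≤ (C : ℝ) * L ^ t := by positivity
      nlinarith
    have h3 : (C : ℝ) * L ^ t ≤ ((C : ℝ) + 1) ^ t * L ^ t := by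
      apply mul_le_mul_of_nonneg_right _ (by positivity)
      have h4 : ((C : ℝ) + 1) ^ 1 ≤ ((C : ℝ) + 1) ^ t := by
        apply pow_le_pow_right₀ _ ht
        have : (0 : ℝ) ≤ C := Nat.cast_nonneg C
        linarith
      rw [pow_one] at h4
      linarith
    rw [mul_pow]
    linarith
  have hnn : 0 ≤ ((C : ℝ) + 1) * L := by positivity
  calc x ^ ((1 : ℝ) / t) ≤ ((((C : ℝ) + 1) * L) ^ t) ^ ((1 : ℝ) / t) :=
        Real.rpow_le_rpow hx h1 (by positivity)
    _ = ((C : ℝ) + 1) * L := by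
        rw [← Real.rpow_natCast, ← Real.rpow_mul hnn, mul_one_div_cancel ht0.ne', Real.rpow_one]

end FinalDPf

open FinalDPf in
theorem finald : MAIND → FINALD := by
  intro hM k t h hk ht hPRM hdeg hlc hint
  obtain ⟨C, hC⟩ := hM k t h hk ht hPRM hdeg hlc hint
  have hCpos : (0 : ℝ) < (C : ℝ) + 1 := by positivity
  have hlog2 : 0 < Real.log 2 := Real.log_pos (by norm_num)
  refine ⟨Real.log 2 / (C + 1), div_pos hlog2 hCpos, 2, ?_⟩
  intro N hN
  obtain ⟨A, hA, hav, hcard, hA1⟩ := exists_max h N hN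
  have hAN : A.card ≤ N := by
    have := card_le_card hA
    simpa using this
  obtain ⟨L, hL, hL1, hL2⟩ := exists_scale N A.card hA1 hAN
  have hN2 := hC L N A hL hN hA hL1 hav
  have hNr : (1 : ℝ) ≤ N := by exact_mod_cast hN
  have hlogN : Real.log N ≤ C * L ^ t * Real.log 2 := by
    have h1 : (N : ℝ) ≤ 2 ^ (C * L ^ t) := by exact_mod_cast hN2
    have h2 := Real.log_le_log (by linarith) h1
    rw [Real.log_pow] at h2
    push_cast at h2
    exact h2
  have hroot := root_bound t C L (Real.log N) (by omega) (Real.log_nonneg hNr) hlogN hL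
  have hexp : Real.log 2 / (C + 1) * (Real.log N) ^ ((1 : ℝ) / t) ≤ L * Real.log 2 := by
    calc Real.log 2 / (C + 1) * (Real.log N) ^ ((1 : ℝ) / t)
        ≤ Real.log 2 / (C + 1) * ((C + 1) * L) :=
          mul_le_mul_of_nonneg_left hroot (by positivity)
      _ = L * Real.log 2 := by field_simp
  have h2L : (2 : ℝ) ^ L = Real.exp (L * Real.log 2) := by
    rw [mul_comm, Real.exp_mul, Real.exp_log (by norm_num), Real.rpow_natCast]
  have h3 : (2 : ℝ) ^ L * A.card ≤ 2 * N := by exact_mod_cast hL2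
  have h4 : (rh h N : ℝ) = A.card := by rw [hcard]
  rw [h4]
  have h5 : Real.exp (-(Real.log 2 / (C + 1)) * (Real.log N) ^ ((1 : ℝ) / t)) * (2 : ℝ) ^ L ≥ 1 := by
    rw [h2L, ← Real.exp_add, ge_iff_le]
    apply Real.one_le_exp
    rw [neg_mul]
    linarith
  have h6 : 0 < Real.exp (-(Real.log 2 / (C + 1)) * (Real.log N) ^ ((1 : ℝ) / t)) := Real.exp_pos _
  calc (A.card : ℝ) ≤ A.card *
        (Real.exp (-(Real.log 2 / (C + 1)) * (Real.log N) ^ ((1 : ℝ) / t)) * (2 : ℝ) ^ L) :=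
        le_mul_of_one_le_right (Nat.cast_nonneg _) h5
    _ = ((2 : ℝ) ^ L * A.card) *
        Real.exp (-(Real.log 2 / (C + 1)) * (Real.log N) ^ ((1 : ℝ) / t)) := by ring
    _ ≤ (2 * N) * Real.exp (-(Real.log 2 / (C + 1)) * (Real.log N) ^ ((1 : ℝ) / t)) :=
        mul_le_mul_of_nonneg_right h3 h6.le

end Vale.Agent.P042
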