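import Vale.Agent.P042.Core2

/-!
# P042, module B0: Parseval and mixing
-/

open Polynomial Finset

set_option linter.unusedSectionVars false

namespace Vale.Agent.P042

namespace FouAux

variable {ι : Type} [Fintype ι] [DecidableEq ι] (M : ι → ℕ) [∀ i, NeZero (M i)]

lemma chi_sub (a b x : ∀ i, ZMod (M i)) :
    chi M (a - b) x = chi M a x * (starRingEnd ℂ) (chi M b x) := by
  unfold chi
  rw [map_prod, ← Finset.prod_mul_distrib]
  refine Finset.prod_congr rfl (fun i _ => ?_)
  rw [Pi.sub_apply, sub_mul, sub_eq_add_neg, AddChar.map_add_eq_mul, AddChar.map_neg_eq_conj]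

lemma sum_chi (b : ∀ i, ZMod (M i)) :
    ∑ x : (∀ i, ZMod (M i)), chi M b x
      = if b = 0 then (Fintype.card (∀ i, ZMod (M i)) : ℂ) else 0 := by
  classical
  have h1 : ∑ x : (∀ i, ZMod (M i)), chi M b x
      = ∏ i, ∑ z : ZMod (M i), (ZMod.stdAddChar (b i * z) : ℂ) := by
    rw [Finset.prod_univ_sum, Fintype.piFinset_univ]
    rfl
  have h2 : ∀ i, ∑ z : ZMod (M i), (ZMod.stdAddChar (b i * z) : ℂ)
      = if b i = 0 then (Fintype.card (ZMod (M i)) : ℂ) else 0 := by
    intro i
    have := AddChar.sum_mulShift (b i) (ZMod.isPrimitive_stdAddChar (M i))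
    simp only [mul_comm] at this ⊢
    rw [this]
    split_ifs <;> simp
  rw [h1]
  by_cases hb : b = 0
  · subst hb
    simp only [if_true]
    rw [Fintype.card_pi]
    push_cast
    refine Finset.prod_congr rfl (fun i _ => ?_)
    rw [h2 i]
    simp
  · rw [if_neg hb]
    have : ∃ i, b i ≠ 0 := by
      by_contra hcon
      push Not at hcon
      exact hb (funext hcon)
    obtain ⟨i, hi⟩ := this
    refine Finset.prod_eq_zero (Finset.mem_univ i) ?_
    rw [h2 i, if_neg hi]

lemma mix_mix (S : Finset ι) (x y : ∀ i, ZMod (M i)) :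
    mix M S (mix M S x y) (mix M S y x) = x := by
  funext i
  unfold mix
  by_cases h : i ∈ S <;> simp [h]

end FouAux

open FouAux in
theorem pars : PARS := by
  intro ι _ _ M _ c
  classical
  have h : ∀ z : ℂ, ((‖z‖ ^ 2 : ℝ) : ℂ) = z * (starRingEnd ℂ) z := by
    intro z
    rw [Complex.mul_conj, Complex.normSq_eq_norm_sq]
  have hcard : (Fintype.card (∀ i, ZMod (M i)) : ℝ) ≠ 0 := by
    exact_mod_cast Fintype.card_ne_zero
  unfold avg
  rw [div_eq_iff hcard]
  have key : ((∑ x, ‖FF M c x‖ ^ 2 : ℝ) : ℂ)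
      = (((∑ a, ‖c a‖ ^ 2) * (Fintype.card (∀ i, ZMod (M i)) : ℝ) : ℝ) : ℂ) := by
    rw [Complex.ofReal_sum]
    have e1 : ∀ x : (∀ i, ZMod (M i)), ((‖FF M c x‖ ^ 2 : ℝ) : ℂ)
        = ∑ a, ∑ b, (c a * (starRingEnd ℂ) (c b)) * chi M (a - b) x := by
      intro x
      rw [h]
      unfold FF
      rw [map_sum, Finset.sum_mul_sum]
      refine Finset.sum_congr rfl (fun a _ => Finset.sum_congr rfl (fun b _ => ?_))
      rw [map_mul, chi_sub]
      ring
    simp only [e1]
    rw [Finset.sum_comm]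
    have e2 : ∀ a : (∀ i, ZMod (M i)), ∑ x : (∀ i, ZMod (M i)),
        ∑ b, (c a * (starRingEnd ℂ) (c b)) * chi M (a - b) x
        = (c a * (starRingEnd ℂ) (c a)) * (Fintype.card (∀ i, ZMod (M i)) : ℂ) := by
      intro a
      rw [Finset.sum_comm]
      have e3 : ∀ b : (∀ i, ZMod (M i)), ∑ x : (∀ i, ZMod (M i)),
          (c a * (starRingEnd ℂ) (c b)) * chi M (a - b) x
          = if a = b then (c a * (starRingEnd ℂ) (c b))
              * (Fintype.card (∀ i, ZMod (M i)) : ℂ) else 0 := by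
        intro b
        rw [← Finset.mul_sum, sum_chi]
        by_cases hab : a = b
        · rw [if_pos (sub_eq_zero.2 hab), if_pos hab]
        · rw [if_neg (fun hh => hab (sub_eq_zero.1 hh)), if_neg hab, mul_zero]
      simp only [e3]
      rw [Finset.sum_ite_eq, if_pos (mem_univ a)]
    simp only [e2]
    push_cast
    rw [Finset.sum_mul]
    refine Finset.sum_congr rfl (fun a _ => ?_)
    rw [← h (c a)]
    push_cast
    ring
  exact_mod_cast key

open FouAux in
theorem mixa : MIXA := by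
  intro ι _ _ M _ S φ
  classical
  have hcard : (Fintype.card (∀ i, ZMod (M i)) : ℝ) ≠ 0 := by
    exact_mod_cast Fintype.card_ne_zero
  unfold avg
  have e : ∑ x : (∀ i, ZMod (M i)), ∑ y : (∀ i, ZMod (M i)), φ (mix M S x y)
      = (Fintype.card (∀ i, ZMod (M i)) : ℝ) * ∑ x, φ x := by
    have h1 : ∑ x : (∀ i, ZMod (M i)), ∑ y : (∀ i, ZMod (M i)), φ (mix M S x y)
        = ∑ x : (∀ i, ZMod (M i)), ∑ _y : (∀ i, ZMod (M i)), φ x := by
      rw [← Fintype.sum_prod_type', ← Fintype.sum_prod_type']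
      refine Fintype.sum_bijective (fun z : (∀ i, ZMod (M i)) × (∀ i, ZMod (M i)) =>
        (mix M S z.1 z.2, mix M S z.2 z.1)) ?_ _ _ (fun z => rfl)
      refine Function.Involutive.bijective ?_
      rintro ⟨x, y⟩
      simp only [mix_mix]
    rw [h1]
    simp only [Finset.sum_const, Finset.card_univ, nsmul_eq_mul]
    rw [← Finset.mul_sum]
  rw [← Finset.sum_div, e]
  field_simp

end Vale.Agent.P042
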