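import Vale.Agent.P042.Core

open Polynomial Finset

namespace Vale.Agent.P042

theorem gb1 : LOC → GPOW → GB1 := by
  intro hloc hgp k hk
  obtain ⟨C0, hC0⟩ := hloc k hk
  set D : ℕ := (C0 + 1) ^ 2 with hD
  refine ⟨D ^ D, ?_⟩
  intro g q a hg hnc hq hcop
  obtain ⟨α, hα, hprod⟩ := hgp g q a hq hcop
  have hD1 : (1 : ℝ) ≤ D := by
    rw [hD]; push_cast
    have : (0 : ℝ) ≤ C0 := Nat.cast_nonneg _
    nlinarith
  have hqprod : (q : ℝ) = ∏ p ∈ q.primeFactors, ((p : ℝ) ^ q.factorization p) := by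
    have h1 := Nat.prod_factorization_pow_eq_self (n := q) (by omega)
    have h2 : (q : ℝ) = ((q.factorization.prod (fun x1 x2 => x1 ^ x2) : ℕ) : ℝ) := by rw [h1]
    rw [h2, Finsupp.prod, Nat.support_factorization]
    push_cast
    rfl
  have hfac : ∀ p ∈ q.primeFactors,
      ‖Gs g (α p) (p ^ q.factorization p)‖ ^ (2 * kap k) * ((p : ℝ) ^ q.factorization p)
        ≤ if p < D then (D : ℝ) else 1 := by
    intro p hp
    have hpp : p.Prime := Nat.prime_of_mem_primeFactors hp
    have he : 1 ≤ q.factorization p :=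
      (hpp.dvd_iff_one_le_factorization (by omega)).1 (Nat.dvd_of_mem_primeFactors hp)
    have hb := hC0 g p (q.factorization p) (α p) hg hpp (hnc p hpp) he (hα p hp)
    set G := ‖Gs g (α p) (p ^ q.factorization p)‖ with hG
    have hG0 : 0 ≤ G := norm_nonneg _
    set y : ℝ := (p : ℝ) ^ q.factorization p with hy
    have hp1 : (1 : ℝ) ≤ p := by exact_mod_cast hpp.one_lt.le
    have hy1 : (1 : ℝ) ≤ y := one_le_pow₀ hp1
    have hyp : (p : ℝ) ≤ y := by
      calc (p : ℝ) = (p : ℝ) ^ 1 := (pow_one _).symm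
        _ ≤ y := pow_le_pow_right₀ hp1 he
    have hGK : 0 ≤ G ^ kap k := pow_nonneg hG0 _
    have hC : (0 : ℝ) ≤ C0 := Nat.cast_nonneg _
    have e1 : (G ^ (2 * kap k) * y) * y = (G ^ kap k * y) ^ 2 := by
      rw [mul_comm 2, pow_mul]; ring
    have e2 : (G ^ kap k * y) ^ 2 ≤ (C0 : ℝ) ^ 2 :=
      pow_le_pow_left₀ (mul_nonneg hGK (by linarith)) hb 2
    have e3 : (C0 : ℝ) ^ 2 ≤ D := by
      rw [hD]; push_cast
      exact pow_le_pow_left₀ hC (by linarith) 2
    have e4 : 0 ≤ G ^ (2 * kap k) * y := by positivity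
    split_ifs with hpD
    · nlinarith
    · have hpD' : (D : ℝ) ≤ p := by exact_mod_cast not_lt.1 hpD
      have : (G ^ (2 * kap k) * y) * y ≤ y := by linarith
      nlinarith
  have hprodn : ‖Gs g a q‖ ^ (2 * kap k) * (q : ℝ)
      = ∏ p ∈ q.primeFactors, (‖Gs g (α p) (p ^ q.factorization p)‖ ^ (2 * kap k)
          * ((p : ℝ) ^ q.factorization p)) := by
    rw [prod_mul_distrib, ← hqprod, prod_pow, hprod, norm_prod]
  rw [hprodn]
  calc ∏ p ∈ q.primeFactors, (‖Gs g (α p) (p ^ q.factorization p)‖ ^ (2 * kap k)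
          * ((p : ℝ) ^ q.factorization p))
      ≤ ∏ p ∈ q.primeFactors, (if p < D then (D : ℝ) else 1) :=
        prod_le_prod (fun p _ => by positivity) hfac
    _ = (D : ℝ) ^ (q.primeFactors.filter (fun p => p < D)).card := by
        rw [prod_ite]; simp
    _ ≤ (D : ℝ) ^ D := by
        apply pow_le_pow_right₀ hD1
        calc (q.primeFactors.filter (fun p => p < D)).card ≤ (range D).card :=
              card_le_card (fun p hp => by
                simp only [mem_filter] at hp; exact mem_range.2 hp.2)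
          _ = D := card_range D
    _ = ((D ^ D : ℕ) : ℝ) := by push_cast; rfl

end Vale.Agent.P042
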