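import Vale.Agent.P042.Core

open Polynomial Finset

namespace Vale.Agent.P042

namespace GPowAux

lemma ee_int (z : ℤ) : ee (z : ℝ) = 1 := by
  unfold ee
  rw [Complex.exp_eq_one_iff]
  refine ⟨z, ?_⟩
  push_cast
  ring

lemma ee_add (x y : ℝ) : ee (x + y) = ee x * ee y := by
  unfold ee
  rw [← Complex.exp_add]
  congr 1
  push_cast
  ring

/-- the summand is periodic -/
lemma ee_periodic (g : ℤ[X]) (a : ℤ) (q : ℕ) (hq : 1 ≤ q) (u u' : ℕ) (h : u ≡ u' [MOD q]) :
    ee ((a : ℝ) * ((g.eval (u : ℤ) : ℤ) : ℝ) / (q : ℝ))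
      = ee ((a : ℝ) * ((g.eval (u' : ℤ) : ℤ) : ℝ) / (q : ℝ)) := by
  have h1 : (q : ℤ) ∣ (u' : ℤ) - (u : ℤ) := (Nat.modEq_iff_dvd).1 h
  have h2 : (u' : ℤ) - (u : ℤ) ∣ g.eval (u' : ℤ) - g.eval (u : ℤ) :=
    Polynomial.sub_dvd_eval_sub _ _ _
  obtain ⟨c, hc⟩ := h1.trans h2
  have h3 : g.eval (u' : ℤ) = g.eval (u : ℤ) + q * c := by linarith
  have hq0 : (q : ℝ) ≠ 0 := by positivity
  have h4 : (a : ℝ) * ((g.eval (u' : ℤ) : ℤ) : ℝ) / (q : ℝ)
      = (a : ℝ) * ((g.eval (u : ℤ) : ℤ) : ℝ) / (q : ℝ) + ((a * c : ℤ) : ℝ) := by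
    rw [h3]
    push_cast
    field_simp
  rw [h4, ee_add, ee_int, mul_one]

lemma Gs_mul (g : ℤ[X]) (q₁ q₂ : ℕ) (a₁ a₂ : ℤ) (h1 : 1 ≤ q₁) (h2 : 1 ≤ q₂)
    (hco : Nat.Coprime q₁ q₂) :
    Gs g (a₁ * q₂ + a₂ * q₁) (q₁ * q₂) = Gs g a₁ q₁ * Gs g a₂ q₂ := by
  unfold Gs
  rw [div_mul_div_comm, Finset.sum_mul_sum]
  congr 1
  · rw [← Finset.sum_product']
    apply Finset.sum_bij' (fun u _ => (u % q₁, u % q₂))
      (fun x _ => ((Nat.chineseRemainder hco x.1 x.2 : ℕ)))
    · intro u _
      rw [Finset.mem_product]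
      exact ⟨Finset.mem_range.2 (Nat.mod_lt _ (by omega)),
        Finset.mem_range.2 (Nat.mod_lt _ (by omega))⟩
    · intro x _
      exact Finset.mem_range.2
        (Nat.chineseRemainder_lt_mul hco x.1 x.2 (by omega) (by omega))
    · intro u hu
      have hu' := Finset.mem_range.1 hu
      have h5 := Nat.chineseRemainder_modEq_unique hco (a := u % q₁) (b := u % q₂) (z := u)
        (Nat.mod_modEq _ _).symm (Nat.mod_modEq _ _).symm
      have h6 := Nat.chineseRemainder_lt_mul hco (u % q₁) (u % q₂) (by omega) (by omega)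
      exact (Nat.ModEq.eq_of_lt_of_lt h5 hu' h6).symm
    · intro x hx
      rw [Finset.mem_product, Finset.mem_range, Finset.mem_range] at hx
      have h5 := (Nat.chineseRemainder hco x.1 x.2).prop
      ext
      · exact (Nat.ModEq.eq_of_lt_of_lt ((Nat.mod_modEq _ _).trans h5.1)
          (Nat.mod_lt _ (by omega)) hx.1)
      · exact (Nat.ModEq.eq_of_lt_of_lt ((Nat.mod_modEq _ _).trans h5.2)
          (Nat.mod_lt _ (by omega)) hx.2)
    · intro u _
      simp only
      rw [ee_periodic g a₁ q₁ h1 (u % q₁) u (Nat.mod_modEq _ _),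
        ee_periodic g a₂ q₂ h2 (u % q₂) u (Nat.mod_modEq _ _), ← ee_add]
      congr 1
      have e1 : (q₁ : ℝ) ≠ 0 := by positivity
      have e2 : (q₂ : ℝ) ≠ 0 := by positivity
      push_cast
      field_simp
  · push_cast
    ring

end GPowAux

open GPowAux

theorem gpow : GPOW := by
  intro g q
  induction q using Nat.recOnPosPrimePosCoprime with
  | prime_pow p n hp hn =>
    intro a _ ha
    refine ⟨fun _ => a, ?_, ?_⟩
    · intro p' hp' hd
      rw [Nat.primeFactors_prime_pow hn.ne' hp, Finset.mem_singleton] at hp'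
      subst hp'
      have h1 : ((p' ^ n : ℕ) : ℤ) = (p' : ℤ) * (p' : ℤ) ^ (n - 1) := by
        push_cast
        rw [← pow_succ', Nat.sub_add_cancel hn]
      have h2 : IsCoprime a (p' : ℤ) := by
        rw [h1] at ha
        exact ha.of_mul_right_left
      have h3 : IsUnit (p' : ℤ) := h2.isUnit_of_dvd' hd dvd_rfl
      rw [Int.ofNat_isUnit, Nat.isUnit_iff] at h3
      exact hp.one_lt.ne' h3
    · rw [Nat.primeFactors_prime_pow hn.ne' hp, Finset.prod_singleton,
        hp.factorization_pow, Finsupp.single_eq_same]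
  | zero =>
    intro a h _
    omega
  | one =>
    intro a _ _
    refine ⟨fun _ => 1, by simp, ?_⟩
    have : Gs g a 1 = 1 := by
      unfold Gs
      have := ee_int (a * g.eval 0)
      push_cast at this
      simp [this]
    simpa using this
  | coprime q₁ q₂ h₁ h₂ hco ih₁ ih₂ =>
    intro a _ ha
    have hq1 : 1 ≤ q₁ := by omega
    have hq2 : 1 ≤ q₂ := by omega
    have hcoz : IsCoprime (q₂ : ℤ) (q₁ : ℤ) := (Nat.isCoprime_iff_coprime.2 hco).symm
    obtain ⟨x, y, hxy⟩ := hcoz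
    set a₁ := a * x with ha1
    set a₂ := a * y with ha2
    have hdec : a = a₁ * q₂ + a₂ * q₁ := by
      rw [ha1, ha2]
      linear_combination (-a) * hxy
    have hac1 : IsCoprime a (q₁ : ℤ) := by
      push_cast at ha
      exact ha.of_mul_right_left
    have hac2 : IsCoprime a (q₂ : ℤ) := by
      push_cast at ha
      exact ha.of_mul_right_right
    have hc1 : IsCoprime a₁ (q₁ : ℤ) := by
      have h5 : IsCoprime (a₁ * q₂ + a₂ * q₁) (q₁ : ℤ) := hdec ▸ hac1
      have h6 : IsCoprime (a₁ * q₂) (q₁ : ℤ) := IsCoprime.of_add_mul_right_left h5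
      exact h6.of_mul_left_left
    have hc2 : IsCoprime a₂ (q₂ : ℤ) := by
      have h5 : IsCoprime (a₁ * q₂ + a₂ * q₁) (q₂ : ℤ) := hdec ▸ hac2
      have h6 : IsCoprime (a₂ * q₁) (q₂ : ℤ) := by
        rw [add_comm] at h5
        exact IsCoprime.of_add_mul_right_left h5
      exact h6.of_mul_left_left
    obtain ⟨α₁, hα₁, hG₁⟩ := ih₁ a₁ hq1 hc1
    obtain ⟨α₂, hα₂, hG₂⟩ := ih₂ a₂ hq2 hc2
    have hdisj : Disjoint q₁.primeFactors q₂.primeFactors := hco.disjoint_primeFactors
    refine ⟨fun p => if p ∈ q₁.primeFactors then α₁ p else α₂ p, ?_, ?_⟩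
    · intro p hp
      rw [Nat.primeFactors_mul (by omega) (by omega), Finset.mem_union] at hp
      by_cases h : p ∈ q₁.primeFactors
      · simp only [h, if_true]
        exact hα₁ p h
      · simp only [h, if_false]
        exact hα₂ p (hp.resolve_left h)
    · rw [hdec, Gs_mul g q₁ q₂ a₁ a₂ hq1 hq2 hco, Nat.primeFactors_mul (by omega) (by omega),
        Finset.prod_union hdisj, hG₁, hG₂]
      congr 1
      · apply Finset.prod_congr rfl
        intro p hp
        have h7 : (q₁ * q₂).factorization p = q₁.factorization p :=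
          Nat.factorization_eq_of_coprime_left hco (Nat.mem_primeFactors_iff_mem_primeFactorsList.1 hp)
        simp only [hp, if_true]
        rw [h7]
      · apply Finset.prod_congr rfl
        intro p hp
        have h8 : p ∉ q₁.primeFactors := fun h => (Finset.disjoint_left.1 hdisj h) hp
        have h7 : (q₁ * q₂).factorization p = q₂.factorization p :=
          Nat.factorization_eq_of_coprime_right hco (Nat.mem_primeFactors_iff_mem_primeFactorsList.1 hp)
        simp only [h8, if_false]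
        rw [h7]

end Vale.Agent.P042
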