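import Vale.Agent.P042.Core2

/-!
# P042, module B1n: character sums over residue classes in an interval
-/

open Polynomial Finset

set_option linter.unusedSectionVars false

namespace Vale.Agent.P042

namespace GeoDAux

variable {ι : Type} [Fintype ι] [DecidableEq ι] (M : ι → ℕ) [∀ i, NeZero (M i)]

lemma chi_rv_add (b : ∀ i, ZMod (M i)) (m n : ℕ) :
    chi M b (rv M (m + n)) = chi M b (rv M m) * chi M b (rv M n) := by
  unfold chi rv
  rw [← Finset.prod_mul_distrib]
  refine Finset.prod_congr rfl (fun i _ => ?_)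
  rw [Nat.cast_add, mul_add, AddChar.map_add_eq_mul]

lemma chi_rv_mul (b : ∀ i, ZMod (M i)) (n m : ℕ) :
    chi M b (rv M (n * m)) = chi M b (rv M n) ^ m := by
  induction m with
  | zero =>
    unfold chi rv
    simp
  | succ m ih =>
    rw [Nat.mul_succ, chi_rv_add, ih, pow_succ]

lemma norm_chi (a x : ∀ i, ZMod (M i)) : ‖chi M a x‖ = 1 := by
  unfold chi
  rw [norm_prod]
  refine Finset.prod_eq_one (fun i _ => ?_)
  exact AddChar.norm_apply _ _

lemma chi_zero (x : ∀ i, ZMod (M i)) : chi M 0 x = 1 := by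
  unfold chi
  refine Finset.prod_eq_one (fun i _ => ?_)
  rw [Pi.zero_apply, zero_mul, AddChar.map_zero_eq_one]

/-- a bounded geometric sum -/
lemma geom_bound (w : ℂ) (B R : ℕ) (hB : w ^ B = 1) (hw : w ≠ 1) (hn : ‖w‖ = 1) (hB0 : 0 < B) :
    ‖∑ m ∈ range R, w ^ m‖ ≤ B := by
  have h1 : ∑ m ∈ range R, w ^ m = ∑ m ∈ range (R % B), w ^ m := by
    rw [geom_sum_eq hw, geom_sum_eq hw]
    have : w ^ R = w ^ (R % B) := by
      conv_lhs => rw [← Nat.div_add_mod R B, pow_add, pow_mul, hB, one_pow, one_mul]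
    rw [this]
  rw [h1]
  calc ‖∑ m ∈ range (R % B), w ^ m‖ ≤ ∑ m ∈ range (R % B), ‖w ^ m‖ := norm_sum_le _ _
    _ = ((R % B : ℕ) : ℝ) := by
        simp [hn]
    _ ≤ B := by
        exact_mod_cast (Nat.mod_lt _ hB0).le

/-- filter of a range by a residue class -/
lemma filter_class (D l n₀ : ℕ) (hD : 0 < D) (hn : n₀ < D) :
    (range l).filter (fun n : ℕ => n ≡ n₀ [MOD D])
      = (range ((l + (D - 1 - n₀)) / D)).image (fun m => n₀ + D * m) := by
  ext n
  rw [mem_filter, mem_range, mem_image]
  constructor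
  · rintro ⟨h1, h2⟩
    have h3 : n % D = n₀ := by
      have : n % D = n₀ % D := h2
      rwa [Nat.mod_eq_of_lt hn] at this
    refine ⟨n / D, ?_, ?_⟩
    · rw [mem_range]
      rw [Nat.lt_iff_add_one_le, Nat.le_div_iff_mul_le hD]
      have h4 : D * (n / D) + n % D = n := Nat.div_add_mod n D
      have h5 : (n / D + 1) * D = D * (n / D) + D := by ring
      rw [h5]
      omega
    · rw [← h3, add_comm]
      exact Nat.div_add_mod n D
  · rintro ⟨m, hm, rfl⟩
    rw [mem_range, Nat.lt_iff_add_one_le, Nat.le_div_iff_mul_le hD] at hm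
    have h5 : (m + 1) * D = D * m + D := by ring
    rw [h5] at hm
    refine ⟨by omega, ?_⟩
    unfold Nat.ModEq
    rw [Nat.add_mul_mod_self_left]


lemma ord_dvd (b : ∀ i, ZMod (M i)) (i : ι) : addOrderOf (b i) ∣ M i :=
  addOrderOf_dvd_of_nsmul_eq_zero (by rw [nsmul_eq_mul, ZMod.natCast_self, zero_mul])

end GeoDAux

open GeoDAux in
theorem geod : GEOD := by
  intro ι _ _ M _ p J hp hinj hM D X l b hD hb'
  set n₀ := X % D with hn₀def
  have hn₀ : n₀ < D := Nat.mod_lt _ hD
  have hfil : (range l).filter (fun n : ℕ => n ≡ X [MOD D])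
      = (range ((l + (D - 1 - n₀)) / D)).image (fun m => n₀ + D * m) := by
    rw [← filter_class D l n₀ hD hn₀]
    refine Finset.filter_congr (fun n _ => ?_)
    constructor
    · intro h
      exact h.trans (Nat.mod_modEq X D).symm
    · intro h
      exact h.trans (Nat.mod_modEq X D)
  set R := (l + (D - 1 - n₀)) / D with hR
  have hinj2 : Set.InjOn (fun m => n₀ + D * m) (range R : Set ℕ) := by
    intro a _ c _ h
    have h' : n₀ + D * a = n₀ + D * c := h
    have : D * a = D * c := by omega
    exact Nat.eq_of_mul_eq_mul_left hD this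
  rw [hfil, Finset.sum_image hinj2]
  have hsum : ∑ m ∈ range R, chi M b (rv M (n₀ + D * m))
      = chi M b (rv M n₀) * ∑ m ∈ range R, chi M b (rv M D) ^ m := by
    rw [Finset.mul_sum]
    refine Finset.sum_congr rfl (fun m _ => ?_)
    rw [chi_rv_add, chi_rv_mul]
  by_cases hb : b = 0
  · subst hb
    rw [if_pos rfl]
    have hmd : md M (0 : ∀ i, ZMod (M i)) = 1 := by
      unfold md
      simp
    rw [hmd]
    simp only [chi_zero, Finset.sum_const, card_range, nsmul_eq_mul, mul_one]
    have hDr : (0 : ℝ) < D := by exact_mod_cast hD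
    have h1 : ((R : ℂ) - (l : ℂ) / (D : ℂ)) = (((R : ℝ) - (l : ℝ) / (D : ℝ) : ℝ) : ℂ) := by
      push_cast
      ring
    rw [h1, Complex.norm_real, Real.norm_eq_abs, abs_le]
    have hup : (R : ℝ) * D ≤ l + (D - 1 - n₀ : ℕ) := by
      have : R * D ≤ l + (D - 1 - n₀) := Nat.div_mul_le_self _ _
      exact_mod_cast this
    have hlo : (l : ℝ) + (D - 1 - n₀ : ℕ) < (R + 1) * D := by
      have : l + (D - 1 - n₀) < (R + 1) * D := by
        rw [hR, mul_comm]
        exact Nat.lt_mul_div_succ _ hD
      exact_mod_cast this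
    have hc1 : ((D - 1 - n₀ : ℕ) : ℝ) ≤ D := by
      exact_mod_cast (by omega : D - 1 - n₀ ≤ D)
    have hc2 : (0 : ℝ) ≤ ((D - 1 - n₀ : ℕ) : ℝ) := Nat.cast_nonneg _
    push_cast
    constructor
    · rw [neg_le_sub_iff_le_add, div_le_iff₀ hDr]
      nlinarith
    · rw [sub_le_iff_le_add, ← sub_le_iff_le_add', le_div_iff₀ hDr]
      nlinarith
  · rw [if_neg hb, sub_zero, hsum, norm_mul, norm_chi, one_mul]
    have hBpos : 0 < md M b := Finset.prod_pos (fun i _ => addOrderOf_pos _)
    refine geom_bound _ (md M b) R ?_ ?_ (norm_chi M _ _) hBpos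
    · rw [← chi_rv_mul]
      unfold chi rv
      refine Finset.prod_eq_one (fun i _ => ?_)
      have hdvd : addOrderOf (b i) ∣ D * md M b :=
        Dvd.dvd.mul_left (Finset.dvd_prod_of_mem (fun i => addOrderOf (b i)) (mem_univ i)) D
      have h0 : (D * md M b) • b i = 0 := addOrderOf_dvd_iff_nsmul_eq_zero.1 hdvd
      rw [nsmul_eq_mul] at h0
      rw [mul_comm, h0, AddChar.map_zero_eq_one]
    · intro hw
      have : ∃ i, b i ≠ 0 := by
        by_contra hcon
        push Not at hcon
        exact hb (funext hcon)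
      obtain ⟨i, hi⟩ := this
      have hmem : i ∈ spt M b := by
        unfold spt
        rw [mem_filter]
        exact ⟨mem_univ _, hi⟩
      set B' := ∏ j ∈ univ.erase i, addOrderOf (b j) with hB'
      have h1 : chi M b (rv M (D * B')) = 1 := by rw [chi_rv_mul, hw, one_pow]
      have h2 : chi M b (rv M (D * B'))
          = ZMod.stdAddChar (b i * ((D * B' : ℕ) : ZMod (M i))) := by
        unfold chi rv
        rw [Finset.prod_eq_single i]
        · intro j _ hj
          have hmemj : j ∈ univ.erase i := by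
            rw [mem_erase]
            exact ⟨hj, mem_univ _⟩
          have hdvd : addOrderOf (b j) ∣ D * B' :=
            Dvd.dvd.mul_left (Finset.dvd_prod_of_mem (fun i => addOrderOf (b i)) hmemj) D
          have h0 : (D * B') • b j = 0 := addOrderOf_dvd_iff_nsmul_eq_zero.1 hdvd
          rw [nsmul_eq_mul] at h0
          rw [mul_comm, h0, AddChar.map_zero_eq_one]
        · intro h
          exact absurd (mem_univ i) h
      rw [h1] at h2
      have h3 : b i * ((D * B' : ℕ) : ZMod (M i)) = 0 := by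
        have := h2.symm
        rw [← (ZMod.stdAddChar (N := M i)).map_zero_eq_one] at this
        exact ZMod.injective_stdAddChar this
      have h4 : addOrderOf (b i) ∣ D * B' := by
        rw [addOrderOf_dvd_iff_nsmul_eq_zero, nsmul_eq_mul, mul_comm]
        exact h3
      -- the order is a nontrivial power of `p i`
      have hpd : p i ∣ addOrderOf (b i) := by
        have h5 : addOrderOf (b i) ∣ p i ^ J i := (hM i) ▸ (ord_dvd M b i : addOrderOf (b i) ∣ M i)
        obtain ⟨k, _, hk⟩ := (Nat.dvd_prime_pow (hp i)).1 h5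
        rcases Nat.eq_zero_or_pos k with hk0 | hk0
        · exfalso
          rw [hk0, pow_zero, AddMonoid.addOrderOf_eq_one_iff] at hk
          exact hi hk
        · rw [hk]
          exact dvd_pow_self _ (by omega)
      have h6 : p i ∣ D * B' := hpd.trans h4
      rcases (hp i).dvd_mul.1 h6 with h7 | h7
      · exact hb' i hmem h7
      · rw [hB', (hp i).prime.dvd_finsetProd_iff] at h7
        obtain ⟨j, hj, hj2⟩ := h7
        have h8 : p i ∣ p j ^ J j := by
          rw [← hM j]
          exact hj2.trans (ord_dvd M b j)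
        have h9 : p i = p j := (Nat.prime_dvd_prime_iff_eq (hp i) (hp j)).1 ((hp i).dvd_of_dvd_pow h8)
        exact (mem_erase.1 hj).1 (hinj h9).symm

end Vale.Agent.P042
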