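import Vale.Agent.P042.Core

/-!
# P042, module A2: global hypercontractivity
-/

open Finset

namespace Vale.Agent.P042

namespace HCAux

section
variable {ι : Type} [Fintype ι] [DecidableEq ι] (M : ι → ℕ) [∀ i, NeZero (M i)]

theorem avg_update (i : ι) (φ : (∀ i, ZMod (M i)) → ℝ) :
    avg φ = avg (fun x => avg (fun z : ZMod (M i) => φ (Function.update x i z))) := by
  unfold avg
  rw [← Finset.sum_div, ← Finset.sum_product']
  have hbij : ∑ p ∈ (univ : Finset (∀ i, ZMod (M i))) ×ˢ (univ : Finset (ZMod (M i))),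
      φ (Function.update p.1 i p.2)
      = ∑ p ∈ (univ : Finset (∀ i, ZMod (M i))) ×ˢ (univ : Finset (ZMod (M i))), φ p.1 := by
    refine Finset.sum_bij' (fun p _ => (Function.update p.1 i p.2, p.1 i))
      (fun p _ => (Function.update p.1 i p.2, p.1 i)) ?_ ?_ ?_ ?_ ?_
    · intro p _; simp
    · intro p _; simp
    · intro p _; simp
    · intro p _; simp
    · intro p _; simp
  rw [hbij, Finset.sum_product]
  simp only [Finset.sum_const, Finset.card_univ, nsmul_eq_mul]
  rw [← Finset.mul_sum]
  have h1 : (Fintype.card (ZMod (M i)) : ℝ) ≠ 0 := by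
    rw [ZMod.card]
    exact_mod_cast NeZero.ne (M i)
  field_simp

theorem FF_add (b c : (∀ i, ZMod (M i)) → ℂ) (x : ∀ i, ZMod (M i)) :
    FF M (fun a => b a + c a) x = FF M b x + FF M c x := by
  unfold FF
  rw [← Finset.sum_add_distrib]
  refine Finset.sum_congr rfl fun a _ => ?_
  ring

theorem FF_smul (t : ℂ) (c : (∀ i, ZMod (M i)) → ℂ) (x : ∀ i, ZMod (M i)) :
    FF M (fun a => t * c a) x = t * FF M c x := by
  unfold FF
  rw [Finset.mul_sum]
  refine Finset.sum_congr rfl fun a _ => ?_
  ring

theorem chi_split (i : ι) (a x : ∀ i, ZMod (M i)) :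
    chi M a x = ZMod.stdAddChar (a i * x i) * ∏ j ∈ univ.erase i, ZMod.stdAddChar (a j * x j) := by
  unfold chi
  rw [← Finset.mul_prod_erase _ _ (Finset.mem_univ i)]

/-- if `a i = 0` the character does not see the coordinate `i` -/
theorem chi_indep (i : ι) (a x y : ∀ i, ZMod (M i)) (ha : a i = 0) (hxy : ∀ j, j ≠ i → x j = y j) :
    chi M a x = chi M a y := by
  rw [chi_split M i, chi_split M i, ha, zero_mul, zero_mul]
  congr 1
  refine Finset.prod_congr rfl fun j hj => ?_
  rw [hxy j (Finset.ne_of_mem_erase hj)]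

theorem sum_std (n : ℕ) [NeZero n] (b : ZMod n) :
    ∑ z : ZMod n, ZMod.stdAddChar (b * z) = if b = 0 then (n : ℂ) else 0 := by
  have h := AddChar.sum_mulShift b (ZMod.isPrimitive_stdAddChar n)
  have h2 : ∀ z : ZMod n, ZMod.stdAddChar (b * z) = ZMod.stdAddChar (z * b) := by
    intro z; rw [mul_comm]
  rw [Finset.sum_congr rfl (fun z _ => h2 z), h, ZMod.card]
  split_ifs <;> simp

/-- averaging `FF` over the coordinate `i` -/
theorem sum_FF_update (i : ι) (b : (∀ i, ZMod (M i)) → ℂ) (w : ∀ i, ZMod (M i)) :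
    ∑ z : ZMod (M i), FF M b (Function.update w i z)
      = (M i : ℂ) * FF M (fun a => if a i = 0 then b a else 0) w := by
  unfold FF
  rw [Finset.sum_comm, Finset.mul_sum]
  refine Finset.sum_congr rfl fun a _ => ?_
  have h1 : ∀ z : ZMod (M i), b a * chi M a (Function.update w i z)
      = (b a * ∏ j ∈ univ.erase i, ZMod.stdAddChar (a j * w j)) * ZMod.stdAddChar (a i * z) := by
    intro z
    rw [chi_split M i]
    have h2 : ∏ j ∈ univ.erase i, ZMod.stdAddChar (a j * (Function.update w i z) j)
        = ∏ j ∈ univ.erase i, (ZMod.stdAddChar (a j * w j) : ℂ) := by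
      refine Finset.prod_congr rfl fun j hj => ?_
      rw [Function.update_of_ne (Finset.ne_of_mem_erase hj)]
    rw [h2, Function.update_self]
    ring
  rw [Finset.sum_congr rfl (fun z _ => h1 z), ← Finset.mul_sum, sum_std]
  beta_reduce
  by_cases ha : a i = 0
  · rw [if_pos ha, if_pos ha]
    have : chi M a w = ∏ j ∈ univ.erase i, (ZMod.stdAddChar (a j * w j) : ℂ) := by
      rw [chi_split M i, ha, zero_mul]
      simp
    rw [this]
    ring
  · rw [if_neg ha, if_neg ha]
    ring

theorem FF_zero_indep (i : ι) (b : (∀ i, ZMod (M i)) → ℂ) (x y : ∀ i, ZMod (M i))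
    (hxy : ∀ j, j ≠ i → x j = y j) :
    FF M (fun a => if a i = 0 then b a else 0) x = FF M (fun a => if a i = 0 then b a else 0) y := by
  unfold FF
  refine Finset.sum_congr rfl fun a _ => ?_
  beta_reduce
  by_cases ha : a i = 0
  · rw [if_pos ha, chi_indep M i a x y ha hxy]
  · rw [if_neg ha]
    ring

theorem FF_split (i : ι) (b : (∀ i, ZMod (M i)) → ℂ) (x : ∀ i, ZMod (M i)) :
    FF M b x = FF M (fun a => if a i = 0 then b a else 0) x
      + FF M (fun a => if a i ≠ 0 then b a else 0) x := by
  rw [← FF_add]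
  unfold FF
  refine Finset.sum_congr rfl fun a _ => ?_
  by_cases ha : a i = 0
  · simp [ha]
  · simp [ha]

theorem mix_update (i : ι) (W : Finset ι) (hi : i ∈ W) (x y : ∀ i, ZMod (M i)) (z : ZMod (M i)) :
    mix M W (Function.update x i z) y = Function.update (mix M W x y) i z := by
  funext j
  by_cases hj : j = i
  · subst hj
    simp [mix, hi]
  · rw [Function.update_of_ne hj]
    unfold mix
    rw [Function.update_of_ne hj]

theorem mix_update' (i : ι) (W : Finset ι) (x y : ∀ i, ZMod (M i)) (z : ZMod (M i)) :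
    mix M (W.erase i) x (Function.update y i z) = Function.update (mix M W x y) i z := by
  funext j
  by_cases hj : j = i
  · subst hj
    simp [mix]
  · rw [Function.update_of_ne hj]
    unfold mix
    rw [Function.update_of_ne hj]
    simp [hj]

theorem avg_comm {Ω Ω' : Type*} [Fintype Ω] [Fintype Ω'] (f : Ω → Ω' → ℝ) :
    avg (fun x => avg (fun y => f x y)) = avg (fun y => avg (fun x => f x y)) := by
  unfold avg
  rw [← Finset.sum_div, ← Finset.sum_div, Finset.sum_comm]
  ring

theorem avg_mono {Ω : Type*} [Fintype Ω] (f g : Ω → ℝ) (h : ∀ x, f x ≤ g x) : avg f ≤ avg g := by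
  unfold avg
  gcongr
  exact h _

theorem avg_add {Ω : Type*} [Fintype Ω] (f g : Ω → ℝ) :
    avg (fun x => f x + g x) = avg f + avg g := by
  unfold avg
  rw [Finset.sum_add_distrib, add_div]

theorem avg_const_mul {Ω : Type*} [Fintype Ω] (t : ℝ) (g : Ω → ℝ) :
    avg (fun x => t * g x) = t * avg g := by
  unfold avg
  rw [← Finset.mul_sum, mul_div_assoc]

/-- one coordinate step -/
theorem onecoord (hH : HCONE) (s : ℕ) (hs : 1 ≤ s) (i : ι) (W : Finset ι) (hi : i ∈ W)
    (b : (∀ i, ZMod (M i)) → ℂ) :
    avg (fun x => (avg (fun y => ‖FF M (fun a =>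
        (if a i = 0 then 1 else ((1 / (2 * Real.sqrt (2 * s)) : ℝ) : ℂ)) * b a)
          (mix M W x y)‖ ^ 2)) ^ s)
      ≤ avg (fun x => (avg (fun y => ‖FF M b (mix M (W.erase i) x y)‖ ^ 2)) ^ s)
        + (2 * (s : ℝ)) ^ s * avg (fun x => (avg (fun y =>
            ‖FF M (fun a => if a i ≠ 0 then b a else 0) (mix M W x y)‖ ^ 2)) ^ s) := by
  set ρ : ℝ := 1 / (2 * Real.sqrt (2 * s)) with hρ
  have hcG : (0 : ℝ) < (Fintype.card (∀ i, ZMod (M i)) : ℝ) := by exact_mod_cast Fintype.card_pos
  set κ : ℝ := 1 / Real.sqrt (Fintype.card (∀ i, ZMod (M i))) with hκ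
  have hκ2 : κ ^ 2 = 1 / (Fintype.card (∀ i, ZMod (M i)) : ℝ) := by
    rw [hκ, div_pow, Real.sq_sqrt hcG.le]
    norm_num
  have hκ0 : 0 ≤ κ := by rw [hκ]; positivity
  -- norms in `H`
  have hnorm : ∀ f : (∀ i, ZMod (M i)) → ℂ, ‖(WithLp.toLp 2 (fun y => (κ : ℂ) * f y) : EuclideanSpace ℂ (∀ i, ZMod (M i)))‖ ^ 2
      = avg (fun y => ‖f y‖ ^ 2) := by
    intro f
    rw [EuclideanSpace.norm_sq_eq]
    unfold avg
    have h1 : ∀ y, ‖(κ : ℂ) * f y‖ ^ 2 = ‖f y‖ ^ 2 * (1 / (Fintype.card (∀ i, ZMod (M i)) : ℝ)) := by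
      intro y
      rw [norm_mul, mul_pow, Complex.norm_real, Real.norm_eq_abs, sq_abs, hκ2]
      ring
    simp only [h1]
    rw [← Finset.sum_mul]
    ring
  have hpt : ∀ x : (∀ i, ZMod (M i)), avg (fun z : ZMod (M i) => (avg (fun y => ‖FF M (fun a =>
        (if a i = 0 then 1 else (ρ : ℂ)) * b a) (mix M W (Function.update x i z) y)‖ ^ 2)) ^ s)
      ≤ (avg (fun y => ‖FF M b (mix M (W.erase i) x y)‖ ^ 2)) ^ s
        + (2 * (s : ℝ)) ^ s * avg (fun z : ZMod (M i) => (avg (fun y =>
            ‖FF M (fun a => if a i ≠ 0 then b a else 0) (mix M W (Function.update x i z) y)‖ ^ 2)) ^ s)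
      := by
    intro x
    set v : ZMod (M i) → EuclideanSpace ℂ (∀ i, ZMod (M i)) := fun z =>
      WithLp.toLp 2 (fun y => (κ : ℂ) * FF M b (mix M W (Function.update x i z) y)) with hv
    set m : EuclideanSpace ℂ (∀ i, ZMod (M i)) :=
      WithLp.toLp 2 (fun y => (κ : ℂ) * FF M (fun a => if a i = 0 then b a else 0) (mix M W x y))
      with hm
    have hmean : m = ((Fintype.card (ZMod (M i)) : ℝ)⁻¹) • ∑ z, v z := by
      ext y
      rw [PiLp.smul_apply]
      have h1 : (∑ z, v z) y = ∑ z, v z y := by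
        rw [WithLp.ofLp_sum, Finset.sum_apply]
      rw [h1, hm, hv]
      simp only
      rw [← Finset.mul_sum]
      have h2 : ∀ z, FF M b (mix M W (Function.update x i z) y)
          = FF M b (Function.update (mix M W x y) i z) := fun z => by rw [mix_update M i W hi]
      rw [Finset.sum_congr rfl (fun z _ => h2 z), sum_FF_update, ZMod.card]
      have h3 : (M i : ℂ) ≠ 0 := by exact_mod_cast NeZero.ne (M i)
      rw [Complex.real_smul]
      push_cast
      field_simp
    have hfun := hH (EuclideanSpace ℂ (∀ i, ZMod (M i))) (ZMod (M i)) v s hs m hmean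
    have e1 : ∀ z, m + ρ • (v z - m) = WithLp.toLp 2 (fun y => (κ : ℂ) * FF M (fun a =>
        (if a i = 0 then 1 else (ρ : ℂ)) * b a) (mix M W (Function.update x i z) y)) := by
      intro z
      ext y
      rw [PiLp.add_apply, PiLp.smul_apply, PiLp.sub_apply, hm, hv]
      simp only
      rw [Complex.real_smul]
      have h4 : FF M (fun a => if a i = 0 then b a else 0) (mix M W x y)
          = FF M (fun a => if a i = 0 then b a else 0) (mix M W (Function.update x i z) y) := by
        apply FF_zero_indep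
        intro j hj
        rw [mix_update M i W hi, Function.update_of_ne hj]
      rw [h4, FF_split M i b]
      have h5 : FF M (fun a => (if a i = 0 then 1 else (ρ : ℂ)) * b a)
            (mix M W (Function.update x i z) y)
          = FF M (fun a => if a i = 0 then b a else 0) (mix M W (Function.update x i z) y)
            + (ρ : ℂ) * FF M (fun a => if a i ≠ 0 then b a else 0)
                (mix M W (Function.update x i z) y) := by
        rw [← FF_smul, ← FF_add]
        unfold FF
        refine Finset.sum_congr rfl fun a _ => ?_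
        by_cases ha : a i = 0 <;> simp [ha]
      rw [h5]
      ring
    have e2 : ∀ z, v z - m = WithLp.toLp 2 (fun y => (κ : ℂ) * FF M (fun a =>
        if a i ≠ 0 then b a else 0) (mix M W (Function.update x i z) y)) := by
      intro z
      ext y
      rw [PiLp.sub_apply, hm, hv]
      simp only
      have h4 : FF M (fun a => if a i = 0 then b a else 0) (mix M W x y)
          = FF M (fun a => if a i = 0 then b a else 0) (mix M W (Function.update x i z) y) := by
        apply FF_zero_indep
        intro j hj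
        rw [mix_update M i W hi, Function.update_of_ne hj]
      rw [h4, FF_split M i b]
      ring
    have e3 : ∀ z, ‖m + ρ • (v z - m)‖ ^ (2 * s) = (avg (fun y => ‖FF M (fun a =>
        (if a i = 0 then 1 else (ρ : ℂ)) * b a) (mix M W (Function.update x i z) y)‖ ^ 2)) ^ s := by
      intro z
      rw [pow_mul, e1, hnorm]
    have e4 : ∀ z, ‖v z - m‖ ^ (2 * s) = (avg (fun y =>
            ‖FF M (fun a => if a i ≠ 0 then b a else 0) (mix M W (Function.update x i z) y)‖ ^ 2)) ^ s
        := by
      intro z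
      rw [pow_mul, e2, hnorm]
    have e5 : avg (fun z => ‖v z‖ ^ 2) = avg (fun y => ‖FF M b (mix M (W.erase i) x y)‖ ^ 2) := by
      have h6 : ∀ z, ‖v z‖ ^ 2
          = avg (fun y => ‖FF M b (mix M (W.erase i) x (Function.update y i z))‖ ^ 2) := by
        intro z
        rw [hv]
        simp only
        rw [hnorm]
        congr 1
        funext y
        rw [mix_update M i W hi, mix_update' M i W]
      have h7 : avg (fun z => ‖v z‖ ^ 2) = avg (fun z : ZMod (M i) =>
          avg (fun y => ‖FF M b (mix M (W.erase i) x (Function.update y i z))‖ ^ 2)) := by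
        congr 1
        funext z
        exact h6 z
      rw [h7, avg_comm]
      exact (avg_update M i (fun y => ‖FF M b (mix M (W.erase i) x y)‖ ^ 2)).symm
    rw [e5] at hfun
    have e6 : avg (fun z => ‖m + ρ • (v z - m)‖ ^ (2 * s)) = avg (fun z => (avg (fun y => ‖FF M (fun a =>
        (if a i = 0 then 1 else (ρ : ℂ)) * b a) (mix M W (Function.update x i z) y)‖ ^ 2)) ^ s) := by
      congr 1
      funext z
      exact e3 z
    have e7 : avg (fun z => ‖v z - m‖ ^ (2 * s)) = avg (fun z => (avg (fun y =>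
            ‖FF M (fun a => if a i ≠ 0 then b a else 0) (mix M W (Function.update x i z) y)‖ ^ 2)) ^ s)
        := by
      congr 1
      funext z
      exact e4 z
    rw [e6, e7] at hfun
    exact hfun
  rw [avg_update M i (fun x => (avg (fun y => ‖FF M (fun a =>
        (if a i = 0 then 1 else (ρ : ℂ)) * b a) (mix M W x y)‖ ^ 2)) ^ s)]
  rw [avg_update M i (fun x => (avg (fun y =>
            ‖FF M (fun a => if a i ≠ 0 then b a else 0) (mix M W x y)‖ ^ 2)) ^ s)]
  rw [← avg_const_mul, ← avg_add]
  exact avg_mono _ _ hpt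

theorem avg_const {Ω : Type*} [Fintype Ω] [Nonempty Ω] (t : ℝ) : avg (fun _ : Ω => t) = t := by
  unfold avg
  rw [Finset.sum_const, Finset.card_univ, nsmul_eq_mul]
  have : (Fintype.card Ω : ℝ) ≠ 0 := by exact_mod_cast Fintype.card_ne_zero
  field_simp

/-- induction over the processed coordinates -/
theorem hc_ind (hH : HCONE) (s : ℕ) (hs : 1 ≤ s) (J : Finset ι) :
    ∀ c : (∀ i, ZMod (M i)) → ℂ,
    avg (fun x => ‖FF M (fun a =>
        ((1 / (2 * Real.sqrt (2 * s)) : ℝ) : ℂ) ^ (spt M a ∩ J).card * c a) x‖ ^ (2 * s))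
      ≤ ∑ S ∈ J.powerset, ((2 * (s : ℝ)) ^ s) ^ S.card *
          avg (fun x => (avg (fun y =>
            ‖FF M (fun a => if S ⊆ spt M a then c a else 0) (mix M (univ \ (J \ S)) x y)‖ ^ 2)) ^ s)
    := by
  induction J using Finset.induction_on with
  | empty =>
    intro c
    rw [Finset.powerset_empty, Finset.sum_singleton]
    have h1 : ∀ x y : (∀ i, ZMod (M i)), mix M (univ \ (∅ \ ∅)) x y = x := by
      intro x y
      funext i
      simp [mix]
    simp only [Finset.inter_empty, Finset.card_empty, pow_zero, one_mul, Finset.empty_subset,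
      if_true, h1]
    apply le_of_eq
    congr 1
    funext x
    rw [avg_const, pow_mul]
  | insert i J hiJ ih =>
    intro c
    set ρ : ℝ := 1 / (2 * Real.sqrt (2 * s)) with hρ
    have h1 := ih (fun a => (if a i = 0 then 1 else (ρ : ℂ)) * c a)
    have h2 : ∀ a : (∀ i, ZMod (M i)), (ρ : ℂ) ^ (spt M a ∩ insert i J).card * c a
        = (ρ : ℂ) ^ (spt M a ∩ J).card * ((if a i = 0 then 1 else (ρ : ℂ)) * c a) := by
      intro a
      by_cases ha : a i = 0
      · rw [if_pos ha]
        have : spt M a ∩ insert i J = spt M a ∩ J := by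
          rw [Finset.inter_insert_of_notMem]
          simp [spt, ha]
        rw [this, one_mul]
      · rw [if_neg ha]
        have hi : i ∈ spt M a := by simp [spt, ha]
        have : (spt M a ∩ insert i J).card = (spt M a ∩ J).card + 1 := by
          rw [Finset.inter_insert_of_mem hi, Finset.card_insert_of_notMem]
          intro h
          exact hiJ (Finset.mem_inter.1 h).2
        rw [this, pow_succ]
        ring
    have h3 : (fun a : (∀ i, ZMod (M i)) => (ρ : ℂ) ^ (spt M a ∩ insert i J).card * c a)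
        = fun a => (ρ : ℂ) ^ (spt M a ∩ J).card * ((if a i = 0 then 1 else (ρ : ℂ)) * c a) := by
      funext a
      exact h2 a
    rw [h3]
    refine h1.trans ?_
    rw [Finset.sum_powerset_insert hiJ, ← Finset.sum_add_distrib]
    refine Finset.sum_le_sum fun S hS => ?_
    have hSJ : S ⊆ J := Finset.mem_powerset.1 hS
    have hiS : i ∉ S := fun h => hiJ (hSJ h)
    have hW : i ∈ univ \ (J \ S) := by
      simp [hiJ]
    have h4 := onecoord M hH s hs i (univ \ (J \ S)) hW (fun a => if S ⊆ spt M a then c a else 0)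
    have e1 : (univ \ (J \ S)).erase i = univ \ (insert i J \ S) := by
      ext j
      simp only [Finset.mem_erase, Finset.mem_sdiff, Finset.mem_univ, true_and, Finset.mem_insert]
      constructor
      · rintro ⟨h5, h6⟩ ⟨h7, h8⟩
        rcases h7 with h7 | h7
        · exact h5 h7
        · exact h6 ⟨h7, h8⟩
      · intro h5
        refine ⟨?_, ?_⟩
        · intro h6
          subst h6
          exact h5 ⟨Or.inl rfl, hiS⟩
        · rintro ⟨h6, h7⟩
          exact h5 ⟨Or.inr h6, h7⟩
    have e2 : univ \ (insert i J \ insert i S) = univ \ (J \ S) := by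
      congr 1
      ext j
      simp only [Finset.mem_sdiff, Finset.mem_insert, not_or]
      constructor
      · rintro ⟨h5, h6, h7⟩
        rcases h5 with h5 | h5
        · exact absurd h5 h6
        · exact ⟨h5, h7⟩
      · rintro ⟨h5, h6⟩
        refine ⟨Or.inr h5, ?_, h6⟩
        intro h7
        subst h7
        exact hiJ h5
    have e3 : (fun a : (∀ i, ZMod (M i)) => if S ⊆ spt M a then
          (if a i = 0 then 1 else (ρ : ℂ)) * c a else 0)
        = fun a => (if a i = 0 then 1 else (ρ : ℂ)) * (if S ⊆ spt M a then c a else 0) := by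
      funext a
      by_cases h : S ⊆ spt M a <;> simp [h]
    have e4 : (fun a : (∀ i, ZMod (M i)) => if insert i S ⊆ spt M a then c a else 0)
        = fun a => if a i ≠ 0 then (if S ⊆ spt M a then c a else 0) else 0 := by
      funext a
      have hiff : insert i S ⊆ spt M a ↔ (a i ≠ 0 ∧ S ⊆ spt M a) := by
        rw [Finset.insert_subset_iff]
        simp [spt]
      by_cases h5 : a i ≠ 0
      · by_cases h6 : S ⊆ spt M a
        · rw [if_pos (hiff.2 ⟨h5, h6⟩), if_pos h5, if_pos h6]
        · rw [if_neg (fun h => h6 (hiff.1 h).2), if_pos h5, if_neg h6]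
      · rw [if_neg (fun h => h5 (hiff.1 h).1), if_neg h5]
    rw [e2, e4, e3, Finset.card_insert_of_notMem hiS, pow_succ, ← e1]
    have h5 : (0 : ℝ) ≤ ((2 * (s : ℝ)) ^ s) ^ S.card := by positivity
    have h6 := mul_le_mul_of_nonneg_left h4 h5
    refine h6.trans (le_of_eq ?_)
    ring

end

end HCAux

open HCAux in
theorem hc : HCONE → HC := by
  intro hH ι _ _ M _ c s hs
  have h := hc_ind M hH s hs univ c
  have e1 : ∀ S : Finset ι, univ \ (univ \ S) = S := by
    intro S
    ext i
    simp
  simp only [Finset.inter_univ, Finset.powerset_univ, e1] at h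
  exact h

end Vale.Agent.P042
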