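import Vale.Agent.P042.Core2

/-!
# P042, module B2n: GEOD -> LV1D
-/

open Polynomial Finset

set_option linter.unusedSectionVars false

namespace Vale.Agent.P042

namespace LV1Daux

variable {ι : Type} [Fintype ι] [DecidableEq ι] (M : ι → ℕ) [∀ i, NeZero (M i)]

lemma chi_add (a b x : ∀ i, ZMod (M i)) : chi M (a + b) x = chi M a x * chi M b x := by
  unfold chi
  rw [← Finset.prod_mul_distrib]
  refine Finset.prod_congr rfl (fun i _ => ?_)
  rw [Pi.add_apply, add_mul, AddChar.map_add_eq_mul]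

lemma chi_neg (a x : ∀ i, ZMod (M i)) : chi M (-a) x = (starRingEnd ℂ) (chi M a x) := by
  unfold chi
  rw [map_prod]
  refine Finset.prod_congr rfl (fun i _ => ?_)
  rw [Pi.neg_apply, neg_mul, AddChar.map_neg_eq_conj]

lemma chi_zero (x : ∀ i, ZMod (M i)) : chi M 0 x = 1 := by
  unfold chi
  refine Finset.prod_eq_one (fun i _ => ?_)
  rw [Pi.zero_apply, zero_mul, AddChar.map_zero_eq_one]

lemma norm_chi (a x : ∀ i, ZMod (M i)) : ‖chi M a x‖ = 1 := by
  unfold chi
  rw [norm_prod]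
  refine Finset.prod_eq_one (fun i _ => ?_)
  exact AddChar.norm_apply _ _

lemma sum_chi (b : ∀ i, ZMod (M i)) :
    ∑ x : (∀ i, ZMod (M i)), chi M b x
      = if b = 0 then (Fintype.card (∀ i, ZMod (M i)) : ℂ) else 0 := by
  classical
  have h1 : ∑ x : (∀ i, ZMod (M i)), chi M b x
      = ∏ i, ∑ z : ZMod (M i), (ZMod.stdAddChar (b i * z) : ℂ) := by
    rw [Finset.prod_univ_sum, Fintype.piFinset_univ]
    rfl
  have h2 : ∀ i, ∑ z : ZMod (M i), (ZMod.stdAddChar (b i * z) : ℂ)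
      = if b i = 0 then (Fintype.card (ZMod (M i)) : ℂ) else 0 := by
    intro i
    have := AddChar.sum_mulShift (b i) (ZMod.isPrimitive_stdAddChar (M i))
    simp only [mul_comm] at this ⊢
    rw [this]
    split_ifs <;> simp
  rw [h1]
  by_cases hb : b = 0
  · subst hb
    simp only [if_true]
    rw [Fintype.card_pi]
    push_cast
    refine Finset.prod_congr rfl (fun i _ => ?_)
    rw [h2 i]
    simp
  · rw [if_neg hb]
    have : ∃ i, b i ≠ 0 := by
      by_contra hcon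
      push Not at hcon
      exact hb (funext hcon)
    obtain ⟨i, hi⟩ := this
    refine Finset.prod_eq_zero (Finset.mem_univ i) ?_
    rw [h2 i, if_neg hi]

/-- functions with controlled Fourier expansions -/
def Good (p : ι → ℕ) (D : ℕ) (H : (∀ i, ZMod (M i)) → ℂ) (m : ℕ) (K : ℝ) : Prop :=
  ∃ C : (∀ i, ZMod (M i)) → ℂ, (∀ x, H x = FF M C x) ∧
    (∀ b, C b ≠ 0 → md M b ≤ m ∧ ∀ i ∈ spt M b, ¬ p i ∣ D) ∧ ∑ b, ‖C b‖ ≤ K

lemma md_pos (a : ∀ i, ZMod (M i)) : 0 < md M a :=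
  Finset.prod_pos (fun i _ => addOrderOf_pos _)

lemma md_add (a b : ∀ i, ZMod (M i)) : md M (a + b) ≤ md M a * md M b := by
  refine Nat.le_of_dvd (Nat.mul_pos (md_pos M a) (md_pos M b)) ?_
  unfold md
  rw [← Finset.prod_mul_distrib]
  refine Finset.prod_dvd_prod_of_dvd _ _ (fun i _ => ?_)
  exact (AddCommute.all (a i) (b i)).addOrderOf_add_dvd_mul_addOrderOf

lemma md_neg (a : ∀ i, ZMod (M i)) : md M (-a) = md M a := by
  unfold md
  refine Finset.prod_congr rfl (fun i _ => ?_)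
  rw [Pi.neg_apply, addOrderOf_neg]

lemma md_zero : md M (0 : ∀ i, ZMod (M i)) = 1 := by
  unfold md
  simp

lemma spt_add (a b : ∀ i, ZMod (M i)) : spt M (a + b) ⊆ spt M a ∪ spt M b := by
  intro i hi
  unfold spt at *
  simp only [mem_filter, mem_univ, true_and, mem_union, Pi.add_apply] at *
  by_contra hcon
  push Not at hcon
  exact hi (by rw [hcon.1, hcon.2, add_zero])

lemma spt_neg (a : ∀ i, ZMod (M i)) : spt M (-a) = spt M a := by
  unfold spt
  ext i
  simp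

lemma spt_zero : spt M (0 : ∀ i, ZMod (M i)) = ∅ := by
  unfold spt
  ext i
  simp

lemma good_mul {p : ι → ℕ} {D : ℕ} {H₁ H₂ : (∀ i, ZMod (M i)) → ℂ} {m₁ m₂ : ℕ} {K₁ K₂ : ℝ}
    (h₁ : Good M p D H₁ m₁ K₁) (h₂ : Good M p D H₂ m₂ K₂) (hK₁ : 0 ≤ K₁) :
    Good M p D (fun x => H₁ x * H₂ x) (m₁ * m₂) (K₁ * K₂) := by
  obtain ⟨C₁, hC₁, hs₁, hn₁⟩ := h₁
  obtain ⟨C₂, hC₂, hs₂, hn₂⟩ := h₂
  refine ⟨fun b => ∑ a, C₁ a * C₂ (b - a), ?_, ?_, ?_⟩
  · intro x
    change H₁ x * H₂ x = _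
    rw [hC₁ x, hC₂ x]
    unfold FF
    simp only [Finset.sum_mul]
    rw [Finset.sum_comm]
    refine Finset.sum_congr rfl (fun a _ => ?_)
    rw [Finset.mul_sum]
    symm
    rw [← Equiv.sum_comp (Equiv.addRight a)]
    refine Finset.sum_congr rfl (fun b _ => ?_)
    simp only [Equiv.coe_addRight, add_sub_cancel_right]
    rw [chi_add]
    ring
  · intro b hb
    obtain ⟨a, _, ha⟩ := Finset.exists_ne_zero_of_sum_ne_zero hb
    have ha₁ : C₁ a ≠ 0 := left_ne_zero_of_mul ha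
    have ha₂ : C₂ (b - a) ≠ 0 := right_ne_zero_of_mul ha
    have hsub : spt M b ⊆ spt M a ∪ spt M (b - a) := by
      have := spt_add M a (b - a)
      rwa [add_sub_cancel] at this
    have hmd : md M b ≤ md M a * md M (b - a) := by
      have := md_add M a (b - a)
      rwa [add_sub_cancel] at this
    obtain ⟨c1, d1⟩ := hs₁ a ha₁
    obtain ⟨c2, d2⟩ := hs₂ _ ha₂
    refine ⟨hmd.trans (Nat.mul_le_mul c1 c2), ?_⟩
    intro i hi
    rcases Finset.mem_union.1 (hsub hi) with h | h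
    · exact d1 i h
    · exact d2 i h
  · calc ∑ b, ‖∑ a, C₁ a * C₂ (b - a)‖ ≤ ∑ b, ∑ a, ‖C₁ a‖ * ‖C₂ (b - a)‖ := by
          refine Finset.sum_le_sum (fun b _ => ?_)
          refine (norm_sum_le _ _).trans (le_of_eq ?_)
          refine Finset.sum_congr rfl (fun a _ => norm_mul _ _)
      _ = ∑ a, ‖C₁ a‖ * ∑ b, ‖C₂ b‖ := by
          rw [Finset.sum_comm]
          refine Finset.sum_congr rfl (fun a _ => ?_)
          rw [← Finset.mul_sum]
          congr 1
          exact Equiv.sum_comp (Equiv.subRight a) (fun b => ‖C₂ b‖)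
      _ = (∑ a, ‖C₁ a‖) * ∑ b, ‖C₂ b‖ := by rw [Finset.sum_mul]
      _ ≤ K₁ * K₂ := by
          refine mul_le_mul hn₁ hn₂ ?_ hK₁
          exact Finset.sum_nonneg (fun _ _ => norm_nonneg _)

lemma good_conj {p : ι → ℕ} {D : ℕ} {H : (∀ i, ZMod (M i)) → ℂ} {m : ℕ} {K : ℝ}
    (h : Good M p D H m K) : Good M p D (fun x => (starRingEnd ℂ) (H x)) m K := by
  obtain ⟨C, hC, hs, hn⟩ := h
  refine ⟨fun b => (starRingEnd ℂ) (C (-b)), ?_, ?_, ?_⟩
  · intro x
    change (starRingEnd ℂ) (H x) = _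
    rw [hC x]
    unfold FF
    rw [map_sum, ← Equiv.sum_comp (Equiv.neg _)]
    refine Finset.sum_congr rfl (fun b _ => ?_)
    simp only [Equiv.neg_apply]
    rw [map_mul, chi_neg, Complex.conj_conj]
  · intro b hb
    have : C (-b) ≠ 0 := by
      intro h0
      apply hb
      simp [h0]
    have := hs _ this
    rwa [spt_neg, md_neg] at this
  · refine le_trans (le_of_eq ?_) hn
    simp only [RCLike.norm_conj]
    exact Equiv.sum_comp (Equiv.neg _) (fun b => ‖C b‖)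

lemma good_one (p : ι → ℕ) (D : ℕ) : Good M p D (fun _ => 1) 1 1 := by
  classical
  refine ⟨fun b => if b = 0 then 1 else 0, ?_, ?_, ?_⟩
  · intro x
    unfold FF
    simp [chi_zero]
  · intro b hb
    have : b = 0 := by
      by_contra h
      simp [h] at hb
    subst this
    rw [spt_zero, md_zero]
    simp
  · have : ∀ b : (∀ i, ZMod (M i)), ‖(if b = 0 then (1 : ℂ) else 0)‖ = if b = 0 then 1 else 0 := by
      intro b
      split_ifs <;> simp
    simp [this]

lemma good_pow {p : ι → ℕ} {D : ℕ} {H : (∀ i, ZMod (M i)) → ℂ} {m : ℕ} {K : ℝ}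
    (h : Good M p D H m K) (hK : 0 ≤ K) (n : ℕ) :
    Good M p D (fun x => H x ^ n) (m ^ n) (K ^ n) := by
  induction n with
  | zero => simpa using good_one M p D
  | succ n ih =>
    have h3 := good_mul M ih h (pow_nonneg hK n)
    have e1 : (fun x => H x ^ (n + 1)) = fun x => H x ^ n * H x := by
      funext x
      rw [pow_succ]
    rw [e1, pow_succ, pow_succ]
    exact h3

/-- comparison for a good function -/
lemma good_compare (hgeo : GEOD) {p J : ι → ℕ} (hp : ∀ i, (p i).Prime)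
    (hinj : Function.Injective p) (hM : ∀ i, M i = p i ^ J i)
    {D X l : ℕ} (hD : 1 ≤ D) (hl : 1 ≤ l)
    {H : (∀ i, ZMod (M i)) → ℂ} {m : ℕ} {K : ℝ} (hg : Good M p D H m K) :
    ‖((D : ℂ) / (l : ℂ)) *
        ∑ n ∈ (range l).filter (fun n : ℕ => n ≡ X [MOD D]), H (rv M n)
      - (∑ x, H x) / (Fintype.card (∀ i, ZMod (M i)) : ℂ)‖
      ≤ (D : ℝ) / l * (m : ℝ) * K := by
  obtain ⟨C, hC, hs, hn⟩ := hg
  have hMT : (D : ℂ) ≠ 0 := by
    exact_mod_cast (by omega : D ≠ 0)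
  have hl0 : (l : ℂ) ≠ 0 := by
    exact_mod_cast (by omega : l ≠ 0)
  have hcard : (Fintype.card (∀ i, ZMod (M i)) : ℂ) ≠ 0 := by
    exact_mod_cast Fintype.card_ne_zero
  have havg : (∑ x, H x) / (Fintype.card (∀ i, ZMod (M i)) : ℂ) = C 0 := by
    have : ∑ x, H x = ∑ b, C b * ∑ x, chi M b x := by
      simp only [hC]
      unfold FF
      rw [Finset.sum_comm]
      refine Finset.sum_congr rfl (fun b _ => ?_)
      rw [Finset.mul_sum]
    rw [this]
    simp only [sum_chi, mul_ite, mul_zero]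
    rw [Finset.sum_ite_eq' Finset.univ]
    simp only [mem_univ, if_true]
    field_simp
  have hsum : ((D : ℂ) / (l : ℂ)) *
        ∑ n ∈ (range l).filter (fun n : ℕ => n ≡ X [MOD D]), H (rv M n) - C 0
      = ∑ b, ((D : ℂ) / (l : ℂ)) * (C b *
        (∑ n ∈ (range l).filter (fun n : ℕ => n ≡ X [MOD D]), chi M b (rv M n)
        - (if b = 0 then (l : ℂ) / (D : ℂ) else 0))) := by
    have e1 : ∑ n ∈ (range l).filter (fun n : ℕ => n ≡ X [MOD D]), H (rv M n)
        = ∑ b, C b * ∑ n ∈ (range l).filter (fun n : ℕ => n ≡ X [MOD D]),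
            chi M b (rv M n) := by
      simp only [hC]
      unfold FF
      rw [Finset.sum_comm]
      refine Finset.sum_congr rfl (fun b _ => ?_)
      rw [Finset.mul_sum]
    have e2 : C 0 = ((D : ℂ) / (l : ℂ)) *
        ∑ b, C b * (if b = 0 then (l : ℂ) / (D : ℂ) else 0) := by
      simp only [mul_ite, mul_zero]
      rw [Finset.sum_ite_eq' Finset.univ]
      simp only [mem_univ, if_true]
      field_simp
    rw [← Finset.mul_sum]
    conv_lhs => rw [e2, e1]
    rw [← mul_sub, ← Finset.sum_sub_distrib]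
    congr 1
    refine Finset.sum_congr rfl (fun b _ => ?_)
    ring
  rw [havg, hsum]
  have hfac : 0 ≤ (D : ℝ) / l := by positivity
  calc ‖∑ b, ((D : ℂ) / (l : ℂ)) * (C b *
        (∑ n ∈ (range l).filter (fun n : ℕ => n ≡ X [MOD D]), chi M b (rv M n)
        - (if b = 0 then (l : ℂ) / (D : ℂ) else 0)))‖
      ≤ ∑ b, (D : ℝ) / l * (‖C b‖ * (m : ℝ)) := by
        refine (norm_sum_le _ _).trans (Finset.sum_le_sum (fun b _ => ?_))
        rw [norm_mul, norm_mul, norm_div]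
        simp only [Complex.norm_natCast]
        refine mul_le_mul_of_nonneg_left ?_ hfac
        by_cases hb : C b = 0
        · simp [hb]
        · refine mul_le_mul_of_nonneg_left ?_ (norm_nonneg _)
          obtain ⟨hc1, hc2⟩ := hs b hb
          refine (hgeo ι M p J hp hinj hM D X l b hD hc2).trans ?_
          exact_mod_cast hc1
    _ = (D : ℝ) / l * (m : ℝ) * ∑ b, ‖C b‖ := by
        rw [Finset.mul_sum]
        refine Finset.sum_congr rfl (fun b _ => ?_)
        ring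
    _ ≤ (D : ℝ) / l * (m : ℝ) * K := by
        refine mul_le_mul_of_nonneg_left hn ?_
        positivity

end LV1Daux

open LV1Daux in
theorem lv1d : GEOD → LV1D := by
  intro hgeo ι _ _ M _ p J hp hinj hM D X R l s c hD hs hl hc
  have g1 : Good M p D (FF M c) R (∑ a, ‖c a‖) := ⟨c, fun _ => rfl, hc, le_refl _⟩
  have hK : 0 ≤ ∑ a, ‖c a‖ := Finset.sum_nonneg (fun _ _ => norm_nonneg _)
  have g2 := good_pow M (good_mul M g1 (good_conj M g1) hK) (mul_nonneg hK hK) s
  have hcmp := good_compare M hgeo hp hinj hM (X := X) hD hl g2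
  have key : ∀ x, (FF M c x * (starRingEnd ℂ) (FF M c x)) ^ s
      = ((‖FF M c x‖ ^ (2 * s) : ℝ) : ℂ) := by
    intro x
    rw [Complex.mul_conj, Complex.normSq_eq_norm_sq, pow_mul]
    push_cast
    rfl
  simp only [key] at hcmp
  have e1 : ((D : ℂ) / (l : ℂ)) *
        ∑ n ∈ (range l).filter (fun n : ℕ => n ≡ X [MOD D]),
          ((‖FF M c (rv M n)‖ ^ (2 * s) : ℝ) : ℂ)
      - (∑ x, ((‖FF M c x‖ ^ (2 * s) : ℝ) : ℂ)) / (Fintype.card (∀ i, ZMod (M i)) : ℂ)
      = (((D : ℝ) / l *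
        ∑ n ∈ (range l).filter (fun n : ℕ => n ≡ X [MOD D]),
          ‖FF M c (rv M n)‖ ^ (2 * s) - avg (fun x => ‖FF M c x‖ ^ (2 * s)) : ℝ) : ℂ) := by
    unfold avg
    push_cast
    ring
  rw [e1, Complex.norm_real, Real.norm_eq_abs] at hcmp
  have h3 := le_of_abs_le hcmp
  have e2 : (D : ℝ) / l * (((R * R) ^ s : ℕ) : ℝ)
        * ((∑ a, ‖c a‖) * ∑ a, ‖c a‖) ^ s
      = (D : ℝ) / l * (R : ℝ) ^ (2 * s) * (∑ a, ‖c a‖) ^ (2 * s) := by
    push_cast
    rw [pow_mul (∑ a, ‖c a‖) 2 s, ← sq, ← sq, pow_mul]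
  rw [e2] at h3
  linarith

end Vale.Agent.P042
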