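import Vale.Agent.P042.Core2

/-!
# P042, module B3n: derivatives are controlled by restrictions
-/

open Polynomial Finset

set_option linter.unusedSectionVars false

namespace Vale.Agent.P042

namespace LV2Aux

lemma ee_eq_one {x : ℝ} (h : ee x = 1) : ∃ n : ℤ, x = n := by
  unfold ee at h
  rw [Complex.exp_eq_one_iff] at h
  obtain ⟨n, hn⟩ := h
  refine ⟨n, ?_⟩
  have hpi : (2 * (Real.pi : ℂ) * Complex.I) ≠ 0 := Complex.two_pi_I_ne_zero
  have h2 : (x : ℂ) * (2 * (Real.pi : ℂ) * Complex.I) = (n : ℂ) * (2 * (Real.pi : ℂ) * Complex.I) := by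
    rw [← hn]
    push_cast
    ring
  have h3 : (x : ℂ) = (n : ℂ) := mul_right_cancel₀ hpi h2
  exact_mod_cast h3

lemma ee_int (n : ℤ) : ee (n : ℝ) = 1 := by
  unfold ee
  rw [Complex.exp_eq_one_iff]
  refine ⟨n, ?_⟩
  push_cast
  ring

lemma ee_nat_mul (n : ℕ) (x : ℝ) : ee ((n : ℝ) * x) = ee x ^ n := by
  unfold ee
  rw [← Complex.exp_nat_mul]
  congr 1
  push_cast
  ring

lemma std_eq (N : ℕ) [NeZero N] (j : ℤ) : ZMod.stdAddChar (j : ZMod N) = ee ((j : ℝ) / N) := by
  rw [ZMod.stdAddChar_coe]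
  unfold ee
  congr 1
  push_cast
  ring

/-- character sum over the subgroup of order `p^τ` -/
lemma subsum (N : ℕ) [NeZero N] (p J τ : ℕ) (hp : p.Prime) (hN : N = p ^ J) (hτ : τ ≤ J) (x : ℤ) :
    ∑ z ∈ univ.filter (fun z : ZMod N => addOrderOf z ∣ p ^ τ),
        ZMod.stdAddChar (z * ((x : ℤ) : ZMod N))
      = if ((p ^ τ : ℕ) : ℤ) ∣ x then ((p ^ τ : ℕ) : ℂ) else 0 := by
  have hppos : 0 < p := hp.pos
  have hJ : p ^ (J - τ) * p ^ τ = p ^ J := by
    rw [← pow_add]
    congr 1
    omega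
  have hbij : ∑ z ∈ univ.filter (fun z : ZMod N => addOrderOf z ∣ p ^ τ),
        ZMod.stdAddChar (z * ((x : ℤ) : ZMod N))
      = ∑ t ∈ range (p ^ τ), ZMod.stdAddChar (((p ^ (J - τ) * t : ℕ) : ZMod N)
          * ((x : ℤ) : ZMod N)) := by
    symm
    refine Finset.sum_bij (fun t _ => ((p ^ (J - τ) * t : ℕ) : ZMod N)) ?_ ?_ ?_ ?_
    · intro t _
      rw [mem_filter]
      refine ⟨mem_univ _, ?_⟩
      rw [addOrderOf_dvd_iff_nsmul_eq_zero, nsmul_eq_mul, ← Nat.cast_mul, ZMod.natCast_eq_zero_iff,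
        hN, ← hJ]
      exact ⟨t, by ring⟩
    · intro t ht t' ht' h
      rw [mem_range] at ht ht'
      rw [ZMod.natCast_eq_natCast_iff, hN] at h
      have h1 : p ^ (J - τ) * t < p ^ J := by
        rw [← hJ]
        exact Nat.mul_lt_mul_of_pos_left ht (by positivity)
      have h2 : p ^ (J - τ) * t' < p ^ J := by
        rw [← hJ]
        exact Nat.mul_lt_mul_of_pos_left ht' (by positivity)
      have h3 : p ^ (J - τ) * t = p ^ (J - τ) * t' := Nat.ModEq.eq_of_lt_of_lt h h1 h2
      exact Nat.eq_of_mul_eq_mul_left (by positivity) h3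
    · intro z hz
      rw [mem_filter] at hz
      have h1 := hz.2
      rw [addOrderOf_dvd_iff_nsmul_eq_zero, nsmul_eq_mul, ← ZMod.natCast_zmod_val z,
        ← Nat.cast_mul, ZMod.natCast_eq_zero_iff] at h1
      have h0 : p ^ τ * p ^ (J - τ) ∣ N := by
        refine ⟨1, ?_⟩
        rw [mul_one, mul_comm, hJ]
        exact hN
      have h2 : p ^ (J - τ) ∣ z.val :=
        Nat.dvd_of_mul_dvd_mul_left (by positivity) (h0.trans h1)
      obtain ⟨t, ht⟩ := h2
      refine ⟨t, ?_, ?_⟩
      · rw [mem_range]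
        have h3 : z.val < p ^ J := by
          have h4 := ZMod.val_lt z
          omega
        rw [ht, ← hJ] at h3
        exact Nat.lt_of_mul_lt_mul_left h3
      · rw [← ht, ZMod.natCast_zmod_val]
    · intro t _
      rfl
  rw [hbij]
  have hval : ∀ t ∈ range (p ^ τ), (ZMod.stdAddChar (((p ^ (J - τ) * t : ℕ) : ZMod N)
          * ((x : ℤ) : ZMod N)) : ℂ) = ee ((x : ℝ) / ((p ^ τ : ℕ) : ℝ)) ^ t := by
    intro t _
    have h1 : ((p ^ (J - τ) * t : ℕ) : ZMod N) * ((x : ℤ) : ZMod N)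
        = (((p ^ (J - τ) * t : ℕ) * x : ℤ) : ZMod N) := by
      push_cast
      ring
    rw [h1, std_eq, ← ee_nat_mul]
    congr 1
    have hNr : (N : ℝ) = (p : ℝ) ^ (J - τ) * (p : ℝ) ^ τ := by
      rw [hN, ← hJ]
      push_cast
      ring
    rw [hNr]
    have hp0 : (p : ℝ) ≠ 0 := by exact_mod_cast hppos.ne'
    push_cast
    field_simp
  rw [Finset.sum_congr rfl hval]
  have hpτ : ((p ^ τ : ℕ) : ℝ) ≠ 0 := by
    have : 0 < p ^ τ := by positivity
    exact_mod_cast this.ne'
  by_cases hd : ((p ^ τ : ℕ) : ℤ) ∣ x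
  · rw [if_pos hd]
    obtain ⟨k, hk⟩ := hd
    have h1 : ee ((x : ℝ) / ((p ^ τ : ℕ) : ℝ)) = 1 := by
      have : (x : ℝ) / ((p ^ τ : ℕ) : ℝ) = (k : ℝ) := by
        rw [hk]
        push_cast at hpτ ⊢
        field_simp
      rw [this, ee_int]
    rw [h1]
    simp
  · rw [if_neg hd]
    have hne : ee ((x : ℝ) / ((p ^ τ : ℕ) : ℝ)) ≠ 1 := by
      intro h
      obtain ⟨k, hk⟩ := ee_eq_one h
      rw [div_eq_iff hpτ] at hk
      apply hd
      refine ⟨k, ?_⟩
      have : (x : ℝ) = (((p ^ τ : ℕ) : ℤ) * k : ℤ) := by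
        rw [hk]
        push_cast
        ring
      exact_mod_cast this
    rw [geom_sum_eq hne]
    have hpow : ee ((x : ℝ) / ((p ^ τ : ℕ) : ℝ)) ^ (p ^ τ) = 1 := by
      rw [← ee_nat_mul]
      have : ((p ^ τ : ℕ) : ℝ) * ((x : ℝ) / ((p ^ τ : ℕ) : ℝ)) = (x : ℝ) := by
        field_simp
      rw [this, ee_int]
    rw [hpow, sub_self, zero_div]

/-- elements of exact order `p^τ` -/
lemma ram (N : ℕ) [NeZero N] (p J τ : ℕ) (hp : p.Prime) (hN : N = p ^ J) (hτ : τ ≤ J)
    (hτ1 : 1 ≤ τ) (x : ℤ) :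
    ∑ z ∈ univ.filter (fun z : ZMod N => addOrderOf z = p ^ τ),
        ZMod.stdAddChar (z * ((x : ℤ) : ZMod N))
      = (if ((p ^ τ : ℕ) : ℤ) ∣ x then ((p ^ τ : ℕ) : ℂ) else 0)
        + (-(if ((p ^ (τ - 1) : ℕ) : ℤ) ∣ x then ((p ^ (τ - 1) : ℕ) : ℂ) else 0)) := by
  rw [← subsum N p J τ hp hN hτ x, ← subsum N p J (τ - 1) hp hN (by omega) x]
  have hsub : univ.filter (fun z : ZMod N => addOrderOf z ∣ p ^ (τ - 1))
      ⊆ univ.filter (fun z : ZMod N => addOrderOf z ∣ p ^ τ) := by
    intro z hz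
    rw [mem_filter] at hz ⊢
    exact ⟨hz.1, hz.2.trans (pow_dvd_pow _ (by omega))⟩
  have heq : univ.filter (fun z : ZMod N => addOrderOf z = p ^ τ)
      = univ.filter (fun z : ZMod N => addOrderOf z ∣ p ^ τ)
        \ univ.filter (fun z : ZMod N => addOrderOf z ∣ p ^ (τ - 1)) := by
    ext z
    simp only [mem_filter, mem_univ, true_and, mem_sdiff]
    constructor
    · intro h
      rw [h]
      refine ⟨dvd_rfl, ?_⟩
      intro h2
      have := (Nat.pow_dvd_pow_iff_le_right hp.one_lt).1 h2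
      omega
    · rintro ⟨h1, h2⟩
      obtain ⟨k, hk1, hk2⟩ := (Nat.dvd_prime_pow hp).1 h1
      rw [hk2] at h2 ⊢
      have : ¬ k ≤ τ - 1 := fun h => h2 (pow_dvd_pow _ h)
      congr 1
      omega
  rw [heq, ← Finset.sum_sdiff hsub]
  ring

/-- Chinese remainder theorem -/
lemma crt {ι : Type} [DecidableEq ι] (S : Finset ι) (P : ι → ℕ) (hP : ∀ i ∈ S, 1 ≤ P i)
    (hcop : ∀ i ∈ S, ∀ j ∈ S, i ≠ j → Nat.Coprime (P i) (P j)) (D : ℕ)
    (hD : ∀ i ∈ S, Nat.Coprime D (P i)) (X : ℕ) (v : ι → ℕ) :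
    ∃ X' : ℕ, ∀ n : ℕ, (n ≡ X [MOD D] ∧ ∀ i ∈ S, n ≡ v i [MOD P i])
      ↔ n ≡ X' [MOD D * ∏ i ∈ S, P i] := by
  have hne : ∀ i ∈ S, P i ≠ 0 := fun i hi => by
    have := hP i hi
    omega
  have hpw : Set.Pairwise (S : Set ι) (Function.onFun Nat.Coprime P) :=
    fun i hi j hj hij => hcop i hi j hj hij
  obtain ⟨k, hk⟩ := Nat.chineseRemainderOfFinset v P S hne hpw
  have hDP : Nat.Coprime D (∏ i ∈ S, P i) := Nat.Coprime.prod_right hD
  obtain ⟨X', hX1, hX2⟩ := Nat.chineseRemainder hDP X k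
  refine ⟨X', ?_⟩
  intro n
  rw [← Nat.modEq_and_modEq_iff_modEq_mul hDP]
  constructor
  · rintro ⟨h1, h2⟩
    refine ⟨h1.trans hX1.symm, ?_⟩
    have h3 : n ≡ k [MOD ∏ i ∈ S, P i] := by
      rw [Nat.modEq_iff_dvd]
      push_cast
      refine Finset.prod_dvd_of_coprime ?_ ?_
      · intro i hi j hj hij
        exact Nat.isCoprime_iff_coprime.2 (hcop i hi j hj hij)
      · intro i hi
        have := (h2 i hi).trans (hk i hi).symm
        rwa [Nat.modEq_iff_dvd] at this
    exact h3.trans hX2.symm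
  · rintro ⟨h1, h2⟩
    refine ⟨h1.trans hX1, ?_⟩
    intro i hi
    have h3 : n ≡ k [MOD ∏ i ∈ S, P i] := h2.trans hX2
    exact (h3.of_dvd (Finset.dvd_prod_of_mem P hi)).trans (hk i hi)

section
variable {ι : Type} [Fintype ι] [DecidableEq ι] (M : ι → ℕ) [∀ i, NeZero (M i)]

lemma chi_add (a b x : ∀ i, ZMod (M i)) : chi M (a + b) x = chi M a x * chi M b x := by
  unfold chi
  rw [← Finset.prod_mul_distrib]
  refine Finset.prod_congr rfl (fun i _ => ?_)
  rw [Pi.add_apply, add_mul, AddChar.map_add_eq_mul]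

/-- the part off `S` -/
def off (S : Finset ι) (a : ∀ i, ZMod (M i)) : ∀ i, ZMod (M i) := fun i => if i ∈ S then 0 else a i

lemma chi_mix (S : Finset ι) (a x y : ∀ i, ZMod (M i)) :
    chi M a (mix M S x y) = chi M (a - off M S a) x * chi M (off M S a) y := by
  unfold chi
  rw [← Finset.prod_mul_distrib]
  refine Finset.prod_congr rfl (fun i _ => ?_)
  unfold mix off
  by_cases h : i ∈ S
  · simp [h]
  · simp [h]

/-- frequencies supported on `S` with prescribed orders -/
noncomputable def SS (p : ι → ℕ) (S : Finset ι) (τ : ι → ℕ) : Finset (∀ i, ZMod (M i)) :=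
  Fintype.piFinset (fun i => if i ∈ S then univ.filter (fun z : ZMod (M i) =>
    addOrderOf z = p i ^ τ i) else {0})

lemma mem_SS (p : ι → ℕ) (S : Finset ι) (τ : ι → ℕ) (s : ∀ i, ZMod (M i)) :
    s ∈ SS M p S τ ↔ (∀ i ∈ S, addOrderOf (s i) = p i ^ τ i) ∧ ∀ i, i ∉ S → s i = 0 := by
  unfold SS
  rw [Fintype.mem_piFinset]
  constructor
  · intro h
    constructor
    · intro i hi
      have := h i
      rw [if_pos hi, mem_filter] at this
      exact this.2
    · intro i hi
      have := h i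
      rw [if_neg hi, mem_singleton] at this
      exact this
  · rintro ⟨h1, h2⟩ i
    by_cases hi : i ∈ S
    · rw [if_pos hi, mem_filter]
      exact ⟨mem_univ _, h1 i hi⟩
    · rw [if_neg hi, mem_singleton]
      exact h2 i hi

lemma sum_SS (p J : ι → ℕ) (hp : ∀ i, (p i).Prime) (hM : ∀ i, M i = p i ^ J i) (S : Finset ι)
    (τ : ι → ℕ) (hτ1 : ∀ i ∈ S, 1 ≤ τ i) (hτ2 : ∀ i ∈ S, τ i ≤ J i) (w : ι → ℤ) :
    ∑ s ∈ SS M p S τ, chi M s (fun i => ((w i : ℤ) : ZMod (M i)))
      = ∏ i ∈ S, ((if ((p i ^ τ i : ℕ) : ℤ) ∣ w i then ((p i ^ τ i : ℕ) : ℂ) else 0)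
        + (-(if ((p i ^ (τ i - 1) : ℕ) : ℤ) ∣ w i then ((p i ^ (τ i - 1) : ℕ) : ℂ) else 0))) := by
  have h0 : ∑ s ∈ SS M p S τ, chi M s (fun i => ((w i : ℤ) : ZMod (M i)))
      = ∏ i, ∑ z ∈ (if i ∈ S then univ.filter (fun z : ZMod (M i) =>
          addOrderOf z = p i ^ τ i) else {0}), ZMod.stdAddChar (z * ((w i : ℤ) : ZMod (M i))) := by
    rw [Finset.prod_univ_sum]
    rfl
  rw [h0, ← Finset.prod_subset (Finset.subset_univ S)]
  · refine Finset.prod_congr rfl (fun i hi => ?_)
    rw [if_pos hi]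
    exact ram (M i) (p i) (J i) (τ i) (hp i) (hM i) (hτ2 i hi) (hτ1 i hi) (w i)
  · intro i _ hi
    rw [if_neg hi, Finset.sum_singleton, zero_mul, AddChar.map_zero_eq_one]

lemma FF_mix (S : Finset ι) (c : (∀ i, ZMod (M i)) → ℂ) (x y : ∀ i, ZMod (M i)) :
    FF M c (mix M S x y)
      = FF M (fun b => ∑ a ∈ univ.filter (fun a => off M S a = b), c a * chi M (a - b) x) y := by
  unfold FF
  rw [← Finset.sum_fiberwise univ (off M S)]
  refine Finset.sum_congr rfl (fun b _ => ?_)
  rw [Finset.sum_mul]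
  refine Finset.sum_congr rfl (fun a ha => ?_)
  rw [chi_mix, (mem_filter.1 ha).2]
  ring

/-- exponents -/
def sg (τ : ι → ℕ) (T : Finset ι) (i : ι) : ℕ := if i ∈ T then τ i else τ i - 1

lemma W_eq (p J : ι → ℕ) (hp : ∀ i, (p i).Prime) (hM : ∀ i, M i = p i ^ J i) (S : Finset ι)
    (τ : ι → ℕ) (hτ1 : ∀ i ∈ S, 1 ≤ τ i) (hτ2 : ∀ i ∈ S, τ i ≤ J i)
    (E : Finset ℕ) (l D X : ℕ) (x : ∀ i, ZMod (M i)) (XT : Finset ι → ℕ)
    (hXT : ∀ T, ∀ n : ℕ, (n ≡ X [MOD D] ∧ ∀ i ∈ S, n ≡ (x i).val [MOD p i ^ sg τ T i])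
      ↔ n ≡ XT T [MOD D * ∏ i ∈ S, p i ^ sg τ T i]) (b : ∀ i, ZMod (M i)) :
    ∑ s ∈ SS M p S τ, coD M E l D X (b + s) * chi M s x
      = ∑ T ∈ S.powerset, (-1) ^ (S \ T).card *
          coD M E l (D * ∏ i ∈ S, p i ^ sg τ T i) (XT T) b := by
  classical
  have h1 : ∀ s, coD M E l D X (b + s) * chi M s x
      = ((D : ℂ) / (l : ℂ)) * ∑ n ∈ E.filter (fun n : ℕ => n ≡ X [MOD D]),
          (starRingEnd ℂ) (chi M b (rv M n)) *
            chi M s (fun i => ((((x i).val : ℤ) - (n : ℤ) : ℤ) : ZMod (M i))) := by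
    intro s
    unfold coD
    rw [mul_assoc, Finset.sum_mul]
    congr 1
    refine Finset.sum_congr rfl (fun n _ => ?_)
    rw [chi_add, map_mul, mul_assoc]
    congr 1
    unfold chi
    rw [map_prod, ← Finset.prod_mul_distrib]
    refine Finset.prod_congr rfl (fun i _ => ?_)
    rw [← AddChar.map_neg_eq_conj, ← AddChar.map_add_eq_mul]
    congr 1
    unfold rv
    push_cast
    rw [ZMod.natCast_zmod_val]
    ring
  simp only [h1]
  rw [← Finset.mul_sum, Finset.sum_comm]
  have h2 : ∀ n ∈ E.filter (fun n : ℕ => n ≡ X [MOD D]),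
      ∑ s ∈ SS M p S τ, (starRingEnd ℂ) (chi M b (rv M n)) *
            chi M s (fun i => ((((x i).val : ℤ) - (n : ℤ) : ℤ) : ZMod (M i)))
      = ∑ T ∈ S.powerset, (-1) ^ (S \ T).card * (if (∀ i ∈ S, n ≡ (x i).val [MOD p i ^ sg τ T i])
          then ((∏ i ∈ S, p i ^ sg τ T i : ℕ) : ℂ) else 0) *
            (starRingEnd ℂ) (chi M b (rv M n)) := by
    intro n _
    rw [← Finset.mul_sum, sum_SS M p J hp hM S τ hτ1 hτ2 (fun i => ((x i).val : ℤ) - (n : ℤ)),
      Finset.prod_add, Finset.mul_sum]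
    refine Finset.sum_congr rfl (fun T hT => ?_)
    have hTS : T ⊆ S := Finset.mem_powerset.1 hT
    rw [mul_comm]
    congr 1
    rw [Finset.prod_neg, mul_left_comm]
    congr 1
    have h3 : (if (∀ i ∈ S, n ≡ (x i).val [MOD p i ^ sg τ T i])
          then ((∏ i ∈ S, p i ^ sg τ T i : ℕ) : ℂ) else 0)
        = ∏ i ∈ S, (if n ≡ (x i).val [MOD p i ^ sg τ T i]
            then ((p i ^ sg τ T i : ℕ) : ℂ) else 0) := by
      rw [Finset.prod_ite_zero]
      push_cast
      rfl
    rw [h3, ← Finset.prod_sdiff hTS, mul_comm]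
    congr 1
    · refine Finset.prod_congr rfl (fun i hi => ?_)
      have hi2 : i ∉ T := (mem_sdiff.1 hi).2
      unfold sg
      rw [if_neg hi2]
      exact if_congr Nat.modEq_iff_dvd.symm rfl rfl
    · refine Finset.prod_congr rfl (fun i hi => ?_)
      unfold sg
      rw [if_pos hi]
      exact if_congr Nat.modEq_iff_dvd.symm rfl rfl
  rw [Finset.sum_congr rfl h2, Finset.sum_comm, Finset.mul_sum]
  refine Finset.sum_congr rfl (fun T _ => ?_)
  unfold coD
  have h4 : E.filter (fun n : ℕ => n ≡ XT T [MOD D * ∏ i ∈ S, p i ^ sg τ T i])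
      = (E.filter (fun n : ℕ => n ≡ X [MOD D])).filter
          (fun n : ℕ => ∀ i ∈ S, n ≡ (x i).val [MOD p i ^ sg τ T i]) := by
    rw [Finset.filter_filter]
    refine Finset.filter_congr (fun n _ => ?_)
    exact (hXT T n).symm
  rw [h4, Finset.sum_filter (fun n : ℕ => ∀ i ∈ S, n ≡ (x i).val [MOD p i ^ sg τ T i]),
    Finset.mul_sum, Finset.mul_sum, Finset.mul_sum]
  refine Finset.sum_congr rfl (fun n _ => ?_)
  split_ifs
  · push_cast
    ring
  · ring

lemma Sd_nonneg (p : ι → ℕ) (E : Finset ℕ) (l D X R d : ℕ) : 0 ≤ Sd M p E l D X R d := by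
  unfold Sd wt
  refine Finset.sum_nonneg (fun a _ => ?_)
  refine mul_nonneg (Finset.prod_nonneg (fun i _ => sq_nonneg _)) (sq_nonneg _)

lemma lam_le (j : ℕ) : lam j ≤ 1 := by
  unfold lam
  rcases Nat.eq_zero_or_pos j with h | h
  · subst h
    norm_num
  · have h1 : (1 : ℝ) ≤ j := by exact_mod_cast h
    rw [div_le_one (by positivity)]
    nlinarith

lemma lam_nonneg (j : ℕ) : 0 ≤ lam j := by
  unfold lam
  positivity

lemma wt_nonneg (p : ι → ℕ) (a : ∀ i, ZMod (M i)) : 0 ≤ wt M p a :=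
  Finset.prod_nonneg (fun i _ => sq_nonneg _)

lemma wt_le (p : ι → ℕ) (a : ∀ i, ZMod (M i)) : wt M p a ≤ 1 := by
  unfold wt
  refine Finset.prod_le_one (fun i _ => sq_nonneg _) (fun i _ => ?_)
  have h1 := lam_le (lev M p a i)
  have h2 := lam_nonneg (lev M p a i)
  nlinarith

end

end LV2Aux

open LV2Aux in
theorem lv2d : PARS → LV2D := by
  classical
  intro hpars ι _ _ M _ p J hp hinj hM E l D X R d S τ x U hD hSd hU
  have hU0 : 0 ≤ U := (Sd_nonneg M p E l 1 0 0 (d - S.card)).trans (hU 1 0 0 le_rfl (by simp))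
  have hRHS : 0 ≤ (4 : ℝ) ^ S.card * U := by positivity
  set c : (∀ i, ZMod (M i)) → ℂ := fun a =>
    if a ∈ AA M p d D R ∧ S ⊆ spt M a ∧ ∀ i ∈ S, lev M p a i = τ i then
      ((∏ i ∈ spt M a \ S, lam (lev M p a i) ^ 2 : ℝ) : ℂ) * coD M E l D X a else 0 with hc
  -- orders
  have hord : ∀ (a : ∀ i, ZMod (M i)) (i : ι), addOrderOf (a i) = p i ^ lev M p a i ∧
      lev M p a i ≤ J i := by
    intro a i
    have h1 : addOrderOf (a i) ∣ p i ^ J i := by
      have h2 : addOrderOf (a i) ∣ M i :=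
        addOrderOf_dvd_of_nsmul_eq_zero (by rw [nsmul_eq_mul, ZMod.natCast_self, zero_mul])
      exact h2.trans (dvd_of_eq (hM i))
    obtain ⟨k, hk1, hk2⟩ := (Nat.dvd_prime_pow (hp i)).1 h1
    unfold lev
    rw [hk2, Nat.log_pow (hp i).one_lt]
    exact ⟨rfl, hk1⟩
  have hmemspt : ∀ (a : ∀ i, ZMod (M i)) (i : ι), i ∈ spt M a ↔ a i ≠ 0 := by
    intro a i
    unfold spt
    rw [mem_filter]
    simp
  by_cases hbad : ∃ i ∈ S, p i ∣ D ∨ τ i = 0 ∨ J i < τ i
  · -- everything vanishes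
    have hc0 : c = fun _ => 0 := by
      funext a
      rw [hc]
      simp only
      rw [if_neg]
      rintro ⟨h1, h2, h3⟩
      obtain ⟨i, hi, hor⟩ := hbad
      unfold AA at h1
      rw [mem_filter] at h1
      have hi' := h2 hi
      rcases hor with h | h | h
      · exact h1.2.2.2 i hi' h
      · have h4 := (hord a i).1
        rw [h3 i hi, h, pow_zero, AddMonoid.addOrderOf_eq_one_iff] at h4
        exact (hmemspt a i).1 hi' h4
      · have h4 := (hord a i).2
        rw [h3 i hi] at h4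
        omega
    rw [hc0]
    unfold FF avg
    simpa using hRHS
  · push Not at hbad
    have hpD : ∀ i ∈ S, ¬ p i ∣ D := fun i hi => (hbad i hi).1
    have hτ1 : ∀ i ∈ S, 1 ≤ τ i := fun i hi => Nat.one_le_iff_ne_zero.2 (hbad i hi).2.1
    have hτ2 : ∀ i ∈ S, τ i ≤ J i := fun i hi => (hbad i hi).2.2
    -- CRT data
    have hcrt : ∀ T : Finset ι, ∃ X' : ℕ, ∀ n : ℕ,
        (n ≡ X [MOD D] ∧ ∀ i ∈ S, n ≡ (x i).val [MOD p i ^ sg τ T i])
          ↔ n ≡ X' [MOD D * ∏ i ∈ S, p i ^ sg τ T i] := by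
      intro T
      refine crt S (fun i => p i ^ sg τ T i) (fun i _ => Nat.one_le_pow _ _ (hp i).pos) ?_ D ?_ X
        (fun i => (x i).val)
      · intro i _ j _ hij
        refine Nat.Coprime.pow _ _ ?_
        rw [Nat.coprime_primes (hp i) (hp j)]
        exact fun h => hij (hinj h)
      · intro i hi
        refine Nat.Coprime.pow_right _ ?_
        exact (Nat.Coprime.symm (((hp i).coprime_iff_not_dvd).2 (hpD i hi)))
    choose XT hXT using hcrt
    set Pt := ∏ i ∈ S, p i ^ τ i with hPt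
    have hPtpos : 0 < Pt := Finset.prod_pos (fun i _ => Nat.pow_pos (hp i).pos)
    -- coefficients
    set C' : (∀ i, ZMod (M i)) → ℂ := fun b =>
      ∑ a ∈ univ.filter (fun a => off M S a = b), c a * chi M (a - b) x with hC'
    have hLHS : avg (fun y => ‖FF M c (mix M S x y)‖ ^ 2) = ∑ b, ‖C' b‖ ^ 2 := by
      rw [← hpars ι M C']
      unfold avg
      congr 1
      refine Finset.sum_congr rfl (fun y _ => ?_)
      change ‖FF M c (mix M S x y)‖ ^ 2 = ‖FF M C' y‖ ^ 2
      rw [FF_mix]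
    rw [hLHS]
    set 𝒜 : Finset (∀ i, ZMod (M i)) := univ.filter (fun b =>
      (∀ i ∈ S, b i = 0) ∧ (spt M b).card + S.card = d ∧ md M b * Pt ≤ R ∧
        ∀ i ∈ spt M b, ¬ p i ∣ D) with h𝒜
    -- structure of the good frequencies
    have hgood : ∀ a b : (∀ i, ZMod (M i)), off M S a = b →
        ((a ∈ AA M p d D R ∧ S ⊆ spt M a ∧ ∀ i ∈ S, lev M p a i = τ i) ↔
          (b ∈ 𝒜 ∧ a - b ∈ SS M p S τ)) ∧
        ((∀ i ∈ S, lev M p a i = τ i) → S ⊆ spt M a →
          ∏ i ∈ spt M a \ S, lam (lev M p a i) ^ 2 = wt M p b) := by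
      intro a b hab
      have hbS : ∀ i ∈ S, b i = 0 := by
        intro i hi
        rw [← hab]
        unfold off
        rw [if_pos hi]
      have hbo : ∀ i, i ∉ S → b i = a i := by
        intro i hi
        rw [← hab]
        unfold off
        rw [if_neg hi]
      have hspt : spt M a \ S = spt M b := by
        ext i
        rw [mem_sdiff, hmemspt, hmemspt]
        constructor
        · rintro ⟨h1, h2⟩
          rwa [hbo i h2]
        · intro h
          have hiS : i ∉ S := fun hi => h (hbS i hi)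
          exact ⟨by rwa [← hbo i hiS], hiS⟩
      have hcard : S ⊆ spt M a → (spt M b).card + S.card = (spt M a).card := by
        intro h
        rw [← hspt]
        exact Finset.card_sdiff_add_card_eq_card h
      have hmd : (∀ i ∈ S, lev M p a i = τ i) → md M a = md M b * Pt := by
        intro h
        unfold md
        rw [hPt, ← Finset.prod_sdiff (Finset.subset_univ S),
          ← Finset.prod_sdiff (Finset.subset_univ S)]
        have e1 : ∏ i ∈ S, addOrderOf (b i) = 1 := by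
          refine Finset.prod_eq_one (fun i hi => ?_)
          rw [hbS i hi, addOrderOf_zero]
        have e2 : ∏ i ∈ S, addOrderOf (a i) = ∏ i ∈ S, p i ^ τ i := by
          refine Finset.prod_congr rfl (fun i hi => ?_)
          rw [(hord a i).1, h i hi]
        have e3 : ∏ i ∈ univ \ S, addOrderOf (a i) = ∏ i ∈ univ \ S, addOrderOf (b i) := by
          refine Finset.prod_congr rfl (fun i hi => ?_)
          rw [hbo i (mem_sdiff.1 hi).2]
        rw [e1, e2, e3, mul_one]
      have hlevb : ∀ i, i ∉ S → lev M p a i = lev M p b i := by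
        intro i hi
        unfold lev
        rw [hbo i hi]
      have hlevsub : ∀ i ∈ S, addOrderOf ((a - b) i) = addOrderOf (a i) := by
        intro i hi
        rw [Pi.sub_apply, hbS i hi, sub_zero]
      refine ⟨⟨?_, ?_⟩, ?_⟩
      · rintro ⟨h1, h2, h3⟩
        unfold AA at h1
        rw [mem_filter] at h1
        obtain ⟨-, h4, h5, h6⟩ := h1
        constructor
        · rw [h𝒜, mem_filter]
          refine ⟨mem_univ _, hbS, ?_, ?_, ?_⟩
          · rw [hcard h2, h4]
          · rw [← hmd h3]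
            exact h5
          · intro i hi
            rw [← hspt] at hi
            exact h6 i (mem_sdiff.1 hi).1
        · rw [mem_SS]
          refine ⟨?_, ?_⟩
          · intro i hi
            rw [hlevsub i hi, (hord a i).1, h3 i hi]
          · intro i hi
            rw [Pi.sub_apply, hbo i hi, sub_self]
      · rintro ⟨h1, h2⟩
        rw [h𝒜, mem_filter] at h1
        obtain ⟨-, -, h4, h5, h6⟩ := h1
        rw [mem_SS] at h2
        have h3 : ∀ i ∈ S, lev M p a i = τ i := by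
          intro i hi
          have h7 := h2.1 i hi
          rw [hlevsub i hi] at h7
          unfold lev
          rw [h7, Nat.log_pow (hp i).one_lt]
        have hsub : S ⊆ spt M a := by
          intro i hi
          rw [hmemspt]
          intro h0
          have h7 := h2.1 i hi
          rw [hlevsub i hi, h0, addOrderOf_zero] at h7
          have h8 : 1 < p i ^ τ i := Nat.one_lt_pow (by have := hτ1 i hi; omega) (hp i).one_lt
          omega
        refine ⟨?_, hsub, h3⟩
        unfold AA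
        rw [mem_filter]
        refine ⟨mem_univ _, ?_, ?_, ?_⟩
        · rw [← hcard hsub]
          exact h4
        · rw [hmd h3]
          exact h5
        · intro i hi
          by_cases hiS : i ∈ S
          · exact hpD i hiS
          · refine h6 i ?_
            rw [← hspt, mem_sdiff]
            exact ⟨hi, hiS⟩
      · intro h3 h2
        unfold wt
        rw [hspt]
        refine Finset.prod_congr rfl (fun i hi => ?_)
        have hiS : i ∉ S := by
          rw [← hspt, mem_sdiff] at hi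
          exact hi.2
        rw [hlevb i hiS]
    set W : (∀ i, ZMod (M i)) → ℂ := fun b =>
      ∑ s ∈ SS M p S τ, coD M E l D X (b + s) * chi M s x with hW
    have hCW : ∀ b, C' b = if b ∈ 𝒜 then ((wt M p b : ℝ) : ℂ) * W b else 0 := by
      intro b
      rw [hC']
      simp only
      split_ifs with hb
      · have hbS : ∀ i ∈ S, b i = 0 := by
          rw [h𝒜, mem_filter] at hb
          exact hb.2.1
        rw [hW]
        simp only
        rw [Finset.mul_sum]
        symm
        refine Finset.sum_bij_ne_zero (fun s _ _ => b + s) ?_ ?_ ?_ ?_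
        · intro s hs _
          rw [mem_filter]
          refine ⟨mem_univ _, ?_⟩
          funext i
          unfold off
          by_cases hi : i ∈ S
          · rw [if_pos hi, hbS i hi]
          · rw [if_neg hi, Pi.add_apply, ((mem_SS M p S τ s).1 hs).2 i hi, add_zero]
        · intro s _ _ s' _ _ h
          exact add_left_cancel h
        · intro a ha hane
          have hab := (mem_filter.1 ha).2
          have hcond : a ∈ AA M p d D R ∧ S ⊆ spt M a ∧ ∀ i ∈ S, lev M p a i = τ i := by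
            by_contra hcon
            apply hane
            rw [hc]
            simp only
            rw [if_neg hcon, zero_mul]
          have h1 := ((hgood a b hab).1.1 hcond).2
          refine ⟨a - b, h1, ?_, by abel⟩
          intro h0
          apply hane
          rw [hc]
          simp only
          rw [if_pos hcond, (hgood a b hab).2 hcond.2.2 hcond.2.1]
          have hba : b + (a - b) = a := by abel
          rw [hba] at h0
          rw [mul_assoc]
          exact h0
        · intro s hs _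
          have hab : off M S (b + s) = b := by
            funext i
            unfold off
            by_cases hi : i ∈ S
            · rw [if_pos hi, hbS i hi]
            · rw [if_neg hi, Pi.add_apply, ((mem_SS M p S τ s).1 hs).2 i hi, add_zero]
          have hbs : b + s - b = s := by abel
          have hcond := (hgood (b + s) b hab).1.2 ⟨hb, by rw [hbs]; exact hs⟩
          rw [hc]
          simp only
          rw [if_pos hcond, (hgood (b + s) b hab).2 hcond.2.2 hcond.2.1, hbs, mul_assoc]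
      · refine Finset.sum_eq_zero (fun a ha => ?_)
        have hab := (mem_filter.1 ha).2
        rw [hc]
        simp only
        rw [if_neg, zero_mul]
        intro hcond
        exact hb ((hgood a b hab).1.1 hcond).1
    have hWle : ∀ b, ‖W b‖ ^ 2 ≤ (2 : ℝ) ^ S.card * ∑ T ∈ S.powerset,
        ‖coD M E l (D * ∏ i ∈ S, p i ^ sg τ T i) (XT T) b‖ ^ 2 := by
      intro b
      rw [hW]
      simp only
      rw [W_eq M p J hp hM S τ hτ1 hτ2 E l D X x XT hXT b]
      have h1 : ‖∑ T ∈ S.powerset, (-1 : ℂ) ^ (S \ T).card *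
          coD M E l (D * ∏ i ∈ S, p i ^ sg τ T i) (XT T) b‖
          ≤ ∑ T ∈ S.powerset, ‖coD M E l (D * ∏ i ∈ S, p i ^ sg τ T i) (XT T) b‖ := by
        refine (norm_sum_le _ _).trans (le_of_eq ?_)
        refine Finset.sum_congr rfl (fun T _ => ?_)
        rw [norm_mul, norm_pow, norm_neg, norm_one, one_pow, one_mul]
      calc ‖∑ T ∈ S.powerset, (-1 : ℂ) ^ (S \ T).card *
          coD M E l (D * ∏ i ∈ S, p i ^ sg τ T i) (XT T) b‖ ^ 2
          ≤ (∑ T ∈ S.powerset, ‖coD M E l (D * ∏ i ∈ S, p i ^ sg τ T i) (XT T) b‖) ^ 2 :=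
            pow_le_pow_left₀ (norm_nonneg _) h1 2
        _ ≤ (S.powerset.card : ℝ) * ∑ T ∈ S.powerset,
              ‖coD M E l (D * ∏ i ∈ S, p i ^ sg τ T i) (XT T) b‖ ^ 2 := sq_sum_le_card_mul_sum_sq
        _ = _ := by
            rw [Finset.card_powerset]
            push_cast
            rfl
    set R' := R / Pt with hR'
    have h𝒜AA : ∀ T ∈ S.powerset, 𝒜 ⊆ AA M p (d - S.card) (D * ∏ i ∈ S, p i ^ sg τ T i) R' := by
      intro T _ b hb
      rw [h𝒜, mem_filter] at hb
      obtain ⟨-, h2, h3, h4, h5⟩ := hb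
      unfold AA
      rw [mem_filter]
      refine ⟨mem_univ _, by omega, ?_, ?_⟩
      · rw [hR', Nat.le_div_iff_mul_le hPtpos]
        exact h4
      · intro i hi hdvd
        rcases (hp i).dvd_mul.1 hdvd with h | h
        · exact h5 i hi h
        · rw [(hp i).prime.dvd_finsetProd_iff] at h
          obtain ⟨j, hj, hj2⟩ := h
          have h6 : p i = p j :=
            (Nat.prime_dvd_prime_iff_eq (hp i) (hp j)).1 ((hp i).dvd_of_dvd_pow hj2)
          have h7 : i = j := hinj h6
          subst h7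
          exact (hmemspt b i).1 hi (h2 i hj)
    have hDR : ∀ T ∈ S.powerset, (D * ∏ i ∈ S, p i ^ sg τ T i) * R' ≤ D * R := by
      intro T _
      have h1 : ∏ i ∈ S, p i ^ sg τ T i ≤ Pt := by
        refine Finset.prod_le_prod' (fun i _ => ?_)
        refine Nat.pow_le_pow_right (hp i).pos ?_
        unfold sg
        split_ifs <;> omega
      calc (D * ∏ i ∈ S, p i ^ sg τ T i) * R' ≤ (D * Pt) * R' :=
            Nat.mul_le_mul_right _ (Nat.mul_le_mul_left _ h1)
        _ = D * (Pt * (R / Pt)) := by rw [hR']; ring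
        _ ≤ D * R := Nat.mul_le_mul_left _ (Nat.mul_div_le R Pt)
    calc ∑ b, ‖C' b‖ ^ 2 = ∑ b ∈ 𝒜, ‖((wt M p b : ℝ) : ℂ) * W b‖ ^ 2 := by
          rw [← Finset.sum_subset (Finset.subset_univ 𝒜)]
          · refine Finset.sum_congr rfl (fun b hb => ?_)
            rw [hCW b, if_pos hb]
          · intro b _ hb
            rw [hCW b, if_neg hb]
            simp
      _ ≤ ∑ b ∈ 𝒜, wt M p b * ((2 : ℝ) ^ S.card * ∑ T ∈ S.powerset,
            ‖coD M E l (D * ∏ i ∈ S, p i ^ sg τ T i) (XT T) b‖ ^ 2) := by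
          refine Finset.sum_le_sum (fun b _ => ?_)
          have hw0 := wt_nonneg M p b
          have hw1 := wt_le M p b
          rw [norm_mul, Complex.norm_real, Real.norm_eq_abs, abs_of_nonneg hw0, mul_pow]
          calc wt M p b ^ 2 * ‖W b‖ ^ 2 ≤ wt M p b * ‖W b‖ ^ 2 := by
                refine mul_le_mul_of_nonneg_right ?_ (sq_nonneg _)
                nlinarith
            _ ≤ _ := mul_le_mul_of_nonneg_left (hWle b) hw0
      _ = (2 : ℝ) ^ S.card * ∑ T ∈ S.powerset, ∑ b ∈ 𝒜, wt M p b *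
            ‖coD M E l (D * ∏ i ∈ S, p i ^ sg τ T i) (XT T) b‖ ^ 2 := by
          rw [Finset.sum_comm, Finset.mul_sum]
          refine Finset.sum_congr rfl (fun b _ => ?_)
          rw [← Finset.mul_sum]
          ring
      _ ≤ (2 : ℝ) ^ S.card * ∑ T ∈ S.powerset, U := by
          refine mul_le_mul_of_nonneg_left ?_ (by positivity)
          refine Finset.sum_le_sum (fun T hT => ?_)
          refine le_trans ?_ (hU (D * ∏ i ∈ S, p i ^ sg τ T i) (XT T) R' ?_ (hDR T hT))
          · unfold Sd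
            refine Finset.sum_le_sum_of_subset_of_nonneg (h𝒜AA T hT) (fun b _ _ => ?_)
            exact mul_nonneg (wt_nonneg M p b) (sq_nonneg _)
          · exact Nat.mul_pos hD (Finset.prod_pos (fun i _ => Nat.pow_pos (hp i).pos))
      _ = 4 ^ S.card * U := by
          rw [Finset.sum_const, Finset.card_powerset, nsmul_eq_mul]
          push_cast
          rw [← mul_assoc, ← mul_pow]
          norm_num

end Vale.Agent.P042
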