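import Vale.Agent.P042.Core2

open Polynomial Finset

namespace Vale.Agent.P042
namespace LV3p

/-! ### averages -/

section avg
variable {Ω : Type*} [Fintype Ω]

theorem avg_mono {f g : Ω → ℝ} (h : ∀ x, f x ≤ g x) : avg f ≤ avg g := by
  unfold avg
  exact div_le_div_of_nonneg_right (sum_le_sum (fun x _ => h x)) (Nat.cast_nonneg _)

theorem avg_nonneg {f : Ω → ℝ} (h : ∀ x, 0 ≤ f x) : 0 ≤ avg f := by
  unfold avg
  exact div_nonneg (sum_nonneg (fun x _ => h x)) (Nat.cast_nonneg _)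

theorem avg_mul (k : ℝ) (f : Ω → ℝ) : avg (fun x => k * f x) = k * avg f := by
  unfold avg
  rw [← mul_sum, mul_div_assoc]

theorem avg_sum {T : Type*} (s : Finset T) (f : T → Ω → ℝ) :
    avg (fun x => ∑ t ∈ s, f t x) = ∑ t ∈ s, avg (f t) := by
  unfold avg
  rw [sum_comm, sum_div]

theorem avg_zero : avg (fun _ : Ω => (0 : ℝ)) = 0 := by
  unfold avg; simp

theorem avg_const [Nonempty Ω] (k : ℝ) : avg (fun _ : Ω => k) = k := by
  unfold avg
  rw [sum_const, nsmul_eq_mul, card_univ]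
  have : (Fintype.card Ω : ℝ) ≠ 0 := by exact_mod_cast Fintype.card_ne_zero
  field_simp

end avg

/-! ### the weights -/

theorem lam_nonneg (j : ℕ) : 0 ≤ lam j := by unfold lam; positivity

theorem lam_le_one (j : ℕ) : lam j ≤ 1 := by
  unfold lam
  rcases Nat.eq_zero_or_pos j with h | h
  · subst h; norm_num
  · have : (1 : ℝ) ≤ j := by exact_mod_cast h
    rw [div_le_one (by positivity)]
    nlinarith

theorem sum_lam_le (J : ℕ) : ∑ t ∈ Icc 1 J, lam t ≤ 1 := by
  have h : ∀ J : ℕ, ∑ t ∈ Icc 1 (J + 1), lam t ≤ 1 - 1 / (2 * ((J : ℝ) + 1)) := by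
    intro J
    induction J with
    | zero => norm_num [lam]
    | succ J ih =>
      rw [sum_Icc_succ_top (by omega)]
      have hJ : (0 : ℝ) ≤ J := Nat.cast_nonneg J
      have e : lam (J + 1 + 1) ≤ 1 / (2 * ((J : ℝ) + 1)) - 1 / (2 * ((J : ℝ) + 1 + 1)) := by
        have e2 : 1 / (2 * ((J : ℝ) + 1)) - 1 / (2 * ((J : ℝ) + 1 + 1))
            = 1 / (2 * (((J : ℝ) + 1) * (J + 1 + 1))) := by
          field_simp; ring
        rw [e2]
        unfold lam
        push_cast
        apply one_div_le_one_div_of_le (by positivity)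
        nlinarith
      push_cast
      linarith
  rcases Nat.eq_zero_or_pos J with h0 | h0
  · subst h0; simp
  · obtain ⟨K, rfl⟩ : ∃ K, J = K + 1 := ⟨J - 1, by omega⟩
    refine (h K).trans ?_
    have : (0 : ℝ) ≤ 1 / (2 * ((K : ℝ) + 1)) := by positivity
    linarith

/-- convexity: `(∑ w t a t)^s ≤ ∑ w t (a t)^s` for sub-probability weights -/
theorem jensen {T : Type*} (S : Finset T) (w a : T → ℝ) (hw : ∀ t ∈ S, 0 ≤ w t)
    (ha : ∀ t ∈ S, 0 ≤ a t) (h1 : ∑ t ∈ S, w t ≤ 1) {s : ℕ} (hs : 1 ≤ s) :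
    (∑ t ∈ S, w t * a t) ^ s ≤ ∑ t ∈ S, w t * a t ^ s := by
  rcases (sum_nonneg hw).eq_or_lt with h0 | h0
  · have hz : ∀ t ∈ S, w t = 0 := (sum_eq_zero_iff_of_nonneg hw).1 h0.symm
    rw [sum_eq_zero (fun t ht => by rw [hz t ht, zero_mul]),
      sum_eq_zero (fun t ht => by rw [hz t ht, zero_mul]), zero_pow (by omega)]
  · set W := ∑ t ∈ S, w t with hW
    have hj := Real.pow_arith_mean_le_arith_mean_pow S (fun t => w t / W) a
      (fun t ht => div_nonneg (hw t ht) h0.le)
      (by rw [← sum_div, ← hW, div_self h0.ne']) ha s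
    have e1 : ∑ t ∈ S, w t * a t = W * ∑ t ∈ S, w t / W * a t := by
      rw [mul_sum]
      apply sum_congr rfl
      intro t _
      field_simp
    have e2 : ∑ t ∈ S, w t * a t ^ s = W * ∑ t ∈ S, w t / W * a t ^ s := by
      rw [mul_sum]
      apply sum_congr rfl
      intro t _
      field_simp
    rw [e1, e2, mul_pow]
    have h2 : 0 ≤ ∑ t ∈ S, w t / W * a t ^ s :=
      sum_nonneg (fun t ht => mul_nonneg (div_nonneg (hw t ht) h0.le) (pow_nonneg (ha t ht) s))
    have h3 : W ^ s ≤ W := by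
      calc W ^ s ≤ W ^ 1 := pow_le_pow_of_le_one h0.le h1 hs
        _ = W := pow_one W
    calc W ^ s * (∑ t ∈ S, w t / W * a t) ^ s ≤ W ^ s * ∑ t ∈ S, w t / W * a t ^ s :=
          mul_le_mul_of_nonneg_left hj (pow_nonneg h0.le s)
      _ ≤ W * ∑ t ∈ S, w t / W * a t ^ s := mul_le_mul_of_nonneg_right h3 h2

/-- weighted Cauchy-Schwarz for complex sums -/
theorem cs {T : Type*} (S : Finset T) (w : T → ℝ) (z : T → ℂ) (hw : ∀ t ∈ S, 0 ≤ w t)
    (h1 : ∑ t ∈ S, w t ≤ 1) :
    ‖∑ t ∈ S, ((w t ^ 2 : ℝ) : ℂ) * z t‖ ^ 2 ≤ ∑ t ∈ S, w t * (w t ^ 2 * ‖z t‖ ^ 2) := by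
  have hn : ‖∑ t ∈ S, ((w t ^ 2 : ℝ) : ℂ) * z t‖ ≤ ∑ t ∈ S, w t ^ 2 * ‖z t‖ := by
    refine (norm_sum_le _ _).trans (sum_le_sum (fun t _ => ?_))
    rw [norm_mul, Complex.norm_real, Real.norm_eq_abs, abs_of_nonneg (sq_nonneg _)]
  have h2 : (∑ t ∈ S, w t ^ 2 * ‖z t‖) ^ 2 ≤ (∑ t ∈ S, w t) * ∑ t ∈ S, w t * (w t ^ 2 * ‖z t‖ ^ 2) := by
    apply sum_sq_le_sum_mul_sum_of_sq_le_mul
    · exact hw
    · intro t ht; have := hw t ht; positivity
    · intro t ht
      apply le_of_eq; ring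
  have h3 : 0 ≤ ∑ t ∈ S, w t * (w t ^ 2 * ‖z t‖ ^ 2) :=
    sum_nonneg (fun t ht => by have := hw t ht; positivity)
  calc ‖∑ t ∈ S, ((w t ^ 2 : ℝ) : ℂ) * z t‖ ^ 2 ≤ (∑ t ∈ S, w t ^ 2 * ‖z t‖) ^ 2 :=
        pow_le_pow_left₀ (norm_nonneg _) hn 2
    _ ≤ (∑ t ∈ S, w t) * ∑ t ∈ S, w t * (w t ^ 2 * ‖z t‖ ^ 2) := h2
    _ ≤ 1 * ∑ t ∈ S, w t * (w t ^ 2 * ‖z t‖ ^ 2) := mul_le_mul_of_nonneg_right h1 h3
    _ = _ := one_mul _

/-! ### Fourier sums -/

section four
variable {ι : Type} [Fintype ι] [DecidableEq ι] (M : ι → ℕ) [∀ i, NeZero (M i)]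

theorem FF_congr {c c' : (∀ i, ZMod (M i)) → ℂ} (h : ∀ a, c a = c' a) (x : ∀ i, ZMod (M i)) :
    FF M c x = FF M c' x := by
  unfold FF
  exact sum_congr rfl (fun a _ => by rw [h a])

theorem FF_mul (k : ℂ) (c : (∀ i, ZMod (M i)) → ℂ) (x : ∀ i, ZMod (M i)) :
    FF M (fun a => k * c a) x = k * FF M c x := by
  unfold FF
  rw [mul_sum]
  exact sum_congr rfl (fun a _ => by ring)

theorem FF_sum {T : Type*} (S : Finset T) (f : T → (∀ i, ZMod (M i)) → ℂ)
    (x : ∀ i, ZMod (M i)) : FF M (fun a => ∑ t ∈ S, f t a) x = ∑ t ∈ S, FF M (f t) x := by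
  unfold FF
  rw [sum_comm]
  exact sum_congr rfl (fun a _ => by rw [sum_mul])

theorem FF_zero (x : ∀ i, ZMod (M i)) : FF M (fun _ => 0) x = 0 := by
  unfold FF; simp

theorem mix_empty (x y : ∀ i, ZMod (M i)) : mix M ∅ x y = y := by
  funext i; simp [mix]

variable (p J : ι → ℕ)

theorem lev_bounds (hp : ∀ i, (p i).Prime) (hM : ∀ i, M i = p i ^ J i)
    (a : ∀ i, ZMod (M i)) {i : ι} (hi : i ∈ spt M a) : lev M p a i ∈ Icc 1 (J i) := by
  have hai : a i ≠ 0 := by
    unfold spt at hi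
    exact (mem_filter.1 hi).2
  have hdvd : addOrderOf (a i) ∣ p i ^ J i := by
    rw [← hM]
    have h := addOrderOf_dvd_card (x := a i)
    rwa [ZMod.card] at h
  obtain ⟨k, hk, hk2⟩ := (Nat.dvd_prime_pow (hp i)).1 hdvd
  have hlev : lev M p a i = k := by
    unfold lev
    rw [hk2, Nat.log_pow (hp i).one_lt]
  rw [hlev, mem_Icc]
  refine ⟨?_, hk⟩
  rcases Nat.eq_zero_or_pos k with h0 | h0
  · exfalso
    rw [h0, pow_zero] at hk2
    exact hai (AddMonoid.addOrderOf_eq_one_iff.1 hk2)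
  · exact h0

/-- the possible level vectors on `S` -/
noncomputable def TT (S : Finset ι) : Finset (ι → ℕ) :=
  Fintype.piFinset (fun i => if i ∈ S then Icc 1 (J i) else {0})

/-- the weight of a level vector -/
noncomputable def lamS (S : Finset ι) (τ : ι → ℕ) : ℝ := ∏ i ∈ S, lam (τ i)

theorem lamS_nonneg (S : Finset ι) (τ : ι → ℕ) : 0 ≤ lamS S τ :=
  prod_nonneg (fun i _ => lam_nonneg _)

theorem lamS_le_one (S : Finset ι) (τ : ι → ℕ) : lamS S τ ≤ 1 :=
  prod_le_one (fun i _ => lam_nonneg _) (fun i _ => lam_le_one _)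

theorem sum_lamS (S : Finset ι) : ∑ τ ∈ TT J S, lamS S τ ≤ 1 := by
  have e : ∀ τ : ι → ℕ, lamS S τ = ∏ i, (if i ∈ S then lam (τ i) else 1) := by
    intro τ
    unfold lamS
    rw [prod_ite]
    simp
  simp only [e]
  unfold TT
  rw [← prod_univ_sum (fun i => if i ∈ S then Icc 1 (J i) else {0})
    (fun i t => if i ∈ S then lam t else 1)]
  apply prod_le_one
  · intro i _
    apply sum_nonneg
    intro t _
    split_ifs
    · exact lam_nonneg _
    · norm_num
  · intro i _
    by_cases hi : i ∈ S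
    · simp only [hi, if_true]
      exact sum_lam_le (J i)
    · simp [hi]

/-- the level vector of `a` on `S` -/
noncomputable def tau (S : Finset ι) (a : ∀ i, ZMod (M i)) : ι → ℕ :=
  fun i => if i ∈ S then lev M p a i else 0

theorem tau_mem (hp : ∀ i, (p i).Prime) (hM : ∀ i, M i = p i ^ J i) (S : Finset ι)
    (a : ∀ i, ZMod (M i)) (hS : S ⊆ spt M a) : tau M p S a ∈ TT J S := by
  unfold TT tau
  rw [Fintype.mem_piFinset]
  intro i
  by_cases hi : i ∈ S
  · simp only [hi, if_true]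
    exact lev_bounds M p J hp hM a (hS hi)
  · simp [hi]

theorem tau_unique (S : Finset ι) (a : ∀ i, ZMod (M i)) (τ : ι → ℕ) (hτ : τ ∈ TT J S)
    (h : ∀ i ∈ S, lev M p a i = τ i) : τ = tau M p S a := by
  unfold TT at hτ
  rw [Fintype.mem_piFinset] at hτ
  funext i
  unfold tau
  by_cases hi : i ∈ S
  · simp only [hi, if_true]
    exact (h i hi).symm
  · have := hτ i
    simp only [hi, if_false, mem_singleton] at this
    simp only [hi, if_false]
    exact this

/-- the level-`τ` part -/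
noncomputable def cT (E : Finset ℕ) (l D X R d : ℕ) (S : Finset ι) (τ : ι → ℕ)
    (a : ∀ i, ZMod (M i)) : ℂ :=
  if a ∈ AA M p d D R ∧ S ⊆ spt M a ∧ ∀ i ∈ S, lev M p a i = τ i then
    ((∏ i ∈ spt M a \ S, lam (lev M p a i) ^ 2 : ℝ) : ℂ) * coD M E l D X a else 0

theorem decomp (hp : ∀ i, (p i).Prime) (hM : ∀ i, M i = p i ^ J i) (E : Finset ℕ)
    (l D X R d : ℕ) (S : Finset ι) (a : ∀ i, ZMod (M i)) :
    (if S ⊆ spt M a then (if a ∈ AA M p d D R then
        ((wt M p a : ℝ) : ℂ) * coD M E l D X a else 0) else 0)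
      = ∑ τ ∈ TT J S, ((lamS S τ ^ 2 : ℝ) : ℂ) * cT M p E l D X R d S τ a := by
  by_cases hS : S ⊆ spt M a
  · by_cases hA : a ∈ AA M p d D R
    · rw [if_pos hS, if_pos hA]
      rw [sum_eq_single (tau M p S a)]
      · unfold cT
        have hlev : ∀ i ∈ S, lev M p a i = tau M p S a i := by
          intro i hi
          simp only [tau, hi, if_true]
        rw [if_pos ⟨hA, hS, hlev⟩, ← mul_assoc, ← Complex.ofReal_mul]
        congr 2
        unfold wt lamS
        rw [← prod_sdiff hS, mul_comm, ← prod_pow]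
        congr 1
        apply prod_congr rfl
        intro i hi
        rw [hlev i hi]
      · intro τ hτ hne
        unfold cT
        rw [if_neg, mul_zero]
        rintro ⟨_, _, h3⟩
        exact hne (tau_unique M p J S a τ hτ h3)
      · intro h
        exact absurd (tau_mem M p J hp hM S a hS) h
    · rw [if_pos hS, if_neg hA]
      symm
      apply sum_eq_zero
      intro τ _
      unfold cT
      rw [if_neg (fun h => hA h.1), mul_zero]
  · rw [if_neg hS]
    symm
    apply sum_eq_zero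
    intro τ _
    unfold cT
    rw [if_neg (fun h => hS h.2.1), mul_zero]

theorem prod_lam_nonneg (S : Finset ι) (f : ι → ℕ) : 0 ≤ ∏ i ∈ S, lam (f i) ^ 2 :=
  prod_nonneg (fun i _ => sq_nonneg _)

theorem prod_lam_le_one (S : Finset ι) (f : ι → ℕ) : ∏ i ∈ S, lam (f i) ^ 2 ≤ 1 :=
  prod_le_one (fun i _ => sq_nonneg _) (fun i _ => pow_le_one₀ (lam_nonneg _) (lam_le_one _))

theorem wt_nonneg (a : ∀ i, ZMod (M i)) : 0 ≤ wt M p a := prod_lam_nonneg _ _

theorem wt_le_one (a : ∀ i, ZMod (M i)) : wt M p a ≤ 1 := prod_lam_le_one _ _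

theorem claim6 (E : Finset ℕ) (l D X R d s : ℕ) (hs : 1 ≤ s) (S : Finset ι) (τ : ι → ℕ)
    (a : ∀ i, ZMod (M i)) :
    lamS S τ * (lamS S τ ^ 2) ^ s * ‖cT M p E l D X R d S τ a‖ ^ 2
      ≤ if a ∈ AA M p d D R ∧ S ⊆ spt M a ∧ ∀ i ∈ S, lev M p a i = τ i then
          wt M p a * ‖coD M E l D X a‖ ^ 2 else 0 := by
  unfold cT
  split_ifs with h
  · obtain ⟨_, hS, hlev⟩ := h
    rw [norm_mul, Complex.norm_real, Real.norm_eq_abs,
      abs_of_nonneg (prod_lam_nonneg _ _), mul_pow]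
    set P := ∏ i ∈ spt M a \ S, lam (lev M p a i) ^ 2 with hP
    have hP0 : 0 ≤ P := prod_lam_nonneg _ _
    have hP1 : P ≤ 1 := prod_lam_le_one _ _
    have hL0 := lamS_nonneg (ι := ι) S τ
    have hL1 := lamS_le_one (ι := ι) S τ
    have hwt : wt M p a = lamS S τ ^ 2 * P := by
      unfold wt lamS
      rw [← prod_sdiff hS, mul_comm, ← prod_pow]
      congr 1
      apply prod_congr rfl
      intro i hi
      rw [hlev i hi]
    have h1 : lamS S τ * (lamS S τ ^ 2) ^ s ≤ lamS S τ ^ 2 := by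
      have h2 : (lamS S τ ^ 2) ^ s ≤ lamS S τ ^ 2 := by
        calc (lamS S τ ^ 2) ^ s ≤ (lamS S τ ^ 2) ^ 1 :=
              pow_le_pow_of_le_one (sq_nonneg _) (pow_le_one₀ hL0 hL1) hs
          _ = _ := pow_one _
      calc lamS S τ * (lamS S τ ^ 2) ^ s ≤ 1 * (lamS S τ ^ 2) ^ s :=
            mul_le_mul_of_nonneg_right hL1 (by positivity)
        _ ≤ _ := by rw [one_mul]; exact h2
    have h3 : P ^ 2 ≤ P := by nlinarith
    rw [hwt]
    have hn : 0 ≤ ‖coD M E l D X a‖ ^ 2 := by positivity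
    calc lamS S τ * (lamS S τ ^ 2) ^ s * (P ^ 2 * ‖coD M E l D X a‖ ^ 2)
        ≤ lamS S τ ^ 2 * (P * ‖coD M E l D X a‖ ^ 2) := by
          apply mul_le_mul h1 (mul_le_mul_of_nonneg_right h3 hn) (by positivity) (by positivity)
      _ = lamS S τ ^ 2 * P * ‖coD M E l D X a‖ ^ 2 := by ring
  · simp

theorem perS (hPARS : PARS) (hMIXA : MIXA) (hLV2 : LV2D)
    (hp : ∀ i, (p i).Prime) (hinj : Function.Injective p) (hM : ∀ i, M i = p i ^ J i)
    (E : Finset ℕ) (l D X R d s : ℕ) (V : ℝ) (hD : 1 ≤ D) (hs : 1 ≤ s) (S : Finset ι)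
    (hSd : S.card ≤ d)
    (hV : ∀ D' X' R' : ℕ, 1 ≤ D' → D' * R' ≤ D * R → Sd M p E l D' X' R' (d - S.card) ≤ V) :
    avg (fun x => (avg (fun y => ‖FF M (fun a => if S ⊆ spt M a then
        (if a ∈ AA M p d D R then ((wt M p a : ℝ) : ℂ) * coD M E l D X a else 0) else 0)
        (mix M S x y)‖ ^ 2)) ^ s)
      ≤ (4 ^ S.card * V) ^ (s - 1) *
        ∑ a ∈ (AA M p d D R).filter (fun a => S ⊆ spt M a), wt M p a * ‖coD M E l D X a‖ ^ 2 := by
  -- `V` is nonnegative
  have hV0 : 0 ≤ V := by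
    refine le_trans ?_ (hV 1 0 0 le_rfl (by simp))
    unfold Sd
    exact sum_nonneg (fun a _ => mul_nonneg (wt_nonneg M p a) (by positivity))
  set g : (ι → ℕ) → (∀ i, ZMod (M i)) → ℝ := fun τ x =>
    avg (fun y => ‖FF M (cT M p E l D X R d S τ) (mix M S x y)‖ ^ 2) with hg
  have hg0 : ∀ τ x, 0 ≤ g τ x := fun τ x => avg_nonneg (fun y => by positivity)
  -- step 1: pointwise bound of the inner average
  have h1 : ∀ x, avg (fun y => ‖FF M (fun a => if S ⊆ spt M a then
        (if a ∈ AA M p d D R then ((wt M p a : ℝ) : ℂ) * coD M E l D X a else 0) else 0)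
        (mix M S x y)‖ ^ 2) ≤ ∑ τ ∈ TT J S, lamS S τ * (lamS S τ ^ 2 * g τ x) := by
    intro x
    have e : ∀ τ ∈ TT J S, lamS S τ * (lamS S τ ^ 2 * g τ x)
        = avg (fun y => lamS S τ * (lamS S τ ^ 2 *
            ‖FF M (cT M p E l D X R d S τ) (mix M S x y)‖ ^ 2)) := by
      intro τ _
      rw [avg_mul, avg_mul]
    rw [sum_congr rfl e, ← avg_sum]
    apply avg_mono
    intro y
    rw [FF_congr M (decomp M p J hp hM E l D X R d S) (mix M S x y), FF_sum M]
    simp only [FF_mul M]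
    exact cs (TT J S) (fun τ => lamS S τ) _ (fun τ _ => lamS_nonneg S τ) (sum_lamS J S)
  -- step 2: LV2D
  have h2 : ∀ τ x, g τ x ≤ 4 ^ S.card * V := by
    intro τ x
    exact hLV2 ι M p J hp hinj hM E l D X R d S τ x V hD hSd hV
  have h3 : ∀ τ x, (g τ x) ^ s ≤ (4 ^ S.card * V) ^ (s - 1) * g τ x := by
    intro τ x
    obtain ⟨n, rfl⟩ : ∃ n, s = n + 1 := ⟨s - 1, by omega⟩
    rw [Nat.add_sub_cancel, pow_succ]
    exact mul_le_mul_of_nonneg_right (pow_le_pow_left₀ (hg0 τ x) (h2 τ x) n) (hg0 τ x)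
  -- step 3: average of `g`
  have h4 : ∀ τ, avg (g τ) = ∑ a, ‖cT M p E l D X R d S τ a‖ ^ 2 := by
    intro τ
    rw [hg]
    rw [hMIXA ι M S (fun z => ‖FF M (cT M p E l D X R d S τ) z‖ ^ 2)]
    exact hPARS ι M (cT M p E l D X R d S τ)
  have hK0 : 0 ≤ (4 ^ S.card * V) ^ (s - 1) := by positivity
  calc avg (fun x => (avg (fun y => ‖FF M (fun a => if S ⊆ spt M a then
        (if a ∈ AA M p d D R then ((wt M p a : ℝ) : ℂ) * coD M E l D X a else 0) else 0)
        (mix M S x y)‖ ^ 2)) ^ s)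
      ≤ avg (fun x => ∑ τ ∈ TT J S, (lamS S τ * (lamS S τ ^ 2) ^ s
            * (4 ^ S.card * V) ^ (s - 1)) * g τ x) := by
        apply avg_mono
        intro x
        have hb0 : 0 ≤ avg (fun y => ‖FF M (fun a => if S ⊆ spt M a then
            (if a ∈ AA M p d D R then ((wt M p a : ℝ) : ℂ) * coD M E l D X a else 0) else 0)
            (mix M S x y)‖ ^ 2) := avg_nonneg (fun y => by positivity)
        refine (pow_le_pow_left₀ hb0 (h1 x) s).trans ?_
        refine (jensen (TT J S) (fun τ => lamS S τ) (fun τ => lamS S τ ^ 2 * g τ x)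
          (fun τ _ => lamS_nonneg S τ)
          (fun τ _ => mul_nonneg (sq_nonneg _) (hg0 τ x)) (sum_lamS J S) hs).trans ?_
        apply sum_le_sum
        intro τ _
        rw [mul_pow]
        have hL := lamS_nonneg (ι := ι) S τ
        calc lamS S τ * ((lamS S τ ^ 2) ^ s * (g τ x) ^ s)
            = (lamS S τ * (lamS S τ ^ 2) ^ s) * (g τ x) ^ s := by ring
          _ ≤ (lamS S τ * (lamS S τ ^ 2) ^ s) * ((4 ^ S.card * V) ^ (s - 1) * g τ x) :=
              mul_le_mul_of_nonneg_left (h3 τ x) (by positivity)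
          _ = _ := by ring
    _ = ∑ τ ∈ TT J S, (4 ^ S.card * V) ^ (s - 1) *
          ∑ a, lamS S τ * (lamS S τ ^ 2) ^ s * ‖cT M p E l D X R d S τ a‖ ^ 2 := by
        rw [avg_sum]
        apply sum_congr rfl
        intro τ _
        rw [avg_mul, ← mul_sum]
        have := h4 τ
        rw [show avg (fun x => g τ x) = avg (g τ) from rfl, this]
        ring
    _ ≤ ∑ τ ∈ TT J S, (4 ^ S.card * V) ^ (s - 1) *
          ∑ a, (if a ∈ AA M p d D R ∧ S ⊆ spt M a ∧ ∀ i ∈ S, lev M p a i = τ i then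
          wt M p a * ‖coD M E l D X a‖ ^ 2 else 0) := by
        apply sum_le_sum
        intro τ _
        apply mul_le_mul_of_nonneg_left _ hK0
        exact sum_le_sum (fun a _ => claim6 M p E l D X R d s hs S τ a)
    _ = (4 ^ S.card * V) ^ (s - 1) * ∑ a, ∑ τ ∈ TT J S,
          (if a ∈ AA M p d D R ∧ S ⊆ spt M a ∧ ∀ i ∈ S, lev M p a i = τ i then
          wt M p a * ‖coD M E l D X a‖ ^ 2 else 0) := by
        rw [← mul_sum, sum_comm]
    _ ≤ (4 ^ S.card * V) ^ (s - 1) *
        ∑ a ∈ (AA M p d D R).filter (fun a => S ⊆ spt M a), wt M p a * ‖coD M E l D X a‖ ^ 2 := by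
        apply mul_le_mul_of_nonneg_left _ hK0
        rw [← sum_filter_add_sum_filter_not univ
          (fun a => a ∈ (AA M p d D R).filter (fun a => S ⊆ spt M a))]
        have e0 : ∑ x ∈ univ.filter (fun a => ¬ a ∈ (AA M p d D R).filter (fun a => S ⊆ spt M a)),
            ∑ τ ∈ TT J S, (if x ∈ AA M p d D R ∧ S ⊆ spt M x ∧ ∀ i ∈ S, lev M p x i = τ i then
              wt M p x * ‖coD M E l D X x‖ ^ 2 else 0) = 0 := by
          apply sum_eq_zero
          intro a ha
          apply sum_eq_zero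
          intro τ _
          rw [if_neg]
          rintro ⟨k1, k2, _⟩
          exact (mem_filter.1 ha).2 (mem_filter.2 ⟨k1, k2⟩)
        rw [e0, add_zero]
        have e1 : univ.filter (fun a => a ∈ (AA M p d D R).filter (fun a => S ⊆ spt M a))
            = (AA M p d D R).filter (fun a => S ⊆ spt M a) := by
          ext a; simp
        rw [e1]
        apply sum_le_sum
        intro a ha
        obtain ⟨hA, hS⟩ := mem_filter.1 ha
        rw [sum_eq_single (tau M p S a)]
        · split_ifs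
          · exact le_refl _
          · exact mul_nonneg (wt_nonneg M p a) (by positivity)
        · intro τ hτ hne
          rw [if_neg]
          rintro ⟨_, _, k3⟩
          exact hne (tau_unique M p J S a τ hτ k3)
        · intro h
          exact absurd (tau_mem M p J hp hM S a hS) h

end four

end LV3p

open LV3p

theorem lv3 : HC → PARS → MIXA → LV2D → LV3 := by
  intro hHC hPARS hMIXA hLV2 ι _ _ M _ p J hp hinj hM E l D X R d s V hD hs hV
  set c : (∀ i, ZMod (M i)) → ℂ := fun a => if a ∈ AA M p d D R then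
          ((wt M p a : ℝ) : ℂ) * coD M E l D X a else 0 with hc
  have hs0 : (0 : ℝ) < s := by exact_mod_cast hs
  have hsq : 0 < Real.sqrt (2 * (s : ℝ)) := Real.sqrt_pos.2 (by positivity)
  set ρ : ℝ := 1 / (2 * Real.sqrt (2 * s)) with hρ
  have hρ0 : 0 < ρ := by positivity
  have hρ2 : (ρ⁻¹) ^ 2 = 8 * s := by
    rw [hρ, one_div, inv_inv, mul_pow, Real.sq_sqrt (by positivity)]; ring
  have key := hHC ι M (fun a => ((ρ⁻¹ ^ d : ℝ) : ℂ) * c a) s hs
  have hcd : ∀ a, c a ≠ 0 → (spt M a).card = d := by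
    intro a ha
    by_contra hne
    apply ha
    rw [hc]
    simp only
    rw [if_neg]
    intro hA
    unfold AA at hA
    exact hne (mem_filter.1 hA).2.1
  have eL : ∀ a, ((ρ : ℝ) : ℂ) ^ (spt M a).card * (((ρ⁻¹ ^ d : ℝ) : ℂ) * c a) = c a := by
    intro a
    by_cases h : c a = 0
    · rw [h, mul_zero, mul_zero]
    · rw [hcd a h, ← mul_assoc]
      have : ((ρ : ℝ) : ℂ) ^ d * ((ρ⁻¹ ^ d : ℝ) : ℂ) = 1 := by
        rw [← Complex.ofReal_pow, ← Complex.ofReal_mul, ← mul_pow, mul_inv_cancel₀ hρ0.ne',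
          one_pow, Complex.ofReal_one]
      rw [this, one_mul]
  have eLHS : avg (fun x => ‖FF M c x‖ ^ (2 * s))
      = avg (fun x => ‖FF M (fun a => ((ρ : ℝ) : ℂ) ^ (spt M a).card
          * (((ρ⁻¹ ^ d : ℝ) : ℂ) * c a)) x‖ ^ (2 * s)) := by
    congr 1
    funext x
    rw [FF_congr M eL x]
  rw [eLHS]
  refine key.trans ?_
  -- extract the factor
  have eterm : ∀ S : Finset ι, avg (fun x => (avg (fun y =>
      ‖FF M (fun a => if S ⊆ spt M a then ((ρ⁻¹ ^ d : ℝ) : ℂ) * c a else 0)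
        (mix M S x y)‖ ^ 2)) ^ s)
      = (8 * (s : ℝ)) ^ (s * d) * avg (fun x => (avg (fun y =>
        ‖FF M (fun a => if S ⊆ spt M a then c a else 0) (mix M S x y)‖ ^ 2)) ^ s) := by
    intro S
    rw [← avg_mul]
    congr 1
    funext x
    have e1 : ∀ y, ‖FF M (fun a => if S ⊆ spt M a then ((ρ⁻¹ ^ d : ℝ) : ℂ) * c a else 0)
        (mix M S x y)‖ ^ 2 = (8 * (s : ℝ)) ^ d *
          ‖FF M (fun a => if S ⊆ spt M a then c a else 0) (mix M S x y)‖ ^ 2 := by
      intro y
      have e2 : ∀ a, (if S ⊆ spt M a then ((ρ⁻¹ ^ d : ℝ) : ℂ) * c a else 0)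
          = ((ρ⁻¹ ^ d : ℝ) : ℂ) * (if S ⊆ spt M a then c a else 0) := by
        intro a; split_ifs <;> simp
      rw [FF_congr M e2, FF_mul M, norm_mul, mul_pow, Complex.norm_real, Real.norm_eq_abs,
        abs_of_nonneg (by positivity), ← pow_mul, mul_comm d 2, pow_mul, hρ2]
    simp only [e1]
    rw [avg_mul, mul_pow, ← pow_mul, mul_comm d s]
  simp only [eterm]
  have hfac : ∀ S : Finset ι, ((2 * (s : ℝ)) ^ s) ^ S.card * ((8 * (s : ℝ)) ^ (s * d) *
      avg (fun x => (avg (fun y =>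
        ‖FF M (fun a => if S ⊆ spt M a then c a else 0) (mix M S x y)‖ ^ 2)) ^ s))
      = (8 * (s : ℝ)) ^ (s * d) * (((2 * (s : ℝ)) ^ s) ^ S.card *
      avg (fun x => (avg (fun y =>
        ‖FF M (fun a => if S ⊆ spt M a then c a else 0) (mix M S x y)‖ ^ 2)) ^ s)) := by
    intro S; ring
  simp only [hfac]
  rw [← mul_sum]
  apply mul_le_mul_of_nonneg_left _ (by positivity)
  -- split according to the size of `S`
  set T : Finset ι → ℝ := fun S => ((2 * (s : ℝ)) ^ s) ^ S.card *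
      avg (fun x => (avg (fun y =>
        ‖FF M (fun a => if S ⊆ spt M a then c a else 0) (mix M S x y)‖ ^ 2)) ^ s) with hT
  have hSd0 : 0 ≤ Sd M p E l D X R d := by
    unfold Sd
    exact sum_nonneg (fun a _ => mul_nonneg (wt_nonneg M p a) (by positivity))
  have hT0 : T ∅ ≤ (Sd M p E l D X R d) ^ s := by
    rw [hT]
    simp only [card_empty, pow_zero, one_mul, empty_subset, if_true, mix_empty]
    rw [hPARS ι M c]
    haveI : Nonempty (∀ i, ZMod (M i)) := ⟨fun _ => 0⟩
    rw [avg_const]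
    apply pow_le_pow_left₀ (sum_nonneg (fun a _ => by positivity))
    unfold Sd
    calc ∑ a, ‖c a‖ ^ 2 ≤ ∑ a, (if a ∈ AA M p d D R then
            wt M p a * ‖coD M E l D X a‖ ^ 2 else 0) := by
          apply sum_le_sum
          intro a _
          rw [hc]
          simp only
          split_ifs with hA
          · rw [norm_mul, Complex.norm_real, Real.norm_eq_abs,
              abs_of_nonneg (wt_nonneg M p a), mul_pow]
            apply mul_le_mul_of_nonneg_right _ (by positivity)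
            have h0 := wt_nonneg M p a
            have h1 := wt_le_one M p a
            nlinarith
          · simp
      _ = ∑ a ∈ AA M p d D R, wt M p a * ‖coD M E l D X a‖ ^ 2 := by
          rw [← sum_filter]
          apply sum_congr _ (fun _ _ => rfl)
          ext a; simp
  have hTbig : ∀ S : Finset ι, d < S.card → T S = 0 := by
    intro S hS
    rw [hT]
    simp only
    have e0 : ∀ a, (if S ⊆ spt M a then c a else 0) = 0 := by
      intro a
      split_ifs with h
      · by_contra hne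
        have := card_le_card h
        rw [hcd a hne] at this
        omega
      · rfl
    have e1 : ∀ x : (∀ i, ZMod (M i)), (avg (fun y =>
        ‖FF M (fun a => if S ⊆ spt M a then c a else 0) (mix M S x y)‖ ^ 2)) ^ s = 0 := by
      intro x
      have : ∀ y, ‖FF M (fun a => if S ⊆ spt M a then c a else 0) (mix M S x y)‖ ^ 2 = 0 := by
        intro y
        rw [FF_congr M e0, FF_zero]; simp
      simp only [this]
      rw [avg_zero, zero_pow (by omega)]
    simp only [e1]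
    rw [avg_zero, mul_zero]
  have hTS : ∀ S : Finset ι, 1 ≤ S.card → S.card ≤ d → T S ≤
      (2 * (s : ℝ)) ^ (s * S.card) * (4 ^ S.card * V S.card) ^ (s - 1) *
        ∑ a ∈ (AA M p d D R).filter (fun a => S ⊆ spt M a), wt M p a * ‖coD M E l D X a‖ ^ 2 := by
    intro S h1 h2
    rw [hT]
    simp only
    rw [← pow_mul, mul_assoc]
    apply mul_le_mul_of_nonneg_left _ (by positivity)
    exact perS M p J hPARS hMIXA hLV2 hp hinj hM E l D X R d s (V S.card) hD hs S h2
      (hV S.card (mem_Icc.2 ⟨h1, h2⟩))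
  -- regroup
  have hsplit : ∑ S : Finset ι, T S = T ∅ + ∑ S ∈ univ.filter (fun S : Finset ι => 1 ≤ S.card), T S := by
    rw [← sum_filter_add_sum_filter_not univ (fun S : Finset ι => 1 ≤ S.card), add_comm]
    congr 1
    have : univ.filter (fun S : Finset ι => ¬ 1 ≤ S.card) = {∅} := by
      ext S; simp
    rw [this, sum_singleton]
  rw [hsplit]
  apply add_le_add hT0
  have hrestrict : ∑ S ∈ univ.filter (fun S : Finset ι => 1 ≤ S.card), T S
      = ∑ S ∈ univ.filter (fun S : Finset ι => S.card ∈ Icc 1 d), T S := by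
    symm
    apply sum_subset
    · intro S hS
      have := mem_Icc.1 (mem_filter.1 hS).2
      exact mem_filter.2 ⟨mem_univ _, this.1⟩
    · intro S hS hS2
      apply hTbig
      have h1 := (mem_filter.1 hS).2
      by_contra hle
      exact hS2 (mem_filter.2 ⟨mem_univ _, mem_Icc.2 ⟨h1, by omega⟩⟩)
  rw [hrestrict]
  have hfib : ∑ S ∈ univ.filter (fun S : Finset ι => S.card ∈ Icc 1 d), T S
      = ∑ j ∈ Icc 1 d, ∑ S ∈ univ.filter (fun S : Finset ι => S.card = j), T S := by
    rw [← sum_fiberwise_of_maps_to (s := univ.filter (fun S : Finset ι => S.card ∈ Icc 1 d))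
      (t := Icc 1 d) (g := fun S : Finset ι => S.card) (fun S hS => (mem_filter.1 hS).2)]
    apply sum_congr rfl
    intro j hj
    apply sum_congr _ (fun _ _ => rfl)
    ext S
    simp only [mem_filter, mem_univ, true_and]
    constructor
    · rintro ⟨_, h⟩; exact h
    · intro h; exact ⟨by rw [h]; exact hj, h⟩
  rw [hfib]
  apply sum_le_sum
  intro j hj
  obtain ⟨hj1, hj2⟩ := mem_Icc.1 hj
  calc ∑ S ∈ univ.filter (fun S : Finset ι => S.card = j), T S
      ≤ ∑ S ∈ univ.filter (fun S : Finset ι => S.card = j),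
        (2 * (s : ℝ)) ^ (s * j) * (4 ^ j * V j) ^ (s - 1) *
          ∑ a ∈ (AA M p d D R).filter (fun a => S ⊆ spt M a),
            wt M p a * ‖coD M E l D X a‖ ^ 2 := by
        apply sum_le_sum
        intro S hS
        have hcard := (mem_filter.1 hS).2
        have := hTS S (by rw [hcard]; exact hj1) (by rw [hcard]; exact hj2)
        rw [hcard] at this
        exact this
    _ = (2 * (s : ℝ)) ^ (s * j) * (4 ^ j * V j) ^ (s - 1) *
          ∑ a ∈ AA M p d D R, ∑ S ∈ univ.filter (fun S : Finset ι => S.card = j),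
            (if S ⊆ spt M a then wt M p a * ‖coD M E l D X a‖ ^ 2 else 0) := by
        rw [← mul_sum, sum_comm' (s := univ.filter (fun S : Finset ι => S.card = j))
          (t := fun S => (AA M p d D R).filter (fun a => S ⊆ spt M a))
          (t' := AA M p d D R)
          (s' := fun a => (univ.filter (fun S : Finset ι => S.card = j)).filter
            (fun S => S ⊆ spt M a))]
        · congr 1
          apply sum_congr rfl
          intro a _
          rw [sum_filter]
        · intro S a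
          simp only [mem_filter, mem_univ, true_and]
          tauto
    _ = (2 * (s : ℝ)) ^ (s * j) * (4 ^ j * V j) ^ (s - 1) *
          ∑ a ∈ AA M p d D R, (d.choose j : ℝ) * (wt M p a * ‖coD M E l D X a‖ ^ 2) := by
        congr 1
        apply sum_congr rfl
        intro a ha
        rw [← sum_filter, sum_const, nsmul_eq_mul]
        congr 2
        have hcard : (spt M a).card = d := by
          unfold AA at ha
          exact (mem_filter.1 ha).2.1
        rw [← hcard, ← card_powersetCard]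
        congr 1
        ext S
        simp only [mem_filter, mem_univ, true_and, mem_powersetCard]
        tauto
    _ = (2 * (s : ℝ)) ^ (s * j) * (d.choose j : ℝ) * Sd M p E l D X R d
          * (4 ^ j * V j) ^ (s - 1) := by
        unfold Sd
        rw [← mul_sum]
        ring

end Vale.Agent.P042
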