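import Vale.Agent.P042.Core2

/-!
# P042, module B4n: arithmetic level-`d` inequality
-/

open Polynomial Finset

set_option linter.unusedSectionVars false

namespace Vale.Agent.P042

namespace LevDAux

section
variable {ι : Type} [Fintype ι] [DecidableEq ι] (M : ι → ℕ) [∀ i, NeZero (M i)]

lemma norm_chi (a x : ∀ i, ZMod (M i)) : ‖chi M a x‖ = 1 := by
  unfold chi
  rw [norm_prod]
  refine Finset.prod_eq_one (fun i _ => ?_)
  exact AddChar.norm_apply _ _

lemma md_pos (a : ∀ i, ZMod (M i)) : 0 < md M a :=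
  Finset.prod_pos (fun i _ => addOrderOf_pos _)

lemma lam_le (j : ℕ) : lam j ≤ 1 := by
  unfold lam
  rcases Nat.eq_zero_or_pos j with h | h
  · subst h
    norm_num
  · have h1 : (1 : ℝ) ≤ j := by exact_mod_cast h
    rw [div_le_one (by positivity)]
    nlinarith

lemma lam_nonneg (j : ℕ) : 0 ≤ lam j := by
  unfold lam
  positivity

lemma wt_nonneg (p : ι → ℕ) (a : ∀ i, ZMod (M i)) : 0 ≤ wt M p a :=
  Finset.prod_nonneg (fun i _ => sq_nonneg _)

lemma wt_le (p : ι → ℕ) (a : ∀ i, ZMod (M i)) : wt M p a ≤ 1 := by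
  unfold wt
  refine Finset.prod_le_one (fun i _ => sq_nonneg _) (fun i _ => ?_)
  have h1 := lam_le (lev M p a i)
  have h2 := lam_nonneg (lev M p a i)
  nlinarith

lemma Sd_nonneg (p : ι → ℕ) (E : Finset ℕ) (l D X R d : ℕ) : 0 ≤ Sd M p E l D X R d := by
  unfold Sd
  refine Finset.sum_nonneg (fun a _ => ?_)
  exact mul_nonneg (wt_nonneg M p a) (sq_nonneg _)

lemma coD_le (E : Finset ℕ) (l D X : ℕ) (a : ∀ i, ZMod (M i)) :
    ‖coD M E l D X a‖ ≤ (D : ℝ) / l * ((E.filter (fun n : ℕ => n ≡ X [MOD D])).card : ℝ) := by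
  unfold coD
  rw [norm_mul, norm_div]
  simp only [Complex.norm_natCast]
  refine mul_le_mul_of_nonneg_left ?_ (by positivity)
  refine (norm_sum_le _ _).trans (le_of_eq ?_)
  rw [Finset.sum_congr rfl (fun n _ => by rw [RCLike.norm_conj, norm_chi])]
  simp

end

end LevDAux

open LevDAux in
theorem levd : LV1D → LV3 → NUM → CNT → LEVD := by
  classical
  intro hlv1 hlv3 hnum hcnt ι _ _ M _ p J hp hinj hM R₀ l s α E hR₀ hs hα hα1 hαe hE hl hden
  have hR₀pos : (0 : ℝ) < R₀ := by exact_mod_cast (by omega : 0 < R₀)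
  have hl1 : 1 ≤ l := le_trans (Nat.one_le_pow _ _ (by omega)) hl
  have hlr : (0 : ℝ) < l := by exact_mod_cast hl1
  have hA1 : (0 : ℝ) < 2 * α := by linarith
  -- density in coD form
  have hden' : ∀ D X : ℕ, 1 ≤ D → D ≤ R₀ →
      (D : ℝ) / l * ((E.filter (fun n : ℕ => n ≡ X [MOD D])).card : ℝ) ≤ 2 * α := by
    intro D X hD hDR
    have h := hden D X hD hDR
    have hDr : (0 : ℝ) < D := by exact_mod_cast hD
    calc (D : ℝ) / l * ((E.filter (fun n : ℕ => n ≡ X [MOD D])).card : ℝ)
        ≤ (D : ℝ) / l * (2 * α * l / D) := mul_le_mul_of_nonneg_left h (by positivity)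
      _ = 2 * α := by field_simp
  have main : ∀ d : ℕ, ∀ D X R : ℕ, 1 ≤ D → D * R ≤ R₀ →
      Sd M p E l D X R d ≤ (2 * α) ^ 2 * (4096 * (s : ℝ)) ^ d := by
    intro d
    induction d using Nat.strong_induction_on with
    | _ d ih =>
    intro D X R hD hDR
    have hRHS : 0 ≤ (2 * α) ^ 2 * (4096 * (s : ℝ)) ^ d := by positivity
    rcases Nat.eq_zero_or_pos R with hR0 | hRpos
    · -- R = 0
      have : AA M p d D R = ∅ := by
        unfold AA
        rw [Finset.filter_eq_empty_iff]
        intro a _ h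
        have := md_pos M a
        omega
      unfold Sd
      rw [this, Finset.sum_empty]
      exact hRHS
    have hDR₀ : D ≤ R₀ := le_trans (Nat.le_mul_of_pos_right D hRpos) hDR
    have hRR₀ : R ≤ R₀ := le_trans (Nat.le_mul_of_pos_left R hD) hDR
    have hco : ∀ a, ‖coD M E l D X a‖ ≤ 2 * α := fun a =>
      (coD_le M E l D X a).trans (hden' D X hD hDR₀)
    rcases Nat.eq_zero_or_pos d with hd0 | hd1
    · -- d = 0
      subst hd0
      have hsub : AA M p 0 D R ⊆ {0} := by
        intro a ha
        unfold AA at ha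
        rw [mem_filter] at ha
        rw [mem_singleton]
        have h1 : spt M a = ∅ := Finset.card_eq_zero.1 ha.2.1
        funext i
        by_contra hcon
        have h2 : i ∈ spt M a := by
          unfold spt
          rw [mem_filter]
          exact ⟨mem_univ _, hcon⟩
        rw [h1] at h2
        exact absurd h2 (Finset.notMem_empty i)
      unfold Sd
      calc ∑ a ∈ AA M p 0 D R, wt M p a * ‖coD M E l D X a‖ ^ 2
          ≤ ∑ a ∈ ({0} : Finset (∀ i, ZMod (M i))), wt M p a * ‖coD M E l D X a‖ ^ 2 := by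
            refine Finset.sum_le_sum_of_subset_of_nonneg hsub (fun a _ _ => ?_)
            exact mul_nonneg (wt_nonneg M p a) (sq_nonneg _)
        _ = wt M p 0 * ‖coD M E l D X 0‖ ^ 2 := Finset.sum_singleton _ _
        _ ≤ 1 * (2 * α) ^ 2 := by
            refine mul_le_mul (wt_le M p 0) ?_ (sq_nonneg _) zero_le_one
            exact pow_le_pow_left₀ (norm_nonneg _) (hco 0) 2
        _ = (2 * α) ^ 2 * (4096 * (s : ℝ)) ^ 0 := by ring
    · -- d ≥ 1
      set S := Sd M p E l D X R d with hS
      have hS0 : 0 ≤ S := Sd_nonneg M p E l D X R d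
      set c : (∀ i, ZMod (M i)) → ℂ := fun a =>
        if a ∈ AA M p d D R then ((wt M p a : ℝ) : ℂ) * coD M E l D X a else 0 with hc
      set EX := E.filter (fun n : ℕ => n ≡ X [MOD D]) with hEX
      -- S as a sum of F
      have hSF : (S : ℂ) = ((D : ℂ) / (l : ℂ)) * ∑ n ∈ EX, FF M c (rv M n) := by
        unfold FF
        rw [Finset.sum_comm, Finset.mul_sum]
        have e1 : ∀ a : (∀ i, ZMod (M i)), ((D : ℂ) / (l : ℂ)) * ∑ n ∈ EX, c a * chi M a (rv M n)
            = c a * (starRingEnd ℂ) (coD M E l D X a) := by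
          intro a
          unfold coD
          rw [← Finset.mul_sum, map_mul, map_div₀, map_natCast, map_natCast, map_sum]
          simp only [Complex.conj_conj]
          rw [← hEX]
          ring
        simp only [e1]
        rw [← Finset.sum_subset (Finset.subset_univ (AA M p d D R))]
        · rw [hS]
          unfold Sd
          push_cast
          refine Finset.sum_congr rfl (fun a ha => ?_)
          rw [hc]
          simp only
          rw [if_pos ha, mul_assoc, Complex.mul_conj, Complex.normSq_eq_norm_sq]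
          push_cast
          rfl
        · intro a _ ha
          rw [hc]
          simp only
          rw [if_neg ha, zero_mul]
      have hSle : S ≤ (D : ℝ) / l * ∑ n ∈ EX, ‖FF M c (rv M n)‖ := by
        have h1 : ‖(S : ℂ)‖ = S := by
          rw [Complex.norm_real, Real.norm_eq_abs, abs_of_nonneg hS0]
        rw [← h1, hSF, norm_mul, norm_div]
        simp only [Complex.norm_natCast]
        refine mul_le_mul_of_nonneg_left (norm_sum_le _ _) (by positivity)
      -- Hoelder
      have hF0 : 0 ≤ ∑ n ∈ EX, ‖FF M c (rv M n)‖ := Finset.sum_nonneg (fun _ _ => norm_nonneg _)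
      have hHol : S ^ (2 * s) ≤ (2 * α) ^ (2 * s - 1) *
          ((D : ℝ) / l * ∑ n ∈ (range l).filter (fun n : ℕ => n ≡ X [MOD D]),
            ‖FF M c (rv M n)‖ ^ (2 * s)) := by
        obtain ⟨t, ht⟩ : ∃ t, 2 * s = t + 1 := ⟨2 * s - 1, by omega⟩
        have ht' : 2 * s - 1 = t := by omega
        rw [ht', ht]
        have hsub : EX ⊆ (range l).filter (fun n : ℕ => n ≡ X [MOD D]) := by
          intro n hn
          rw [hEX, mem_filter] at hn
          rw [mem_filter]
          exact ⟨hE hn.1, hn.2⟩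
        have hmono : ∑ n ∈ EX, ‖FF M c (rv M n)‖ ^ (t + 1)
            ≤ ∑ n ∈ (range l).filter (fun n : ℕ => n ≡ X [MOD D]),
              ‖FF M c (rv M n)‖ ^ (t + 1) :=
          Finset.sum_le_sum_of_subset_of_nonneg hsub (fun _ _ _ => by positivity)
        have hjen : (∑ n ∈ EX, ‖FF M c (rv M n)‖) ^ (t + 1)
            ≤ (EX.card : ℝ) ^ t * ∑ n ∈ EX, ‖FF M c (rv M n)‖ ^ (t + 1) := by
          rcases EX.eq_empty_or_nonempty with h0 | hne
          · rw [h0]
            simp
          · have hcpos : (0 : ℝ) < (EX.card : ℝ) ^ t := by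
              have h00 : 0 < EX.card := Finset.card_pos.2 hne
              exact pow_pos (Nat.cast_pos.2 h00) t
            have h2 := pow_sum_div_card_le_sum_pow (s := EX)
              (f := fun n => ‖FF M c (rv M n)‖) (fun _ _ => norm_nonneg _) t
            rw [div_le_iff₀ hcpos] at h2
            rw [mul_comm]
            exact h2
        have hdd := hden' D X hD hDR₀
        rw [← hEX] at hdd
        calc S ^ (t + 1) ≤ ((D : ℝ) / l * ∑ n ∈ EX, ‖FF M c (rv M n)‖) ^ (t + 1) :=
              pow_le_pow_left₀ hS0 hSle _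
          _ = ((D : ℝ) / l) ^ (t + 1) * (∑ n ∈ EX, ‖FF M c (rv M n)‖) ^ (t + 1) := mul_pow _ _ _
          _ ≤ ((D : ℝ) / l) ^ (t + 1) *
                ((EX.card : ℝ) ^ t * ∑ n ∈ EX, ‖FF M c (rv M n)‖ ^ (t + 1)) :=
              mul_le_mul_of_nonneg_left hjen (by positivity)
          _ = ((D : ℝ) / l * EX.card) ^ t *
                ((D : ℝ) / l * ∑ n ∈ EX, ‖FF M c (rv M n)‖ ^ (t + 1)) := by
              rw [mul_pow, pow_succ]
              ring
          _ ≤ (2 * α) ^ t * ((D : ℝ) / l *
                ∑ n ∈ (range l).filter (fun n : ℕ => n ≡ X [MOD D]),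
                  ‖FF M c (rv M n)‖ ^ (t + 1)) := by
              have hnn1 : (0 : ℝ) ≤ (D : ℝ) / l :=
                div_nonneg (Nat.cast_nonneg _) (Nat.cast_nonneg _)
              refine mul_le_mul (pow_le_pow_left₀ (mul_nonneg hnn1 (Nat.cast_nonneg _)) hdd t)
                ?_ ?_ (pow_nonneg hA1.le t)
              · exact mul_le_mul_of_nonneg_left hmono hnn1
              · exact mul_nonneg hnn1
                  (Finset.sum_nonneg (fun _ _ => pow_nonneg (norm_nonneg _) _))
      -- transfer
      have htr := hlv1 ι M p J hp hinj hM D X R l s c hD hs hl1 (by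
        intro a ha
        have haA : a ∈ AA M p d D R := by
          by_contra hcon
          apply ha
          rw [hc]
          simp only
          rw [if_neg hcon]
        unfold AA at haA
        rw [mem_filter] at haA
        exact ⟨haA.2.2.1, haA.2.2.2⟩)
      -- the l^1 norm of c
      have hc1 : ∑ a, ‖c a‖ ≤ (R : ℝ) ^ 2 * (2 * α) := by
        have hsubs : AA M p d D R ⊆ univ.filter (fun a : (∀ i, ZMod (M i)) => md M a ≤ R) := by
          intro a ha
          unfold AA at ha
          rw [mem_filter] at ha ⊢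
          exact ⟨ha.1, ha.2.2.1⟩
        have hcard : ((AA M p d D R).card : ℝ) ≤ (R : ℝ) ^ 2 := by
          have := (Finset.card_le_card hsubs).trans (hcnt ι M p J hp hinj hM R)
          exact_mod_cast this
        calc ∑ a, ‖c a‖ = ∑ a ∈ AA M p d D R, ‖c a‖ := by
              symm
              refine Finset.sum_subset (Finset.subset_univ _) (fun a _ ha => ?_)
              rw [hc]
              simp only
              rw [if_neg ha, norm_zero]
          _ ≤ ∑ a ∈ AA M p d D R, 2 * α := by
              refine Finset.sum_le_sum (fun a ha => ?_)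
              rw [hc]
              simp only
              rw [if_pos ha, norm_mul, Complex.norm_real, Real.norm_eq_abs,
                abs_of_nonneg (wt_nonneg M p a)]
              calc wt M p a * ‖coD M E l D X a‖ ≤ 1 * (2 * α) :=
                    mul_le_mul (wt_le M p a) (hco a) (norm_nonneg _) zero_le_one
                _ = 2 * α := one_mul _
          _ = ((AA M p d D R).card : ℝ) * (2 * α) := by rw [Finset.sum_const, nsmul_eq_mul]
          _ ≤ (R : ℝ) ^ 2 * (2 * α) := mul_le_mul_of_nonneg_right hcard hA1.le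
      have hc0 : 0 ≤ ∑ a, ‖c a‖ := Finset.sum_nonneg (fun _ _ => norm_nonneg _)
      -- LV3
      have h3 := hlv3 ι M p J hp hinj hM E l D X R d s
        (fun j => (2 * α) ^ 2 * (4096 * (s : ℝ)) ^ (d - j)) hD hs (by
          intro j hj D' X' R' hD' hDR'
          rw [mem_Icc] at hj
          exact ih (d - j) (by omega) D' X' R' hD' (hDR'.trans hDR))
      rw [← hS] at h3
      -- normalise
      set Y := S / (2 * α) ^ 2 with hY
      have hY0 : 0 ≤ Y := by positivity
      have hSY : S = (2 * α) ^ 2 * Y := by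
        rw [hY]
        field_simp
      set ν : ℝ := (D : ℝ) / l * (R : ℝ) ^ (6 * s) with hν
      have hν0 : 0 ≤ ν := by positivity
      set Z : ℝ := (8 * (s : ℝ)) ^ (s * d) * (Y ^ s
        + ∑ j ∈ Icc 1 d, (2 * (s : ℝ)) ^ (s * j) * (d.choose j : ℝ) * Y
          * (4 ^ j * (4096 * (s : ℝ)) ^ (d - j)) ^ (s - 1)) with hZ
      have hZ0 : 0 ≤ Z := by positivity
      have h3' : avg (fun x => ‖FF M c x‖ ^ (2 * s)) ≤ (2 * α) ^ (2 * s) * Z := by
        refine h3.trans (le_of_eq ?_)
        rw [hZ, hSY]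
        have e1 : ((2 * α) ^ 2 * Y) ^ s = (2 * α) ^ (2 * s) * Y ^ s := by
          rw [mul_pow, ← pow_mul]
        have e2 : ∀ j ∈ Icc 1 d, (2 * (s : ℝ)) ^ (s * j) * (d.choose j : ℝ) * ((2 * α) ^ 2 * Y)
            * (4 ^ j * ((2 * α) ^ 2 * (4096 * (s : ℝ)) ^ (d - j))) ^ (s - 1)
            = (2 * α) ^ (2 * s) * ((2 * (s : ℝ)) ^ (s * j) * (d.choose j : ℝ) * Y
              * (4 ^ j * (4096 * (s : ℝ)) ^ (d - j)) ^ (s - 1)) := by
          intro j _
          have e3 : (4 : ℝ) ^ j * ((2 * α) ^ 2 * (4096 * (s : ℝ)) ^ (d - j))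
              = (2 * α) ^ 2 * (4 ^ j * (4096 * (s : ℝ)) ^ (d - j)) := by ring
          rw [e3, mul_pow ((2 * α) ^ 2)]
          have e4 : (2 * α) ^ (2 * s) = (2 * α) ^ 2 * ((2 * α) ^ 2) ^ (s - 1) := by
            rw [← pow_mul, ← pow_add]
            congr 1
            omega
          rw [e4]
          ring
        rw [e1, Finset.sum_congr rfl e2, ← Finset.mul_sum]
        ring
      have htr2 : (D : ℝ) / l * (R : ℝ) ^ (2 * s) * (∑ a, ‖c a‖) ^ (2 * s)
          ≤ (2 * α) ^ (2 * s) * ν := by
        calc (D : ℝ) / l * (R : ℝ) ^ (2 * s) * (∑ a, ‖c a‖) ^ (2 * s)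
            ≤ (D : ℝ) / l * (R : ℝ) ^ (2 * s) * ((R : ℝ) ^ 2 * (2 * α)) ^ (2 * s) := by
              refine mul_le_mul_of_nonneg_left ?_ (by positivity)
              exact pow_le_pow_left₀ hc0 hc1 _
          _ = (2 * α) ^ (2 * s) * ν := by
              rw [hν, mul_pow, ← pow_mul]
              have : (R : ℝ) ^ (6 * s) = (R : ℝ) ^ (2 * s) * (R : ℝ) ^ (2 * (2 * s)) := by
                rw [← pow_add]
                congr 1
                ring
              rw [this]
              ring
      have hfin : S ^ (2 * s) ≤ (2 * α) ^ (2 * s - 1) * ((2 * α) ^ (2 * s) * (Z + ν)) := by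
        refine hHol.trans ?_
        refine mul_le_mul_of_nonneg_left ?_ (by positivity)
        have h5 := htr
        rw [mul_add]
        linarith
      -- divide
      have hYs : Y ^ (2 * s) ≤ Real.exp (2 * s) * (Z + ν) := by
        have e1 : S ^ (2 * s) = (2 * α) ^ (2 * s) * (2 * α) ^ (2 * s) * Y ^ (2 * s) := by
          rw [hSY, mul_pow, ← pow_mul, ← pow_add]
          congr 2
          ring
        have e2 : (2 * α) ^ (2 * s) = (2 * α) ^ (2 * s - 1) * (2 * α) := by
          rw [← pow_succ]
          congr 1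
          omega
        have hpos1 : 0 < (2 * α) ^ (2 * s - 1) * (2 * α) ^ (2 * s) := by positivity
        have h6 : (2 * α) ^ (2 * s - 1) * (2 * α) ^ (2 * s) * ((2 * α) * Y ^ (2 * s))
            ≤ (2 * α) ^ (2 * s - 1) * (2 * α) ^ (2 * s) * (Z + ν) := by
          have e3 : (2 * α) ^ (2 * s - 1) * (2 * α) ^ (2 * s) * ((2 * α) * Y ^ (2 * s))
              = S ^ (2 * s) := by
            rw [e1]
            calc (2 * α) ^ (2 * s - 1) * (2 * α) ^ (2 * s) * ((2 * α) * Y ^ (2 * s))
                = ((2 * α) ^ (2 * s - 1) * (2 * α)) * (2 * α) ^ (2 * s) * Y ^ (2 * s) := by ring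
              _ = (2 * α) ^ (2 * s) * (2 * α) ^ (2 * s) * Y ^ (2 * s) := by rw [← e2]
          rw [e3]
          refine hfin.trans (le_of_eq ?_)
          ring
        have h7 : (2 * α) * Y ^ (2 * s) ≤ Z + ν := le_of_mul_le_mul_left h6 hpos1
        have hZν : 0 ≤ Z + ν := by linarith
        have hYp : 0 ≤ Y ^ (2 * s) := by positivity
        calc Y ^ (2 * s) ≤ (2 * α * Real.exp (2 * s)) * Y ^ (2 * s) := by
              nlinarith
          _ = Real.exp (2 * s) * ((2 * α) * Y ^ (2 * s)) := by ring
          _ ≤ Real.exp (2 * s) * (Z + ν) :=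
              mul_le_mul_of_nonneg_left h7 (Real.exp_pos _).le
      have hexpν : Real.exp (2 * s) * ν ≤ 1 / 4 := by
        have hR₀4 : (4 : ℝ) ≤ R₀ := by exact_mod_cast hR₀
        have hR₀1 : (1 : ℝ) ≤ R₀ := by linarith
        have he : Real.exp (2 * s) ≤ (R₀ : ℝ) ^ (2 * s) := by
          have h1 : Real.exp (2 * (s : ℝ)) = (Real.exp 1) ^ (2 * s) := by
            rw [← Real.exp_nat_mul]
            congr 1
            push_cast
            ring
          rw [h1]
          refine pow_le_pow_left₀ (Real.exp_pos _).le ?_ _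
          have := Real.exp_one_lt_d9
          linarith
        have hDr : (D : ℝ) ≤ R₀ := by exact_mod_cast hDR₀
        have hRr : (R : ℝ) ^ (6 * s) ≤ (R₀ : ℝ) ^ (6 * s) := by
          refine pow_le_pow_left₀ (by positivity) ?_ _
          exact_mod_cast hRR₀
        have hlR : (R₀ : ℝ) ^ (10 * s) ≤ l := by exact_mod_cast hl
        have h8 : Real.exp (2 * s) * ((D : ℝ) * (R : ℝ) ^ (6 * s)) * 4 ≤ l := by
          calc Real.exp (2 * s) * ((D : ℝ) * (R : ℝ) ^ (6 * s)) * 4
              ≤ (R₀ : ℝ) ^ (2 * s) * ((R₀ : ℝ) * (R₀ : ℝ) ^ (6 * s)) * R₀ := by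
                refine mul_le_mul ?_ hR₀4 (by norm_num) (by positivity)
                refine mul_le_mul he ?_ (by positivity) (by positivity)
                exact mul_le_mul hDr hRr (by positivity) (by positivity)
            _ = (R₀ : ℝ) ^ (8 * s + 2) := by
                rw [show 8 * s + 2 = 2 * s + (1 + 6 * s) + 1 by ring, pow_add, pow_add, pow_add]
                ring
            _ ≤ (R₀ : ℝ) ^ (10 * s) := pow_le_pow_right₀ hR₀1 (by omega)
            _ ≤ l := hlR
        have h9 : Real.exp (2 * s) * ν = (Real.exp (2 * s) * ((D : ℝ) * (R : ℝ) ^ (6 * s))) / l := by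
          rw [hν]
          ring
        rw [h9, div_le_iff₀ hlr]
        linarith
      have hfinal := hnum s d Y ν hs hd1 hY0 hexpν hYs
      rw [hSY]
      exact mul_le_mul_of_nonneg_left hfinal (by positivity)
  intro d
  have h := main d 1 0 R₀ le_rfl (by omega)
  refine le_trans (le_of_eq ?_) (h.trans (le_of_eq ?_))
  · unfold Sd
    have hAA : AA M p d 1 R₀ = univ.filter (fun a : (∀ i, ZMod (M i)) =>
        (spt M a).card = d ∧ md M a ≤ R₀) := by
      unfold AA
      refine Finset.filter_congr (fun a _ => ?_)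
      constructor
      · rintro ⟨h1, h2, -⟩
        exact ⟨h1, h2⟩
      · rintro ⟨h1, h2⟩
        refine ⟨h1, h2, ?_⟩
        intro i _ hdvd
        have := Nat.dvd_one.1 hdvd
        have h3 := (hp i).one_lt
        omega
    rw [hAA]
    refine Finset.sum_congr rfl (fun a _ => ?_)
    congr 3
    unfold coD
    have hf : E.filter (fun n : ℕ => n ≡ 0 [MOD 1]) = E := by
      refine Finset.filter_true_of_mem (fun n _ => ?_)
      exact Nat.modEq_one
    rw [hf]
    push_cast
    ring
  · ring

end Vale.Agent.P042
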