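import Vale.Agent.P042.Core2

open Polynomial Finset

namespace Vale.Agent.P042

namespace LocAux

lemma ee_int (z : ℤ) : ee (z : ℝ) = 1 := by
  unfold ee
  rw [Complex.exp_eq_one_iff]
  refine ⟨z, ?_⟩
  push_cast
  ring

lemma ee_add (x y : ℝ) : ee (x + y) = ee x * ee y := by
  unfold ee
  rw [← Complex.exp_add]
  congr 1
  push_cast
  ring

lemma ee_norm (x : ℝ) : ‖ee x‖ = 1 := by
  unfold ee
  exact Complex.norm_exp_ofReal_mul_I _

lemma ee_nat_mul (n : ℕ) (x : ℝ) : ee ((n : ℝ) * x) = ee x ^ n := by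
  unfold ee
  rw [← Complex.exp_nat_mul]
  congr 1
  push_cast
  ring

lemma ee_eq_one {x : ℝ} (h : ee x = 1) : ∃ z : ℤ, x = z := by
  unfold ee at h
  rw [Complex.exp_eq_one_iff] at h
  obtain ⟨n, hn⟩ := h
  refine ⟨n, ?_⟩
  have h2 : (2 * (Real.pi : ℂ) * Complex.I) ≠ 0 := Complex.two_pi_I_ne_zero
  have h3 : (x : ℂ) = n := by
    have h4 : (x : ℂ) * (2 * (Real.pi : ℂ) * Complex.I) = n * (2 * (Real.pi : ℂ) * Complex.I) := by
      rw [← hn]
      push_cast
      ring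
    exact mul_right_cancel₀ h2 h4
  exact_mod_cast h3

lemma Gs_le_one (g : ℤ[X]) (a : ℤ) (q : ℕ) : ‖Gs g a q‖ ≤ 1 := by
  unfold Gs
  rw [norm_div, Complex.norm_natCast]
  apply div_le_one_of_le₀ _ (by positivity)
  refine (norm_sum_le _ _).trans ?_
  simp [ee_norm]

/-- sum over `range (M * K)` as a double sum -/
lemma sum_range_mul' (f : ℕ → ℂ) (M K : ℕ) :
    ∑ u ∈ range (M * K), f u = ∑ v ∈ range M, ∑ t ∈ range K, f (v + M * t) := by
  induction K with
  | zero => simp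
  | succ K ih =>
    rw [Nat.mul_succ, Finset.sum_range_add, ih, ← Finset.sum_add_distrib]
    apply Finset.sum_congr rfl
    intro v _
    rw [Finset.sum_range_succ, add_comm (M * K) v]

lemma card_periodic (Q : ℕ → Prop) [DecidablePred Q] (M K : ℕ) (h : ∀ v, Q (v + M) ↔ Q v) :
    ((range (M * K)).filter Q).card = K * ((range M).filter Q).card := by
  have h2 : ∀ K v, Q (M * K + v) ↔ Q v := by
    intro K
    induction K with
    | zero => intro v; simp
    | succ K ih =>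
      intro v
      rw [show M * (K + 1) + v = (M * K + v) + M by ring, h, ih]
  induction K with
  | zero => simp
  | succ K ih =>
    rw [← Nat.count_eq_card_filter_range, Nat.mul_succ, Nat.count_add,
      Nat.count_eq_card_filter_range, ih]
    have h3 : Nat.count (fun k => Q (M * K + k)) M = ((range M).filter Q).card := by
      rw [Nat.count_eq_card_filter_range]
      congr 1
      apply Finset.filter_congr
      intro v _
      exact h2 K v
    rw [h3]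
    ring

/-- second order Taylor expansion -/
lemma taylor2 (g : ℤ[X]) (v h : ℤ) :
    ∃ c : ℤ, g.eval (v + h) = g.eval v + h * (derivative g).eval v + h ^ 2 * c := by
  obtain ⟨c, hc⟩ := Polynomial.evalSubFactor g (v + h) v |>.2 |> fun _ => g.binomExpansion v h
  exact ⟨c, by rw [hc]; ring⟩

lemma geom (a w : ℤ) (p e' : ℕ) (hp : p.Prime) (ha : ¬ ((p : ℤ) ∣ a)) :
    ‖∑ t ∈ range (p ^ e'), ee ((t : ℝ) * ((a : ℝ) * (w : ℝ) / ((p : ℝ) ^ e')))‖
      ≤ if ((p ^ e' : ℕ) : ℤ) ∣ w then ((p : ℝ) ^ e') else 0 := by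
  have hp0 : (0 : ℝ) < (p : ℝ) ^ e' := by
    have := hp.pos
    positivity
  split_ifs with hd
  · refine (norm_sum_le _ _).trans ?_
    simp [ee_norm]
  · set z := ee ((a : ℝ) * (w : ℝ) / ((p : ℝ) ^ e')) with hz
    have h1 : ∀ t ∈ range (p ^ e'), ee ((t : ℝ) * ((a : ℝ) * (w : ℝ) / ((p : ℝ) ^ e'))) = z ^ t :=
      fun t _ => ee_nat_mul t _
    rw [Finset.sum_congr rfl h1]
    have hz1 : z ≠ 1 := by
      intro h
      obtain ⟨n, hn⟩ := ee_eq_one h
      rw [div_eq_iff hp0.ne'] at hn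
      have h3 : a * w = n * (p : ℤ) ^ e' := by exact_mod_cast hn
      apply hd
      have h4 : IsCoprime ((p : ℤ) ^ e') a :=
        IsCoprime.pow_left ((Nat.prime_iff_prime_int.1 hp).coprime_iff_not_dvd.2 ha)
      push_cast
      exact h4.dvd_of_dvd_mul_left ⟨n, by rw [h3]; ring⟩
    have hzN : z ^ (p ^ e') = 1 := by
      rw [hz, ← ee_nat_mul]
      have : (((p ^ e' : ℕ) : ℝ)) * ((a : ℝ) * (w : ℝ) / ((p : ℝ) ^ e')) = ((a * w : ℤ) : ℝ) := by
        push_cast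
        field_simp
      rw [this, ee_int]
    have h5 : (∑ t ∈ range (p ^ e'), z ^ t) * (z - 1) = 0 := by
      rw [geom_sum_mul, hzN, sub_self]
    have h6 : (∑ t ∈ range (p ^ e'), z ^ t) = 0 := by
      rcases mul_eq_zero.1 h5 with h | h
      · exact h
      · exact absurd (sub_eq_zero.1 h) hz1
    rw [h6, norm_zero]

/-- stationary phase: `|Gs(p^(f+e'))| ≤ #{v mod p^e' : p^e' ∣ g'(v)} / p^e'` -/
lemma stat (g : ℤ[X]) (a : ℤ) (p f e' : ℕ) (hp : p.Prime) (ha : ¬ ((p : ℤ) ∣ a))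
    (hf : e' ≤ f) :
    ‖Gs g a (p ^ (f + e'))‖ * (p : ℝ) ^ e' ≤
      (((range (p ^ e')).filter
        (fun v : ℕ => ((p ^ e' : ℕ) : ℤ) ∣ (derivative g).eval (v : ℤ))).card : ℝ) := by
  have hp0 : (0 : ℝ) < (p : ℝ) := by exact_mod_cast hp.pos
  set Q : ℕ → Prop := fun v : ℕ => ((p ^ e' : ℕ) : ℤ) ∣ (derivative g).eval (v : ℤ) with hQ
  have hper : ∀ v, Q (v + p ^ e') ↔ Q v := by
    intro v
    have h1 : (((v + p ^ e' : ℕ) : ℤ)) - (v : ℤ) ∣
        (derivative g).eval ((v + p ^ e' : ℕ) : ℤ) - (derivative g).eval (v : ℤ) :=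
      Polynomial.sub_dvd_eval_sub _ _ _
    have h2 : (((v + p ^ e' : ℕ) : ℤ)) - (v : ℤ) = ((p ^ e' : ℕ) : ℤ) := by
      push_cast
      ring
    rw [h2] at h1
    exact (dvd_iff_dvd_of_dvd_sub h1)
  have hcard : ((range (p ^ f)).filter Q).card = p ^ (f - e') * ((range (p ^ e')).filter Q).card := by
    have h3 : p ^ f = p ^ e' * p ^ (f - e') := by
      rw [← pow_add]
      congr 1
      omega
    rw [h3, card_periodic Q _ _ hper]
  have hsum : ‖∑ u ∈ range (p ^ (f + e')), ee ((a : ℝ) * ((g.eval (u : ℤ) : ℤ) : ℝ)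
      / ((p ^ (f + e') : ℕ) : ℝ))‖ ≤ (p : ℝ) ^ e' * ((range (p ^ f)).filter Q).card := by
    rw [pow_add p f e', sum_range_mul']
    calc _ ≤ ∑ v ∈ range (p ^ f), ‖∑ t ∈ range (p ^ e'),
          ee ((a : ℝ) * ((g.eval ((v + p ^ f * t : ℕ) : ℤ) : ℤ) : ℝ)
            / ((p ^ f * p ^ e' : ℕ) : ℝ))‖ := norm_sum_le _ _
      _ ≤ ∑ v ∈ range (p ^ f), (if Q v then ((p : ℝ) ^ e') else 0) := by
          apply Finset.sum_le_sum
          intro v _
          have h4 : ∀ t ∈ range (p ^ e'),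
              ee ((a : ℝ) * ((g.eval ((v + p ^ f * t : ℕ) : ℤ) : ℤ) : ℝ)
                / ((p ^ f * p ^ e' : ℕ) : ℝ))
              = ee ((a : ℝ) * ((g.eval (v : ℤ) : ℤ) : ℝ) / ((p ^ f * p ^ e' : ℕ) : ℝ)) *
                ee ((t : ℝ) * ((a : ℝ) * (((derivative g).eval (v : ℤ) : ℤ) : ℝ)
                  / ((p : ℝ) ^ e'))) := by
            intro t _
            obtain ⟨c, hc⟩ := taylor2 g (v : ℤ) ((p : ℤ) ^ f * t)
            have h5 : ((v + p ^ f * t : ℕ) : ℤ) = (v : ℤ) + (p : ℤ) ^ f * t := by push_cast; ring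
            rw [h5, hc]
            have h6 : (a : ℝ) * (((g.eval (v : ℤ) + (p : ℤ) ^ f * t * (derivative g).eval (v : ℤ)
                + ((p : ℤ) ^ f * t) ^ 2 * c : ℤ)) : ℝ) / ((p ^ f * p ^ e' : ℕ) : ℝ)
                = (a : ℝ) * ((g.eval (v : ℤ) : ℤ) : ℝ) / ((p ^ f * p ^ e' : ℕ) : ℝ)
                  + (t : ℝ) * ((a : ℝ) * (((derivative g).eval (v : ℤ) : ℤ) : ℝ)
                  / ((p : ℝ) ^ e')) + ((a * (t ^ 2 * c * p ^ (f - e')) : ℤ) : ℝ) := by
              have h7 : (p : ℝ) ^ f = (p : ℝ) ^ e' * (p : ℝ) ^ (f - e') := by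
                rw [← pow_add]
                congr 1
                omega
              push_cast
              rw [h7]
              field_simp
            rw [h6, ee_add, ee_add, ee_int, mul_one]
          rw [Finset.sum_congr rfl h4, ← Finset.mul_sum, norm_mul, ee_norm, one_mul]
          exact geom a _ p e' hp ha
      _ = (p : ℝ) ^ e' * ((range (p ^ f)).filter Q).card := by
          rw [← Finset.sum_filter, Finset.sum_const, nsmul_eq_mul, mul_comm]
  unfold Gs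
  have hpp : (0 : ℝ) < ((p ^ (f + e') : ℕ) : ℝ) := by
    push_cast
    positivity
  rw [norm_div, Complex.norm_natCast, div_mul_eq_mul_div, div_le_iff₀ hpp]
  calc _ ≤ ((p : ℝ) ^ e' * ((range (p ^ f)).filter Q).card) * (p : ℝ) ^ e' := by
        gcongr
    _ = (((range (p ^ e')).filter Q).card : ℝ) * ((p ^ (f + e') : ℕ) : ℝ) := by
        rw [hcard, Nat.cast_mul, Nat.cast_pow p (f - e'), Nat.cast_pow p (f + e')]
        have h7 : (p : ℝ) ^ (f + e') = (p : ℝ) ^ e' * (p : ℝ) ^ e' * (p : ℝ) ^ (f - e') := by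
          rw [← pow_add, ← pow_add]
          congr 1
          omega
        rw [h7]
        ring

/-- content of the derivative -/
lemma content (k : ℕ) (g : ℤ[X]) (p : ℕ) (hdeg : g.natDegree ≤ k) (hp : p.Prime)
    (hi : ∃ i : ℕ, 1 ≤ i ∧ ¬ ((p : ℤ) ∣ g.coeff i)) :
    ∃ (τ : ℕ) (P : ℤ[X]), p ^ τ ≤ k ∧ derivative g = C ((p : ℤ) ^ τ) * P ∧
      (∃ i : ℕ, ¬ ((p : ℤ) ∣ P.coeff i)) ∧ P.natDegree ≤ k - 1 := by
  classical
  obtain ⟨i, hi1, hi2⟩ := hi
  have hik : i ≤ k := by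
    by_contra hcon
    apply hi2
    rw [Polynomial.coeff_eq_zero_of_natDegree_lt (by omega)]
    exact dvd_zero _
  have hbd : ∀ t : ℕ, C ((p : ℤ) ^ t) ∣ derivative g → p ^ t ≤ k := by
    intro t ht
    rw [Polynomial.C_dvd_iff_dvd_coeff] at ht
    have h1 := ht (i - 1)
    rw [Polynomial.coeff_derivative, Nat.sub_add_cancel hi1] at h1
    have h2 : (((i - 1 : ℕ) : ℤ) + 1) = (i : ℤ) := by omega
    rw [h2] at h1
    have h4 : IsCoprime ((p : ℤ) ^ t) (g.coeff i) :=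
        IsCoprime.pow_left ((Nat.prime_iff_prime_int.1 hp).coprime_iff_not_dvd.2 hi2)
    have h5 : ((p : ℤ) ^ t) ∣ (i : ℤ) := h4.dvd_of_dvd_mul_left h1
    have h6 : p ^ t ∣ i := by exact_mod_cast h5
    exact (Nat.le_of_dvd (by omega) h6).trans hik
  set τ := Nat.findGreatest (fun t => C ((p : ℤ) ^ t) ∣ derivative g) k with hτ
  have h0 : C ((p : ℤ) ^ τ) ∣ derivative g := by
    have := Nat.findGreatest_spec (P := fun t => C ((p : ℤ) ^ t) ∣ derivative g) (Nat.zero_le k)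
      (by simp)
    exact this
  obtain ⟨P, hP⟩ := h0
  refine ⟨τ, P, hbd τ ⟨P, hP⟩, hP, ?_, ?_⟩
  · by_contra hcon
    push Not at hcon
    obtain ⟨P', hP'⟩ := (Polynomial.C_dvd_iff_dvd_coeff _ _).2 hcon
    have h1 : C ((p : ℤ) ^ (τ + 1)) ∣ derivative g := by
      refine ⟨P', ?_⟩
      rw [hP, hP', pow_succ, C_mul, mul_assoc]
    have h2 := hbd _ h1
    have h3 : τ + 1 ≤ k := (Nat.lt_pow_self hp.one_lt).le.trans h2
    have h4 := Nat.le_findGreatest (P := fun t => C ((p : ℤ) ^ t) ∣ derivative g) h3 h1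
    omega
  · have h1 : ((p : ℤ) ^ τ) ≠ 0 := by
      have := hp.pos
      positivity
    rw [← Polynomial.natDegree_C_mul (p := P) h1, ← hP]
    exact (Polynomial.natDegree_derivative_le g).trans (by omega)

/-- main estimate -/
lemma key (hS : SUBL) (k : ℕ) (hk : 2 ≤ k) (g : ℤ[X]) (p e : ℕ) (a : ℤ)
    (hdeg : g.natDegree ≤ k) (hp : p.Prime)
    (hi : ∃ i : ℕ, 1 ≤ i ∧ ¬ ((p : ℤ) ∣ g.coeff i)) (he : 2 ≤ e) (ha : ¬ ((p : ℤ) ∣ a)) :
    (p ≤ k ∧ p ^ e ≤ k ^ 3) ∨ ∃ m τ : ℕ, 1 ≤ m ∧ ‖Gs g a (p ^ e)‖ * (p : ℝ) ^ m ≤ k ∧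
      e ≤ (2 * k - 1) * m + 2 * τ ∧ p ^ τ ≤ k := by
  obtain ⟨τ, P, hτ, hP, hPi, hPd⟩ := content k g p hdeg hp hi
  have hp1 : 1 ≤ p := hp.one_lt.le
  obtain ⟨f, e', hfe, hf, hf', he'⟩ : ∃ f e' : ℕ, e = f + e' ∧ e' ≤ f ∧ f ≤ e' + 1 ∧ 1 ≤ e' :=
    ⟨(e + 1) / 2, e / 2, by omega, by omega, by omega, by omega⟩
  by_cases hc : e' ≤ τ
  · left
    have h1 : p ^ e' ≤ k := (Nat.pow_le_pow_right hp1 hc).trans hτ
    have h2 : p ≤ k := by
      calc p = p ^ 1 := (pow_one p).symm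
        _ ≤ p ^ e' := Nat.pow_le_pow_right hp1 he'
        _ ≤ k := h1
    refine ⟨h2, ?_⟩
    calc p ^ e ≤ p ^ (e' + e' + 1) := Nat.pow_le_pow_right hp1 (by omega)
      _ = p ^ e' * p ^ e' * p := by rw [pow_succ, pow_add]
      _ ≤ k * k * k := by gcongr
      _ = k ^ 3 := by ring
  · right
    push Not at hc
    obtain ⟨n, hn⟩ : ∃ n, e' = n + τ := ⟨e' - τ, by omega⟩
    have hn1 : 1 ≤ n := by omega
    set m := (n + (k - 1) - 1) / (k - 1) with hm
    have hk1 : 0 < k - 1 := by omega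
    have hm1 : 1 ≤ m := by
      rw [hm, Nat.le_div_iff_mul_le hk1]
      omega
    have hm2 : n ≤ (k - 1) * m := by
      have h1 := Nat.div_add_mod (n + (k - 1) - 1) (k - 1)
      have h2 := Nat.mod_lt (n + (k - 1) - 1) hk1
      rw [← hm] at h1
      omega
    refine ⟨m, τ, hm1, ?_, ?_, hτ⟩
    · have h1 := stat g a p f e' hp ha hf
      rw [← hfe] at h1
      have hSU := hS P (k - 1) p n (by omega) hPd hp hPi hn1
      -- the set
      have h2 : ((range (p ^ e')).filter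
          (fun v : ℕ => ((p ^ e' : ℕ) : ℤ) ∣ (derivative g).eval (v : ℤ))).card
          = p ^ τ * ((range (p ^ n)).filter
            (fun v : ℕ => ((p ^ n : ℕ) : ℤ) ∣ P.eval (v : ℤ))).card := by
        have h3 : ((range (p ^ e')).filter
            (fun v : ℕ => ((p ^ e' : ℕ) : ℤ) ∣ (derivative g).eval (v : ℤ)))
            = (range (p ^ n * p ^ τ)).filter
              (fun v : ℕ => ((p ^ n : ℕ) : ℤ) ∣ P.eval (v : ℤ)) := by
          rw [hn, pow_add]
          apply Finset.filter_congr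
          intro v _
          rw [hP, eval_mul, eval_C]
          push_cast
          rw [mul_comm ((p : ℤ) ^ n)]
          have hp0 : ((p : ℤ) ^ τ) ≠ 0 := by
            have := hp.pos
            positivity
          exact mul_dvd_mul_iff_left hp0
        rw [h3]
        apply card_periodic
        intro v
        have h4 : (((v + p ^ n : ℕ) : ℤ)) - (v : ℤ) ∣
            P.eval ((v + p ^ n : ℕ) : ℤ) - P.eval (v : ℤ) :=
          Polynomial.sub_dvd_eval_sub _ _ _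
        have h5 : (((v + p ^ n : ℕ) : ℤ)) - (v : ℤ) = ((p ^ n : ℕ) : ℤ) := by
          push_cast
          ring
        rw [h5] at h4
        exact (dvd_iff_dvd_of_dvd_sub h4)
      rw [h2] at h1
      set c := ((range (p ^ n)).filter
            (fun v : ℕ => ((p ^ n : ℕ) : ℤ) ∣ P.eval (v : ℤ))).card with hc'
      have h6 : (c : ℝ) * (p : ℝ) ^ m ≤ ((k - 1 : ℕ) : ℝ) * (p : ℝ) ^ n := by
        exact_mod_cast hSU
      have hp0 : (0 : ℝ) < (p : ℝ) := by exact_mod_cast hp.pos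
      have h7 : (‖Gs g a (p ^ e)‖ * (p : ℝ) ^ m) * (p : ℝ) ^ e' ≤ (k : ℝ) * (p : ℝ) ^ e' := by
        calc _ = (‖Gs g a (p ^ e)‖ * (p : ℝ) ^ e') * (p : ℝ) ^ m := by ring
          _ ≤ ((p ^ τ * c : ℕ) : ℝ) * (p : ℝ) ^ m := by gcongr
          _ = (p : ℝ) ^ τ * ((c : ℝ) * (p : ℝ) ^ m) := by push_cast; ring
          _ ≤ (p : ℝ) ^ τ * (((k - 1 : ℕ) : ℝ) * (p : ℝ) ^ n) := by gcongr
          _ ≤ (p : ℝ) ^ τ * ((k : ℝ) * (p : ℝ) ^ n) := by
            have hkk : ((k - 1 : ℕ) : ℝ) ≤ (k : ℝ) := by exact_mod_cast Nat.sub_le k 1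
            gcongr
          _ = _ := by rw [hn, pow_add]; ring
      exact le_of_mul_le_mul_right h7 (by positivity)
    · have h8 : (2 * k - 1) * m = 2 * ((k - 1) * m) + m := by
        obtain ⟨k', rfl⟩ : ∃ k', k = k' + 1 := ⟨k - 1, by omega⟩
        have : 2 * (k' + 1) - 1 = 2 * k' + 1 := by omega
        rw [this]
        simp
        ring
      rw [h8]
      omega

end LocAux

open LocAux

theorem loc : LOCP → SUBL → LOC := by
  intro hL hS k hk
  obtain ⟨C0, hC0⟩ := hL k (by omega)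
  refine ⟨C0 + k ^ (2 * k + 1), ?_⟩
  intro g p e a hdeg hp hi he ha
  have hp0 : (0 : ℝ) < (p : ℝ) := by exact_mod_cast hp.pos
  have hG1 := Gs_le_one g a (p ^ e)
  have hG0 := norm_nonneg (Gs g a (p ^ e))
  have hk1 : (1 : ℝ) ≤ k := by exact_mod_cast (by omega : 1 ≤ k)
  rcases Nat.lt_or_ge e 2 with he2 | he2
  · have he1 : e = 1 := by omega
    subst he1
    rw [pow_one] at hG1 hG0 ⊢
    rw [pow_one]
    have h1 := hC0 g p a hdeg hp hi ha
    calc ‖Gs g a p‖ ^ kap k * (p : ℝ) ≤ ‖Gs g a p‖ ^ k * (p : ℝ) := by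
          gcongr ?_ * _
          apply pow_le_pow_of_le_one hG0 hG1
          unfold kap
          omega
      _ ≤ C0 := h1
      _ ≤ _ := by
        push_cast
        have : (0 : ℝ) ≤ (k : ℝ) ^ (2 * k + 1) := by positivity
        linarith
  · have hCk : ((k : ℝ) ^ (2 * k + 1)) ≤ ((C0 + k ^ (2 * k + 1) : ℕ) : ℝ) := by
      push_cast
      have : (0 : ℝ) ≤ (C0 : ℝ) := by positivity
      linarith
    refine le_trans ?_ hCk
    rcases key hS k hk g p e a hdeg hp hi he2 ha with ⟨_, h2⟩ | ⟨m, τ, hm, h1, h2, h3⟩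
    · calc ‖Gs g a (p ^ e)‖ ^ kap k * ((p : ℝ) ^ e) ≤ 1 * ((p : ℝ) ^ e) := by
            gcongr
            exact pow_le_one₀ hG0 hG1
        _ ≤ (k : ℝ) ^ 3 := by
            rw [one_mul]
            exact_mod_cast h2
        _ ≤ (k : ℝ) ^ (2 * k + 1) := by
            apply pow_le_pow_right₀ hk1
            omega
    · have hp1 : (1 : ℝ) ≤ (p : ℝ) := by exact_mod_cast hp.one_lt.le
      calc ‖Gs g a (p ^ e)‖ ^ kap k * ((p : ℝ) ^ e)
          ≤ ‖Gs g a (p ^ e)‖ ^ kap k * ((p : ℝ) ^ ((2 * k - 1) * m + 2 * τ)) := by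
            gcongr
        _ = (‖Gs g a (p ^ e)‖ * (p : ℝ) ^ m) ^ (2 * k - 1) * ((p : ℝ) ^ τ) ^ 2 := by
            unfold kap
            rw [mul_pow, pow_add, mul_comm (2 * k - 1) m, pow_mul, mul_comm 2 τ, pow_mul]
            ring
        _ ≤ (k : ℝ) ^ (2 * k - 1) * (k : ℝ) ^ 2 := by
            gcongr
            exact_mod_cast h3
        _ = (k : ℝ) ^ (2 * k + 1) := by
            rw [← pow_add]
            congr 1
            omega

theorem loc2 : SUBL → LOC2 := by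
  intro hS k hk
  refine ⟨k, ?_⟩
  intro g p e a hdeg hp hi he ha
  have hp0 : (0 : ℝ) < (p : ℝ) := by exact_mod_cast hp.pos
  have hG1 := Gs_le_one g a (p ^ e)
  have hG0 := norm_nonneg (Gs g a (p ^ e))
  rcases key hS k hk g p e a hdeg hp hi he ha with ⟨h1, _⟩ | ⟨m, τ, hm, h1, h2, h3⟩
  · calc _ ≤ 1 * (p : ℝ) := by gcongr
      _ ≤ (k : ℝ) := by
        rw [one_mul]
        exact_mod_cast h1
  · refine le_trans ?_ h1
    gcongr
    calc (p : ℝ) = (p : ℝ) ^ 1 := (pow_one _).symm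
      _ ≤ (p : ℝ) ^ m := pow_le_pow_right₀ (by exact_mod_cast hp.one_lt.le) hm

end Vale.Agent.P042
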