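import Vale.Agent.P042.Core

open Polynomial Finset

namespace Vale.Agent.P042

namespace LocPAux

/-! ### Newton's identities -/

/-- equal power sums `1..k` in a field where `1..k` are invertible: same elementary symmetric
functions -/
lemma esymm_eq {F : Type} [Field F] (k : ℕ) (hk : ∀ n : ℕ, 1 ≤ n → n ≤ k → (n : F) ≠ 0)
    (u u' : Fin k → F) (h : ∀ j : Fin k, ∑ i, u i ^ ((j : ℕ) + 1) = ∑ i, u' i ^ ((j : ℕ) + 1)) :
    ∀ n : ℕ, n ≤ k → MvPolynomial.aeval u (MvPolynomial.esymm (Fin k) F n)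
      = MvPolynomial.aeval u' (MvPolynomial.esymm (Fin k) F n) := by
  intro n
  induction n using Nat.strong_induction_on with
  | _ n ih =>
    intro hn
    rcases Nat.eq_zero_or_pos n with h0 | h0
    · subst h0
      simp [MvPolynomial.esymm_zero]
    · have hN := MvPolynomial.mul_esymm_eq_sum (Fin k) F n
      have h1 := congrArg (MvPolynomial.aeval u) hN
      have h2 := congrArg (MvPolynomial.aeval u') hN
      simp only [map_mul, map_natCast, map_pow, map_neg, map_one, map_sum] at h1 h2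
      have h3 : ∑ a ∈ (antidiagonal n).filter (fun a => a.1 < n), (-1) ^ a.1 *
            MvPolynomial.aeval u (MvPolynomial.esymm (Fin k) F a.1) *
            MvPolynomial.aeval u (MvPolynomial.psum (Fin k) F a.2)
          = ∑ a ∈ (antidiagonal n).filter (fun a => a.1 < n), (-1) ^ a.1 *
            MvPolynomial.aeval u' (MvPolynomial.esymm (Fin k) F a.1) *
            MvPolynomial.aeval u' (MvPolynomial.psum (Fin k) F a.2) := by
        apply Finset.sum_congr rfl
        intro a ha
        rw [Finset.mem_filter, Finset.HasAntidiagonal.mem_antidiagonal] at ha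
        obtain ⟨ha1, ha2⟩ := ha
        rw [ih a.1 ha2 (by omega)]
        congr 1
        simp only [MvPolynomial.psum, map_sum, map_pow, MvPolynomial.aeval_X]
        have := h ⟨a.2 - 1, by omega⟩
        simp only at this
        rw [Nat.sub_add_cancel (by omega)] at this
        exact this
      rw [h3, ← h2] at h1
      exact mul_left_cancel₀ (hk n h0 hn) h1

lemma root_of_power_sums {F : Type} [Field F] (k : ℕ)
    (hk : ∀ n : ℕ, 1 ≤ n → n ≤ k → (n : F) ≠ 0)
    (u u' : Fin k → F) (h : ∀ j : Fin k, ∑ i, u i ^ ((j : ℕ) + 1) = ∑ i, u' i ^ ((j : ℕ) + 1))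
    (i : Fin k) : ∃ j, u' i = u j := by
  have h1 : ∀ v : Fin k → F, ((univ.val.map v).map fun t => X - C t).prod =
      ∑ j ∈ Finset.range (k + 1),
        (-1) ^ j * (C (MvPolynomial.aeval v (MvPolynomial.esymm (Fin k) F j)) * X ^ (k - j)) := by
    intro v
    rw [Multiset.prod_X_sub_X_eq_sum_esymm]
    have hc : Multiset.card (Multiset.map v (univ : Finset (Fin k)).val) = k := by simp
    rw [hc]
    apply Finset.sum_congr rfl
    intro j _
    rw [MvPolynomial.aeval_esymm_eq_multiset_esymm]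
  have h2 : ((univ.val.map u).map fun t => (X : F[X]) - C t).prod
      = ((univ.val.map u').map fun t => X - C t).prod := by
    rw [h1 u, h1 u']
    apply Finset.sum_congr rfl
    intro j hj
    rw [esymm_eq k hk u u' h j (by have := Finset.mem_range.1 hj; omega)]
  have h3 := congrArg (Polynomial.eval (u' i)) h2
  rw [Polynomial.eval_multiset_prod, Polynomial.eval_multiset_prod] at h3
  simp only [Multiset.map_map, Function.comp_def, eval_sub, eval_X, eval_C] at h3
  have h4 : (Multiset.map (fun x => u' i - u' x) (univ : Finset (Fin k)).val).prod = 0 := by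
    rw [Multiset.prod_eq_zero_iff]
    rw [Multiset.mem_map]
    exact ⟨i, Finset.mem_univ_val i, sub_self _⟩
  rw [h4, Multiset.prod_eq_zero_iff, Multiset.mem_map] at h3
  obtain ⟨j, _, hj⟩ := h3
  exact ⟨j, sub_eq_zero.1 hj⟩

section
variable {p : ℕ} [hp : Fact p.Prime]

lemma chi_sum {ι : Type} (s : Finset ι) (f : ι → ZMod p) :
    (ZMod.stdAddChar : AddChar (ZMod p) ℂ) (∑ i ∈ s, f i)
      = ∏ i ∈ s, (ZMod.stdAddChar : AddChar (ZMod p) ℂ) (f i) := by
  classical
  induction s using Finset.induction_on with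
  | empty => simp
  | insert a s ha ih =>
    rw [Finset.sum_insert ha, Finset.prod_insert ha, AddChar.map_add_eq_mul, ih]

/-- complete sum of a polynomial over `ZMod p` -/
noncomputable def SS (f : (ZMod p)[X]) : ℂ :=
  ∑ u : ZMod p, (ZMod.stdAddChar : AddChar (ZMod p) ℂ) (f.eval u)

/-- complete sum with coefficient vector `b` (exponents `1..k`) -/
noncomputable def TT (k : ℕ) (b : Fin k → ZMod p) : ℂ :=
  ∑ u : ZMod p, (ZMod.stdAddChar : AddChar (ZMod p) ℂ) (∑ j : Fin k, b j * u ^ ((j : ℕ) + 1))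

lemma norm_chi (x : ZMod p) : ‖(ZMod.stdAddChar : AddChar (ZMod p) ℂ) x‖ = 1 :=
  AddChar.norm_apply _ _

lemma SS_eq_TT (k : ℕ) (f : (ZMod p)[X]) (hf : f.natDegree ≤ k) :
    ‖SS f‖ = ‖TT k (fun j => f.coeff ((j : ℕ) + 1))‖ := by
  have h : SS f = (ZMod.stdAddChar : AddChar (ZMod p) ℂ) (f.coeff 0)
      * TT k (fun j => f.coeff ((j : ℕ) + 1)) := by
    unfold SS TT
    rw [Finset.mul_sum]
    apply Finset.sum_congr rfl
    intro u _
    rw [← AddChar.map_add_eq_mul]
    congr 1
    rw [Polynomial.eval_eq_sum_range' (Nat.lt_succ_of_le hf), Finset.sum_range_succ']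
    rw [pow_zero, mul_one, add_comm]
    congr 1
    rw [Finset.sum_range]
  rw [h, norm_mul, norm_chi, one_mul]

/-- orthogonality on `F^k` -/
lemma orth (k : ℕ) (w : Fin k → ZMod p) :
    ∑ b : Fin k → ZMod p, (ZMod.stdAddChar : AddChar (ZMod p) ℂ) (∑ j, b j * w j)
      = if w = 0 then (p : ℂ) ^ k else 0 := by
  classical
  have h1 : ∀ b : Fin k → ZMod p, (ZMod.stdAddChar : AddChar (ZMod p) ℂ) (∑ j, b j * w j)
      = ∏ j, (ZMod.stdAddChar : AddChar (ZMod p) ℂ) (b j * w j) := by
    intro b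
    rw [chi_sum]
  simp_rw [h1]
  have h2 := Finset.prod_univ_sum (fun _ : Fin k => (univ : Finset (ZMod p)))
    (fun j x => (ZMod.stdAddChar : AddChar (ZMod p) ℂ) (x * w j))
  rw [Fintype.piFinset_univ] at h2
  rw [← h2]
  have h3 : ∀ j, ∑ x : ZMod p, (ZMod.stdAddChar : AddChar (ZMod p) ℂ) (x * w j)
      = if w j = 0 then (p : ℂ) else 0 := by
    intro j
    rw [AddChar.sum_mulShift (w j) (ZMod.isPrimitive_stdAddChar p)]
    split_ifs <;> simp [ZMod.card]
  simp_rw [h3]
  split_ifs with hw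
  · subst hw
    simp
  · have : ∃ j, w j ≠ 0 := by
      by_contra hcon
      push Not at hcon
      exact hw (funext hcon)
    obtain ⟨j, hj⟩ := this
    apply Finset.prod_eq_zero (Finset.mem_univ j)
    rw [if_neg hj]

/-- power sum vector -/
def ps (k : ℕ) (u : Fin k → ZMod p) : Fin k → ZMod p := fun j => ∑ i, u i ^ ((j : ℕ) + 1)

lemma TT_pow (k : ℕ) (b : Fin k → ZMod p) :
    TT k b ^ k = ∑ u : Fin k → ZMod p,
      (ZMod.stdAddChar : AddChar (ZMod p) ℂ) (∑ j, b j * ps k u j) := by
  unfold TT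
  rw [Fintype.sum_pow]
  apply Finset.sum_congr rfl
  intro u _
  rw [← chi_sum]
  congr 1
  rw [Finset.sum_comm]
  apply Finset.sum_congr rfl
  intro j _
  unfold ps
  rw [Finset.mul_sum]

lemma TT_conj_pow (k : ℕ) (b : Fin k → ZMod p) :
    (starRingEnd ℂ) (TT k b) ^ k = ∑ u : Fin k → ZMod p,
      (ZMod.stdAddChar : AddChar (ZMod p) ℂ) (- ∑ j, b j * ps k u j) := by
  rw [← map_pow, TT_pow, map_sum]
  apply Finset.sum_congr rfl
  intro u _
  rw [AddChar.map_neg_eq_conj]

lemma moment_eq (k : ℕ) :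
    ((∑ b : Fin k → ZMod p, ‖TT k b‖ ^ (2 * k) : ℝ) : ℂ)
      = (p : ℂ) ^ k * ((univ.filter (fun x : (Fin k → ZMod p) × (Fin k → ZMod p) =>
          ps k x.1 = ps k x.2)).card : ℂ) := by
  classical
  push_cast
  have h1 : ∀ b : Fin k → ZMod p, ((‖TT k b‖ : ℝ) : ℂ) ^ (2 * k)
      = ∑ x : (Fin k → ZMod p) × (Fin k → ZMod p),
        (ZMod.stdAddChar : AddChar (ZMod p) ℂ) (∑ j, b j * (ps k x.1 - ps k x.2) j) := by
    intro b
    have h2 : ((‖TT k b‖ : ℝ) : ℂ) ^ (2 * k) = TT k b ^ k * (starRingEnd ℂ) (TT k b) ^ k := by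
      rw [← mul_pow, RCLike.mul_conj, ← pow_mul]
      rfl
    rw [h2, TT_pow, TT_conj_pow, Finset.sum_mul_sum, ← Finset.univ_product_univ,
      Finset.sum_product]
    apply Finset.sum_congr rfl
    intro u _
    apply Finset.sum_congr rfl
    intro v _
    rw [← AddChar.map_add_eq_mul]
    congr 1
    rw [← sub_eq_add_neg, ← Finset.sum_sub_distrib]
    apply Finset.sum_congr rfl
    intro j _
    simp only [Pi.sub_apply]
    ring
  simp_rw [h1]
  rw [Finset.sum_comm]
  simp_rw [orth, sub_eq_zero]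
  rw [← Finset.sum_filter, Finset.sum_const, nsmul_eq_mul, mul_comm]

lemma count_ps (k : ℕ) (hk : ∀ n : ℕ, 1 ≤ n → n ≤ k → (n : ZMod p) ≠ 0) :
    (univ.filter (fun x : (Fin k → ZMod p) × (Fin k → ZMod p) => ps k x.1 = ps k x.2)).card
      ≤ p ^ k * k ^ k := by
  classical
  have h1 : (univ.filter (fun x : (Fin k → ZMod p) × (Fin k → ZMod p) => ps k x.1 = ps k x.2))
      ⊆ (univ : Finset ((Fin k → ZMod p) × (Fin k → Fin k))).image
        (fun y => (y.1, fun i => y.1 (y.2 i))) := by
    intro x hx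
    rw [Finset.mem_filter] at hx
    have h2 := root_of_power_sums k hk x.1 x.2 (fun j => congrFun hx.2 j)
    choose φ hφ using h2
    rw [Finset.mem_image]
    refine ⟨(x.1, φ), Finset.mem_univ _, ?_⟩
    ext1
    · rfl
    · funext i
      exact (hφ i).symm
  refine (Finset.card_le_card h1).trans (Finset.card_image_le.trans ?_)
  simp [ZMod.card]

lemma moment_le (k : ℕ) (hk : ∀ n : ℕ, 1 ≤ n → n ≤ k → (n : ZMod p) ≠ 0) :
    ∑ b : Fin k → ZMod p, ‖TT k b‖ ^ (2 * k) ≤ (p : ℝ) ^ k * ((p : ℝ) ^ k * (k : ℝ) ^ k) := by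
  have h1 := moment_eq (p := p) k
  have h2 : (∑ b : Fin k → ZMod p, ‖TT k b‖ ^ (2 * k) : ℝ)
      = (p : ℝ) ^ k * ((univ.filter (fun x : (Fin k → ZMod p) × (Fin k → ZMod p) =>
          ps k x.1 = ps k x.2)).card : ℝ) := by
    exact_mod_cast h1
  rw [h2]
  have h3 := count_ps (p := p) k hk
  have h4 : ((univ.filter (fun x : (Fin k → ZMod p) × (Fin k → ZMod p) =>
          ps k x.1 = ps k x.2)).card : ℝ) ≤ (p : ℝ) ^ k * (k : ℝ) ^ k := by
    exact_mod_cast h3
  gcongr

/-- affine changes of variables -/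
lemma SS_affine (f : (ZMod p)[X]) (a m : ZMod p) (ha : a ≠ 0) :
    SS ((taylor m f).comp (C a * X)) = SS f := by
  unfold SS
  have h1 : ∀ u : ZMod p, ((taylor m f).comp (C a * X)).eval u = f.eval (a * u + m) := by
    intro u
    simp [taylor_apply, eval_comp]
  simp_rw [h1]
  have hb : Function.Bijective (fun u : ZMod p => a * u + m) := by
    apply Function.Injective.bijective_of_finite
    intro x y hxy
    simp only at hxy
    exact mul_left_cancel₀ ha (add_right_cancel hxy)
  exact Function.Bijective.sum_comp hb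
    (fun x => (ZMod.stdAddChar : AddChar (ZMod p) ℂ) (f.eval x))

/-- coefficient vector of the transformed polynomial -/
noncomputable def vec (k : ℕ) (f : (ZMod p)[X]) (y : ZMod p × ZMod p) : Fin k → ZMod p :=
  fun j => (hasseDeriv ((j : ℕ) + 1) f).eval y.2 * y.1 ^ ((j : ℕ) + 1)

lemma TT_vec (k : ℕ) (f : (ZMod p)[X]) (hf : f.natDegree ≤ k) (y : ZMod p × ZMod p)
    (hy : y.1 ≠ 0) : ‖TT k (vec k f y)‖ = ‖SS f‖ := by
  rw [← SS_affine f y.1 y.2 hy, SS_eq_TT k]
  · congr 2
    funext j
    unfold vec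
    rw [comp_C_mul_X_coeff, taylor_coeff]
  · refine (natDegree_comp_le).trans ?_
    rw [natDegree_taylor]
    calc f.natDegree * (C y.1 * X : (ZMod p)[X]).natDegree ≤ f.natDegree * 1 := by
          gcongr
          exact (natDegree_C_mul_le _ _).trans natDegree_X_le
      _ ≤ k := by omega

/-- fibres of `vec` -/
lemma fibre (k d : ℕ) (f : (ZMod p)[X]) (hd : f.natDegree = d) (hd2 : 2 ≤ d) (hdk : d ≤ k)
    (hpk : (d : ZMod p) ≠ 0) (b : Fin k → ZMod p) :
    ((univ.filter (fun y : ZMod p × ZMod p => y.1 ≠ 0)).filter (fun y => vec k f y = b)).card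
      ≤ k := by
  classical
  have hf0 : f ≠ 0 := by
    intro h
    rw [h, natDegree_zero] at hd
    omega
  set c := f.coeff d with hc
  have hc0 : c ≠ 0 := by
    rw [hc, ← hd]
    exact leadingCoeff_ne_zero.2 hf0
  -- leading coefficient
  have hA : ∀ y : ZMod p × ZMod p, vec k f y ⟨d - 1, by omega⟩ = c * y.1 ^ d := by
    intro y
    unfold vec
    have h1 : d - 1 + 1 = d := by omega
    simp only [h1]
    have h2 : (hasseDeriv d f) = C c := by
      ext n
      rw [hasseDeriv_coeff, coeff_C]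
      split_ifs with hn
      · subst hn
        simp [hc]
      · rw [coeff_eq_zero_of_natDegree_lt (by omega), mul_zero]
    rw [h2, eval_C]
  have hB : ∀ y : ZMod p × ZMod p, vec k f y ⟨d - 2, by omega⟩
      = (f.coeff (d - 1) + d * c * y.2) * y.1 ^ (d - 1) := by
    intro y
    unfold vec
    have h1 : d - 2 + 1 = d - 1 := by omega
    simp only [h1]
    have h2 : (hasseDeriv (d - 1) f) = C (f.coeff (d - 1)) + C (d * c) * X := by
      ext n
      rw [hasseDeriv_coeff, coeff_add, coeff_C, coeff_C_mul, coeff_X]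
      rcases n with _ | _ | n
      · simp
      · have h3 : 0 + 1 + (d - 1) = d := by omega
        rw [h3]
        have h4 : d.choose (d - 1) = d := by
          rw [Nat.choose_symm_of_eq_add (by omega : d = (d - 1) + 1), Nat.choose_one_right]
        rw [h4]
        simp [hc]
      · rw [coeff_eq_zero_of_natDegree_lt (by omega), mul_zero]
        simp
    rw [h2]
    simp
  -- injectivity of the first coordinate on the fibre
  set S := ((univ.filter (fun y : ZMod p × ZMod p => y.1 ≠ 0)).filter (fun y => vec k f y = b))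
    with hS
  have hinj : Set.InjOn (fun y : ZMod p × ZMod p => y.1) (S : Set (ZMod p × ZMod p)) := by
    intro y hy z hz hyz
    rw [Finset.mem_coe, hS, Finset.mem_filter, Finset.mem_filter] at hy hz
    simp only at hyz
    have h1 := hB y
    have h2 := hB z
    rw [hy.2] at h1
    rw [hz.2, ← hyz, h1] at h2
    have h3 := mul_right_cancel₀ (pow_ne_zero _ hy.1.2) h2
    have h4 := add_left_cancel h3
    have h5 := mul_left_cancel₀ (mul_ne_zero hpk hc0) h4
    exact Prod.ext hyz h5
  rw [← Finset.card_image_of_injOn hinj]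
  have hsub : S.image (fun y : ZMod p × ZMod p => y.1)
      ⊆ (nthRoots d (b ⟨d - 1, by omega⟩ / c)).toFinset := by
    intro a ha
    rw [Finset.mem_image] at ha
    obtain ⟨y, hy, rfl⟩ := ha
    rw [hS, Finset.mem_filter, Finset.mem_filter] at hy
    rw [Multiset.mem_toFinset, mem_nthRoots (by omega)]
    have h1 := hA y
    rw [hy.2] at h1
    rw [h1]
    field_simp
  refine (Finset.card_le_card hsub).trans ?_
  refine (Multiset.toFinset_card_le _).trans ?_
  exact (card_nthRoots _ _).trans hdk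

/-- Mordell's bound -/
lemma mordell (k d : ℕ) (f : (ZMod p)[X]) (hd : f.natDegree = d) (hd1 : 1 ≤ d) (hdk : d ≤ k)
    (hpk : k < p) :
    ‖SS f‖ ^ (2 * k) * ((p : ℝ) * (p - 1)) ≤ k * ((p : ℝ) ^ k * ((p : ℝ) ^ k * (k : ℝ) ^ k)) := by
  classical
  have hk0 : ∀ n : ℕ, 1 ≤ n → n ≤ k → (n : ZMod p) ≠ 0 := by
    intro n h1 h2 h3
    rw [ZMod.natCast_eq_zero_iff] at h3
    have := Nat.le_of_dvd (by omega) h3
    omega
  rcases Nat.lt_or_ge d 2 with h2 | h2
  · -- linear polynomials
    have hd' : d = 1 := by omega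
    have h3 : SS f = 0 := by
      unfold SS
      have h4 : ∀ u : ZMod p, (ZMod.stdAddChar : AddChar (ZMod p) ℂ) (f.eval u)
          = (ZMod.stdAddChar : AddChar (ZMod p) ℂ) (f.coeff 0)
            * (ZMod.stdAddChar : AddChar (ZMod p) ℂ) (u * f.coeff 1) := by
        intro u
        rw [← AddChar.map_add_eq_mul]
        congr 1
        rw [Polynomial.eval_eq_sum_range, hd, hd', Finset.sum_range_succ, Finset.sum_range_one]
        ring
      simp_rw [h4]
      rw [← Finset.mul_sum, AddChar.sum_mulShift _ (ZMod.isPrimitive_stdAddChar p)]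
      have h5 : f.coeff 1 ≠ 0 := by
        rw [← hd', ← hd]
        apply leadingCoeff_ne_zero.2
        intro h
        rw [h, natDegree_zero] at hd
        omega
      rw [if_neg h5]
      simp
    rw [h3, norm_zero, zero_pow (by omega), zero_mul]
    positivity
  · set D := univ.filter (fun y : ZMod p × ZMod p => y.1 ≠ 0) with hD
    have hDcard : D.card = (p - 1) * p := by
      have : D = (univ.filter (fun x : ZMod p => x ≠ 0)) ×ˢ (univ : Finset (ZMod p)) := by
        ext y
        simp [hD]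
      rw [this, Finset.card_product, Finset.card_univ, ZMod.card, Finset.filter_ne',
        Finset.card_erase_of_mem (Finset.mem_univ _), Finset.card_univ, ZMod.card]
    have h3 : D.card ≤ k * (D.image (vec k f)).card := by
      apply Finset.card_le_mul_card_image
      intro b _
      exact fibre k d f hd h2 hdk (hk0 d (by omega) hdk) b
    have h4 : ((D.image (vec k f)).card : ℝ) * ‖SS f‖ ^ (2 * k)
        ≤ ∑ b : Fin k → ZMod p, ‖TT k b‖ ^ (2 * k) := by
      calc ((D.image (vec k f)).card : ℝ) * ‖SS f‖ ^ (2 * k)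
          = ∑ b ∈ D.image (vec k f), ‖TT k b‖ ^ (2 * k) := by
            rw [Finset.sum_congr rfl (g := fun _ => ‖SS f‖ ^ (2 * k)), Finset.sum_const,
              nsmul_eq_mul]
            intro b hb
            rw [Finset.mem_image] at hb
            obtain ⟨y, hy, rfl⟩ := hb
            rw [hD, Finset.mem_filter] at hy
            rw [TT_vec k f (by omega) y hy.2]
        _ ≤ _ := by
            apply Finset.sum_le_sum_of_subset_of_nonneg (Finset.subset_univ _)
            intro b _ _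
            positivity
    have h5 := h4.trans (moment_le (p := p) k hk0)
    have h6 : ((p : ℝ) * (p - 1)) ≤ k * ((D.image (vec k f)).card : ℝ) := by
      have h7 : (((p - 1) * p : ℕ) : ℝ) ≤ ((k * (D.image (vec k f)).card : ℕ) : ℝ) := by
        rw [← hDcard]
        exact_mod_cast h3
      push_cast [Nat.cast_sub hp.out.one_lt.le] at h7
      linarith
    calc ‖SS f‖ ^ (2 * k) * ((p : ℝ) * (p - 1))
        ≤ ‖SS f‖ ^ (2 * k) * (k * ((D.image (vec k f)).card : ℝ)) := by gcongr
      _ = k * (((D.image (vec k f)).card : ℝ) * ‖SS f‖ ^ (2 * k)) := by ring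
      _ ≤ _ := by gcongr

lemma ee_eq_chi (z : ℤ) : ee ((z : ℝ) / (p : ℝ)) = (ZMod.stdAddChar : AddChar (ZMod p) ℂ) z := by
  rw [ZMod.stdAddChar_coe]
  unfold ee
  congr 1
  push_cast
  ring

lemma Gs_eq (g : ℤ[X]) (a : ℤ) :
    Gs g a p = SS (C (a : ZMod p) * g.map (Int.castRingHom (ZMod p))) / (p : ℂ) := by
  unfold Gs SS
  congr 1
  have h1 : ∀ u ∈ range p, ee ((a : ℝ) * ((g.eval (u : ℤ) : ℤ) : ℝ) / (p : ℝ))
      = (ZMod.stdAddChar : AddChar (ZMod p) ℂ)
        ((C (a : ZMod p) * g.map (Int.castRingHom (ZMod p))).eval (u : ZMod p)) := by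
    intro u _
    have h2 := ee_eq_chi (p := p) (a * g.eval (u : ℤ))
    push_cast at h2
    rw [h2]
    congr 1
    rw [eval_mul, eval_C]
    congr 1
    have h3 := Polynomial.eval_intCast_map (Int.castRingHom (ZMod p)) g (u : ℤ)
    simp only [eq_intCast, Int.cast_natCast] at h3
    rw [← h3]
  rw [Finset.sum_congr rfl h1]
  apply Finset.sum_bij' (fun (u : ℕ) _ => (u : ZMod p)) (fun (x : ZMod p) _ => x.val)
  · intro u _
    exact Finset.mem_univ _
  · intro x _
    exact Finset.mem_range.2 (ZMod.val_lt x)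
  · intro u hu
    exact ZMod.val_cast_of_lt (Finset.mem_range.1 hu)
  · intro x _
    exact ZMod.natCast_zmod_val x
  · intro u _
    rfl

end

end LocPAux

open LocPAux

theorem locp : LOCP := by
  intro k hk
  refine ⟨2 * k ^ (k + 1), ?_⟩
  intro g p a hdeg hp hi ha
  have : Fact p.Prime := ⟨hp⟩
  have hp0 : (0 : ℝ) < (p : ℝ) := by exact_mod_cast hp.pos
  have hk1 : (1 : ℝ) ≤ k := by exact_mod_cast hk
  have hG0 := norm_nonneg (Gs g a p)
  set f : (ZMod p)[X] := C (a : ZMod p) * g.map (Int.castRingHom (ZMod p)) with hf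
  have hG := Gs_eq (p := p) g a
  rw [← hf] at hG
  have hGn : ‖Gs g a p‖ * p = ‖SS f‖ := by
    rw [hG, norm_div, Complex.norm_natCast]
    field_simp
  have hS1 : ‖SS f‖ ≤ p := by
    unfold SS
    refine (norm_sum_le _ _).trans ?_
    simp [ZMod.card]
  rcases Nat.lt_or_ge k p with hpk | hpk
  · -- p > k
    have ha' : (a : ZMod p) ≠ 0 := by
      rw [Ne, ZMod.intCast_zmod_eq_zero_iff_dvd]
      exact ha
    have hfdeg : f.natDegree ≤ k := by
      rw [hf, natDegree_C_mul ha']
      exact (natDegree_map_le).trans hdeg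
    have hf1 : 1 ≤ f.natDegree := by
      obtain ⟨i, hi1, hi2⟩ := hi
      refine hi1.trans (le_natDegree_of_ne_zero ?_)
      rw [hf, coeff_C_mul, coeff_map]
      apply mul_ne_zero ha'
      simp only [eq_intCast]
      rw [Ne, ZMod.intCast_zmod_eq_zero_iff_dvd]
      exact hi2
    have h1 := mordell k f.natDegree f rfl hf1 hfdeg hpk
    rw [← hGn] at h1
    have h2 : (‖Gs g a p‖ ^ k * p) ^ 2 ≤ (2 * (k : ℝ) ^ (k + 1)) ^ 2 := by
      have hp2 : (p : ℝ) ≤ 2 * (p - 1) := by
        have : (2 : ℝ) ≤ p := by exact_mod_cast hp.two_le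
        linarith
      have h3 : (‖Gs g a p‖ ^ k * p) ^ 2 * ((p : ℝ) ^ (2 * k))
          ≤ (2 * (k : ℝ) ^ (k + 1)) * ((p : ℝ) ^ (2 * k)) := by
        calc (‖Gs g a p‖ ^ k * p) ^ 2 * ((p : ℝ) ^ (2 * k))
            = (‖Gs g a p‖ * p) ^ (2 * k) * (p * p) := by ring
          _ ≤ (‖Gs g a p‖ * p) ^ (2 * k) * (p * (2 * (p - 1))) := by gcongr
          _ = 2 * ((‖Gs g a p‖ * p) ^ (2 * k) * (p * (p - 1))) := by ring
          _ ≤ 2 * (k * ((p : ℝ) ^ k * ((p : ℝ) ^ k * (k : ℝ) ^ k))) := by gcongr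
          _ = _ := by ring
      have h4 := le_of_mul_le_mul_right h3 (by positivity)
      have h5 : (1 : ℝ) ≤ 2 * (k : ℝ) ^ (k + 1) := by
        have := one_le_pow₀ hk1 (n := k + 1)
        linarith
      nlinarith
    have h6 := abs_le_of_sq_le_sq' h2 (by positivity)
    push_cast
    exact h6.2
  · -- p ≤ k
    have hG1 : ‖Gs g a p‖ ≤ 1 := by
      rw [hG, norm_div, Complex.norm_natCast]
      exact div_le_one_of_le₀ hS1 hp0.le
    have h1 : (p : ℝ) ≤ k := by exact_mod_cast hpk
    calc ‖Gs g a p‖ ^ k * (p : ℝ) ≤ 1 * k := by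
          gcongr
          exact pow_le_one₀ hG0 hG1
      _ ≤ _ := by
        push_cast
        have h2 : (k : ℝ) ≤ (k : ℝ) ^ (k + 1) := le_self_pow₀ hk1 (by omega)
        linarith

end Vale.Agent.P042
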