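import Vale.Agent.P042.Core2

/-!
# P042, module H3n: the density increment iteration
-/

open Polynomial Finset

namespace Vale.Agent.P042

namespace MainDPf

/-- passing to a class modulo `μ` -/
theorem refine_class (B : Finset ℕ) (z l q μ c : ℕ) (hq : 1 ≤ q) (hμ : 1 ≤ μ) (hqμ : q ∣ μ)
    (hB : ∀ n ∈ B, n ∈ Ioc z (z + l) ∧ n ≡ c [MOD q]) :
    ∃ (A' : Finset ℕ) (w : ℤ), A' ⊆ Icc 1 (l / μ + 1) ∧ B.card * q ≤ μ * A'.card ∧
      ∀ a ∈ A', ∃ n ∈ B, (n : ℤ) = w + (μ : ℤ) * (a : ℤ) := by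
  rcases B.eq_empty_or_nonempty with hBe | ⟨n₁, hn₁⟩
  · refine ⟨∅, 0, by simp, by simp [hBe], by simp⟩
  obtain ⟨ν, hν⟩ := hqμ
  have hν1 : 1 ≤ ν := by
    rcases Nat.eq_zero_or_pos ν with h | h
    · rw [h, mul_zero] at hν; omega
    · exact h
  set c' := (n₁ - z - 1) % q with hc'
  set R := (range ν).image (fun j => c' + q * j) with hR
  have hRcard : R.card ≤ ν := by
    calc R.card ≤ (range ν).card := card_image_le
      _ = ν := card_range ν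
  have hmaps : ∀ n ∈ B, (n - z - 1) % μ ∈ R := by
    intro n hn
    obtain ⟨h1, h2⟩ := hB n hn
    obtain ⟨h1', h2'⟩ := hB n₁ hn₁
    rw [mem_Ioc] at h1 h1'
    have hcong : n - z - 1 ≡ n₁ - z - 1 [MOD q] := by
      have h3 : n ≡ n₁ [MOD q] := h2.trans h2'.symm
      have h4 : (n - z - 1) + (z + 1) ≡ (n₁ - z - 1) + (z + 1) [MOD q] := by
        have e1 : (n - z - 1) + (z + 1) = n := by omega
        have e2 : (n₁ - z - 1) + (z + 1) = n₁ := by omega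
        rw [e1, e2]; exact h3
      exact Nat.ModEq.add_right_cancel' (z + 1) h4
    have h5 : ((n - z - 1) % μ) % q = c' := by
      rw [hν, Nat.mod_mul_right_mod, hc']
      exact hcong
    rw [hR, mem_image]
    refine ⟨((n - z - 1) % μ) / q, ?_, ?_⟩
    · rw [mem_range, Nat.div_lt_iff_lt_mul (by omega)]
      calc (n - z - 1) % μ < μ := Nat.mod_lt _ (by omega)
        _ = ν * q := by rw [hν]; ring
    · rw [← h5]
      exact Nat.mod_add_div _ _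
  have hRne : R.Nonempty := ⟨_, hmaps n₁ hn₁⟩
  have hpig : ∃ y ∈ R, ((B.card : ℚ) / ν) ≤ ((B.filter (fun x => (x - z - 1) % μ = y)).card : ℚ) := by
    apply exists_le_card_fiber_of_nsmul_le_card_of_maps_to hmaps hRne
    rw [nsmul_eq_mul]
    have h1 : (R.card : ℚ) ≤ ν := by exact_mod_cast hRcard
    have h2 : (0 : ℚ) < ν := by exact_mod_cast hν1
    calc (R.card : ℚ) * ((B.card : ℚ) / ν) ≤ (ν : ℚ) * ((B.card : ℚ) / ν) := by
          apply mul_le_mul_of_nonneg_right h1 (by positivity)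
      _ = (B.card : ℚ) := by field_simp
  obtain ⟨ρ, hρR, hρ⟩ := hpig
  set Bρ := B.filter (fun x => (x - z - 1) % μ = ρ) with hBρ
  have hinj : Set.InjOn (fun n => (n - z - 1) / μ + 1) (Bρ : Set ℕ) := by
    intro x hx y hy hxy
    have hx' := Finset.mem_coe.1 hx
    have hy' := Finset.mem_coe.1 hy
    rw [hBρ, mem_filter] at hx' hy'
    have hx1 := (mem_Ioc.1 (hB x hx'.1).1)
    have hy1 := (mem_Ioc.1 (hB y hy'.1).1)
    have hd : (x - z - 1) / μ = (y - z - 1) / μ := by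
      have : (x - z - 1) / μ + 1 = (y - z - 1) / μ + 1 := hxy
      omega
    have e1 := Nat.mod_add_div (x - z - 1) μ
    have e2 := Nat.mod_add_div (y - z - 1) μ
    rw [hx'.2, hd] at e1
    rw [hy'.2] at e2
    omega
  refine ⟨Bρ.image (fun n => (n - z - 1) / μ + 1), (z : ℤ) + 1 + ρ - μ, ?_, ?_, ?_⟩
  · intro a ha
    rw [mem_image] at ha
    obtain ⟨n, hn, rfl⟩ := ha
    rw [hBρ, mem_filter] at hn
    have h1 := (mem_Ioc.1 (hB n hn.1).1)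
    rw [mem_Icc]
    refine ⟨Nat.le_add_left 1 _, ?_⟩
    have : (n - z - 1) / μ ≤ l / μ := Nat.div_le_div_right (by omega)
    exact Nat.add_le_add_right this 1
  · rw [card_image_of_injOn hinj]
    have h2 : (0 : ℚ) < ν := by exact_mod_cast hν1
    rw [div_le_iff₀ h2] at hρ
    have h3 : B.card ≤ Bρ.card * ν := by exact_mod_cast hρ
    calc B.card * q ≤ (Bρ.card * ν) * q := Nat.mul_le_mul_right _ h3
      _ = μ * Bρ.card := by rw [hν]; ring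
  · intro a ha
    rw [mem_image] at ha
    obtain ⟨n, hn, rfl⟩ := ha
    rw [hBρ, mem_filter] at hn
    refine ⟨n, hn.1, ?_⟩
    have h1 := (mem_Ioc.1 (hB n hn.1).1)
    have e1 := Nat.mod_add_div (n - z - 1) μ
    rw [hn.2] at e1
    generalize (n - z - 1) / μ = w at e1 ⊢
    have e2 : n = ρ + μ * w + z + 1 := by omega
    rw [e2]
    push_cast
    ring

/-- arithmetic of the increment -/
theorem incr_arith (i L1 : ℕ) (a Ni q l μ b a' : ℕ) (hN : 1 ≤ Ni) (hμ : 1 ≤ μ)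
    (hl : 65 * μ ≤ l)
    (h1 : (65 / 64 : ℝ) ^ i * Ni ≤ 2 ^ L1 * a)
    (h2 : (33 / 32 : ℝ) * a * l ≤ Ni * q * b) (h3 : b * q ≤ μ * a') :
    (65 / 64 : ℝ) ^ (i + 1) * ((l / μ + 1 : ℕ) : ℝ) ≤ 2 ^ L1 * a' := by
  have hNr : (0 : ℝ) < Ni := by exact_mod_cast hN
  have hμr : (0 : ℝ) < μ := by exact_mod_cast hμ
  have hlr : (65 : ℝ) * μ ≤ l := by exact_mod_cast hl
  have hl0 : (0 : ℝ) ≤ l := Nat.cast_nonneg l
  have h3r : (b : ℝ) * q ≤ μ * a' := by exact_mod_cast h3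
  have hdiv : ((l / μ + 1 : ℕ) : ℝ) * μ ≤ l + μ := by
    have : (l / μ + 1) * μ ≤ l + μ := by
      have := Nat.div_mul_le_self l μ
      nlinarith
    exact_mod_cast this
  have hP : (0 : ℝ) < (65 / 64 : ℝ) ^ i := by positivity
  have h4 : (65 / 64 : ℝ) ^ i * (33 / 32) * l ≤ 2 ^ L1 * (μ * a') := by
    have h5 : (65 / 64 : ℝ) ^ i * (33 / 32) * l * Ni ≤ 2 ^ L1 * (μ * a') * Ni := by
      calc (65 / 64 : ℝ) ^ i * (33 / 32) * l * Ni
          = ((65 / 64 : ℝ) ^ i * Ni) * ((33 / 32) * l) := by ring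
        _ ≤ (2 ^ L1 * a) * ((33 / 32) * l) := mul_le_mul_of_nonneg_right h1 (by positivity)
        _ = 2 ^ L1 * ((33 / 32 : ℝ) * a * l) := by ring
        _ ≤ 2 ^ L1 * (Ni * q * b) := mul_le_mul_of_nonneg_left h2 (by positivity)
        _ = 2 ^ L1 * Ni * (b * q) := by ring
        _ ≤ 2 ^ L1 * Ni * (μ * a') := mul_le_mul_of_nonneg_left h3r (by positivity)
        _ = 2 ^ L1 * (μ * a') * Ni := by ring
    exact le_of_mul_le_mul_right h5 hNr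
  have h6 : (65 / 64 : ℝ) ^ (i + 1) * ((l / μ + 1 : ℕ) : ℝ) * μ ≤ 2 ^ L1 * a' * μ := by
    calc (65 / 64 : ℝ) ^ (i + 1) * ((l / μ + 1 : ℕ) : ℝ) * μ
        = (65 / 64 : ℝ) ^ i * ((65 / 64) * (((l / μ + 1 : ℕ) : ℝ) * μ)) := by
          rw [pow_succ]; ring
      _ ≤ (65 / 64 : ℝ) ^ i * ((65 / 64) * (l + μ)) := by
          apply mul_le_mul_of_nonneg_left _ hP.le
          apply mul_le_mul_of_nonneg_left hdiv (by norm_num)
      _ ≤ (65 / 64 : ℝ) ^ i * ((33 / 32) * l) := by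
          apply mul_le_mul_of_nonneg_left _ hP.le
          linarith
      _ = (65 / 64 : ℝ) ^ i * (33 / 32) * l := by ring
      _ ≤ 2 ^ L1 * (μ * a') := h4
      _ = 2 ^ L1 * a' * μ := by ring
  exact le_of_mul_le_mul_right h6 hμr

/-- the step conclusion of `STEPD` for fixed `k, t, K` -/
def StepK (k t K : ℕ) : Prop :=
  ∀ (L H N : ℕ) (g : ℤ[X]) (A : Finset ℕ),
    1 ≤ L → 1 ≤ H →
    g.natDegree = k → 0 < g.leadingCoeff → NC g → (∀ i, |g.coeff i| ≤ (H : ℤ)) →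
    (H * 2 ^ (L ^ t)) ^ K ≤ N → A ⊆ Icc 1 N → N ≤ 2 ^ L * A.card →
    (∀ x ∈ A, ∀ y ∈ A, ∀ u : ℕ, 1 ≤ u → (y : ℤ) - (x : ℤ) = g.eval (u : ℤ) → x = y) →
    ∃ q l z c : ℕ, 1 ≤ q ∧ q ≤ 2 ^ (K * L ^ (t - 1)) ∧ N ≤ 2 ^ (K * L) * l ∧ z + l ≤ N ∧
      (33 / 32 : ℝ) * A.card * l
        ≤ N * q * ((A.filter (fun n => n ∈ Ioc z (z + l) ∧ n ≡ c [MOD q])).card : ℝ)

/-- the state of the iteration -/
def State (k t K Ch L1 N : ℕ) (A : Finset ℕ) (lm : ℕ → ℕ) (i : ℕ) : Prop :=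
  ∃ (D Ni : ℕ) (Ai : Finset ℕ) (b : ℤ), 1 ≤ D ∧ D ≤ 2 ^ (i * (K * L1 ^ (t - 1))) ∧ 1 ≤ Ni ∧
    Ai ⊆ Icc 1 Ni ∧ (65 / 64 : ℝ) ^ i * Ni ≤ 2 ^ L1 * Ai.card ∧
    N ≤ Ch * 2 ^ (i * ((k + 1) * K * L1 ^ (t - 1))) * Ni ∧
    ∀ a ∈ Ai, ∃ x ∈ A, (x : ℤ) = b + (lm D : ℤ) * (a : ℤ)

/-- the properties of the auxiliary polynomials -/
def AuxP (k : ℕ) (h : ℤ[X]) (Ch X : ℕ) (lm : ℕ → ℕ) (G : ℕ → ℤ[X]) : Prop :=
  ∀ D : ℕ, 1 ≤ D → D ≤ X →
        1 ≤ lm D ∧ (G D).natDegree = k ∧ 0 < (G D).leadingCoeff ∧ NC (G D) ∧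
        (∀ i, |(G D).coeff i| ≤ ((Ch * D ^ k : ℕ) : ℤ)) ∧
        (∀ u : ℕ, 1 ≤ u → ∃ n : ℕ, 1 ≤ n ∧ (lm D : ℤ) * (G D).eval (u : ℤ) = h.eval (n : ℤ)) ∧
        (∀ q : ℕ, 1 ≤ q → D * q ≤ X → lm D * q ∣ lm (D * q) ∧ lm (D * q) ∣ q ^ k * lm D)

theorem start (k t K Ch L N : ℕ) (A : Finset ℕ) (lm : ℕ → ℕ) (hCh : 1 ≤ Ch)
    (hlm : 1 ≤ lm 1) (hlm2 : lm 1 ≤ Ch) (hChN : Ch ≤ N) (hA : A ⊆ Icc 1 N)
    (hdens : N ≤ 2 ^ L * A.card) : State k t K Ch (L + 1) N A lm 0 := by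
  obtain ⟨A', w, hA', hcard, hmem⟩ := refine_class A 0 N 1 (lm 1) 0 le_rfl hlm (one_dvd _) (by
    intro n hn
    refine ⟨?_, Nat.modEq_one⟩
    have := mem_Icc.1 (hA hn)
    rw [mem_Ioc]
    omega)
  refine ⟨1, N / lm 1 + 1, A', w, le_rfl, Nat.one_le_two_pow, Nat.le_add_left 1 _, hA', ?_, ?_, ?_⟩
  · rw [pow_zero, one_mul]
    have h1 : (N / lm 1 + 1) * lm 1 ≤ 2 * N := by
      have := Nat.div_mul_le_self N (lm 1)
      nlinarith
    have h2 : (N / lm 1 + 1) * lm 1 ≤ 2 ^ (L + 1) * A'.card * lm 1 := by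
      calc (N / lm 1 + 1) * lm 1 ≤ 2 * N := h1
        _ ≤ 2 * (2 ^ L * A.card) := by omega
        _ = 2 ^ (L + 1) * (A.card * 1) := by rw [pow_succ]; ring
        _ ≤ 2 ^ (L + 1) * (lm 1 * A'.card) := Nat.mul_le_mul_left _ hcard
        _ = 2 ^ (L + 1) * A'.card * lm 1 := by ring
    have h3 : (N / lm 1 + 1) ≤ 2 ^ (L + 1) * A'.card := Nat.le_of_mul_le_mul_right h2 (by omega)
    exact_mod_cast h3
  · rw [zero_mul, pow_zero, mul_one]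
    have h1 : N < (N / lm 1 + 1) * lm 1 := by
      have := Nat.lt_div_mul_add (a := N) (b := lm 1) (by omega)
      nlinarith
    nlinarith
  · intro a ha
    obtain ⟨n, hn, hn2⟩ := hmem a ha
    exact ⟨n, hn, hn2⟩

theorem pow_sum_le (k t K L1 : ℕ) (ht : 2 ≤ t) :
    K * L1 + k * (K * L1 ^ (t - 1)) ≤ (k + 1) * K * L1 ^ (t - 1) := by
  have h1 : L1 ≤ L1 ^ (t - 1) := Nat.le_self_pow (by omega) L1
  calc K * L1 + k * (K * L1 ^ (t - 1)) ≤ K * L1 ^ (t - 1) + k * (K * L1 ^ (t - 1)) := by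
        have := Nat.mul_le_mul_left K h1
        omega
    _ = (k + 1) * K * L1 ^ (t - 1) := by ring

theorem step (k t K Ch L1 N X M i : ℕ) (h : ℤ[X]) (A : Finset ℕ) (lm : ℕ → ℕ) (G : ℕ → ℤ[X])
    (hstep : StepK k t K) (haux : AuxP k h Ch X lm G) (hCh : 1 ≤ Ch) (hL1 : 1 ≤ L1) (ht : 2 ≤ t)
    (hi : i < M) (hX : X = 2 ^ (M * (K * L1 ^ (t - 1)))) (hav : Avoids h A)
    (hN1 : Ch * 2 ^ (M * ((k + 1) * K * L1 ^ (t - 1))) * (128 * 2 ^ ((k + 1) * K * L1 ^ (t - 1)))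
      ≤ N)
    (hN2 : Ch * 2 ^ (M * ((k + 1) * K * L1 ^ (t - 1))) *
      (Ch * (2 ^ (M * (K * L1 ^ (t - 1)))) ^ k * 2 ^ (L1 ^ t)) ^ K ≤ N)
    (hS : State k t K Ch L1 N A lm i) : State k t K Ch L1 N A lm (i + 1) := by
  obtain ⟨D, Ni, Ai, b, hD1, hD2, hNi, hAi, hdens, hsize, hmem⟩ := hS
  set E := (k + 1) * K * L1 ^ (t - 1) with hE
  set κ := K * L1 ^ (t - 1) with hκ
  have hDX : D ≤ 2 ^ (M * κ) := hD2.trans (Nat.pow_le_pow_right (by norm_num)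
    (Nat.mul_le_mul_right _ hi.le))
  obtain ⟨hlm, hdeg, hlc, hNC, hco, hval, hdvd⟩ := haux D hD1 (by rw [hX]; exact hDX)
  have hChpow : 0 < Ch * 2 ^ (i * E) := by positivity
  have hpow : Ch * 2 ^ (i * E) ≤ Ch * 2 ^ (M * E) :=
    Nat.mul_le_mul_left _ (Nat.pow_le_pow_right (by norm_num) (Nat.mul_le_mul_right _ hi.le))
  have hNi1 : 128 * 2 ^ E ≤ Ni := by
    by_contra hcon
    push Not at hcon
    have h1 : Ch * 2 ^ (i * E) * Ni < Ch * 2 ^ (i * E) * (128 * 2 ^ E) :=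
      Nat.mul_lt_mul_of_pos_left hcon hChpow
    have h2 : Ch * 2 ^ (i * E) * (128 * 2 ^ E) ≤ Ch * 2 ^ (M * E) * (128 * 2 ^ E) :=
      Nat.mul_le_mul_right _ hpow
    omega
  have hNi2 : (Ch * D ^ k * 2 ^ (L1 ^ t)) ^ K ≤ Ni := by
    by_contra hcon
    push Not at hcon
    have h1 : Ch * 2 ^ (i * E) * Ni < Ch * 2 ^ (i * E) * (Ch * D ^ k * 2 ^ (L1 ^ t)) ^ K :=
      Nat.mul_lt_mul_of_pos_left hcon hChpow
    have h3 : (Ch * D ^ k * 2 ^ (L1 ^ t)) ^ K ≤ (Ch * (2 ^ (M * κ)) ^ k * 2 ^ (L1 ^ t)) ^ K := by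
      apply Nat.pow_le_pow_left
      apply Nat.mul_le_mul_right
      apply Nat.mul_le_mul_left
      exact Nat.pow_le_pow_left hDX k
    have h2 : Ch * 2 ^ (i * E) * (Ch * D ^ k * 2 ^ (L1 ^ t)) ^ K
        ≤ Ch * 2 ^ (M * E) * (Ch * (2 ^ (M * κ)) ^ k * 2 ^ (L1 ^ t)) ^ K :=
      Nat.mul_le_mul hpow h3
    omega
  have hdens' : Ni ≤ 2 ^ L1 * Ai.card := by
    have h1 : (1 : ℝ) ≤ (65 / 64 : ℝ) ^ i := one_le_pow₀ (by norm_num)
    have h2 : (Ni : ℝ) ≤ 2 ^ L1 * Ai.card := by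
      refine le_trans ?_ hdens
      nlinarith [(Nat.cast_nonneg Ni : (0 : ℝ) ≤ Ni)]
    exact_mod_cast h2
  have havoid : ∀ x ∈ Ai, ∀ y ∈ Ai, ∀ u : ℕ, 1 ≤ u →
      (y : ℤ) - (x : ℤ) = (G D).eval (u : ℤ) → x = y := by
    intro x hx y hy u hu hxy
    obtain ⟨n, hn, hn2⟩ := hval u hu
    obtain ⟨x', hx', hx2⟩ := hmem x hx
    obtain ⟨y', hy', hy2⟩ := hmem y hy
    have h1 : (y' : ℤ) - (x' : ℤ) = h.eval (n : ℤ) := by
      rw [← hn2, ← hxy, hx2, hy2]; ring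
    have h2 := hav y' hy' x' hx' n hn h1
    rw [hx2, hy2] at h2
    have h3 : (lm D : ℤ) * ((y : ℤ) - (x : ℤ)) = 0 := by linarith
    rcases mul_eq_zero.1 h3 with h4 | h4
    · have : (lm D : ℤ) ≠ 0 := by
        have : 0 < lm D := hlm
        positivity
      exact absurd h4 this
    · omega
  obtain ⟨q, l, z, c, hq1, hq2, hNl, hzl, hinc⟩ :=
    hstep L1 (Ch * D ^ k) Ni (G D) Ai hL1 (Nat.mul_pos hCh (pow_pos hD1 k)) hdeg hlc hNC hco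
      hNi2 hAi hdens' havoid
  have hDq : D * q ≤ X := by
    rw [hX]
    calc D * q ≤ 2 ^ (i * κ) * 2 ^ κ := Nat.mul_le_mul hD2 hq2
      _ = 2 ^ ((i + 1) * κ) := by rw [← pow_add]; ring_nf
      _ ≤ 2 ^ (M * κ) := Nat.pow_le_pow_right (by norm_num) (Nat.mul_le_mul_right _ hi)
  obtain ⟨hd1, hd2⟩ := hdvd q hq1 hDq
  obtain ⟨ν, hν⟩ := hd1
  -- `μ = lm (D q) / lm D = q ν`
  have hDq1 : 1 ≤ D * q := Nat.mul_pos hD1 hq1
  have hlmq := (haux (D * q) hDq1 hDq).1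
  have hμeq : lm (D * q) = lm D * (q * ν) := by rw [hν]; ring
  have hμ1 : 1 ≤ q * ν := by
    rcases Nat.eq_zero_or_pos (q * ν) with h0 | h0
    · rw [h0, mul_zero] at hμeq; omega
    · exact h0
  have hμk : q * ν ≤ q ^ k := by
    have h1 : lm D * (q * ν) ∣ lm D * q ^ k := by
      rw [← hμeq, mul_comm (lm D)]
      exact hd2
    have h2 := Nat.dvd_of_mul_dvd_mul_left (by omega) h1
    exact Nat.le_of_dvd (pow_pos hq1 k) h2
  have hμE : 2 ^ (K * L1) * (q * ν) ≤ 2 ^ E := by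
    calc 2 ^ (K * L1) * (q * ν) ≤ 2 ^ (K * L1) * (2 ^ κ) ^ k :=
          Nat.mul_le_mul_left _ (hμk.trans (Nat.pow_le_pow_left hq2 k))
      _ = 2 ^ (K * L1 + k * κ) := by rw [← pow_mul, ← pow_add]; ring_nf
      _ ≤ 2 ^ E := Nat.pow_le_pow_right (by norm_num) (pow_sum_le k t K L1 ht)
  have hl65 : 65 * (q * ν) ≤ l := by
    by_contra hcon
    push Not at hcon
    have h1 : Ni < 128 * 2 ^ E := by
      calc Ni ≤ 2 ^ (K * L1) * l := hNl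
        _ ≤ 2 ^ (K * L1) * (65 * (q * ν)) := Nat.mul_le_mul_left _ hcon.le
        _ = 65 * (2 ^ (K * L1) * (q * ν)) := by ring
        _ ≤ 65 * 2 ^ E := Nat.mul_le_mul_left _ hμE
        _ < 128 * 2 ^ E := by
          have : 0 < 2 ^ E := by positivity
          omega
    omega
  obtain ⟨A', w, hA', hcard, hmem'⟩ := refine_class
    (Ai.filter (fun n => n ∈ Ioc z (z + l) ∧ n ≡ c [MOD q])) z l q (q * ν) c hq1 hμ1
    (Dvd.intro _ rfl) (fun n hn => (mem_filter.1 hn).2)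
  refine ⟨D * q, l / (q * ν) + 1, A', b + (lm D : ℤ) * w, hDq1, ?_, Nat.le_add_left 1 _, hA', ?_,
    ?_, ?_⟩
  · calc D * q ≤ 2 ^ (i * κ) * 2 ^ κ := Nat.mul_le_mul hD2 hq2
      _ = 2 ^ ((i + 1) * κ) := by rw [← pow_add]; ring_nf
  · exact incr_arith i L1 Ai.card Ni q l (q * ν) _ A'.card hNi hμ1 hl65 hdens hinc hcard
  · have h1 : l ≤ (q * ν) * (l / (q * ν) + 1) := by
      have := Nat.lt_mul_div_succ l (b := q * ν) (by omega)
      omega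
    have h2 : Ni ≤ 2 ^ E * (l / (q * ν) + 1) := by
      calc Ni ≤ 2 ^ (K * L1) * l := hNl
        _ ≤ 2 ^ (K * L1) * ((q * ν) * (l / (q * ν) + 1)) := Nat.mul_le_mul_left _ h1
        _ = (2 ^ (K * L1) * (q * ν)) * (l / (q * ν) + 1) := by ring
        _ ≤ 2 ^ E * (l / (q * ν) + 1) := Nat.mul_le_mul_right _ hμE
    calc N ≤ Ch * 2 ^ (i * E) * Ni := hsize
      _ ≤ Ch * 2 ^ (i * E) * (2 ^ E * (l / (q * ν) + 1)) := Nat.mul_le_mul_left _ h2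
      _ = Ch * 2 ^ ((i + 1) * E) * (l / (q * ν) + 1) := by
        rw [add_mul, one_mul, pow_add]; ring
  · intro a ha
    obtain ⟨n, hn, hn2⟩ := hmem' a ha
    obtain ⟨x, hx, hx2⟩ := hmem n (mem_filter.1 hn).1
    refine ⟨x, hx, ?_⟩
    rw [hx2, hn2, hμeq]
    push_cast
    ring

/-- exponent bookkeeping -/
theorem expo_le (k t K Ch L : ℕ) (hL : 1 ≤ L) (ht : 2 ≤ t) :
    (Ch + (45 * (L + 1) + 1) * ((k + 1) * K * (L + 1) ^ (t - 1))) +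
      (7 + (k + 1) * K * (L + 1) ^ (t - 1)) +
      (Ch + k * ((45 * (L + 1) + 1) * (K * (L + 1) ^ (t - 1))) + (L + 1) ^ t) * K
    ≤ ((Ch + 46 * ((k + 1) * K) + 7 + (k + 1) * K + (Ch + 46 * (k * K) + 1) * K) * 2 ^ t)
        * L ^ t := by
  set P := (L + 1) ^ t with hP
  have hP1 : 1 ≤ P := Nat.one_le_pow _ _ (by omega)
  have hP2 : (L + 1) ^ (t - 1) ≤ P := Nat.pow_le_pow_right (by omega) (by omega)
  have hP3 : (45 * (L + 1) + 1) * (L + 1) ^ (t - 1) ≤ 46 * P := by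
    have h1 : (45 * (L + 1) + 1) ≤ 46 * (L + 1) := by omega
    calc (45 * (L + 1) + 1) * (L + 1) ^ (t - 1) ≤ 46 * (L + 1) * (L + 1) ^ (t - 1) :=
          Nat.mul_le_mul_right _ h1
      _ = 46 * ((L + 1) ^ (t - 1 + 1)) := by rw [pow_succ]; ring
      _ = 46 * P := by rw [Nat.sub_add_cancel (by omega)]
  have hP4 : P ≤ 2 ^ t * L ^ t := by
    rw [← mul_pow]
    exact Nat.pow_le_pow_left (by omega) t
  have h1 : Ch ≤ Ch * P := Nat.le_mul_of_pos_right _ hP1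
  have h2 : (45 * (L + 1) + 1) * ((k + 1) * K * (L + 1) ^ (t - 1)) ≤ 46 * ((k + 1) * K) * P := by
    calc (45 * (L + 1) + 1) * ((k + 1) * K * (L + 1) ^ (t - 1))
        = ((k + 1) * K) * ((45 * (L + 1) + 1) * (L + 1) ^ (t - 1)) := by ring
      _ ≤ ((k + 1) * K) * (46 * P) := Nat.mul_le_mul_left _ hP3
      _ = 46 * ((k + 1) * K) * P := by ring
  have h3 : 7 ≤ 7 * P := by omega
  have h4 : (k + 1) * K * (L + 1) ^ (t - 1) ≤ (k + 1) * K * P := Nat.mul_le_mul_left _ hP2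
  have h5 : k * ((45 * (L + 1) + 1) * (K * (L + 1) ^ (t - 1))) ≤ 46 * (k * K) * P := by
    calc k * ((45 * (L + 1) + 1) * (K * (L + 1) ^ (t - 1)))
        = (k * K) * ((45 * (L + 1) + 1) * (L + 1) ^ (t - 1)) := by ring
      _ ≤ (k * K) * (46 * P) := Nat.mul_le_mul_left _ hP3
      _ = 46 * (k * K) * P := by ring
  have h6 : (Ch + k * ((45 * (L + 1) + 1) * (K * (L + 1) ^ (t - 1))) + P) * K
      ≤ (Ch * P + 46 * (k * K) * P + P) * K := Nat.mul_le_mul_right _ (by omega)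
  calc _ ≤ (Ch * P + 46 * ((k + 1) * K) * P) + (7 * P + (k + 1) * K * P)
        + (Ch * P + 46 * (k * K) * P + P) * K := by omega
    _ = (Ch + 46 * ((k + 1) * K) + 7 + (k + 1) * K + (Ch + 46 * (k * K) + 1) * K) * P := by ring
    _ ≤ (Ch + 46 * ((k + 1) * K) + 7 + (k + 1) * K + (Ch + 46 * (k * K) + 1) * K)
        * (2 ^ t * L ^ t) := Nat.mul_le_mul_left _ hP4
    _ = _ := by ring

theorem base_pow : (2 : ℝ) ≤ (65 / 64 : ℝ) ^ 45 := by norm_num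

end MainDPf

open MainDPf in
theorem maind : STEPD → AUX → MAIND := by
  intro hSTEP hAUX k t h hk ht hPRM hdeg hlc hint
  obtain ⟨K, hK⟩ := hSTEP k t hk ht hPRM
  obtain ⟨Ch, hCh, hAux⟩ := hAUX k h (by omega) hdeg hlc hint
  refine ⟨(Ch + 46 * ((k + 1) * K) + 7 + (k + 1) * K + (Ch + 46 * (k * K) + 1) * K) * 2 ^ t, ?_⟩
  intro L N A hL hN hA hdens hav
  by_contra hcon
  push Not at hcon
  set C := (Ch + 46 * ((k + 1) * K) + 7 + (k + 1) * K + (Ch + 46 * (k * K) + 1) * K) * 2 ^ t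
    with hC
  set M := 45 * (L + 1) + 1 with hM
  obtain ⟨lm, G, hlm1, hG⟩ := hAux (2 ^ (M * (K * (L + 1) ^ (t - 1)))) Nat.one_le_two_pow
  have hexp := expo_le k t K Ch L hL ht
  rw [← hC, ← hM] at hexp
  set E := (k + 1) * K * (L + 1) ^ (t - 1) with hE
  set κ := K * (L + 1) ^ (t - 1) with hκ
  have hCh2 : Ch ≤ 2 ^ Ch := Nat.lt_two_pow_self.le
  have hNbig : 2 ^ ((Ch + M * E) + (7 + E) + (Ch + k * (M * κ) + (L + 1) ^ t) * K) ≤ N :=
    (Nat.pow_le_pow_right (by norm_num) hexp).trans hcon.le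
  have hN1 : Ch * 2 ^ (M * E) * (128 * 2 ^ E) ≤ N := by
    refine le_trans ?_ hNbig
    calc Ch * 2 ^ (M * E) * (128 * 2 ^ E) ≤ 2 ^ Ch * 2 ^ (M * E) * (128 * 2 ^ E) :=
          Nat.mul_le_mul_right _ (Nat.mul_le_mul_right _ hCh2)
      _ = 2 ^ ((Ch + M * E) + (7 + E)) := by
          rw [show (128 : ℕ) = 2 ^ 7 by norm_num, pow_add, pow_add, pow_add]
      _ ≤ _ := Nat.pow_le_pow_right (by norm_num) (Nat.le_add_right _ _)
  have hN2 : Ch * 2 ^ (M * E) * (Ch * (2 ^ (M * κ)) ^ k * 2 ^ ((L + 1) ^ t)) ^ K ≤ N := by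
    refine le_trans ?_ hNbig
    calc Ch * 2 ^ (M * E) * (Ch * (2 ^ (M * κ)) ^ k * 2 ^ ((L + 1) ^ t)) ^ K
        ≤ 2 ^ Ch * 2 ^ (M * E) * (2 ^ Ch * (2 ^ (M * κ)) ^ k * 2 ^ ((L + 1) ^ t)) ^ K := by
          apply Nat.mul_le_mul (Nat.mul_le_mul_right _ hCh2)
          apply Nat.pow_le_pow_left
          exact Nat.mul_le_mul_right _ (Nat.mul_le_mul_right _ hCh2)
      _ = 2 ^ ((Ch + M * E) + (Ch + k * (M * κ) + (L + 1) ^ t) * K) := by
          rw [← pow_mul (2 : ℕ) (M * κ) k, ← pow_add, ← pow_add, ← pow_add, ← pow_mul, ← pow_add,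
            mul_comm (M * κ) k]
      _ ≤ _ := by
          apply Nat.pow_le_pow_right (by norm_num)
          omega
  have hlm1' : 1 ≤ lm 1 := (hG 1 le_rfl Nat.one_le_two_pow).1
  have hChN : Ch ≤ N := by
    refine le_trans ?_ hN1
    have h1 : 1 ≤ 2 ^ (M * E) := Nat.one_le_two_pow
    have h2 : 1 ≤ 128 * 2 ^ E := by
      have : 1 ≤ 2 ^ E := Nat.one_le_two_pow
      omega
    calc Ch = Ch * 1 * 1 := by ring
      _ ≤ Ch * 2 ^ (M * E) * (128 * 2 ^ E) := Nat.mul_le_mul (Nat.mul_le_mul_left _ h1) h2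
  have hall : ∀ i, i ≤ M → State k t K Ch (L + 1) N A lm i := by
    intro i
    induction i with
    | zero => intro _; exact start k t K Ch L N A lm hCh hlm1' hlm1 hChN hA hdens
    | succ i ih =>
      intro hi
      exact step k t K Ch (L + 1) N _ M i h A lm G hK hG hCh (by omega) ht (by omega)
        rfl hav hN1 hN2 (ih (by omega))
  obtain ⟨D, Ni, Ai, b, _, _, hNi, hAi, hd, _, _⟩ := hall M le_rfl
  have hcard : Ai.card ≤ Ni := by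
    have := card_le_card hAi
    simpa using this
  have hNir : (0 : ℝ) < Ni := by exact_mod_cast hNi
  have hcr : (Ai.card : ℝ) ≤ Ni := by exact_mod_cast hcard
  have h1 : (65 / 64 : ℝ) ^ M * Ni ≤ 2 ^ (L + 1) * Ni :=
    hd.trans (mul_le_mul_of_nonneg_left hcr (by positivity))
  have h2 : (65 / 64 : ℝ) ^ M ≤ 2 ^ (L + 1) := le_of_mul_le_mul_right h1 hNir
  have h3 : (2 : ℝ) ^ (L + 1) < (65 / 64 : ℝ) ^ M := by
    calc (2 : ℝ) ^ (L + 1) ≤ ((65 / 64 : ℝ) ^ 45) ^ (L + 1) :=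
          pow_le_pow_left₀ (by norm_num) base_pow _
      _ = (65 / 64 : ℝ) ^ (45 * (L + 1)) := by rw [← pow_mul]
      _ < (65 / 64 : ℝ) ^ M := by
          apply pow_lt_pow_right₀ (by norm_num)
          omega
  linarith

end Vale.Agent.P042
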