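import Vale.Agent.P042.MainD
import Vale.Agent.P042.FinalD

/-!
# P042: uniform version (the exponent constant depends on `k`, `t` only)
-/

open Polynomial Finset

namespace Vale.Agent.P042

/-- main theorem in dyadic form, uniform in `h` -/
def MAINE : Prop :=
  ∀ k t : ℕ, 2 ≤ k → 2 ≤ t → PRM k t → ∃ C : ℕ, ∀ h : ℤ[X], h.natDegree = k →
    0 < h.leadingCoeff → Intersective h → ∃ Ch : ℕ, ∀ (L N : ℕ) (A : Finset ℕ), 1 ≤ L → 1 ≤ N →
      A ⊆ Icc 1 N → N ≤ 2 ^ L * A.card → Avoids h A → N ≤ 2 ^ (C * (Ch + L ^ t))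

/-- the final statement, uniform in `h` -/
def FINALE : Prop :=
  ∀ k t : ℕ, 2 ≤ k → 2 ≤ t → PRM k t → ∃ c : ℝ, 0 < c ∧ ∀ h : ℤ[X], h.natDegree = k →
    0 < h.leadingCoeff → Intersective h → ∃ C : ℝ, ∀ N : ℕ, 1 ≤ N →
      (rh h N : ℝ) ≤ C * N * Real.exp (-c * (Real.log N) ^ ((1 : ℝ) / t))

namespace MainEPf

/-- exponent bookkeeping -/
theorem expo_le' (k t K Ch L : ℕ) (hL : 1 ≤ L) (ht : 2 ≤ t) :
    (Ch + (45 * (L + 1) + 1) * ((k + 1) * K * (L + 1) ^ (t - 1))) +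
      (7 + (k + 1) * K * (L + 1) ^ (t - 1)) +
      (Ch + k * ((45 * (L + 1) + 1) * (K * (L + 1) ^ (t - 1))) + (L + 1) ^ t) * K
    ≤ ((1 + K) + (46 * ((k + 1) * K) + 7 + (k + 1) * K + (46 * (k * K) + 1) * K) * 2 ^ t)
        * (Ch + L ^ t) := by
  set P := (L + 1) ^ t with hP
  have hP1 : 1 ≤ P := Nat.one_le_pow _ _ (by omega)
  have hP2 : (L + 1) ^ (t - 1) ≤ P := Nat.pow_le_pow_right (by omega) (by omega)
  have hP3 : (45 * (L + 1) + 1) * (L + 1) ^ (t - 1) ≤ 46 * P := by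
    have h1 : (45 * (L + 1) + 1) ≤ 46 * (L + 1) := by omega
    calc (45 * (L + 1) + 1) * (L + 1) ^ (t - 1) ≤ 46 * (L + 1) * (L + 1) ^ (t - 1) :=
          Nat.mul_le_mul_right _ h1
      _ = 46 * ((L + 1) ^ (t - 1 + 1)) := by rw [pow_succ]; ring
      _ = 46 * P := by rw [Nat.sub_add_cancel (by omega)]
  have hP4 : P ≤ 2 ^ t * L ^ t := by
    rw [← mul_pow]
    exact Nat.pow_le_pow_left (by omega) t
  have h2 : (45 * (L + 1) + 1) * ((k + 1) * K * (L + 1) ^ (t - 1)) ≤ 46 * ((k + 1) * K) * P := by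
    calc (45 * (L + 1) + 1) * ((k + 1) * K * (L + 1) ^ (t - 1))
        = ((k + 1) * K) * ((45 * (L + 1) + 1) * (L + 1) ^ (t - 1)) := by ring
      _ ≤ ((k + 1) * K) * (46 * P) := Nat.mul_le_mul_left _ hP3
      _ = 46 * ((k + 1) * K) * P := by ring
  have h3 : 7 ≤ 7 * P := by omega
  have h4 : (k + 1) * K * (L + 1) ^ (t - 1) ≤ (k + 1) * K * P := Nat.mul_le_mul_left _ hP2
  have h5 : k * ((45 * (L + 1) + 1) * (K * (L + 1) ^ (t - 1))) ≤ 46 * (k * K) * P := by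
    calc k * ((45 * (L + 1) + 1) * (K * (L + 1) ^ (t - 1)))
        = (k * K) * ((45 * (L + 1) + 1) * (L + 1) ^ (t - 1)) := by ring
      _ ≤ (k * K) * (46 * P) := Nat.mul_le_mul_left _ hP3
      _ = 46 * (k * K) * P := by ring
  have h6 : (Ch + k * ((45 * (L + 1) + 1) * (K * (L + 1) ^ (t - 1))) + P) * K
      ≤ (Ch + 46 * (k * K) * P + P) * K := Nat.mul_le_mul_right _ (by omega)
  have h7 : (46 * ((k + 1) * K) + 7 + (k + 1) * K + (46 * (k * K) + 1) * K) * P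
      ≤ (46 * ((k + 1) * K) + 7 + (k + 1) * K + (46 * (k * K) + 1) * K) * (2 ^ t * L ^ t) :=
    Nat.mul_le_mul_left _ hP4
  calc _ ≤ (Ch + 46 * ((k + 1) * K) * P) + (7 * P + (k + 1) * K * P)
        + (Ch + 46 * (k * K) * P + P) * K := by omega
    _ = (1 + K) * Ch
        + (46 * ((k + 1) * K) + 7 + (k + 1) * K + (46 * (k * K) + 1) * K) * P := by ring
    _ ≤ (1 + K) * Ch
        + (46 * ((k + 1) * K) + 7 + (k + 1) * K + (46 * (k * K) + 1) * K) * (2 ^ t * L ^ t) := by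
        omega
    _ ≤ (1 + K) * (Ch + L ^ t)
        + (46 * ((k + 1) * K) + 7 + (k + 1) * K + (46 * (k * K) + 1) * K) * 2 ^ t * (Ch + L ^ t) := by
        apply Nat.add_le_add
        · exact Nat.mul_le_mul_left _ (Nat.le_add_right _ _)
        · rw [← mul_assoc]
          exact Nat.mul_le_mul_left _ (Nat.le_add_left _ _)
    _ = _ := by ring

end MainEPf

open MainDPf MainEPf in
theorem maine : STEPD → AUX → MAINE := by
  intro hSTEP hAUX k t hk ht hPRM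
  obtain ⟨K, hK⟩ := hSTEP k t hk ht hPRM
  refine ⟨(1 + K) + (46 * ((k + 1) * K) + 7 + (k + 1) * K + (46 * (k * K) + 1) * K) * 2 ^ t, ?_⟩
  intro h hdeg hlc hint
  obtain ⟨Ch, hCh, hAux⟩ := hAUX k h (by omega) hdeg hlc hint
  refine ⟨Ch, ?_⟩
  intro L N A hL hN hA hdens hav
  by_contra hcon
  push Not at hcon
  set C := (1 + K) + (46 * ((k + 1) * K) + 7 + (k + 1) * K + (46 * (k * K) + 1) * K) * 2 ^ t
    with hC
  set M := 45 * (L + 1) + 1 with hM
  obtain ⟨lm, G, hlm1, hG⟩ := hAux (2 ^ (M * (K * (L + 1) ^ (t - 1)))) Nat.one_le_two_pow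
  have hexp := expo_le' k t K Ch L hL ht
  rw [← hC, ← hM] at hexp
  set E := (k + 1) * K * (L + 1) ^ (t - 1) with hE
  set κ := K * (L + 1) ^ (t - 1) with hκ
  have hCh2 : Ch ≤ 2 ^ Ch := Nat.lt_two_pow_self.le
  have hNbig : 2 ^ ((Ch + M * E) + (7 + E) + (Ch + k * (M * κ) + (L + 1) ^ t) * K) ≤ N :=
    (Nat.pow_le_pow_right (by norm_num) hexp).trans hcon.le
  have hN1 : Ch * 2 ^ (M * E) * (128 * 2 ^ E) ≤ N := by
    refine le_trans ?_ hNbig
    calc Ch * 2 ^ (M * E) * (128 * 2 ^ E) ≤ 2 ^ Ch * 2 ^ (M * E) * (128 * 2 ^ E) :=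
          Nat.mul_le_mul_right _ (Nat.mul_le_mul_right _ hCh2)
      _ = 2 ^ ((Ch + M * E) + (7 + E)) := by
          rw [show (128 : ℕ) = 2 ^ 7 by norm_num, pow_add, pow_add, pow_add]
      _ ≤ _ := Nat.pow_le_pow_right (by norm_num) (Nat.le_add_right _ _)
  have hN2 : Ch * 2 ^ (M * E) * (Ch * (2 ^ (M * κ)) ^ k * 2 ^ ((L + 1) ^ t)) ^ K ≤ N := by
    refine le_trans ?_ hNbig
    calc Ch * 2 ^ (M * E) * (Ch * (2 ^ (M * κ)) ^ k * 2 ^ ((L + 1) ^ t)) ^ K
        ≤ 2 ^ Ch * 2 ^ (M * E) * (2 ^ Ch * (2 ^ (M * κ)) ^ k * 2 ^ ((L + 1) ^ t)) ^ K := by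
          apply Nat.mul_le_mul (Nat.mul_le_mul_right _ hCh2)
          apply Nat.pow_le_pow_left
          exact Nat.mul_le_mul_right _ (Nat.mul_le_mul_right _ hCh2)
      _ = 2 ^ ((Ch + M * E) + (Ch + k * (M * κ) + (L + 1) ^ t) * K) := by
          rw [← pow_mul (2 : ℕ) (M * κ) k, ← pow_add, ← pow_add, ← pow_add, ← pow_mul, ← pow_add,
            mul_comm (M * κ) k]
      _ ≤ _ := by
          apply Nat.pow_le_pow_right (by norm_num)
          omega
  have hlm1' : 1 ≤ lm 1 := (hG 1 le_rfl Nat.one_le_two_pow).1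
  have hChN : Ch ≤ N := by
    refine le_trans ?_ hN1
    have h1 : 1 ≤ 2 ^ (M * E) := Nat.one_le_two_pow
    have h2 : 1 ≤ 128 * 2 ^ E := by
      have : 1 ≤ 2 ^ E := Nat.one_le_two_pow
      omega
    calc Ch = Ch * 1 * 1 := by ring
      _ ≤ Ch * 2 ^ (M * E) * (128 * 2 ^ E) := Nat.mul_le_mul (Nat.mul_le_mul_left _ h1) h2
  have hall : ∀ i, i ≤ M → State k t K Ch (L + 1) N A lm i := by
    intro i
    induction i with
    | zero => intro _; exact start k t K Ch L N A lm hCh hlm1' hlm1 hChN hA hdens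
    | succ i ih =>
      intro hi
      exact step k t K Ch (L + 1) N _ M i h A lm G hK hG hCh (by omega) ht (by omega)
        rfl hav hN1 hN2 (ih (by omega))
  obtain ⟨D, Ni, Ai, b, _, _, hNi, hAi, hd, _, _⟩ := hall M le_rfl
  have hcard : Ai.card ≤ Ni := by
    have := card_le_card hAi
    simpa using this
  have hNir : (0 : ℝ) < Ni := by exact_mod_cast hNi
  have hcr : (Ai.card : ℝ) ≤ Ni := by exact_mod_cast hcard
  have h1 : (65 / 64 : ℝ) ^ M * Ni ≤ 2 ^ (L + 1) * Ni :=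
    hd.trans (mul_le_mul_of_nonneg_left hcr (by positivity))
  have h2 : (65 / 64 : ℝ) ^ M ≤ 2 ^ (L + 1) := le_of_mul_le_mul_right h1 hNir
  have h3 : (2 : ℝ) ^ (L + 1) < (65 / 64 : ℝ) ^ M := by
    calc (2 : ℝ) ^ (L + 1) ≤ ((65 / 64 : ℝ) ^ 45) ^ (L + 1) :=
          pow_le_pow_left₀ (by norm_num) base_pow _
      _ = (65 / 64 : ℝ) ^ (45 * (L + 1)) := by rw [← pow_mul]
      _ < (65 / 64 : ℝ) ^ M := by
          apply pow_lt_pow_right₀ (by norm_num)
          omega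
  linarith

open FinalDPf in
theorem finale : MAINE → FINALE := by
  intro hM k t hk ht hPRM
  obtain ⟨C, hC⟩ := hM k t hk ht hPRM
  have hCpos : (0 : ℝ) < ((2 * C : ℕ) : ℝ) + 1 := by positivity
  have hlog2 : 0 < Real.log 2 := Real.log_pos (by norm_num)
  set c : ℝ := Real.log 2 / (((2 * C : ℕ) : ℝ) + 1) with hc
  have hc0 : 0 < c := div_pos hlog2 hCpos
  refine ⟨c, hc0, ?_⟩
  intro h hdeg hlc hint
  obtain ⟨Ch, hCh⟩ := hC h hdeg hlc hint
  set N₀ : ℝ := (2 : ℝ) ^ (2 * C * Ch) with hN₀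
  have hN₀1 : 1 ≤ N₀ := one_le_pow₀ (by norm_num)
  have hlogN₀ : 0 ≤ Real.log N₀ := Real.log_nonneg hN₀1
  set C1 : ℝ := Real.exp (c * (Real.log N₀) ^ ((1 : ℝ) / t)) with hC1
  have hC10 : 0 < C1 := Real.exp_pos _
  refine ⟨2 + C1, ?_⟩
  intro N hN
  obtain ⟨A, hA, hav, hcard, hA1⟩ := exists_max h N hN
  have hAN : A.card ≤ N := by
    have := card_le_card hA
    simpa using this
  obtain ⟨L, hL, hL1, hL2⟩ := exists_scale N A.card hA1 hAN
  have hN2 := hCh L N A hL hN hA hL1 hav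
  have hNr : (1 : ℝ) ≤ N := by exact_mod_cast hN
  have hlogNnn : 0 ≤ Real.log N := Real.log_nonneg hNr
  have h4 : (rh h N : ℝ) = A.card := by rw [hcard]
  rw [h4]
  have hexp0 : 0 < Real.exp (-c * (Real.log N) ^ ((1 : ℝ) / t)) := Real.exp_pos _
  rcases Nat.lt_or_ge (L ^ t) Ch with hlt | hge
  · -- small `N`
    have hNN₀ : (N : ℝ) ≤ N₀ := by
      have h1 : C * (Ch + L ^ t) ≤ 2 * C * Ch := by nlinarith
      have h2 : N ≤ 2 ^ (2 * C * Ch) := hN2.trans (Nat.pow_le_pow_right (by norm_num) h1)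
      rw [hN₀]
      exact_mod_cast h2
    have hlogle : Real.log N ≤ Real.log N₀ := Real.log_le_log (by linarith) hNN₀
    have hpow : (Real.log N) ^ ((1 : ℝ) / t) ≤ (Real.log N₀) ^ ((1 : ℝ) / t) :=
      Real.rpow_le_rpow hlogNnn hlogle (by positivity)
    have h5 : 1 ≤ C1 * Real.exp (-c * (Real.log N) ^ ((1 : ℝ) / t)) := by
      rw [hC1, ← Real.exp_add]
      apply Real.one_le_exp
      have := mul_le_mul_of_nonneg_left hpow hc0.le
      linarith
    have hANr : (A.card : ℝ) ≤ N := by exact_mod_cast hAN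
    have hN0 : (0 : ℝ) ≤ N := by linarith
    calc (A.card : ℝ) ≤ N * 1 := by linarith
      _ ≤ N * (C1 * Real.exp (-c * (Real.log N) ^ ((1 : ℝ) / t))) :=
          mul_le_mul_of_nonneg_left h5 hN0
      _ = C1 * N * Real.exp (-c * (Real.log N) ^ ((1 : ℝ) / t)) := by ring
      _ ≤ (2 + C1) * N * Real.exp (-c * (Real.log N) ^ ((1 : ℝ) / t)) := by
          apply mul_le_mul_of_nonneg_right _ hexp0.le
          nlinarith
  · have hN3 : N ≤ 2 ^ (2 * C * L ^ t) := by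
      refine hN2.trans (Nat.pow_le_pow_right (by norm_num) ?_)
      nlinarith
    have hlogN : Real.log N ≤ ((2 * C : ℕ) : ℝ) * L ^ t * Real.log 2 := by
      have h1 : (N : ℝ) ≤ 2 ^ (2 * C * L ^ t) := by exact_mod_cast hN3
      have h2 := Real.log_le_log (by linarith) h1
      rw [Real.log_pow] at h2
      push_cast at h2 ⊢
      exact h2
    have hroot := root_bound t (2 * C) L (Real.log N) (by omega) hlogNnn hlogN hL
    have hexp : c * (Real.log N) ^ ((1 : ℝ) / t) ≤ L * Real.log 2 := by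
      calc c * (Real.log N) ^ ((1 : ℝ) / t)
          ≤ c * ((((2 * C : ℕ) : ℝ) + 1) * L) :=
            mul_le_mul_of_nonneg_left hroot hc0.le
        _ = L * Real.log 2 := by rw [hc]; field_simp
    have h2L : (2 : ℝ) ^ L = Real.exp (L * Real.log 2) := by
      rw [mul_comm, Real.exp_mul, Real.exp_log (by norm_num), Real.rpow_natCast]
    have h3 : (2 : ℝ) ^ L * A.card ≤ 2 * N := by exact_mod_cast hL2
    have h5 : Real.exp (-c * (Real.log N) ^ ((1 : ℝ) / t)) * (2 : ℝ) ^ L ≥ 1 := by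
      rw [h2L, ← Real.exp_add, ge_iff_le]
      apply Real.one_le_exp
      rw [neg_mul]
      linarith
    have hN0 : (0 : ℝ) ≤ N := by linarith
    calc (A.card : ℝ) ≤ A.card *
          (Real.exp (-c * (Real.log N) ^ ((1 : ℝ) / t)) * (2 : ℝ) ^ L) :=
          le_mul_of_one_le_right (Nat.cast_nonneg _) h5
      _ = ((2 : ℝ) ^ L * A.card) *
          Real.exp (-c * (Real.log N) ^ ((1 : ℝ) / t)) := by ring
      _ ≤ (2 * N) * Real.exp (-c * (Real.log N) ^ ((1 : ℝ) / t)) :=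
          mul_le_mul_of_nonneg_right h3 hexp0.le
      _ ≤ (2 + C1) * N * Real.exp (-c * (Real.log N) ^ ((1 : ℝ) / t)) := by
          apply mul_le_mul_of_nonneg_right _ hexp0.le
          nlinarith

end Vale.Agent.P042
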