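import Vale.Agent.P042.Core

/-!
# P042, module E4: sup-norm approximation by the major arc model
-/

open Polynomial Finset

namespace Vale.Agent.P042

namespace MajAux

theorem ee_add (x y : ℝ) : ee (x + y) = ee x * ee y := by
  unfold ee
  rw [← Complex.exp_add]
  congr 1
  push_cast
  ring

theorem norm_ee (x : ℝ) : ‖ee x‖ = 1 := by
  unfold ee
  exact Complex.norm_exp_ofReal_mul_I _

theorem ee_int (n : ℤ) : ee (n : ℝ) = 1 := by
  unfold ee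
  rw [Complex.exp_eq_one_iff]
  refine ⟨n, ?_⟩
  push_cast
  ring

theorem ee_zero : ee 0 = 1 := by
  have := ee_int 0
  simpa using this

theorem norm_ee_sub_one (x : ℝ) : ‖ee x - 1‖ = 2 * |Real.sin (Real.pi * x)| := by
  unfold ee
  have h := Complex.norm_exp_I_mul_ofReal_sub_one (2 * Real.pi * x)
  rw [mul_comm] at h
  rw [h]
  rw [Real.norm_eq_abs, abs_mul]
  have : (2 * Real.pi * x / 2) = Real.pi * x := by ring
  rw [this]
  norm_num

theorem ee_sub_one_ge (x : ℝ) : 4 * nn x ≤ ‖ee x - 1‖ := by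
  -- reduce to `|y| ≤ 1/2`
  set y : ℝ := x - round x with hy
  have hy2 : |y| ≤ 1 / 2 := abs_sub_round x
  have hxy : ee x = ee y := by
    have : x = y + (round x : ℤ) := by rw [hy]; ring
    rw [this, ee_add, ee_int, mul_one]
  have hn : nn x = |y| := rfl
  rw [hxy, hn, norm_ee_sub_one]
  have h1 : |Real.sin (Real.pi * y)| = Real.sin (Real.pi * |y|) := by
    rcases le_total 0 y with h | h
    · rw [abs_of_nonneg h]
      apply abs_of_nonneg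
      apply Real.sin_nonneg_of_nonneg_of_le_pi
      · positivity
      · rw [abs_of_nonneg h] at hy2
        nlinarith [Real.pi_pos]
    · rw [abs_of_nonpos h]
      rw [mul_neg, Real.sin_neg]
      apply abs_of_nonpos
      rw [abs_of_nonpos h] at hy2
      have : 0 ≤ Real.sin (Real.pi * (-y)) := by
        apply Real.sin_nonneg_of_nonneg_of_le_pi
        · have : 0 ≤ -y := by linarith
          positivity
        · nlinarith [Real.pi_pos]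
      rw [mul_neg, Real.sin_neg] at this
      linarith
  rw [h1]
  have h2 : 2 / Real.pi * (Real.pi * |y|) ≤ Real.sin (Real.pi * |y|) := by
    apply Real.mul_le_sin
    · positivity
    · nlinarith [Real.pi_pos]
  have h3 : 2 / Real.pi * (Real.pi * |y|) = 2 * |y| := by
    field_simp
  linarith

theorem ee_sub_le (x y : ℝ) : ‖ee x - ee y‖ ≤ 2 * Real.pi * |x - y| := by
  have h : ee x - ee y = ee y * (ee (x - y) - 1) := by
    have : x = y + (x - y) := by ring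
    nth_rewrite 1 [this]
    rw [ee_add]; ring
  rw [h, norm_mul, norm_ee, one_mul]
  unfold ee
  have := Real.norm_exp_I_mul_ofReal_sub_one_le (x := 2 * Real.pi * (x - y))
  rw [mul_comm] at this
  refine this.trans ?_
  rw [Real.norm_eq_abs, abs_mul, abs_mul]
  rw [abs_of_pos Real.pi_pos]
  norm_num

theorem nn_le (x : ℝ) (n : ℤ) : nn x ≤ |x - n| := round_le x n

theorem sum_Icc_one {M : Type*} [AddCommMonoid M] (f : ℕ → M) (V : ℕ) :
    ∑ v ∈ Icc 1 V, f v = ∑ v ∈ range V, f (v + 1) := by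
  induction V with
  | zero => simp
  | succ n ih =>
    rw [Finset.sum_range_succ, ← ih, Finset.sum_Icc_succ_top (by omega)]

theorem sum_Ioc_shift {M : Type*} [AddCommMonoid M] (f : ℕ → M) (t T : ℕ) :
    ∑ m ∈ Ioc t (t + T), f m = ∑ v ∈ range T, f (t + 1 + v) := by
  induction T with
  | zero => simp
  | succ n ih =>
    rw [Finset.sum_range_succ, ← ih, ← add_assoc, Finset.sum_Ioc_succ_top (by omega)]
    congr 2
    ring

theorem geom_bound (x κ : ℝ) (t T : ℕ) (hκ : 0 < κ) (h : κ ≤ nn x) :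
    ‖∑ m ∈ Ioc t (t + T), ee (x * (m : ℝ))‖ ≤ 1 / (2 * κ) := by
  have key : (ee x - 1) * ∑ m ∈ Ioc t (t + T), ee (x * (m : ℝ))
      = ee (x * ((t + T + 1 : ℕ) : ℝ)) - ee (x * ((t + 1 : ℕ) : ℝ)) := by
    induction T with
    | zero => simp
    | succ n ih =>
      rw [← add_assoc, Finset.sum_Ioc_succ_top (by omega), mul_add, ih]
      have : ee (x * ((t + n + 1 + 1 : ℕ) : ℝ)) = ee x * ee (x * ((t + n + 1 : ℕ) : ℝ)) := by
        rw [← ee_add]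
        congr 1
        push_cast
        ring
      rw [this]
      ring
  have h1 : ‖(ee x - 1) * ∑ m ∈ Ioc t (t + T), ee (x * (m : ℝ))‖ ≤ 2 := by
    rw [key]
    refine (norm_sub_le _ _).trans ?_
    rw [norm_ee, norm_ee]
    norm_num
  rw [norm_mul] at h1
  have h2 := ee_sub_one_ge x
  have h3 : 4 * κ ≤ ‖ee x - 1‖ := by linarith
  have h4 : 4 * κ * ‖∑ m ∈ Ioc t (t + T), ee (x * (m : ℝ))‖ ≤ 2 :=
    (mul_le_mul_of_nonneg_right h3 (norm_nonneg _)).trans h1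
  rw [le_div_iff₀ (by positivity)]
  linarith

/-- normalised interval sum -/
noncomputable def DD (t T : ℕ) (x : ℝ) : ℂ := (∑ m ∈ Ioc t (t + T), ee (x * (m : ℝ))) / (T : ℂ)

theorem DD_int (t T : ℕ) (x : ℝ) (n : ℤ) : DD t T (x + n) = DD t T x := by
  unfold DD
  congr 1
  apply Finset.sum_congr rfl
  intro m _
  have : (x + (n : ℝ)) * (m : ℝ) = x * (m : ℝ) + ((n * (m : ℤ) : ℤ) : ℝ) := by
    push_cast; ring
  rw [this, ee_add, ee_int, mul_one]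

theorem norm_DD_le_one (t T : ℕ) (x : ℝ) : ‖DD t T x‖ ≤ 1 := by
  unfold DD
  rcases Nat.eq_zero_or_pos T with h | h
  · subst h; simp
  · rw [norm_div, Complex.norm_natCast]
    rw [div_le_one (by exact_mod_cast h)]
    refine (norm_sum_le _ _).trans ?_
    simp [norm_ee]

theorem norm_DD_le (t T : ℕ) (x κ : ℝ) (hT : 1 ≤ T) (hκ : 0 < κ) (h : κ ≤ nn x) :
    ‖DD t T x‖ ≤ 1 / (2 * κ * T) := by
  unfold DD
  rw [norm_div, Complex.norm_natCast]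
  have hT' : (0 : ℝ) < T := by exact_mod_cast hT
  rw [div_le_iff₀ hT']
  refine (geom_bound x κ t T hκ h).trans (le_of_eq ?_)
  field_simp

theorem norm_Gs_le_one (g : ℤ[X]) (a : ℤ) (q : ℕ) : ‖Gs g a q‖ ≤ 1 := by
  unfold Gs
  rcases Nat.eq_zero_or_pos q with h | h
  · subst h; simp
  · rw [norm_div, Complex.norm_natCast]
    rw [div_le_one (by exact_mod_cast h)]
    refine (norm_sum_le _ _).trans ?_
    simp [norm_ee]

theorem sum_shift_periodic (f : ℕ → ℂ) (q : ℕ) (hf : ∀ n, f (n + q) = f n) (s : ℕ) :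
    ∑ v ∈ range q, f (s + v) = ∑ v ∈ range q, f v := by
  induction s with
  | zero => simp
  | succ s ih =>
    rw [← ih]
    have h1 := Finset.sum_range_succ (fun v => f (s + v)) q
    have h2 := Finset.sum_range_succ' (fun v => f (s + v)) q
    have h3 : f (s + q) = f (s + 0) := by rw [add_zero]; exact hf s
    have h4 : ∀ v, f (s + (v + 1)) = f (s + 1 + v) := by
      intro v; congr 1; ring
    simp only [h4] at h2
    rw [h1, h3] at h2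
    exact (add_right_cancel h2).symm

/-- periodicity of the complete exponential -/
theorem phi_periodic (g : ℤ[X]) (r q : ℕ) (hq : 1 ≤ q) (n : ℕ) :
    ee ((r : ℝ) * ((g.eval ((n + q : ℕ) : ℤ) : ℤ) : ℝ) / (q : ℝ))
      = ee ((r : ℝ) * ((g.eval ((n : ℕ) : ℤ) : ℤ) : ℝ) / (q : ℝ)) := by
  obtain ⟨z, hz⟩ := Polynomial.sub_dvd_eval_sub ((n + q : ℕ) : ℤ) ((n : ℕ) : ℤ) g
  have h1 : (((n + q : ℕ) : ℤ) - ((n : ℕ) : ℤ)) = (q : ℤ) := by push_cast; ring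
  rw [h1] at hz
  have h2 : (g.eval ((n + q : ℕ) : ℤ) : ℤ) = g.eval ((n : ℕ) : ℤ) + q * z := by linarith
  have hq' : (q : ℝ) ≠ 0 := by
    have : q ≠ 0 := by omega
    exact_mod_cast this
  have h3 : (r : ℝ) * ((g.eval ((n + q : ℕ) : ℤ) : ℤ) : ℝ) / (q : ℝ)
      = (r : ℝ) * ((g.eval ((n : ℕ) : ℤ) : ℤ) : ℝ) / (q : ℝ) + (((r : ℤ) * z : ℤ) : ℝ) := by
    rw [h2]
    push_cast
    field_simp
  rw [h3, ee_add, ee_int, mul_one]


/-- the near case: comparison with one fraction -/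
theorem near_main (hA : ABEL) (hR : RIEM) (g : ℤ[X]) (U V t T q r : ℕ) (η β θ : ℝ) (n : ℤ)
    (hV : 1 ≤ V) (hT : 1 ≤ T) (hη0 : 0 ≤ η) (hη1 : η ≤ 1) (hq : 1 ≤ q)
    (h1 : g.eval (U : ℤ) ≤ (t : ℤ)) (h2 : (t : ℤ) < g.eval ((U + 1 : ℕ) : ℤ))
    (h3 : g.eval ((U + V : ℕ) : ℤ) ≤ ((t + T : ℕ) : ℤ))
    (h4 : ((t + T : ℕ) : ℤ) < g.eval ((U + V + 1 : ℕ) : ℤ))
    (h5 : ∀ u ∈ Icc U (U + V), 0 < Dl g u ∧ |(V : ℝ) * (Dl g u : ℝ) - T| ≤ η * T)
    (hθ : θ = (r : ℝ) / q + n + β) :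
    ‖(∑ v ∈ Icc 1 V, ee (θ * ((g.eval ((U + v : ℕ) : ℤ) : ℤ) : ℝ))) / (V : ℂ)
        - Gs g r q * DD t T β‖
      ≤ 2 * q * (1 + 13 * |β| * T) / V + (η + (26 * |β| * T + 6) / V) := by
  have hV' : (0 : ℝ) < V := by exact_mod_cast hV
  have hT' : (0 : ℝ) < T := by exact_mod_cast hT
  have hVc : (V : ℂ) ≠ 0 := by
    have : V ≠ 0 := by omega
    exact_mod_cast this
  set φ : ℕ → ℂ := fun v => ee ((r : ℝ) * ((g.eval ((U + 1 + v : ℕ) : ℤ) : ℤ) : ℝ) / (q : ℝ)) with hφ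
  set ψ : ℕ → ℂ := fun v => ee (β * ((g.eval ((U + 1 + v : ℕ) : ℤ) : ℤ) : ℝ)) with hψ
  -- the sum splits
  have hsum : ∑ v ∈ Icc 1 V, ee (θ * ((g.eval ((U + v : ℕ) : ℤ) : ℤ) : ℝ))
      = ∑ v ∈ range V, φ v * ψ v := by
    rw [sum_Icc_one]
    apply Finset.sum_congr rfl
    intro v _
    have e1 : U + (v + 1) = U + 1 + v := by ring
    rw [e1, hφ, hψ]
    simp only
    rw [← ee_add]
    have e2 : θ * ((g.eval ((U + 1 + v : ℕ) : ℤ) : ℤ) : ℝ)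
        = ((r : ℝ) * ((g.eval ((U + 1 + v : ℕ) : ℤ) : ℤ) : ℝ) / (q : ℝ)
          + β * ((g.eval ((U + 1 + v : ℕ) : ℤ) : ℤ) : ℝ))
          + ((n * g.eval ((U + 1 + v : ℕ) : ℤ) : ℤ) : ℝ) := by
      rw [hθ]
      push_cast
      ring
    rw [e2, ee_add _ ((n * g.eval ((U + 1 + v : ℕ) : ℤ) : ℤ) : ℝ), ee_int, mul_one]
  have hsumψ : ∑ v ∈ Icc 1 V, ee (β * ((g.eval ((U + v : ℕ) : ℤ) : ℤ) : ℝ))
      = ∑ v ∈ range V, ψ v := by
    rw [sum_Icc_one]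
    apply Finset.sum_congr rfl
    intro v _
    have e1 : U + (v + 1) = U + 1 + v := by ring
    rw [e1]
  -- Abel
  have hper : ∀ m, φ (m + q) = φ m := by
    intro m
    simp only [hφ]
    have e1 : U + 1 + (m + q) = (U + 1 + m) + q := by ring
    rw [e1]
    exact phi_periodic g r q hq (U + 1 + m)
  have hcomp : ∑ m ∈ range q, φ m = q * Gs g r q := by
    have hq' : (q : ℂ) ≠ 0 := by
      have : q ≠ 0 := by omega
      exact_mod_cast this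
    have e1 := sum_shift_periodic
      (fun v : ℕ => ee ((r : ℝ) * ((g.eval ((v : ℕ) : ℤ) : ℤ) : ℝ) / (q : ℝ))) q
      (fun m => phi_periodic g r q hq m) (U + 1)
    unfold Gs
    rw [mul_div_cancel₀ _ hq']
    simp only [hφ]
    rw [e1]
    simp
  have hτ : ∑ v ∈ range V, ‖ψ (v + 1) - ψ v‖ ≤ 13 * |β| * T := by
    have hb : ∀ v ∈ range V, ‖ψ (v + 1) - ψ v‖ ≤ 2 * Real.pi * |β| * (2 * T / V) := by
      intro v hv
      rw [Finset.mem_range] at hv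
      have hmem : U + 1 + v ∈ Icc U (U + V) := by
        rw [Finset.mem_Icc]; omega
      obtain ⟨hp, hd⟩ := h5 _ hmem
      simp only [hψ]
      refine (ee_sub_le _ _).trans ?_
      have e1 : β * ((g.eval ((U + 1 + (v + 1) : ℕ) : ℤ) : ℤ) : ℝ)
          - β * ((g.eval ((U + 1 + v : ℕ) : ℤ) : ℤ) : ℝ) = β * (Dl g (U + 1 + v) : ℝ) := by
        unfold Dl
        push_cast
        have : ((U : ℤ) + 1 + (v + 1)) = (U : ℤ) + 1 + v + 1 := by ring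
        rw [this]
        ring
      rw [e1, abs_mul]
      have hp' : (0 : ℝ) < (Dl g (U + 1 + v) : ℝ) := by exact_mod_cast hp
      rw [abs_of_pos hp']
      have h6 : (Dl g (U + 1 + v) : ℝ) ≤ 2 * T / V := by
        rw [le_div_iff₀ hV']
        have := (abs_le.1 hd).2
        nlinarith
      have : 2 * Real.pi * (|β| * (Dl g (U + 1 + v) : ℝ))
          = 2 * Real.pi * |β| * (Dl g (U + 1 + v) : ℝ) := by ring
      rw [this]
      apply mul_le_mul_of_nonneg_left h6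
      have := Real.pi_pos
      positivity
    refine (Finset.sum_le_sum hb).trans ?_
    rw [Finset.sum_const, Finset.card_range, nsmul_eq_mul]
    have e2 : (V : ℝ) * (2 * Real.pi * |β| * (2 * T / V)) = (4 * Real.pi) * (|β| * T) := by
      field_simp
      ring
    rw [e2]
    have h7 : 4 * Real.pi ≤ 13 := by
      have := Real.pi_lt_d2
      linarith
    have h8 : 0 ≤ |β| * T := by positivity
    calc 4 * Real.pi * (|β| * T) ≤ 13 * (|β| * T) := mul_le_mul_of_nonneg_right h7 h8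
      _ = 13 * |β| * T := by ring
  have hab := hA φ ψ q V (Gs g r q) (13 * |β| * T) hq hper
    (fun m => (norm_ee _).le) hcomp (fun m => (norm_ee _).le) hτ
  have hri := hR g U V t T η β hV hT hη0 hη1 h1 h2 h3 h4 h5
  rw [hsumψ] at hri
  rw [hsum]
  have hsplit : (∑ v ∈ range V, φ v * ψ v) / (V : ℂ) - Gs g r q * DD t T β
      = (∑ v ∈ range V, φ v * ψ v - Gs g r q * ∑ v ∈ range V, ψ v) / (V : ℂ)
        + Gs g r q * ((∑ v ∈ range V, ψ v) / (V : ℂ) - DD t T β) := by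
    field_simp
    ring
  rw [hsplit]
  refine (norm_add_le _ _).trans (add_le_add ?_ ?_)
  · rw [norm_div, Complex.norm_natCast]
    exact div_le_div_of_nonneg_right hab hV'.le
  · rw [norm_mul]
    have h9 : ‖(∑ v ∈ range V, ψ v) / (V : ℂ) - DD t T β‖ ≤ η + (26 * |β| * T + 6) / V := hri
    calc ‖Gs g r q‖ * ‖(∑ v ∈ range V, ψ v) / (V : ℂ) - DD t T β‖
        ≤ 1 * ‖(∑ v ∈ range V, ψ v) / (V : ℂ) - DD t T β‖ :=
          mul_le_mul_of_nonneg_right (norm_Gs_le_one _ _ _) (norm_nonneg _)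
      _ ≤ _ := by rw [one_mul]; exact h9

/-- index set of reduced fractions -/
def fr (Q : ℕ) : Finset (Σ _ : ℕ, ℕ) :=
  (Icc 1 Q).sigma (fun q => (range q).filter (fun r => Nat.Coprime r q))

theorem mem_fr {Q : ℕ} {x : Σ _ : ℕ, ℕ} :
    x ∈ fr Q ↔ (1 ≤ x.1 ∧ x.1 ≤ Q) ∧ x.2 < x.1 ∧ Nat.Coprime x.2 x.1 := by
  unfold fr
  rw [Finset.mem_sigma, Finset.mem_Icc, Finset.mem_filter, Finset.mem_range]

theorem card_fr (Q : ℕ) : (fr Q).card ≤ Q * Q := by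
  unfold fr
  rw [Finset.card_sigma]
  calc ∑ q ∈ Icc 1 Q, ((range q).filter (fun r => Nat.Coprime r q)).card
      ≤ ∑ q ∈ Icc 1 Q, Q := by
        apply Finset.sum_le_sum
        intro q hq
        rw [Finset.mem_Icc] at hq
        calc ((range q).filter (fun r => Nat.Coprime r q)).card ≤ (range q).card :=
              Finset.card_filter_le _ _
          _ = q := Finset.card_range q
          _ ≤ Q := hq.2
    _ = Q * Q := by
        rw [Finset.sum_const, Nat.card_Icc, smul_eq_mul]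
        simp

/-- the model as a sum over reduced fractions -/
theorem model_eq (g : ℤ[X]) (Q t T : ℕ) (θ : ℝ) :
    ∑ q ∈ Icc 1 Q, ∑ r ∈ (range q).filter (fun r => Nat.Coprime r q),
        Gs g r q * ((∑ m ∈ Ioc t (t + T), ee ((θ - (r : ℝ) / q) * (m : ℝ))) / (T : ℂ))
      = ∑ x ∈ fr Q, Gs g x.2 x.1 * DD t T (θ - (x.2 : ℝ) / x.1) := by
  unfold fr
  rw [Finset.sum_sigma]
  rfl

theorem terms_bound (g : ℤ[X]) (Q t T : ℕ) (θ κ : ℝ) (hT : 1 ≤ T) (hκ : 0 < κ)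
    (S : Finset (Σ _ : ℕ, ℕ)) (hS : S ⊆ fr Q) (h : ∀ x ∈ S, κ ≤ nn (θ - (x.2 : ℝ) / x.1)) :
    ‖∑ x ∈ S, Gs g x.2 x.1 * DD t T (θ - (x.2 : ℝ) / x.1)‖ ≤ (Q * Q : ℝ) / (2 * κ * T) := by
  have hT' : (0 : ℝ) < T := by exact_mod_cast hT
  have h1 : ∀ x ∈ S, ‖Gs g x.2 x.1 * DD t T (θ - (x.2 : ℝ) / x.1)‖ ≤ 1 / (2 * κ * T) := by
    intro x hx
    rw [norm_mul]
    calc ‖Gs g x.2 x.1‖ * ‖DD t T (θ - (x.2 : ℝ) / x.1)‖
        ≤ 1 * ‖DD t T (θ - (x.2 : ℝ) / x.1)‖ :=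
          mul_le_mul_of_nonneg_right (norm_Gs_le_one _ _ _) (norm_nonneg _)
      _ ≤ 1 / (2 * κ * T) := by rw [one_mul]; exact norm_DD_le t T _ κ hT hκ (h x hx)
  refine (norm_sum_le _ _).trans ((Finset.sum_le_sum h1).trans ?_)
  rw [Finset.sum_const, nsmul_eq_mul]
  have h2 : (S.card : ℝ) ≤ Q * Q := by
    have := (Finset.card_le_card hS).trans (card_fr Q)
    exact_mod_cast this
  rw [mul_one_div]
  exact div_le_div_of_nonneg_right h2 (by positivity)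

/-- separation of reduced fractions -/
theorem sep (Q Q₁ q r q₀ r₀ : ℕ) (n : ℤ) (β κ₀ θ : ℝ) (hq : 1 ≤ q) (hqQ : q ≤ Q) (hr : r < q)
    (hc : Nat.Coprime r q) (hq₀ : 1 ≤ q₀) (hqQ₀ : q₀ ≤ Q₁) (hr₀ : r₀ < q₀)
    (hc₀ : Nat.Coprime r₀ q₀) (hne : ¬ (q = q₀ ∧ r = r₀)) (hβ : |β| ≤ κ₀)
    (hκ : κ₀ ≤ 1 / (2 * Q * Q₁)) (hθ : θ = (r₀ : ℝ) / q₀ + n + β) :
    1 / (2 * Q * Q₁) ≤ nn (θ - (r : ℝ) / q) := by
  set z : ℤ := round (θ - (r : ℝ) / q) with hz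
  have hnn : nn (θ - (r : ℝ) / q) = |θ - (r : ℝ) / q - z| := rfl
  rw [hnn]
  have hqR : (0 : ℝ) < q := by exact_mod_cast hq
  have hqR₀ : (0 : ℝ) < q₀ := by exact_mod_cast hq₀
  set I : ℤ := (r₀ : ℤ) * q - r * q₀ + (n - z) * (q * q₀) with hI
  have hA : θ - (r : ℝ) / q - z = (I : ℝ) / (q * q₀) + β := by
    rw [hθ, hI]
    push_cast
    field_simp
    ring
  have hI0 : I ≠ 0 := by
    intro h0
    have hr' : (r : ℤ) < q := by exact_mod_cast hr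
    have hr₀' : (r₀ : ℤ) < q₀ := by exact_mod_cast hr₀
    have hq' : (0 : ℤ) < q := by exact_mod_cast hq
    have hq₀' : (0 : ℤ) < q₀ := by exact_mod_cast hq₀
    have hrn : (0 : ℤ) ≤ r := by positivity
    have hrn₀ : (0 : ℤ) ≤ r₀ := by positivity
    have hnz : n - z = 0 := by
      have e1 : (n - z) * (q * q₀) = r * q₀ - r₀ * q := by
        rw [hI] at h0; linarith
      have b1 : (r : ℤ) * q₀ < q * q₀ := mul_lt_mul_of_pos_right hr' hq₀'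
      have b2 : (r₀ : ℤ) * q < q * q₀ := by
        calc (r₀ : ℤ) * q < q₀ * q := mul_lt_mul_of_pos_right hr₀' hq'
          _ = q * q₀ := by ring
      have b3 : (0 : ℤ) ≤ r * q₀ := by positivity
      have b4 : (0 : ℤ) ≤ r₀ * q := by positivity
      have b5 : (0 : ℤ) < q * q₀ := by positivity
      by_contra hne0
      rcases lt_or_gt_of_ne hne0 with h | h
      · have : (n - z) * (q * q₀) ≤ -1 * (q * q₀) :=
          mul_le_mul_of_nonneg_right (by omega) b5.le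
        linarith
      · have : 1 * ((q : ℤ) * q₀) ≤ (n - z) * (q * q₀) :=
          mul_le_mul_of_nonneg_right (by omega) b5.le
        linarith
    rw [hI, hnz] at h0
    have e2 : (r₀ : ℤ) * q = r * q₀ := by linarith
    have e3 : r₀ * q = r * q₀ := by exact_mod_cast e2
    have d1 : q ∣ q₀ := by
      have : q ∣ r * q₀ := ⟨r₀, by rw [← e3]; ring⟩
      exact (Nat.Coprime.symm hc).dvd_of_dvd_mul_left this
    have d2 : q₀ ∣ q := by
      have : q₀ ∣ r₀ * q := ⟨r, by rw [e3]; ring⟩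
      exact (Nat.Coprime.symm hc₀).dvd_of_dvd_mul_left this
    have e4 : q = q₀ := Nat.dvd_antisymm d1 d2
    apply hne
    refine ⟨e4, ?_⟩
    rw [← e4] at e3
    have := Nat.eq_of_mul_eq_mul_right (by omega) e3
    exact this.symm
  have hI1 : (1 : ℝ) ≤ |(I : ℝ)| := by
    have : (1 : ℤ) ≤ |I| := Int.one_le_abs hI0
    have h' : ((1 : ℤ) : ℝ) ≤ ((|I| : ℤ) : ℝ) := by exact_mod_cast this
    rwa [Int.cast_abs, Int.cast_one] at h'
  have hQ : (q : ℝ) ≤ Q := by exact_mod_cast hqQ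
  have hQ₁ : (q₀ : ℝ) ≤ Q₁ := by exact_mod_cast hqQ₀
  have hQpos : (0 : ℝ) < Q := lt_of_lt_of_le hqR hQ
  have hQ₁pos : (0 : ℝ) < Q₁ := lt_of_lt_of_le hqR₀ hQ₁
  have h1 : 1 / ((Q : ℝ) * Q₁) ≤ |(I : ℝ) / (q * q₀)| := by
    rw [abs_div, abs_of_pos (mul_pos hqR hqR₀)]
    apply div_le_div₀ (abs_nonneg _) hI1 (mul_pos hqR hqR₀)
    exact mul_le_mul hQ hQ₁ hqR₀.le hQpos.le
  rw [hA]
  have h2 : |(I : ℝ) / (q * q₀)| - |β| ≤ |(I : ℝ) / (q * q₀) + β| := by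
    have := abs_sub_abs_le_abs_sub ((I : ℝ) / (q * q₀)) (-β)
    rw [abs_neg, sub_neg_eq_add] at this
    exact this
  have h3 : 1 / ((Q : ℝ) * Q₁) = 2 * (1 / (2 * Q * Q₁)) := by
    field_simp
  linarith

/-- Weyl: a large sum forces a rational approximation -/
theorem weyl_near (k e : ℕ) (hk : 2 ≤ k)
    (he : ∀ (P : ℝ[X]) (V : ℕ) (δ : ℝ), P.natDegree ≤ k → 1 ≤ V →
      0 < δ → δ ≤ 1 → δ * V ≤ ‖∑ v ∈ range V, ee (P.eval (v : ℝ))‖ →
      ∃ y : ℕ, 1 ≤ y ∧ (y : ℝ) ≤ (2 / δ) ^ e ∧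
        nn ((y : ℝ) * P.coeff k) ≤ (2 / δ) ^ e / (V : ℝ) ^ k)
    (g : ℤ[X]) (U V H L : ℕ) (θ : ℝ) (hV : 1 ≤ V) (hg : g.natDegree = k)
    (hlc : 0 < g.leadingCoeff) (hH : ∀ i, |g.coeff i| ≤ (H : ℤ))
    (hS : 1 / 2 ^ (L + 8) * (V : ℝ)
      ≤ ‖∑ v ∈ Icc 1 V, ee (θ * ((g.eval ((U + v : ℕ) : ℤ) : ℤ) : ℝ))‖) :
    ∃ (q₀ r₀ : ℕ) (n : ℤ), 1 ≤ q₀ ∧ q₀ ≤ (2 ^ (L + 9)) ^ e * H ∧ r₀ < q₀ ∧ Nat.Coprime r₀ q₀ ∧
      |θ - (r₀ : ℝ) / q₀ - n| ≤ (2 ^ (L + 9)) ^ e / (V : ℝ) ^ k := by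
  set P : ℝ[X] := C θ * ((g.map (Int.castRingHom ℝ)).comp (X + C ((U : ℝ) + 1))) with hP
  have hinj : Function.Injective (Int.castRingHom ℝ) := Int.cast_injective
  have hdeg : (g.map (Int.castRingHom ℝ)).natDegree = k := by
    rw [Polynomial.natDegree_map_eq_of_injective hinj, hg]
  have hcompdeg : ((g.map (Int.castRingHom ℝ)).comp (X + C ((U : ℝ) + 1))).natDegree = k := by
    rw [Polynomial.natDegree_comp, hdeg, Polynomial.natDegree_X_add_C, mul_one]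
  have hPdeg : P.natDegree ≤ k := by
    rw [hP]
    refine (Polynomial.natDegree_C_mul_le _ _).trans ?_
    rw [hcompdeg]
  have hcoef : P.coeff k = θ * (g.leadingCoeff : ℝ) := by
    rw [hP, Polynomial.coeff_C_mul]
    congr 1
    have h1 : ((g.map (Int.castRingHom ℝ)).comp (X + C ((U : ℝ) + 1))).leadingCoeff
        = (g.leadingCoeff : ℝ) := by
      rw [Polynomial.leadingCoeff_comp (by rw [Polynomial.natDegree_X_add_C]; exact one_ne_zero),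
        Polynomial.leadingCoeff_X_add_C, one_pow, mul_one,
        Polynomial.leadingCoeff_map_of_injective hinj]
      rfl
    rw [← h1, Polynomial.leadingCoeff, hcompdeg]
  have heval : ∀ v : ℕ, P.eval (v : ℝ) = θ * ((g.eval ((U + (v + 1) : ℕ) : ℤ) : ℤ) : ℝ) := by
    intro v
    rw [hP, Polynomial.eval_mul, Polynomial.eval_C, Polynomial.eval_comp]
    congr 1
    have e1 : Polynomial.eval (v : ℝ) (X + C ((U : ℝ) + 1) : ℝ[X])
        = ((((U + (v + 1) : ℕ) : ℤ)) : ℝ) := by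
      rw [Polynomial.eval_add, Polynomial.eval_X, Polynomial.eval_C]
      push_cast
      ring
    rw [e1]
    have e2 := Polynomial.eval_intCast_map (Int.castRingHom ℝ) g (((U + (v + 1) : ℕ) : ℤ))
    rw [e2]
    rfl
  have hsum : ∑ v ∈ range V, ee (P.eval (v : ℝ))
      = ∑ v ∈ Icc 1 V, ee (θ * ((g.eval ((U + v : ℕ) : ℤ) : ℤ) : ℝ)) := by
    rw [sum_Icc_one]
    apply Finset.sum_congr rfl
    intro v _
    rw [heval]
  have hδ1 : (1 : ℝ) / 2 ^ (L + 8) ≤ 1 := by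
    rw [div_le_one (by positivity)]
    exact one_le_pow₀ (by norm_num)
  obtain ⟨y, hy1, hy2, hy3⟩ := he P V (1 / 2 ^ (L + 8)) hPdeg hV (by positivity) hδ1
    (by rw [hsum]; exact hS)
  have h2δ : (2 : ℝ) / (1 / 2 ^ (L + 8)) = 2 ^ (L + 9) := by
    field_simp
    ring
  rw [h2δ] at hy2 hy3
  rw [hcoef] at hy3
  set l : ℕ := g.leadingCoeff.toNat with hl
  have hlZ : (l : ℤ) = g.leadingCoeff := Int.toNat_of_nonneg hlc.le
  have hl1 : 1 ≤ l := by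
    have : (1 : ℤ) ≤ (l : ℤ) := by rw [hlZ]; omega
    exact_mod_cast this
  have hlH : l ≤ H := by
    have h1 := hH k
    have h2 : g.coeff k = g.leadingCoeff := by rw [Polynomial.leadingCoeff, hg]
    rw [h2, ← hlZ, abs_of_nonneg (by positivity)] at h1
    exact_mod_cast h1
  have hlR : (g.leadingCoeff : ℝ) = (l : ℝ) := by rw [← hlZ]; push_cast; rfl
  rw [hlR] at hy3
  set q' : ℕ := y * l with hq'
  have hq'1 : 1 ≤ q' := Nat.mul_pos hy1 hl1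
  have hq'R : (1 : ℝ) ≤ (q' : ℝ) := by exact_mod_cast hq'1
  set z : ℤ := round ((y : ℝ) * (θ * (l : ℝ))) with hz
  have hzb : |(y : ℝ) * (θ * (l : ℝ)) - z| ≤ (2 ^ (L + 9)) ^ e / (V : ℝ) ^ k := hy3
  have hb0 : (0 : ℝ) ≤ (2 ^ (L + 9)) ^ e / (V : ℝ) ^ k := by positivity
  have hθz : |θ - (z : ℝ) / q'| ≤ (2 ^ (L + 9)) ^ e / (V : ℝ) ^ k := by
    have e1 : θ - (z : ℝ) / q' = ((y : ℝ) * (θ * (l : ℝ)) - z) / q' := by
      rw [hq']
      have h1 : (y : ℝ) ≠ 0 := by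
        have : y ≠ 0 := by omega
        exact_mod_cast this
      have h2 : (l : ℝ) ≠ 0 := by
        have : l ≠ 0 := by omega
        exact_mod_cast this
      push_cast
      field_simp
    rw [e1, abs_div, abs_of_pos (by linarith : (0 : ℝ) < q')]
    rw [div_le_iff₀ (by linarith)]
    calc |(y : ℝ) * (θ * (l : ℝ)) - z| ≤ (2 ^ (L + 9)) ^ e / (V : ℝ) ^ k * 1 := by
          rw [mul_one]; exact hzb
      _ ≤ _ := mul_le_mul_of_nonneg_left hq'R hb0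
  set ρ : ℚ := (z : ℚ) / (q' : ℚ) with hρ
  have hρd : ρ.den ∣ q' := by
    have h1 := Rat.den_dvd z (q' : ℤ)
    have h2 : (((z : ℤ) : ℚ) / ((q' : ℤ) : ℚ)) = ρ := by rw [hρ]; push_cast; rfl
    rw [Rat.divInt_eq_div, h2] at h1
    exact_mod_cast h1
  have hden1 : 1 ≤ ρ.den := ρ.pos
  have hmod0 : 0 ≤ ρ.num % (ρ.den : ℤ) := Int.emod_nonneg _ (by
    have : ρ.den ≠ 0 := by omega
    exact_mod_cast this)
  have hmod1 : ρ.num % (ρ.den : ℤ) < ρ.den := Int.emod_lt_of_pos _ (by exact_mod_cast hden1)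
  refine ⟨ρ.den, (ρ.num % (ρ.den : ℤ)).toNat, ρ.num / (ρ.den : ℤ), hden1, ?_, ?_, ?_, ?_⟩
  · refine (Nat.le_of_dvd hq'1 hρd).trans ?_
    rw [hq']
    apply Nat.mul_le_mul _ hlH
    have : ((y : ℕ) : ℝ) ≤ (((2 ^ (L + 9)) ^ e : ℕ) : ℝ) := by push_cast; exact hy2
    exact_mod_cast this
  · have : ((ρ.num % (ρ.den : ℤ)).toNat : ℤ) < (ρ.den : ℤ) := by
      rw [Int.toNat_of_nonneg hmod0]; exact hmod1
    exact_mod_cast this
  · have h1 : Nat.Coprime ρ.num.natAbs ρ.den := ρ.reduced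
    have h2 : IsCoprime ρ.num (ρ.den : ℤ) := by
      rw [Int.isCoprime_iff_nat_coprime]
      simpa using h1
    have h3 : IsCoprime (ρ.num % (ρ.den : ℤ)) (ρ.den : ℤ) := by
      have h4 : ρ.num % (ρ.den : ℤ) = ρ.num + (ρ.den : ℤ) * (-(ρ.num / (ρ.den : ℤ))) := by
        have := Int.emod_add_mul_ediv ρ.num (ρ.den : ℤ)
        linarith
      rw [h4]
      exact IsCoprime.add_mul_left_left h2 _
    have h5 : IsCoprime (((ρ.num % (ρ.den : ℤ)).toNat : ℕ) : ℤ) (ρ.den : ℤ) := by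
      rw [Int.toNat_of_nonneg hmod0]; exact h3
    exact Nat.isCoprime_iff_coprime.1 h5
  · have h1 : (((ρ.num % (ρ.den : ℤ)).toNat : ℕ) : ℝ) = ((ρ.num % (ρ.den : ℤ) : ℤ) : ℝ) := by
      have := Int.toNat_of_nonneg hmod0
      have h' : (((ρ.num % (ρ.den : ℤ)).toNat : ℤ) : ℝ) = ((ρ.num % (ρ.den : ℤ) : ℤ) : ℝ) := by
        rw [this]
      rw [← h']
      push_cast
      rfl
    have h2 : (z : ℝ) / q' = (ρ.num : ℝ) / (ρ.den : ℝ) := by
      have e1 : ((ρ : ℚ) : ℝ) = (z : ℝ) / q' := by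
        rw [hρ]; push_cast; rfl
      have e2 : ((ρ : ℚ) : ℝ) = (ρ.num : ℝ) / (ρ.den : ℝ) := Rat.cast_def ρ
      rw [← e1, e2]
    have h3 : (ρ.num : ℝ) = ((ρ.num % (ρ.den : ℤ) : ℤ) : ℝ) + (ρ.den : ℝ) * ((ρ.num / (ρ.den : ℤ) : ℤ) : ℝ) := by
      have := Int.emod_add_mul_ediv ρ.num (ρ.den : ℤ)
      have h' : ((ρ.num % (ρ.den : ℤ) + (ρ.den : ℤ) * (ρ.num / (ρ.den : ℤ)) : ℤ) : ℝ) = (ρ.num : ℝ) := by
        rw [this]
      rw [← h']
      push_cast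
      ring
    have hdR : (ρ.den : ℝ) ≠ 0 := by
      have : ρ.den ≠ 0 := by omega
      exact_mod_cast this
    have h4 : θ - (((ρ.num % (ρ.den : ℤ)).toNat : ℕ) : ℝ) / (ρ.den : ℝ)
        - ((ρ.num / (ρ.den : ℤ) : ℤ) : ℝ) = θ - (z : ℝ) / q' := by
      rw [h1, h2]
      rw [h3]
      field_simp
      ring
    rw [h4]
    exact hθz

end MajAux

open MajAux in
theorem maj (hW : WEYL) (hG : GB1) (hP : PG) (hA : ABEL) (hR : RIEM) : MAJ := by
  intro k hk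
  obtain ⟨e, he⟩ := hW k (by omega)
  obtain ⟨C1, hC1⟩ := hG k hk
  obtain ⟨a', b₂, hPG⟩ := hP k 10 hk
  obtain ⟨a, ha⟩ : ∃ a, a = 20 * kap k + C1 + 2 := ⟨_, rfl⟩
  obtain ⟨n1, hn1⟩ : ∃ n1, n1 = 10 * e + 1 + a := ⟨_, rfl⟩
  obtain ⟨n2, hn2⟩ : ∃ n2, n2 = 10 * e + b₂ + 2 * a + 9 := ⟨_, rfl⟩
  obtain ⟨b, hb⟩ := hPG (15 + n1 + n2)
  refine ⟨a, a', b + (n2 + 1 + a + n1) + (3 * a + n1 + 10), by omega, ?_⟩
  intro L H T g hL hH hg hlc hNC hco hT
  -- the base `W`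
  obtain ⟨W, hWdef⟩ : ∃ W, W = H * 2 ^ L := ⟨_, rfl⟩
  rw [← hWdef] at hT
  have h2L : 2 ^ L ≤ W := by
    rw [hWdef]; exact Nat.le_mul_of_pos_left _ hH
  have hHW : H ≤ W := by
    rw [hWdef]; exact Nat.le_mul_of_pos_right _ (by positivity)
  have hW2 : 2 ≤ W := le_trans (by
    calc 2 = 2 ^ 1 := by norm_num
      _ ≤ 2 ^ L := Nat.pow_le_pow_right (by norm_num) hL) h2L
  have hW1 : 1 ≤ W := by omega
  have hTb : W ^ b ≤ T := (Nat.pow_le_pow_right hW1 (by omega)).trans hT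
  obtain ⟨U, V, hV1, hpos, h1, h2, h3, h4, h5, h6⟩ := hb L H T g hL hH hg hlc hco
    (by rw [← hWdef]; exact hTb)
  rw [← hWdef] at hV1 h6
  have hV : 1 ≤ V := (Nat.one_le_pow _ _ hW1).trans hV1
  have hT1 : 1 ≤ T := (Nat.one_le_pow _ _ hW1).trans hTb
  refine ⟨U, V, hV, fun v _ => hpos v, ?_⟩
  intro θ
  rw [model_eq g (2 ^ (a * L)) (2 ^ (L + a') * T) T θ]
  obtain ⟨t, ht⟩ : ∃ t, t = 2 ^ (L + a') * T := ⟨_, rfl⟩
  rw [← ht] at h1 h2 h3 h4 ⊢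
  obtain ⟨Q, hQ⟩ : ∃ Q, Q = 2 ^ (a * L) := ⟨_, rfl⟩
  rw [← hQ]
  -- real versions
  have w2 : (2 : ℝ) ≤ W := by exact_mod_cast hW2
  have w1 : (1 : ℝ) ≤ W := by linarith
  have w0 : (0 : ℝ) < W := by linarith
  have hVR : (0 : ℝ) < V := by exact_mod_cast hV
  have hTR : (0 : ℝ) < T := by exact_mod_cast hT1
  have p2L : (2 : ℝ) ^ L ≤ W := by exact_mod_cast h2L
  have pw : ∀ {i j : ℕ}, i ≤ j → (W : ℝ) ^ i ≤ (W : ℝ) ^ j := fun h => pow_le_pow_right₀ w1 h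
  have p8 : (2 : ℝ) ^ (L + 8) ≤ (W : ℝ) ^ 9 := by
    rw [pow_add]
    calc (2 : ℝ) ^ L * 2 ^ 8 ≤ (W : ℝ) * (W : ℝ) ^ 8 :=
          mul_le_mul p2L (pow_le_pow_left₀ (by norm_num) w2 8) (by positivity) w0.le
      _ = (W : ℝ) ^ 9 := by ring
  have p9 : (2 : ℝ) ^ (L + 9) ≤ (W : ℝ) ^ 10 := by
    rw [pow_add]
    calc (2 : ℝ) ^ L * 2 ^ 9 ≤ (W : ℝ) * (W : ℝ) ^ 9 :=
          mul_le_mul p2L (pow_le_pow_left₀ (by norm_num) w2 9) (by positivity) w0.le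
      _ = (W : ℝ) ^ 10 := by ring
  have hQR : (Q : ℝ) ≤ (W : ℝ) ^ a := by
    rw [hQ]
    push_cast
    rw [mul_comm, pow_mul]
    exact pow_le_pow_left₀ (by positivity) p2L a
  have hQ1 : 1 ≤ Q := by rw [hQ]; exact Nat.one_le_two_pow
  have hQR1 : (1 : ℝ) ≤ Q := by exact_mod_cast hQ1
  have hQR0 : (0 : ℝ) < Q := by linarith
  obtain ⟨Q₁, hQ₁⟩ : ∃ Q₁, Q₁ = W ^ n1 := ⟨_, rfl⟩
  have hQ₁R : (Q₁ : ℝ) = (W : ℝ) ^ n1 := by rw [hQ₁]; push_cast; rfl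
  have hQ₁0 : (0 : ℝ) < Q₁ := by rw [hQ₁R]; positivity
  have hTreal : (W : ℝ) ^ (b + (n2 + 1 + a + n1) + (3 * a + n1 + 10)) ≤ T := by exact_mod_cast hT
  have hVreal : (W : ℝ) ^ (15 + n1 + n2) ≤ V := by exact_mod_cast hV1
  have hT6 : (T : ℝ) ≤ (W : ℝ) ^ b₂ * (V : ℝ) ^ k := by exact_mod_cast h6
  obtain ⟨κ₀, hκ₀⟩ : ∃ κ₀ : ℝ, κ₀ = (W : ℝ) ^ n2 / T := ⟨_, rfl⟩
  have hκ₀pos : 0 < κ₀ := by rw [hκ₀]; positivity
  have hκT : κ₀ * T = (W : ℝ) ^ n2 := by rw [hκ₀]; field_simp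
  have f1 : Q ≤ Q₁ := by
    have : (Q : ℝ) ≤ (Q₁ : ℝ) := by
      rw [hQ₁R]; exact hQR.trans (pw (by omega))
    exact_mod_cast this
  have p9e : ((2 : ℝ) ^ (L + 9)) ^ e ≤ (W : ℝ) ^ (10 * e) := by
    rw [pow_mul]
    exact pow_le_pow_left₀ (by positivity) p9 e
  have f2 : (2 ^ (L + 9)) ^ e * H ≤ Q₁ := by
    have hHR : (H : ℝ) ≤ W := by exact_mod_cast hHW
    have : (((2 ^ (L + 9)) ^ e * H : ℕ) : ℝ) ≤ (Q₁ : ℝ) := by
      push_cast
      rw [hQ₁R]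
      calc ((2 : ℝ) ^ (L + 9)) ^ e * H ≤ (W : ℝ) ^ (10 * e) * W :=
            mul_le_mul p9e hHR (by positivity) (by positivity)
        _ = (W : ℝ) ^ (10 * e + 1) := by ring
        _ ≤ _ := pw (by omega)
    exact_mod_cast this
  have f3 : ((2 : ℝ) ^ (L + 9)) ^ e / (V : ℝ) ^ k ≤ κ₀ := by
    rw [hκ₀, div_le_div_iff₀ (by positivity) hTR]
    calc ((2 : ℝ) ^ (L + 9)) ^ e * T ≤ (W : ℝ) ^ (10 * e) * ((W : ℝ) ^ b₂ * (V : ℝ) ^ k) :=
          mul_le_mul p9e hT6 hTR.le (by positivity)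
      _ = (W : ℝ) ^ (10 * e + b₂) * (V : ℝ) ^ k := by ring
      _ ≤ (W : ℝ) ^ n2 * (V : ℝ) ^ k :=
          mul_le_mul_of_nonneg_right (pw (by omega)) (by positivity)
  have f4 : κ₀ ≤ 1 / (2 * Q * Q₁) := by
    rw [hκ₀, div_le_div_iff₀ hTR (by positivity), one_mul, hQ₁R]
    calc (W : ℝ) ^ n2 * (2 * Q * (W : ℝ) ^ n1) ≤ (W : ℝ) ^ n2 * (W * (W : ℝ) ^ a * (W : ℝ) ^ n1) := by
          gcongr
      _ = (W : ℝ) ^ (n2 + 1 + a + n1) := by ring
      _ ≤ (W : ℝ) ^ (b + (n2 + 1 + a + n1) + (3 * a + n1 + 10)) := pw (by omega)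
      _ ≤ T := hTreal
  have f5 : (Q * Q : ℝ) / (2 * κ₀ * T) ≤ 1 / 2 ^ (L + 8) := by
    have e1 : 2 * κ₀ * T = 2 * (W : ℝ) ^ n2 := by rw [mul_assoc, hκT]
    rw [e1, div_le_div_iff₀ (by positivity) (by positivity), one_mul]
    calc (Q * Q : ℝ) * 2 ^ (L + 8) ≤ ((W : ℝ) ^ a * (W : ℝ) ^ a) * (W : ℝ) ^ 9 := by
          gcongr
      _ = (W : ℝ) ^ (2 * a + 9) := by ring
      _ ≤ (W : ℝ) ^ n2 := pw (by omega)
      _ ≤ 2 * (W : ℝ) ^ n2 := by
          have : 0 ≤ (W : ℝ) ^ n2 := by positivity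
          linarith
  have f6 : (Q * Q : ℝ) / (2 * (1 / (2 * Q * Q₁)) * T) ≤ 1 / 2 ^ (L + 9) := by
    have e1 : (Q * Q : ℝ) / (2 * (1 / (2 * Q * Q₁)) * T) = (Q ^ 3 * Q₁ : ℝ) / T := by
      field_simp
    rw [e1, div_le_div_iff₀ hTR (by positivity), one_mul, hQ₁R]
    calc ((Q : ℝ) ^ 3 * (W : ℝ) ^ n1) * 2 ^ (L + 9)
        ≤ (((W : ℝ) ^ a) ^ 3 * (W : ℝ) ^ n1) * (W : ℝ) ^ 10 := by
          gcongr
      _ = (W : ℝ) ^ (3 * a + n1 + 10) := by ring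
      _ ≤ (W : ℝ) ^ (b + (n2 + 1 + a + n1) + (3 * a + n1 + 10)) := pw (by omega)
      _ ≤ T := hTreal
  obtain ⟨S, hS⟩ : ∃ S : ℂ, S = (∑ v ∈ Icc 1 V, ee (θ * ((g.eval ((U + v : ℕ) : ℤ) : ℤ) : ℝ))) / (V : ℂ) :=
    ⟨_, rfl⟩
  rw [← hS]
  have q1 : (0 : ℝ) < 1 / 2 ^ (L + 10) := by positivity
  have q2 : (1 : ℝ) / 2 ^ (L + 9) = 2 * (1 / 2 ^ (L + 10)) := by
    rw [pow_succ 2 (L + 9)]; field_simp
  have q3 : (1 : ℝ) / 2 ^ (L + 8) = 4 * (1 / 2 ^ (L + 10)) := by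
    rw [show L + 10 = (L + 8) + 2 by ring, pow_add 2 (L + 8)]; field_simp; norm_num
  have q4 : (1 : ℝ) / 2 ^ (L + 6) = 16 * (1 / 2 ^ (L + 10)) := by
    rw [show L + 10 = (L + 6) + 4 by ring, pow_add 2 (L + 6)]; field_simp; norm_num
  by_cases hnear : ∃ (q₀ r₀ : ℕ) (n : ℤ), 1 ≤ q₀ ∧ q₀ ≤ Q₁ ∧ r₀ < q₀ ∧ Nat.Coprime r₀ q₀ ∧
      |θ - (r₀ : ℝ) / q₀ - n| ≤ κ₀
  · obtain ⟨q₀, r₀, n, hq₀1, hq₀Q, hr₀, hc₀, hβ⟩ := hnear
    obtain ⟨β, hβdef⟩ : ∃ β : ℝ, β = θ - (r₀ : ℝ) / q₀ - n := ⟨_, rfl⟩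
    rw [← hβdef] at hβ
    have hθ : θ = (r₀ : ℝ) / q₀ + n + β := by rw [hβdef]; ring
    have hβT : |β| * T ≤ (W : ℝ) ^ n2 := by
      rw [← hκT]; exact mul_le_mul_of_nonneg_right hβ hTR.le
    have hmain := near_main hA hR g U V t T q₀ r₀ (1 / 2 ^ (L + 10)) β θ n hV hT1 q1.le
      (by rw [div_le_one (by positivity)]; exact one_le_pow₀ (by norm_num)) hq₀1 h1 h2 h3 h4
      (fun u hu => ⟨(h5 u hu).1, by
        have := (h5 u hu).2
        rw [one_div_mul_eq_div]; exact this⟩) hθ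
    rw [← hS] at hmain
    have wn2 : (1 : ℝ) ≤ (W : ℝ) ^ n2 := one_le_pow₀ w1
    have hq₀R : (q₀ : ℝ) ≤ (W : ℝ) ^ n1 := by
      rw [← hQ₁R]; exact_mod_cast hq₀Q
    have f7 : 2 * (q₀ : ℝ) * (1 + 13 * |β| * T) / V ≤ 1 / 2 ^ (L + 9) := by
      rw [div_le_div_iff₀ hVR (by positivity), one_mul]
      calc 2 * (q₀ : ℝ) * (1 + 13 * |β| * T) * 2 ^ (L + 9)
          ≤ 2 * (W : ℝ) ^ n1 * (1 + 13 * (W : ℝ) ^ n2) * (W : ℝ) ^ 10 := by
            have e1 : 13 * |β| * (T : ℝ) ≤ 13 * (W : ℝ) ^ n2 := by linarith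
            gcongr
        _ ≤ 2 * (W : ℝ) ^ n1 * (16 * (W : ℝ) ^ n2) * (W : ℝ) ^ 10 := by
            have e2 : 1 + 13 * (W : ℝ) ^ n2 ≤ 16 * (W : ℝ) ^ n2 := by linarith
            gcongr
        _ = 2 ^ 5 * (W : ℝ) ^ (10 + n1 + n2) := by ring
        _ ≤ (W : ℝ) ^ 5 * (W : ℝ) ^ (10 + n1 + n2) := by
            gcongr
        _ = (W : ℝ) ^ (15 + n1 + n2) := by ring
        _ ≤ V := hVreal
    have f8 : (26 * |β| * T + 6) / (V : ℝ) ≤ 1 / 2 ^ (L + 9) := by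
      rw [div_le_div_iff₀ hVR (by positivity), one_mul]
      calc (26 * |β| * T + 6) * 2 ^ (L + 9)
          ≤ (2 ^ 5 * (W : ℝ) ^ n2) * (W : ℝ) ^ 10 := by
            have e1 : 26 * |β| * T + 6 ≤ 2 ^ 5 * (W : ℝ) ^ n2 := by
              have : 26 * |β| * (T : ℝ) ≤ 26 * (W : ℝ) ^ n2 := by linarith
              linarith
            gcongr
        _ ≤ ((W : ℝ) ^ 5 * (W : ℝ) ^ n2) * (W : ℝ) ^ 10 := by
            gcongr
        _ = (W : ℝ) ^ (15 + n2) := by ring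
        _ ≤ (W : ℝ) ^ (15 + n1 + n2) := pw (by omega)
        _ ≤ V := hVreal
    have hmain' : ‖S - Gs g r₀ q₀ * DD t T β‖ ≤ 5 * (1 / 2 ^ (L + 10)) := by
      refine hmain.trans ?_
      linarith
    -- separation for all other fractions
    have hsep : ∀ x ∈ (fr Q).filter (fun x => ¬ (x.1 = q₀ ∧ x.2 = r₀)),
        1 / (2 * (Q : ℝ) * Q₁) ≤ nn (θ - (x.2 : ℝ) / x.1) := by
      intro x hx
      rw [Finset.mem_filter, mem_fr] at hx
      obtain ⟨⟨⟨hx1, hx2⟩, hx3, hx4⟩, hx5⟩ := hx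
      exact sep Q Q₁ x.1 x.2 q₀ r₀ n β κ₀ θ hx1 hx2 hx3 hx4 hq₀1 hq₀Q hr₀ hc₀ hx5 hβ f4 hθ
    have hoth := terms_bound g Q t T θ (1 / (2 * (Q : ℝ) * Q₁)) hT1 (by positivity)
      ((fr Q).filter (fun x => ¬ (x.1 = q₀ ∧ x.2 = r₀))) (Finset.filter_subset _ _) hsep
    have hoth' := hoth.trans f6
    by_cases hq₀Q' : q₀ ≤ Q
    · -- the main term is present
      have hmem : (⟨q₀, r₀⟩ : Σ _ : ℕ, ℕ) ∈ fr Q := mem_fr.2 ⟨⟨hq₀1, hq₀Q'⟩, hr₀, hc₀⟩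
      have hfil : (fr Q).filter (fun x => (x.1 = q₀ ∧ x.2 = r₀)) = {(⟨q₀, r₀⟩ : Σ _ : ℕ, ℕ)} := by
        ext x
        rw [Finset.mem_filter, Finset.mem_singleton]
        constructor
        · rintro ⟨_, hx1, hx2⟩
          obtain ⟨x1, x2⟩ := x
          simp only at hx1 hx2
          rw [hx1, hx2]
        · intro hx
          rw [hx]
          exact ⟨hmem, rfl, rfl⟩
      have hsplit := Finset.sum_filter_add_sum_filter_not (fr Q) (fun x => (x.1 = q₀ ∧ x.2 = r₀))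
        (fun x => Gs g x.2 x.1 * DD t T (θ - (x.2 : ℝ) / x.1))
      rw [hfil, Finset.sum_singleton] at hsplit
      rw [← hsplit]
      have hDD : DD t T (θ - (r₀ : ℝ) / q₀) = DD t T β := by
        have : θ - (r₀ : ℝ) / q₀ = β + n := by rw [hβdef]; ring
        rw [this, DD_int]
      simp only
      rw [hDD]
      have e1 : S - (Gs g r₀ q₀ * DD t T β
          + ∑ x ∈ (fr Q).filter (fun x => ¬ (x.1 = q₀ ∧ x.2 = r₀)),
            Gs g x.2 x.1 * DD t T (θ - (x.2 : ℝ) / x.1))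
          = (S - Gs g r₀ q₀ * DD t T β)
            - ∑ x ∈ (fr Q).filter (fun x => ¬ (x.1 = q₀ ∧ x.2 = r₀)),
            Gs g x.2 x.1 * DD t T (θ - (x.2 : ℝ) / x.1) := by ring
      rw [e1]
      refine (norm_sub_le _ _).trans ?_
      linarith
    · -- large denominator
      push Not at hq₀Q'
      have hfil : (fr Q).filter (fun x => ¬ (x.1 = q₀ ∧ x.2 = r₀)) = fr Q := by
        apply Finset.filter_true_of_mem
        intro x hx
        rw [mem_fr] at hx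
        omega
      rw [hfil] at hoth'
      have hGs : ‖Gs g r₀ q₀‖ ≤ 1 / 2 ^ (L + 9) := by
        by_contra hcon
        push Not at hcon
        have hG1 := hC1 g q₀ r₀ (by rw [hg]) hNC hq₀1 (Nat.isCoprime_iff_coprime.2 hc₀)
        have e1 : ((1 : ℝ) / 2 ^ (L + 9)) ^ (2 * kap k) ≤ ‖Gs g r₀ q₀‖ ^ (2 * kap k) :=
          pow_le_pow_left₀ (by positivity) hcon.le _
        have e2 : ((1 : ℝ) / 2 ^ (L + 9)) ^ (2 * kap k) * (2 : ℝ) ^ (a * L) ≤ C1 := by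
          refine le_trans ?_ hG1
          apply mul_le_mul e1 _ (by positivity) (by positivity)
          have : Q ≤ q₀ := hq₀Q'.le
          have h' : (Q : ℝ) ≤ q₀ := by exact_mod_cast this
          rw [hQ] at h'
          push_cast at h'
          exact h'
        have e3 : (2 : ℝ) ^ (a * L) = 2 ^ ((L + 9) * (2 * kap k)) * 2 ^ (a * L - (L + 9) * (2 * kap k)) := by
          rw [← pow_add]
          congr 1
          have : (L + 9) * (2 * kap k) ≤ a * L := by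
            have h10 : L + 9 ≤ 10 * L := by omega
            calc (L + 9) * (2 * kap k) ≤ (10 * L) * (2 * kap k) := Nat.mul_le_mul_right _ h10
              _ = (20 * kap k) * L := by ring
              _ ≤ a * L := Nat.mul_le_mul_right _ (by omega)
          omega
        rw [e3, one_div, inv_pow, ← pow_mul, ← mul_assoc, inv_mul_cancel₀ (by positivity), one_mul] at e2
        have e4 : C1 + 1 ≤ a * L - (L + 9) * (2 * kap k) := by
          have h10 : L + 9 ≤ 10 * L := by omega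
          have h11 : (L + 9) * (2 * kap k) ≤ (20 * kap k) * L := by
            calc (L + 9) * (2 * kap k) ≤ (10 * L) * (2 * kap k) := Nat.mul_le_mul_right _ h10
              _ = (20 * kap k) * L := by ring
          have h12 : a * L = (20 * kap k) * L + (C1 + 2) * L := by rw [ha]; ring
          have h13 : C1 + 2 ≤ (C1 + 2) * L := Nat.le_mul_of_pos_right _ hL
          omega
        have e5 : (2 : ℝ) ^ (C1 + 1) ≤ 2 ^ (a * L - (L + 9) * (2 * kap k)) :=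
          pow_le_pow_right₀ (by norm_num) e4
        have e6 : (C1 : ℝ) + 1 < 2 ^ (C1 + 1) := by
          have : C1 + 1 < 2 ^ (C1 + 1) := Nat.lt_two_pow_self
          exact_mod_cast this
        linarith
      have hGD : ‖Gs g r₀ q₀ * DD t T β‖ ≤ 1 / 2 ^ (L + 9) := by
        rw [norm_mul]
        calc ‖Gs g r₀ q₀‖ * ‖DD t T β‖ ≤ ‖Gs g r₀ q₀‖ * 1 :=
              mul_le_mul_of_nonneg_left (norm_DD_le_one _ _ _) (norm_nonneg _)
          _ ≤ _ := by rw [mul_one]; exact hGs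
      have e1 : S - ∑ x ∈ fr Q, Gs g x.2 x.1 * DD t T (θ - (x.2 : ℝ) / x.1)
          = ((S - Gs g r₀ q₀ * DD t T β) + Gs g r₀ q₀ * DD t T β)
            - ∑ x ∈ fr Q, Gs g x.2 x.1 * DD t T (θ - (x.2 : ℝ) / x.1) := by ring
      rw [e1]
      refine (norm_sub_le _ _).trans ?_
      have e2 := norm_add_le (S - Gs g r₀ q₀ * DD t T β) (Gs g r₀ q₀ * DD t T β)
      linarith
  · -- far from all fractions
    push Not at hnear
    have hfar : ∀ x ∈ fr Q, κ₀ ≤ nn (θ - (x.2 : ℝ) / x.1) := by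
      intro x hx
      rw [mem_fr] at hx
      obtain ⟨⟨hx1, hx2⟩, hx3, hx4⟩ := hx
      exact (hnear x.1 x.2 (round (θ - (x.2 : ℝ) / x.1)) hx1 (hx2.trans f1) hx3 hx4).le
    have hmod := (terms_bound g Q t T θ κ₀ hT1 hκ₀pos (fr Q) (Finset.Subset.refl _) hfar).trans f5
    have hSs : ‖S‖ ≤ 1 / 2 ^ (L + 8) := by
      by_contra hcon
      push Not at hcon
      have hS2 : 1 / 2 ^ (L + 8) * (V : ℝ)
          ≤ ‖∑ v ∈ Icc 1 V, ee (θ * ((g.eval ((U + v : ℕ) : ℤ) : ℤ) : ℝ))‖ := by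
        rw [hS, norm_div, Complex.norm_natCast, lt_div_iff₀ hVR] at hcon
        exact hcon.le
      obtain ⟨q₀, r₀, n, c1, c2, c3, c4, c5⟩ := weyl_near k e hk he g U V H L θ hV hg hlc hco hS2
      have := hnear q₀ r₀ n c1 (c2.trans f2) c3 c4
      linarith
    refine (norm_sub_le _ _).trans ?_
    linarith

end Vale.Agent.P042
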