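import Vale.Agent.P042.Core2

/-!
# P042, module B6: numerical end of the level-d induction
-/

open Finset

namespace Vale.Agent.P042

namespace NumAux

theorem exp_two_le : Real.exp 2 ≤ 8 := by
  have h1 : Real.exp 2 = Real.exp 1 * Real.exp 1 := by
    rw [← Real.exp_add]; norm_num
  have h2 := Real.exp_one_lt_d9
  have h3 := Real.exp_pos 1
  rw [h1]
  nlinarith

theorem exp_le (s : ℕ) : Real.exp (2 * s) ≤ 8 ^ s := by
  have h4 : Real.exp (2 * s) = (Real.exp 2) ^ s := by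
    rw [← Real.exp_nat_mul]
    ring_nf
  rw [h4]
  exact pow_le_pow_left₀ (Real.exp_pos 2).le exp_two_le s

/-- one term -/
theorem term_le (s d j : ℕ) (hs : 1 ≤ s) (hj : j ≤ d) :
    (2 * (s : ℝ)) ^ (s * j) * (4 ^ j * (4096 * (s : ℝ)) ^ (d - j)) ^ (s - 1)
      ≤ 2 ^ j * (4096 * (s : ℝ)) ^ (d * (s - 1)) := by
  obtain ⟨n, rfl⟩ : ∃ n, s = n + 1 := ⟨s - 1, by omega⟩
  obtain ⟨i, rfl⟩ : ∃ i, d = j + i := ⟨d - j, by omega⟩
  simp only [Nat.add_sub_cancel, Nat.add_sub_cancel_left]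
  have hs0 : (0 : ℝ) < ((n + 1 : ℕ) : ℝ) := by positivity
  have e1 : (2 * ((n + 1 : ℕ) : ℝ)) ^ ((n + 1) * j) * (4 ^ j * (4096 * ((n + 1 : ℕ) : ℝ)) ^ i) ^ n
      = (2 * ((n + 1 : ℕ) : ℝ)) ^ j * ((8 * ((n + 1 : ℕ) : ℝ)) ^ (j * n)
        * (4096 * ((n + 1 : ℕ) : ℝ)) ^ (i * n)) := by
    have : (8 * ((n + 1 : ℕ) : ℝ)) ^ (j * n) = (2 * ((n + 1 : ℕ) : ℝ)) ^ (j * n) * 4 ^ (j * n) := by
      rw [← mul_pow]
      congr 1
      ring
    have e0 : (4 ^ j * (4096 * ((n + 1 : ℕ) : ℝ)) ^ i) ^ n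
        = 4 ^ (j * n) * (4096 * ((n + 1 : ℕ) : ℝ)) ^ (i * n) := by
      rw [mul_pow, ← pow_mul, ← pow_mul]
    have e2 : (n + 1) * j = j + j * n := by ring
    rw [this, e0, e2, pow_add]
    ring
  rw [e1]
  have e3 : (4096 * ((n + 1 : ℕ) : ℝ)) ^ ((j + i) * n)
      = (512 : ℝ) ^ (n * j) * ((8 * ((n + 1 : ℕ) : ℝ)) ^ (j * n)
        * (4096 * ((n + 1 : ℕ) : ℝ)) ^ (i * n)) := by
    have : (4096 * ((n + 1 : ℕ) : ℝ)) ^ (j * n)
        = (512 : ℝ) ^ (n * j) * (8 * ((n + 1 : ℕ) : ℝ)) ^ (j * n) := by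
      rw [mul_comm n j, ← mul_pow]
      congr 1
      ring
    rw [add_mul, pow_add, this]
    ring
  rw [e3]
  have h1 : (2 * ((n + 1 : ℕ) : ℝ)) ^ j ≤ 2 ^ j * (512 : ℝ) ^ (n * j) := by
    rw [pow_mul, ← mul_pow]
    apply pow_le_pow_left₀ (by positivity)
    have h2 : ((n + 1 : ℕ) : ℝ) ≤ 512 ^ n := by
      have h3 : n + 1 ≤ 512 ^ n := by
        have := Nat.lt_pow_self (n := n) (a := 512) (by norm_num)
        omega
      exact_mod_cast h3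
    linarith
  have h4 : (0 : ℝ) ≤ (8 * ((n + 1 : ℕ) : ℝ)) ^ (j * n) * (4096 * ((n + 1 : ℕ) : ℝ)) ^ (i * n) := by
    positivity
  calc _ ≤ (2 ^ j * (512 : ℝ) ^ (n * j)) * ((8 * ((n + 1 : ℕ) : ℝ)) ^ (j * n)
        * (4096 * ((n + 1 : ℕ) : ℝ)) ^ (i * n)) := mul_le_mul_of_nonneg_right h1 h4
    _ = _ := by ring

theorem sum_le (s d : ℕ) (Y : ℝ) (hs : 1 ≤ s) (hY : 0 ≤ Y) :
    ∑ j ∈ Icc 1 d, (2 * (s : ℝ)) ^ (s * j) * (d.choose j : ℝ) * Y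
          * (4 ^ j * (4096 * (s : ℝ)) ^ (d - j)) ^ (s - 1)
      ≤ 3 ^ d * (4096 * (s : ℝ)) ^ (d * (s - 1)) * Y := by
  have h1 : ∀ j ∈ Icc 1 d, (2 * (s : ℝ)) ^ (s * j) * (d.choose j : ℝ) * Y
          * (4 ^ j * (4096 * (s : ℝ)) ^ (d - j)) ^ (s - 1)
      ≤ (2 ^ j * (d.choose j : ℝ)) * ((4096 * (s : ℝ)) ^ (d * (s - 1)) * Y) := by
    intro j hj
    have h2 := term_le s d j hs (Finset.mem_Icc.1 hj).2
    have h3 : (0 : ℝ) ≤ (d.choose j : ℝ) * Y := by positivity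
    calc (2 * (s : ℝ)) ^ (s * j) * (d.choose j : ℝ) * Y
          * (4 ^ j * (4096 * (s : ℝ)) ^ (d - j)) ^ (s - 1)
        = ((2 * (s : ℝ)) ^ (s * j) * (4 ^ j * (4096 * (s : ℝ)) ^ (d - j)) ^ (s - 1))
          * ((d.choose j : ℝ) * Y) := by ring
      _ ≤ (2 ^ j * (4096 * (s : ℝ)) ^ (d * (s - 1))) * ((d.choose j : ℝ) * Y) :=
          mul_le_mul_of_nonneg_right h2 h3
      _ = _ := by ring
  refine (Finset.sum_le_sum h1).trans ?_
  rw [← Finset.sum_mul]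
  have h4 : ∑ j ∈ Icc 1 d, (2 ^ j * (d.choose j : ℝ)) ≤ 3 ^ d := by
    have h5 : ∑ j ∈ range (d + 1), (2 : ℝ) ^ j * (d.choose j : ℝ) = 3 ^ d := by
      have := add_pow (2 : ℝ) 1 d
      norm_num at this
      rw [this]
    rw [← h5]
    apply Finset.sum_le_sum_of_subset_of_nonneg
    · intro j hj
      rw [Finset.mem_Icc] at hj
      rw [Finset.mem_range]
      omega
    · intro j _ _
      positivity
  have h6 : (0 : ℝ) ≤ (4096 * (s : ℝ)) ^ (d * (s - 1)) * Y := by positivity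
  calc _ ≤ 3 ^ d * ((4096 * (s : ℝ)) ^ (d * (s - 1)) * Y) := mul_le_mul_of_nonneg_right h4 h6
    _ = _ := by ring

end NumAux

open NumAux in
theorem num : NUM := by
  intro s d Y ν hs hd hY hν hmain
  by_contra hcon
  push Not at hcon
  have hs1 : (1 : ℝ) ≤ s := by exact_mod_cast hs
  have hB1 : (1 : ℝ) ≤ 4096 * (s : ℝ) := by linarith
  have hBd1 : (1 : ℝ) ≤ (4096 * (s : ℝ)) ^ d := one_le_pow₀ hB1
  have hY1 : 1 ≤ Y := hBd1.trans hcon.le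
  have hY0 : 0 < Y := by linarith
  have he := exp_le s
  have he0 := Real.exp_pos (2 * (s : ℝ))
  have hsum := sum_le s d Y hs hY
  have hpowY : ∀ n : ℕ, (4096 * (s : ℝ)) ^ (d * n) ≤ Y ^ n := by
    intro n
    rw [pow_mul]
    exact pow_le_pow_left₀ (by positivity) hcon.le n
  have h512 : (4096 * (s : ℝ)) ^ (d * s) = 512 ^ (d * s) * (8 * (s : ℝ)) ^ (s * d) := by
    rw [mul_comm s d, ← mul_pow]
    congr 1
    ring
  -- term 1
  have t1 : Real.exp (2 * s) * ((8 * (s : ℝ)) ^ (s * d) * Y ^ s) ≤ 1 / 4 * Y ^ (2 * s) := by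
    have h1 : 4 * Real.exp (2 * s) ≤ (512 : ℝ) ^ (d * s) := by
      have h2 : (512 : ℝ) ^ s ≤ 512 ^ (d * s) :=
        pow_le_pow_right₀ (by norm_num) (Nat.le_mul_of_pos_left _ hd)
      have h3 : (4 : ℝ) ≤ 64 ^ s := by
        calc (4 : ℝ) ≤ 64 ^ 1 := by norm_num
          _ ≤ 64 ^ s := pow_le_pow_right₀ (by norm_num) hs
      have h4 : (512 : ℝ) ^ s = 64 ^ s * 8 ^ s := by rw [← mul_pow]; norm_num
      have h5 : (0 : ℝ) < 8 ^ s := by positivity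
      nlinarith
    have h6 : 4 * (Real.exp (2 * s) * (8 * (s : ℝ)) ^ (s * d)) ≤ Y ^ s := by
      calc 4 * (Real.exp (2 * s) * (8 * (s : ℝ)) ^ (s * d))
          = (4 * Real.exp (2 * s)) * (8 * (s : ℝ)) ^ (s * d) := by ring
        _ ≤ 512 ^ (d * s) * (8 * (s : ℝ)) ^ (s * d) := by gcongr
        _ = (4096 * (s : ℝ)) ^ (d * s) := h512.symm
        _ ≤ Y ^ s := hpowY s
    have h7 : Y ^ (2 * s) = Y ^ s * Y ^ s := by rw [← pow_add]; congr 1; ring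
    rw [h7]
    have h8 : 0 < Y ^ s := by positivity
    nlinarith
  -- term 2
  have t2 : Real.exp (2 * s) * ((8 * (s : ℝ)) ^ (s * d) *
      (3 ^ d * (4096 * (s : ℝ)) ^ (d * (s - 1)) * Y)) ≤ 1 / 4 * Y ^ (2 * s) := by
    have h1 : 4 * Real.exp (2 * s) * 3 ^ d ≤ (512 : ℝ) ^ (d * s) := by
      have h2 : (8 : ℝ) ^ s ≤ 8 ^ (d * s) :=
        pow_le_pow_right₀ (by norm_num) (Nat.le_mul_of_pos_left _ hd)
      have h3 : (4 : ℝ) * 3 ^ d ≤ 64 ^ (d * s) := by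
        have h4 : (4 : ℝ) ≤ 4 ^ d := by
          calc (4 : ℝ) = 4 ^ 1 := by norm_num
            _ ≤ 4 ^ d := pow_le_pow_right₀ (by norm_num) hd
        calc (4 : ℝ) * 3 ^ d ≤ 4 ^ d * 3 ^ d := by gcongr
          _ = 12 ^ d := by rw [← mul_pow]; norm_num
          _ ≤ 64 ^ d := pow_le_pow_left₀ (by norm_num) (by norm_num) _
          _ ≤ 64 ^ (d * s) := pow_le_pow_right₀ (by norm_num) (Nat.le_mul_of_pos_right _ hs)
      have h5 : (512 : ℝ) ^ (d * s) = 8 ^ (d * s) * 64 ^ (d * s) := by rw [← mul_pow]; norm_num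
      rw [h5]
      calc 4 * Real.exp (2 * s) * 3 ^ d = Real.exp (2 * s) * (4 * 3 ^ d) := by ring
        _ ≤ 8 ^ (d * s) * 64 ^ (d * s) := by
          apply mul_le_mul (he.trans h2) h3 (by positivity) (by positivity)
    have h6 : 4 * (Real.exp (2 * s) * ((8 * (s : ℝ)) ^ (s * d) *
        (3 ^ d * (4096 * (s : ℝ)) ^ (d * (s - 1))))) ≤ Y ^ (2 * s - 1) := by
      calc 4 * (Real.exp (2 * s) * ((8 * (s : ℝ)) ^ (s * d) *
            (3 ^ d * (4096 * (s : ℝ)) ^ (d * (s - 1)))))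
          = (4 * Real.exp (2 * s) * 3 ^ d) * ((8 * (s : ℝ)) ^ (s * d)
            * (4096 * (s : ℝ)) ^ (d * (s - 1))) := by ring
        _ ≤ 512 ^ (d * s) * ((8 * (s : ℝ)) ^ (s * d)
            * (4096 * (s : ℝ)) ^ (d * (s - 1))) := by gcongr
        _ = (4096 * (s : ℝ)) ^ (d * s) * (4096 * (s : ℝ)) ^ (d * (s - 1)) := by
            rw [h512]; ring
        _ = (4096 * (s : ℝ)) ^ (d * (2 * s - 1)) := by
            rw [← pow_add]
            congr 1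
            rw [← mul_add]
            congr 1
            omega
        _ ≤ Y ^ (2 * s - 1) := hpowY _
    have h7 : Y ^ (2 * s) = Y ^ (2 * s - 1) * Y := by
      rw [← pow_succ]; congr 1; omega
    rw [h7]
    calc Real.exp (2 * s) * ((8 * (s : ℝ)) ^ (s * d) *
          (3 ^ d * (4096 * (s : ℝ)) ^ (d * (s - 1)) * Y))
        = 1 / 4 * ((4 * (Real.exp (2 * s) * ((8 * (s : ℝ)) ^ (s * d) *
        (3 ^ d * (4096 * (s : ℝ)) ^ (d * (s - 1)))))) * Y) := by ring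
      _ ≤ 1 / 4 * (Y ^ (2 * s - 1) * Y) := by gcongr
  have hYpos : (1 : ℝ) ≤ Y ^ (2 * s) := one_le_pow₀ hY1
  have h8 : Real.exp (2 * s) * ((8 * (s : ℝ)) ^ (s * d) * (Y ^ s
      + ∑ j ∈ Icc 1 d, (2 * (s : ℝ)) ^ (s * j) * (d.choose j : ℝ) * Y
          * (4 ^ j * (4096 * (s : ℝ)) ^ (d - j)) ^ (s - 1)) + ν)
      ≤ Real.exp (2 * s) * ((8 * (s : ℝ)) ^ (s * d) * Y ^ s)
        + Real.exp (2 * s) * ((8 * (s : ℝ)) ^ (s * d) *
          (3 ^ d * (4096 * (s : ℝ)) ^ (d * (s - 1)) * Y)) + Real.exp (2 * s) * ν := by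
    have h9 : (8 * (s : ℝ)) ^ (s * d) * (∑ j ∈ Icc 1 d, (2 * (s : ℝ)) ^ (s * j) * (d.choose j : ℝ) * Y
          * (4 ^ j * (4096 * (s : ℝ)) ^ (d - j)) ^ (s - 1))
        ≤ (8 * (s : ℝ)) ^ (s * d) * (3 ^ d * (4096 * (s : ℝ)) ^ (d * (s - 1)) * Y) := by
      gcongr
    have h10 := mul_le_mul_of_nonneg_left h9 he0.le
    linarith
  linarith

end Vale.Agent.P042
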