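import Vale.Agent.P042.Core

/-!
# P042, module E2: polynomial growth
-/

open Polynomial Finset

namespace Vale.Agent.P042

namespace PGm

lemma pw (x : ℝ) (hx : 0 ≤ x) (n : ℕ) :
    ((n : ℝ) + 1) * x ^ n ≤ (x + 1) ^ (n + 1) - x ^ (n + 1) ∧
      (x + 1) ^ (n + 1) - x ^ (n + 1) ≤ ((n : ℝ) + 1) * (x + 1) ^ n := by
  induction n with
  | zero => norm_num
  | succ n ih =>
    have e : (x + 1) ^ (n + 1 + 1) - x ^ (n + 1 + 1)
        = (x + 1) * ((x + 1) ^ (n + 1) - x ^ (n + 1)) + x ^ (n + 1) := by ring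
    have h0 : 0 ≤ x ^ n := pow_nonneg hx n
    have h1 : x ^ (n + 1) ≤ (x + 1) ^ (n + 1) := pow_le_pow_left₀ hx (by linarith) _
    rw [e]
    push_cast
    constructor
    · have := mul_le_mul_of_nonneg_left ih.1 (by linarith : (0 : ℝ) ≤ x + 1)
      have e2 : ((n : ℝ) + 1 + 1) * x ^ (n + 1) + ((n : ℝ) + 1) * x ^ n
        = (x + 1) * (((n : ℝ) + 1) * x ^ n) + x ^ (n + 1) := by ring
      have : 0 ≤ ((n : ℝ) + 1) * x ^ n := by positivity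
      linarith
    · have := mul_le_mul_of_nonneg_left ih.2 (by linarith : (0 : ℝ) ≤ x + 1)
      have e2 : ((n : ℝ) + 1 + 1) * (x + 1) ^ (n + 1)
        = (x + 1) * (((n : ℝ) + 1) * (x + 1) ^ n) + (x + 1) ^ (n + 1) := by ring
      linarith

lemma ev_sum (g : ℤ[X]) (k : ℕ) (hk : g.natDegree = k) (u : ℕ) :
    ((g.eval (u : ℤ) : ℤ) : ℝ)
      = (∑ i ∈ range k, (g.coeff i : ℝ) * (u : ℝ) ^ i) + (g.leadingCoeff : ℝ) * (u : ℝ) ^ k := by
  rw [eval_eq_sum_range, hk, Finset.sum_range_succ]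
  have : g.coeff k = g.leadingCoeff := by rw [← hk]; rfl
  rw [this]
  push_cast
  rfl

lemma evb (g : ℤ[X]) (j H : ℕ) (hk : g.natDegree = j + 2) (hH : ∀ i, |g.coeff i| ≤ (H : ℤ))
    (u : ℕ) (hu : 1 ≤ u) :
    |((g.eval (u : ℤ) : ℤ) : ℝ) - (g.leadingCoeff : ℝ) * (u : ℝ) ^ (j + 2)|
      ≤ ((j : ℝ) + 2) * H * (u : ℝ) ^ (j + 1) := by
  rw [ev_sum g _ hk u, add_sub_cancel_right]
  have hu' : (1 : ℝ) ≤ u := by exact_mod_cast hu
  refine (Finset.abs_sum_le_sum_abs _ _).trans ?_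
  have : ∀ i ∈ range (j + 2), |(g.coeff i : ℝ) * (u : ℝ) ^ i| ≤ H * (u : ℝ) ^ (j + 1) := by
    intro i hi
    rw [abs_mul, abs_of_nonneg (by positivity : (0 : ℝ) ≤ (u : ℝ) ^ i)]
    have h1 : |(g.coeff i : ℝ)| ≤ H := by exact_mod_cast hH i
    have h2 : (u : ℝ) ^ i ≤ (u : ℝ) ^ (j + 1) :=
      pow_le_pow_right₀ hu' (by have := Finset.mem_range.1 hi; omega)
    exact mul_le_mul h1 h2 (by positivity) (by positivity)
  refine (Finset.sum_le_sum this).trans ?_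
  rw [Finset.sum_const, Finset.card_range, nsmul_eq_mul]
  push_cast
  rw [mul_assoc]

lemma dlb (g : ℤ[X]) (j H : ℕ) (hk : g.natDegree = j + 2) (hH : ∀ i, |g.coeff i| ≤ (H : ℤ))
    (hl : 0 < g.leadingCoeff) (u : ℕ) :
    (Dl g u : ℝ) ≤ ((j : ℝ) + 2) * (g.leadingCoeff : ℝ) * ((u : ℝ) + 1) ^ (j + 1)
        + ((j : ℝ) + 2) ^ 2 * H * ((u : ℝ) + 1) ^ j ∧
      ((j : ℝ) + 2) * (g.leadingCoeff : ℝ) * (u : ℝ) ^ (j + 1)
        - ((j : ℝ) + 2) ^ 2 * H * ((u : ℝ) + 1) ^ j ≤ (Dl g u : ℝ) := by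
  have hl' : (0 : ℝ) < g.leadingCoeff := by exact_mod_cast hl
  have hu0 : (0 : ℝ) ≤ u := Nat.cast_nonneg u
  have e : (Dl g u : ℝ) = (∑ i ∈ range (j + 2), (g.coeff i : ℝ) * (((u : ℝ) + 1) ^ i - (u : ℝ) ^ i))
      + (g.leadingCoeff : ℝ) * (((u : ℝ) + 1) ^ (j + 2) - (u : ℝ) ^ (j + 2)) := by
    unfold Dl
    rw [Int.cast_sub, ev_sum g _ hk, ev_sum g _ hk]
    push_cast
    rw [show (∑ i ∈ range (j + 2), (g.coeff i : ℝ) * (((u : ℝ) + 1) ^ i - (u : ℝ) ^ i))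
      = (∑ i ∈ range (j + 2), (g.coeff i : ℝ) * ((u : ℝ) + 1) ^ i)
        - ∑ i ∈ range (j + 2), (g.coeff i : ℝ) * (u : ℝ) ^ i from by
        rw [← Finset.sum_sub_distrib]; exact Finset.sum_congr rfl fun i _ => by ring]
    ring
  have hs : |∑ i ∈ range (j + 2), (g.coeff i : ℝ) * (((u : ℝ) + 1) ^ i - (u : ℝ) ^ i)|
      ≤ ((j : ℝ) + 2) ^ 2 * H * ((u : ℝ) + 1) ^ j := by
    refine (Finset.abs_sum_le_sum_abs _ _).trans ?_
    have : ∀ i ∈ range (j + 2), |(g.coeff i : ℝ) * (((u : ℝ) + 1) ^ i - (u : ℝ) ^ i)|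
        ≤ H * (((j : ℝ) + 2) * ((u : ℝ) + 1) ^ j) := by
      intro i hi
      have h1 : |(g.coeff i : ℝ)| ≤ H := by exact_mod_cast hH i
      have hij : i < j + 2 := Finset.mem_range.1 hi
      rw [abs_mul]
      have h2 : |((u : ℝ) + 1) ^ i - (u : ℝ) ^ i| ≤ ((j : ℝ) + 2) * ((u : ℝ) + 1) ^ j := by
        cases i with
        | zero => simp; positivity
        | succ n =>
          obtain ⟨h3, h4⟩ := pw u hu0 n
          rw [abs_of_nonneg (le_trans (by positivity) h3)]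
          refine h4.trans ?_
          have h5 : (n : ℝ) + 1 ≤ (j : ℝ) + 2 := by
            have : (n : ℝ) + 1 ≤ (j : ℝ) + 1 := by
              have : n ≤ j := by omega
              have : (n : ℝ) ≤ j := by exact_mod_cast this
              linarith
            linarith
          have h6 : ((u : ℝ) + 1) ^ n ≤ ((u : ℝ) + 1) ^ j :=
            pow_le_pow_right₀ (by linarith) (by omega)
          exact mul_le_mul h5 h6 (by positivity) (by positivity)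
      exact mul_le_mul h1 h2 (abs_nonneg _) (by positivity)
    refine (Finset.sum_le_sum this).trans ?_
    rw [Finset.sum_const, Finset.card_range, nsmul_eq_mul]
    push_cast
    apply le_of_eq
    ring
  obtain ⟨h3, h4⟩ := pw u hu0 (j + 1)
  push_cast at h3 h4
  obtain ⟨h5, h6⟩ := abs_le.1 hs
  rw [e]
  have h7 := mul_le_mul_of_nonneg_left h3 hl'.le
  have h8 := mul_le_mul_of_nonneg_left h4 hl'.le
  constructor
  · nlinarith [h8, h6]
  · nlinarith [h7, h5]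

lemma sum_low (g : ℤ[X]) (a : ℕ) (m : ℝ) (n : ℕ) (h : ∀ i < n, m ≤ (Dl g (a + i) : ℝ)) :
    (n : ℝ) * m ≤ ((g.eval ((a + n : ℕ) : ℤ) : ℤ) : ℝ) - ((g.eval (a : ℤ) : ℤ) : ℝ) := by
  induction n with
  | zero => simp
  | succ n ih =>
    have h1 := ih (fun i hi => h i (by omega))
    have h2 := h n (by omega)
    have e : (Dl g (a + n) : ℝ) = ((g.eval ((a + (n + 1) : ℕ) : ℤ) : ℤ) : ℝ)
        - ((g.eval ((a + n : ℕ) : ℤ) : ℤ) : ℝ) := by
      unfold Dl; rw [Int.cast_sub]; rfl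
    rw [e] at h2
    have e2 : ((n + 1 : ℕ) : ℝ) * m = n * m + m := by push_cast; ring
    rw [e2]
    linarith

lemma sum_up (g : ℤ[X]) (a : ℕ) (m : ℝ) (n : ℕ) (h : ∀ i < n, (Dl g (a + i) : ℝ) ≤ m) :
    ((g.eval ((a + n : ℕ) : ℤ) : ℤ) : ℝ) - ((g.eval (a : ℤ) : ℤ) : ℝ) ≤ (n : ℝ) * m := by
  induction n with
  | zero => simp
  | succ n ih =>
    have h1 := ih (fun i hi => h i (by omega))
    have h2 := h n (by omega)
    have e : (Dl g (a + n) : ℝ) = ((g.eval ((a + (n + 1) : ℕ) : ℤ) : ℤ) : ℝ)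
        - ((g.eval ((a + n : ℕ) : ℤ) : ℤ) : ℝ) := by
      unfold Dl; rw [Int.cast_sub]; rfl
    rw [e] at h2
    have e2 : ((n + 1 : ℕ) : ℝ) * m = n * m + m := by push_cast; ring
    rw [e2]
    linarith

/-- `(1+y)^n ≤ 1 + 2^n y` for `0 ≤ y ≤ 1` -/
lemma one_add (y : ℝ) (h0 : 0 ≤ y) (h1 : y ≤ 1) (n : ℕ) : (1 + y) ^ n ≤ 1 + 2 ^ n * y := by
  have key : (1 + y) ^ n ≤ 1 + (2 ^ n - 1) * y := by
    induction n with
    | zero => simp
    | succ n ih =>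
      have h2 : (1 : ℝ) ≤ 2 ^ n := one_le_pow₀ (by norm_num)
      have : (1 + y) ^ (n + 1) ≤ (1 + (2 ^ n - 1) * y) * (1 + y) := by
        rw [pow_succ]
        exact mul_le_mul_of_nonneg_right ih (by linarith)
      refine this.trans ?_
      have h3 : (2 ^ n - 1) * y * y ≤ (2 ^ n - 1) * y * 1 :=
        mul_le_mul_of_nonneg_left h1 (mul_nonneg (by linarith) h0)
      have h4 : (2 : ℝ) ^ (n + 1) = 2 * 2 ^ n := by ring
      rw [h4]
      nlinarith [h3]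
  have : (2 ^ n - 1) * y = 2 ^ n * y - y := by ring
  linarith

/-- the case of the first estimates: `lx^{j+2}` versus `t` -/
lemma step12 (g : ℤ[X]) (j H U : ℕ) (t : ℝ) (hk : g.natDegree = j + 2)
    (hH : ∀ i, |g.coeff i| ≤ (H : ℤ)) (hl : 0 < g.leadingCoeff) (h1H : 1 ≤ H)
    (hgU : ((g.eval (U : ℤ) : ℤ) : ℝ) ≤ t) (hgU1 : t < ((g.eval ((U + 1 : ℕ) : ℤ) : ℤ) : ℝ))
    (hB : ((j : ℝ) + 2) * H * 2 ^ (j + 2) ≤ U) :
    t < 2 * ((g.leadingCoeff : ℝ) * ((U : ℝ) * (U : ℝ) ^ (j + 1))) ∧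
    (g.leadingCoeff : ℝ) * ((U : ℝ) * (U : ℝ) ^ (j + 1)) ≤ 2 * t ∧
    0 < ((g.eval (U : ℤ) : ℤ) : ℝ) := by
  have hl' : (1 : ℝ) ≤ g.leadingCoeff := by exact_mod_cast hl
  have hH1 : (1 : ℝ) ≤ H := by exact_mod_cast h1H
  have hj : (0 : ℝ) ≤ j := Nat.cast_nonneg j
  set x : ℝ := (U : ℝ) with hx
  set l : ℝ := (g.leadingCoeff : ℝ) with hll
  have hp4 : (4 : ℝ) ≤ 2 ^ (j + 2) := by
    have : (2 : ℝ) ^ 2 ≤ 2 ^ (j + 2) := pow_le_pow_right₀ (by norm_num) (by omega)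
    norm_num at this ⊢
    exact this
  have hx8 : 8 ≤ x := by
    have : (2 : ℝ) * 1 * 4 ≤ ((j : ℝ) + 2) * H * 2 ^ (j + 2) := by
      apply mul_le_mul _ hp4 (by norm_num) (by positivity)
      exact mul_le_mul (by linarith) hH1 (by norm_num) (by positivity)
    linarith
  have hU1 : 1 ≤ U := by
    have : (1 : ℝ) ≤ (U : ℝ) := by rw [← hx]; linarith
    exact_mod_cast this
  have hx0 : 0 < x := by linarith
  have hP : 0 < x ^ (j + 1) := pow_pos hx0 _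
  have a1 := evb g j H hk hH U hU1
  have a2 := evb g j H hk hH (U + 1) (by omega)
  rw [← hll, ← hx] at a1
  rw [← hll] at a2
  push_cast at a2 hgU1
  have e2 : x ^ (j + 2) = x * x ^ (j + 1) := by ring
  have b1 : 2 * (((j : ℝ) + 2) * H * 2 ^ (j + 1)) ≤ x := by
    have : (2 : ℝ) ^ (j + 2) = 2 * 2 ^ (j + 1) := by ring
    rw [this] at hB
    linarith
  have hp1 : (1 : ℝ) ≤ 2 ^ (j + 1) := one_le_pow₀ (by norm_num)
  have b2 : ((j : ℝ) + 2) * 2 ^ (j + 1) ≤ ((j : ℝ) + 2) * H * 2 ^ (j + 1) := by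
    have : ((j : ℝ) + 2) * 1 ≤ ((j : ℝ) + 2) * H := mul_le_mul_of_nonneg_left hH1 (by linarith)
    have := mul_le_mul_of_nonneg_right this (by positivity : (0 : ℝ) ≤ 2 ^ (j + 1))
    linarith
  have b3 : ((j : ℝ) + 2) * H ≤ ((j : ℝ) + 2) * H * 2 ^ (j + 1) := by
    have : (0 : ℝ) ≤ ((j : ℝ) + 2) * H := by positivity
    nlinarith
  have c1 : (x + 1) ^ (j + 1) ≤ 2 ^ (j + 1) * x ^ (j + 1) := by
    rw [← mul_pow]
    exact pow_le_pow_left₀ (by linarith) (by linarith) _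
  obtain ⟨-, c2⟩ := pw x hx0.le (j + 1)
  push_cast at c2
  have c3 : (x + 1) ^ (j + 2) ≤ x * x ^ (j + 1) + ((j : ℝ) + 2) * (x + 1) ^ (j + 1) := by
    have : (x + 1) ^ (j + 1 + 1) - x ^ (j + 1 + 1) ≤ ((j : ℝ) + 1 + 1) * (x + 1) ^ (j + 1) := c2
    have e3 : (x + 1) ^ (j + 2) = (x + 1) ^ (j + 1 + 1) := rfl
    have e4 : x * x ^ (j + 1) = x ^ (j + 1 + 1) := by ring
    rw [e3, e4]
    linarith
  have d1 : ((j : ℝ) + 2) * (x + 1) ^ (j + 1) ≤ x / 2 * x ^ (j + 1) := by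
    calc ((j : ℝ) + 2) * (x + 1) ^ (j + 1) ≤ ((j : ℝ) + 2) * (2 ^ (j + 1) * x ^ (j + 1)) :=
          mul_le_mul_of_nonneg_left c1 (by linarith)
      _ = (((j : ℝ) + 2) * 2 ^ (j + 1)) * x ^ (j + 1) := by ring
      _ ≤ x / 2 * x ^ (j + 1) := mul_le_mul_of_nonneg_right (by linarith) hP.le
  have d2 : ((j : ℝ) + 2) * H * (x + 1) ^ (j + 1) ≤ x / 2 * x ^ (j + 1) := by
    calc ((j : ℝ) + 2) * H * (x + 1) ^ (j + 1)
        ≤ ((j : ℝ) + 2) * H * (2 ^ (j + 1) * x ^ (j + 1)) :=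
          mul_le_mul_of_nonneg_left c1 (by positivity)
      _ = (((j : ℝ) + 2) * H * 2 ^ (j + 1)) * x ^ (j + 1) := by ring
      _ ≤ x / 2 * x ^ (j + 1) := mul_le_mul_of_nonneg_right (by linarith) hP.le
  have d3 : ((j : ℝ) + 2) * H * x ^ (j + 1) ≤ x / 2 * x ^ (j + 1) :=
    mul_le_mul_of_nonneg_right (by linarith) hP.le
  have hxP : 0 < x * x ^ (j + 1) := mul_pos hx0 hP
  have hlx : x * x ^ (j + 1) ≤ l * (x * x ^ (j + 1)) := by nlinarith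
  obtain ⟨a1l, a1u⟩ := abs_le.1 a1
  obtain ⟨a2l, a2u⟩ := abs_le.1 a2
  rw [e2] at a1l
  have d4 : l * (x + 1) ^ (j + 2) ≤ l * (x * x ^ (j + 1) + x / 2 * x ^ (j + 1)) :=
    mul_le_mul_of_nonneg_left (by linarith) (by linarith)
  refine ⟨?_, ?_, ?_⟩
  · have : l * (x * x ^ (j + 1) + x / 2 * x ^ (j + 1)) = 3 / 2 * (l * (x * x ^ (j + 1))) := by ring
    have e5 : x / 2 * x ^ (j + 1) = 1 / 2 * (x * x ^ (j + 1)) := by ring
    linarith
  · have e5 : x / 2 * x ^ (j + 1) = 1 / 2 * (x * x ^ (j + 1)) := by ring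
    linarith
  · have e5 : x / 2 * x ^ (j + 1) = 1 / 2 * (x * x ^ (j + 1)) := by ring
    linarith

/-- lower bound for the increments -/
lemma step3 (g : ℤ[X]) (j H U u : ℕ) (hk : g.natDegree = j + 2)
    (hH : ∀ i, |g.coeff i| ≤ (H : ℤ)) (hl : 0 < g.leadingCoeff) (h1H : 1 ≤ H)
    (hB : ((j : ℝ) + 2) * H * 2 ^ (j + 2) ≤ U) (hu : U ≤ u) :
    1 / 2 * (((j : ℝ) + 2) * (g.leadingCoeff : ℝ) * (U : ℝ) ^ (j + 1)) ≤ (Dl g u : ℝ) := by
  have hl' : (1 : ℝ) ≤ g.leadingCoeff := by exact_mod_cast hl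
  have hH1 : (1 : ℝ) ≤ H := by exact_mod_cast h1H
  have hj : (0 : ℝ) ≤ j := Nat.cast_nonneg j
  have hux : (U : ℝ) ≤ u := by exact_mod_cast hu
  have h2j : (1 : ℝ) ≤ 2 ^ (j + 2) := one_le_pow₀ (by norm_num)
  have hx1 : (1 : ℝ) ≤ U := by
    have h1 : (1 : ℝ) * 1 ≤ (((j : ℝ) + 2) * H) * 2 ^ (j + 2) := by
      apply mul_le_mul _ h2j (by norm_num) (by positivity)
      nlinarith
    linarith
  have hy0 : (0 : ℝ) < u := by linarith
  obtain ⟨-, h2⟩ := dlb g j H hk hH hl u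
  refine le_trans ?_ h2
  have c1 : ((u : ℝ) + 1) ^ j ≤ 2 ^ j * (u : ℝ) ^ j := by
    rw [← mul_pow]
    exact pow_le_pow_left₀ (by linarith) (by linarith) _
  have c2 : ((j : ℝ) + 2) ^ 2 * H * ((u : ℝ) + 1) ^ j
      ≤ 1 / 4 * ((j : ℝ) + 2) * (u : ℝ) ^ (j + 1) := by
    calc ((j : ℝ) + 2) ^ 2 * H * ((u : ℝ) + 1) ^ j
        ≤ ((j : ℝ) + 2) ^ 2 * H * (2 ^ j * (u : ℝ) ^ j) :=
          mul_le_mul_of_nonneg_left c1 (by positivity)
      _ = 1 / 4 * ((j : ℝ) + 2) * (((j : ℝ) + 2) * H * 2 ^ (j + 2)) * (u : ℝ) ^ j := by ring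
      _ ≤ 1 / 4 * ((j : ℝ) + 2) * u * (u : ℝ) ^ j := by
          apply mul_le_mul_of_nonneg_right _ (by positivity)
          exact mul_le_mul_of_nonneg_left (by linarith) (by positivity)
      _ = 1 / 4 * ((j : ℝ) + 2) * (u : ℝ) ^ (j + 1) := by ring
  have c3 : (U : ℝ) ^ (j + 1) ≤ (u : ℝ) ^ (j + 1) := pow_le_pow_left₀ (by linarith) hux _
  have c4 : ((j : ℝ) + 2) * (u : ℝ) ^ (j + 1)
      ≤ ((j : ℝ) + 2) * (g.leadingCoeff : ℝ) * (u : ℝ) ^ (j + 1) := by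
    apply mul_le_mul_of_nonneg_right _ (by positivity)
    nlinarith
  have c5 : ((j : ℝ) + 2) * (g.leadingCoeff : ℝ) * (U : ℝ) ^ (j + 1)
      ≤ ((j : ℝ) + 2) * (g.leadingCoeff : ℝ) * (u : ℝ) ^ (j + 1) :=
    mul_le_mul_of_nonneg_left c3 (by positivity)
  have c6 : 0 ≤ ((j : ℝ) + 2) * (g.leadingCoeff : ℝ) * (u : ℝ) ^ (j + 1) := by positivity
  linarith

/-- pure real arithmetic: the final comparison -/
lemma core_fin (η D T V Q X : ℝ) (hη0 : 0 ≤ η) (hηQ : 8 * η * Q ≤ 1) (hQ : 1 ≤ Q) (hD : 0 < D)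
    (hT : 0 < T) (hV0 : 0 ≤ V) (t1 : T < (V + 1) * ((1 + η) * D))
    (t2 : V * ((1 - η) * D) ≤ T + D) (hDT : 6 * D * Q ≤ T)
    (b1 : (1 - η) * D ≤ X) (b2 : X ≤ (1 + η) * D) : |V * X - T| ≤ T / Q := by
  have hQ0 : 0 < Q := by linarith
  have hη8 : 8 * η ≤ 1 := by nlinarith
  have hη4 : 4 * η * T ≤ 1 / 2 * (T / Q) := by
    have : 4 * η * T * Q ≤ 1 / 2 * (T / Q) * Q := by
      have e : 1 / 2 * (T / Q) * Q = 1 / 2 * T := by field_simp
      rw [e]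
      nlinarith
    exact le_of_mul_le_mul_right this hQ0
  have hD3 : 3 * D ≤ 1 / 2 * (T / Q) := by
    have : 3 * D * Q ≤ 1 / 2 * (T / Q) * Q := by
      have e : 1 / 2 * (T / Q) * Q = 1 / 2 * T := by field_simp
      rw [e]
      linarith
    exact le_of_mul_le_mul_right this hQ0
  have m1 := mul_le_mul_of_nonneg_left b1 hV0
  have m2 := mul_le_mul_of_nonneg_left b2 hV0
  have z1 : 0 ≤ η * D := mul_nonneg hη0 hD.le
  have z2 : 0 ≤ η * T := mul_nonneg hη0 hT.le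
  have z3 : η * D ≤ 1 / 8 * D := by nlinarith
  rw [abs_le]
  constructor
  · -- lower
    have h1 : (1 - 2 * η) * ((1 + η) * D) ≤ (1 - η) * D := by
      have h0 : 0 ≤ η * (η * D) := mul_nonneg hη0 z1
      have e : (1 - 2 * η) * ((1 + η) * D) = (1 - η) * D - 2 * (η * (η * D)) := by ring
      rw [e]; linarith
    have h2 : (1 - 2 * η) * T ≤ (V + 1) * ((1 - η) * D) := by
      calc (1 - 2 * η) * T ≤ (1 - 2 * η) * ((V + 1) * ((1 + η) * D)) :=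
            mul_le_mul_of_nonneg_left t1.le (by linarith)
        _ = (V + 1) * ((1 - 2 * η) * ((1 + η) * D)) := by ring
        _ ≤ _ := mul_le_mul_of_nonneg_left h1 (by linarith)
    have e1 : (V + 1) * ((1 - η) * D) = V * ((1 - η) * D) + D - η * D := by ring
    have e2 : (1 - 2 * η) * T = T - 2 * (η * T) := by ring
    have e3 : 4 * η * T = 4 * (η * T) := by ring
    rw [e1, e2] at h2
    rw [e3] at hη4
    linarith
  · -- upper
    have h1 : (1 + η) * D ≤ (1 + 4 * η) * ((1 - η) * D) := by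
      have h0 : η * (η * D) ≤ 1 / 8 * (η * D) := by nlinarith
      have e : (1 + 4 * η) * ((1 - η) * D) = D + 3 * (η * D) - 4 * (η * (η * D)) := by ring
      have e' : (1 + η) * D = D + η * D := by ring
      rw [e, e']; linarith
    have h2 : V * ((1 + η) * D) ≤ (1 + 4 * η) * (T + D) := by
      calc V * ((1 + η) * D) ≤ V * ((1 + 4 * η) * ((1 - η) * D)) :=
            mul_le_mul_of_nonneg_left h1 hV0
        _ = (1 + 4 * η) * (V * ((1 - η) * D)) := by ring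
        _ ≤ _ := mul_le_mul_of_nonneg_left t2 (by linarith)
    have e1 : (1 + 4 * η) * (T + D) = T + D + 4 * (η * T) + 4 * (η * D) := by ring
    have e3 : 4 * η * T = 4 * (η * T) := by ring
    rw [e1] at h2
    rw [e3] at hη4
    linarith

/-- bounds for the increments -/
lemma core_bnd (g : ℤ[X]) (j H U u : ℕ) (q : ℝ) (hk : g.natDegree = j + 2)
    (hH : ∀ i, |g.coeff i| ≤ (H : ℤ)) (hl : 0 < g.leadingCoeff)
    (hq0 : 0 < q) (h4q : 4 / q ≤ 1) (hU0 : (0 : ℝ) < U)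
    (hB2 : ((j : ℝ) + 2) * H * q ≤ U) (hu1' : (U : ℝ) ≤ u) (huY : (u : ℝ) + 1 ≤ (1 + 4 / q) * U) :
    (1 - 2 ^ (j + 4) / q) * (((j : ℝ) + 2) * (g.leadingCoeff : ℝ) * (U : ℝ) ^ (j + 1))
      ≤ (Dl g u : ℝ) ∧
    (Dl g u : ℝ) ≤
      (1 + 2 ^ (j + 4) / q) * (((j : ℝ) + 2) * (g.leadingCoeff : ℝ) * (U : ℝ) ^ (j + 1)) := by
  have hl' : (1 : ℝ) ≤ g.leadingCoeff := by exact_mod_cast hl
  have hj : (0 : ℝ) ≤ j := Nat.cast_nonneg j
  have h4q0 : 0 ≤ 4 / q := by positivity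
  obtain ⟨d1, d2⟩ := dlb g j H hk hH hl u
  obtain ⟨P, hPdef⟩ : ∃ P : ℝ, P = (U : ℝ) ^ (j + 1) := ⟨_, rfl⟩
  have hP : 0 < P := by rw [hPdef]; positivity
  obtain ⟨l, hldef⟩ : ∃ l : ℝ, l = (g.leadingCoeff : ℝ) := ⟨_, rfl⟩
  rw [← hldef] at d1 d2 hl' ⊢
  obtain ⟨D, hDdef⟩ : ∃ D : ℝ, D = ((j : ℝ) + 2) * l * P := ⟨_, rfl⟩
  have hD : 0 < D := by rw [hDdef]; positivity
  rw [← hPdef, ← hDdef]
  have p1 : ((u : ℝ) + 1) ^ (j + 1) ≤ (1 + 2 ^ (j + 1) * (4 / q)) * P := by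
    calc ((u : ℝ) + 1) ^ (j + 1) ≤ ((1 + 4 / q) * U) ^ (j + 1) :=
          pow_le_pow_left₀ (by linarith) huY _
      _ = (1 + 4 / q) ^ (j + 1) * P := by rw [mul_pow, hPdef]
      _ ≤ _ := mul_le_mul_of_nonneg_right (one_add _ h4q0 h4q _) hP.le
  have h2U : (1 + 4 / q) * U ≤ 2 * U := mul_le_mul_of_nonneg_right (by linarith) hU0.le
  have p2 : ((u : ℝ) + 1) ^ j ≤ 2 ^ j * (U : ℝ) ^ j := by
    rw [← mul_pow]
    exact pow_le_pow_left₀ (by linarith) (by linarith) _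
  have p3 : ((j : ℝ) + 2) ^ 2 * H * ((u : ℝ) + 1) ^ j ≤ D * (2 ^ j / q) := by
    calc ((j : ℝ) + 2) ^ 2 * H * ((u : ℝ) + 1) ^ j
        ≤ ((j : ℝ) + 2) ^ 2 * H * (2 ^ j * (U : ℝ) ^ j) :=
          mul_le_mul_of_nonneg_left p2 (by positivity)
      _ = ((j : ℝ) + 2) * (((j : ℝ) + 2) * H * q) * (U : ℝ) ^ j * (2 ^ j / q) := by
          field_simp
      _ ≤ ((j : ℝ) + 2) * U * (U : ℝ) ^ j * (2 ^ j / q) := by
          apply mul_le_mul_of_nonneg_right _ (by positivity)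
          apply mul_le_mul_of_nonneg_right _ (by positivity)
          exact mul_le_mul_of_nonneg_left hB2 (by linarith)
      _ = ((j : ℝ) + 2) * 1 * P * (2 ^ j / q) := by rw [hPdef]; ring
      _ ≤ ((j : ℝ) + 2) * l * P * (2 ^ j / q) := by
          apply mul_le_mul_of_nonneg_right _ (by positivity)
          apply mul_le_mul_of_nonneg_right _ hP.le
          exact mul_le_mul_of_nonneg_left hl' (by linarith)
      _ = D * (2 ^ j / q) := by rw [hDdef]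
  have e8 : (2 : ℝ) ^ (j + 4) / q = 16 * (2 ^ j / q) := by rw [pow_add]; norm_num; ring
  have e9 : (2 : ℝ) ^ (j + 1) * (4 / q) = 8 * (2 ^ j / q) := by rw [pow_add]; ring
  obtain ⟨z, hzdef⟩ : ∃ z : ℝ, z = 2 ^ j / q := ⟨_, rfl⟩
  have hz : 0 ≤ z := by rw [hzdef]; positivity
  have hDz : 0 ≤ D * z := mul_nonneg hD.le hz
  rw [e8, ← hzdef]
  rw [← hzdef] at p3 e9
  constructor
  · have p4 : P ≤ (u : ℝ) ^ (j + 1) := by
      rw [hPdef]; exact pow_le_pow_left₀ hU0.le hu1' _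
    have p5 : D ≤ ((j : ℝ) + 2) * l * (u : ℝ) ^ (j + 1) := by
      rw [hDdef]; exact mul_le_mul_of_nonneg_left p4 (by positivity)
    have e : (1 - 16 * z) * D = D - 16 * (D * z) := by ring
    rw [e]
    linarith
  · have p6 : ((j : ℝ) + 2) * l * ((u : ℝ) + 1) ^ (j + 1) ≤ D + 8 * (D * z) := by
      calc ((j : ℝ) + 2) * l * ((u : ℝ) + 1) ^ (j + 1)
          ≤ ((j : ℝ) + 2) * l * ((1 + 2 ^ (j + 1) * (4 / q)) * P) :=
            mul_le_mul_of_nonneg_left p1 (by positivity)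
        _ = D + 8 * (D * z) := by rw [e9, hDdef]; ring
    have e : (1 + 16 * z) * D = D + 16 * (D * z) := by ring
    rw [e]
    linarith

/-- first bound for `V` -/
lemma core_V (g : ℤ[X]) (U V : ℕ) (q T D : ℝ) (hT : 0 < T) (hD : 0 < D) (hq0 : 0 < q)
    (hgU1 : q * T < ((g.eval ((U + 1 : ℕ) : ℤ) : ℤ) : ℝ))
    (hgV : ((g.eval ((U + V : ℕ) : ℤ) : ℤ) : ℝ) ≤ q * T + T)
    (inc : ∀ u : ℕ, U ≤ u → 1 / 2 * D ≤ (Dl g u : ℝ)) (hTD2 : q * T < D * U) :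
    (V : ℝ) * q ≤ 2 * U + q := by
  have hVD : (V : ℝ) * D ≤ 2 * T + D := by
    rcases Nat.eq_zero_or_pos V with h0 | h0
    · subst h0; simp; positivity
    · obtain ⟨v, rfl⟩ : ∃ v, V = v + 1 := ⟨V - 1, by omega⟩
      have h1 := sum_low g (U + 1) (1 / 2 * D) v (fun i _ => inc _ (by omega))
      rw [show U + 1 + v = U + (v + 1) by ring] at h1
      have e : ((v + 1 : ℕ) : ℝ) * D = 2 * ((v : ℝ) * (1 / 2 * D)) + D := by push_cast; ring
      rw [e]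
      linarith
  have h1 : (V : ℝ) * q * D ≤ (2 * U + q) * D := by
    have h2 := mul_le_mul_of_nonneg_right hVD hq0.le
    have e1 : (V : ℝ) * q * D = (V : ℝ) * D * q := by ring
    have e2 : (2 * (U : ℝ) + q) * D = 2 * (D * U) + D * q := by ring
    have e3 : (2 * T + D) * q = 2 * (q * T) + D * q := by ring
    rw [e1, e2]
    rw [e3] at h2
    linarith
  exact le_of_mul_le_mul_right h1 hD

/-- the comparison of `T` and `V` -/
lemma core_T (g : ℤ[X]) (U V : ℕ) (q T D η : ℝ) (hT : 0 < T) (hD : 0 < D) (hη0 : 0 ≤ η)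
    (hgU : ((g.eval (U : ℤ) : ℤ) : ℝ) ≤ q * T)
    (hgU1 : q * T < ((g.eval ((U + 1 : ℕ) : ℤ) : ℤ) : ℝ))
    (hgV : ((g.eval ((U + V : ℕ) : ℤ) : ℤ) : ℝ) ≤ q * T + T)
    (hgV1 : q * T + T < ((g.eval ((U + V + 1 : ℕ) : ℤ) : ℤ) : ℝ))
    (bnd : ∀ u ∈ Icc U (U + V), (1 - η) * D ≤ (Dl g u : ℝ) ∧ (Dl g u : ℝ) ≤ (1 + η) * D) :
    T < ((V : ℝ) + 1) * ((1 + η) * D) ∧ (V : ℝ) * ((1 - η) * D) ≤ T + D := by
  constructor
  · have h1 := sum_up g U ((1 + η) * D) (V + 1)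
      (fun i hi => (bnd (U + i) (Finset.mem_Icc.2 ⟨by omega, by omega⟩)).2)
    rw [show U + (V + 1) = U + V + 1 by ring] at h1
    have e : ((V + 1 : ℕ) : ℝ) = (V : ℝ) + 1 := by push_cast; ring
    rw [e] at h1
    linarith
  · have z : 0 ≤ η * D := mul_nonneg hη0 hD.le
    rcases Nat.eq_zero_or_pos V with h0 | h0
    · subst h0; simp; positivity
    · obtain ⟨v, rfl⟩ : ∃ v, V = v + 1 := ⟨V - 1, by omega⟩
      have h1 := sum_low g (U + 1) ((1 - η) * D) v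
        (fun i hi => (bnd (U + 1 + i) (Finset.mem_Icc.2 ⟨by omega, by omega⟩)).1)
      rw [show U + 1 + v = U + (v + 1) by ring] at h1
      have e : ((v + 1 : ℕ) : ℝ) * ((1 - η) * D) = (v : ℝ) * ((1 - η) * D) + D - η * D := by
        push_cast; ring
      rw [e]
      linarith

/-- the analytic core: `q = 2^{L+a'}`, `t = q T`, `Q = 2^{L+c}` -/
lemma core (g : ℤ[X]) (j H U V : ℕ) (q T Q : ℝ) (hk : g.natDegree = j + 2)
    (hH : ∀ i, |g.coeff i| ≤ (H : ℤ)) (hl : 0 < g.leadingCoeff) (h1H : 1 ≤ H) (hT : 0 < T)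
    (hQ : 1 ≤ Q) (hq : 2 ^ (j + 7) * Q ≤ q)
    (hgU : ((g.eval (U : ℤ) : ℤ) : ℝ) ≤ q * T)
    (hgU1 : q * T < ((g.eval ((U + 1 : ℕ) : ℤ) : ℤ) : ℝ))
    (hgV : ((g.eval ((U + V : ℕ) : ℤ) : ℤ) : ℝ) ≤ q * T + T)
    (hgV1 : q * T + T < ((g.eval ((U + V + 1 : ℕ) : ℤ) : ℤ) : ℝ))
    (hB : ((j : ℝ) + 2) * H * 2 ^ (j + 2) ≤ U)
    (hB2 : ((j : ℝ) + 2) * H * q ≤ U)
    (hB3 : 12 * ((j : ℝ) + 2) * (q * Q) ≤ U) :
    (∀ u ∈ Icc U (U + V), 0 < Dl g u ∧ |(V : ℝ) * (Dl g u : ℝ) - T| ≤ T / Q) ∧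
    (U : ℝ) < 4 * ((j : ℝ) + 2) * q * ((V : ℝ) + 1) ∧
    q * T < 2 * H * ((U : ℝ) ^ (j + 2)) ∧ 0 < ((g.eval (U : ℤ) : ℤ) : ℝ) := by
  obtain ⟨s1, s2, s0⟩ := step12 g j H U (q * T) hk hH hl h1H hgU hgU1 hB
  have hl' : (1 : ℝ) ≤ g.leadingCoeff := by exact_mod_cast hl
  have hlH : (g.leadingCoeff : ℝ) ≤ H := by
    have := (abs_le.1 (hH g.natDegree)).2
    exact_mod_cast this
  have hH1 : (1 : ℝ) ≤ H := by exact_mod_cast h1H
  have hj : (0 : ℝ) ≤ j := Nat.cast_nonneg j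
  have hp1 : (1 : ℝ) ≤ 2 ^ (j + 2) := one_le_pow₀ (by norm_num)
  have hp7 : (2 : ℝ) ^ (j + 7) = 2 ^ (j + 2) * 32 := by
    rw [pow_add, pow_add]; norm_num; ring
  have hq32 : 32 ≤ q := by
    have : (32 : ℝ) * 1 ≤ 2 ^ (j + 7) * Q := by
      rw [hp7]
      apply mul_le_mul _ hQ (by norm_num) (by positivity)
      linarith
    linarith
  have hq0 : 0 < q := by linarith
  have hn2 : (2 : ℝ) ≤ (j : ℝ) + 2 := by linarith
  have hn2H : (2 : ℝ) ≤ ((j : ℝ) + 2) * H := by nlinarith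
  have hUq : 2 * q ≤ U := by
    have := mul_le_mul_of_nonneg_right hn2H hq0.le
    linarith
  have hU0 : (0 : ℝ) < U := by linarith
  obtain ⟨D, hDdef⟩ : ∃ D : ℝ,
    D = ((j : ℝ) + 2) * (g.leadingCoeff : ℝ) * (U : ℝ) ^ (j + 1) := ⟨_, rfl⟩
  have hD : 0 < D := by rw [hDdef]; positivity
  have eD : D * U = ((j : ℝ) + 2) * ((g.leadingCoeff : ℝ) * ((U : ℝ) * (U : ℝ) ^ (j + 1))) := by
    rw [hDdef]; ring
  have inc : ∀ u : ℕ, U ≤ u → 1 / 2 * D ≤ (Dl g u : ℝ) := by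
    intro u hu
    have := step3 g j H U u hk hH hl h1H hB hu
    rw [← hDdef] at this
    exact this
  have hDU : D * U ≤ 2 * ((j : ℝ) + 2) * (q * T) := by
    rw [eD]
    have := mul_le_mul_of_nonneg_left s2 (by linarith : (0 : ℝ) ≤ (j : ℝ) + 2)
    linarith
  have hTD2 : q * T < D * U := by
    have h1 := mul_lt_mul_of_pos_left s1 (by linarith : (0 : ℝ) < (j : ℝ) + 2)
    have h2 : 2 * (q * T) ≤ ((j : ℝ) + 2) * (q * T) :=
      mul_le_mul_of_nonneg_right hn2 (by positivity)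
    rw [eD]
    linarith
  have hVq := core_V g U V q T D hT hD hq0 hgU1 hgV inc hTD2
  have hY : (U : ℝ) + V + 1 ≤ (1 + 4 / q) * U := by
    have h1 : ((U : ℝ) + V + 1) * q ≤ ((1 + 4 / q) * U) * q := by
      have e : ((1 + 4 / q) * U) * q = (q + 4) * U := by field_simp
      have e' : ((U : ℝ) + V + 1) * q = U * q + V * q + q := by ring
      have e'' : (q + 4) * (U : ℝ) = U * q + 4 * U := by ring
      rw [e, e', e'']
      linarith
    exact le_of_mul_le_mul_right h1 hq0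
  have h4q : 4 / q ≤ 1 := by rw [div_le_one hq0]; linarith
  obtain ⟨η, hη⟩ : ∃ η : ℝ, η = 2 ^ (j + 4) / q := ⟨_, rfl⟩
  have hη0 : 0 ≤ η := by rw [hη]; positivity
  have hηQ : 8 * η * Q ≤ 1 := by
    rw [hη]
    have e : 8 * (2 ^ (j + 4) / q) * Q = (2 ^ (j + 7) * Q) / q := by
      have : (2 : ℝ) ^ (j + 7) = 2 ^ (j + 4) * 8 := by
        rw [pow_add, pow_add]; norm_num; ring
      rw [this]; ring
    rw [e, div_le_one hq0]
    exact hq
  have hη8 : 8 * η ≤ 1 := by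
    have : 8 * η * 1 ≤ 8 * η * Q := mul_le_mul_of_nonneg_left hQ (by positivity)
    linarith
  have bnd : ∀ u ∈ Icc U (U + V), (1 - η) * D ≤ (Dl g u : ℝ) ∧ (Dl g u : ℝ) ≤ (1 + η) * D := by
    intro u hu
    obtain ⟨hu1, hu2⟩ := Finset.mem_Icc.1 hu
    have hu1' : (U : ℝ) ≤ u := by exact_mod_cast hu1
    have hu2' : (u : ℝ) ≤ U + V := by exact_mod_cast hu2
    have := core_bnd g j H U u q hk hH hl hq0 h4q hU0 hB2 hu1' (by linarith)
    rw [← hDdef, ← hη] at this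
    exact this
  obtain ⟨t1, t2⟩ := core_T g U V q T D η hT hD hη0 hgU hgU1 hgV hgV1 bnd
  have hDT : 6 * D * Q ≤ T := by
    have h1 : (6 * D * Q) * U ≤ T * U := by
      calc (6 * D * Q) * U = 6 * Q * (D * U) := by ring
        _ ≤ 6 * Q * (2 * ((j : ℝ) + 2) * (q * T)) := mul_le_mul_of_nonneg_left hDU (by linarith)
        _ = T * (12 * ((j : ℝ) + 2) * (q * Q)) := by ring
        _ ≤ T * U := mul_le_mul_of_nonneg_left hB3 hT.le
    exact le_of_mul_le_mul_right h1 hU0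
  refine ⟨?_, ?_, ?_, s0⟩
  · intro u hu
    obtain ⟨b1, b2⟩ := bnd u hu
    obtain ⟨hu1, hu2⟩ := Finset.mem_Icc.1 hu
    refine ⟨?_, core_fin η D T V Q _ hη0 hηQ hQ hD hT (Nat.cast_nonneg V) t1 t2 hDT b1 b2⟩
    have := inc u hu1
    have h0 : (0 : ℝ) < (Dl g u : ℝ) := by linarith
    exact_mod_cast h0
  · have h1 : T < 2 * ((V : ℝ) + 1) * D := by
      have hV0 : (0 : ℝ) ≤ (V : ℝ) + 1 := by positivity
      have : ((V : ℝ) + 1) * ((1 + η) * D) ≤ ((V : ℝ) + 1) * (2 * D) := by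
        apply mul_le_mul_of_nonneg_left _ hV0
        exact mul_le_mul_of_nonneg_right (by linarith) hD.le
      linarith
    have h2 : T * U < T * (4 * ((j : ℝ) + 2) * q * ((V : ℝ) + 1)) := by
      calc T * U < 2 * ((V : ℝ) + 1) * D * U := mul_lt_mul_of_pos_right h1 hU0
        _ = 2 * ((V : ℝ) + 1) * (D * U) := by ring
        _ ≤ 2 * ((V : ℝ) + 1) * (2 * ((j : ℝ) + 2) * (q * T)) :=
            mul_le_mul_of_nonneg_left hDU (by positivity)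
        _ = T * (4 * ((j : ℝ) + 2) * q * ((V : ℝ) + 1)) := by ring
    exact lt_of_mul_lt_mul_left h2 hT.le
  · calc q * T < 2 * ((g.leadingCoeff : ℝ) * ((U : ℝ) * (U : ℝ) ^ (j + 1))) := s1
      _ ≤ 2 * (H * ((U : ℝ) * (U : ℝ) ^ (j + 1))) := by
          apply mul_le_mul_of_nonneg_left _ (by norm_num)
          exact mul_le_mul_of_nonneg_right hlH (by positivity)
      _ = 2 * H * ((U : ℝ) ^ (j + 2)) := by ring

/-- crude upper bound -/
lemma ev_le (g : ℤ[X]) (j H : ℕ) (hk : g.natDegree = j + 2) (hH : ∀ i, |g.coeff i| ≤ (H : ℤ))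
    (u : ℕ) (hu : 1 ≤ u) :
    g.eval (u : ℤ) ≤ (((j + 3) * H * u ^ (j + 2) : ℕ) : ℤ) := by
  rw [eval_eq_sum_range, hk]
  have : ∀ i ∈ range (j + 2 + 1), g.coeff i * (u : ℤ) ^ i ≤ (H : ℤ) * (u : ℤ) ^ (j + 2) := by
    intro i hi
    have h1 : g.coeff i ≤ H := (abs_le.1 (hH i)).2
    have hu' : (1 : ℤ) ≤ u := by exact_mod_cast hu
    have h2 : (u : ℤ) ^ i ≤ (u : ℤ) ^ (j + 2) :=
      pow_le_pow_right₀ hu' (by have := Finset.mem_range.1 hi; omega)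
    calc g.coeff i * (u : ℤ) ^ i ≤ (H : ℤ) * (u : ℤ) ^ i :=
          mul_le_mul_of_nonneg_right h1 (by positivity)
      _ ≤ _ := mul_le_mul_of_nonneg_left h2 (by positivity)
  refine (Finset.sum_le_sum this).trans ?_
  rw [Finset.sum_const, Finset.card_range, nsmul_eq_mul]
  push_cast
  apply le_of_eq
  ring

/-- the polynomial is large beyond an explicit bound -/
lemma ev_big (g : ℤ[X]) (j H B : ℕ) (hk : g.natDegree = j + 2) (hH : ∀ i, |g.coeff i| ≤ (H : ℤ))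
    (hl : 0 < g.leadingCoeff) (u : ℕ) (hu : B + (j + 2) * H + 1 ≤ u) :
    (B : ℤ) < g.eval (u : ℤ) := by
  have h1 := (abs_le.1 (evb g j H hk hH u (by omega))).1
  have hl' : (1 : ℝ) ≤ g.leadingCoeff := by exact_mod_cast hl
  have hu' : (B : ℝ) + ((j : ℝ) + 2) * H + 1 ≤ u := by exact_mod_cast hu
  have hB0 : (0 : ℝ) ≤ B := Nat.cast_nonneg B
  have h0 : (0 : ℝ) ≤ ((j : ℝ) + 2) * H := by positivity
  have hP : (1 : ℝ) ≤ (u : ℝ) ^ (j + 1) := one_le_pow₀ (by linarith)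
  have h2 : (u : ℝ) ^ (j + 2) ≤ (g.leadingCoeff : ℝ) * (u : ℝ) ^ (j + 2) := by
    have : (0 : ℝ) ≤ (u : ℝ) ^ (j + 2) := by positivity
    nlinarith
  have h3 : (B : ℝ) + 1 ≤ ((u : ℝ) - ((j : ℝ) + 2) * H) * (u : ℝ) ^ (j + 1) := by
    have h4 : (B : ℝ) + 1 ≤ (u : ℝ) - ((j : ℝ) + 2) * H := by linarith
    nlinarith
  have h5 : ((u : ℝ) - ((j : ℝ) + 2) * H) * (u : ℝ) ^ (j + 1)
      = (u : ℝ) ^ (j + 2) - ((j : ℝ) + 2) * H * (u : ℝ) ^ (j + 1) := by ring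
  have h6 : (B : ℝ) < ((g.eval (u : ℤ) : ℤ) : ℝ) := by
    rw [h5] at h3
    linarith
  exact_mod_cast h6

/-- existence of the last argument with value at most `B` -/
lemma last (g : ℤ[X]) (j H B M : ℕ) (hk : g.natDegree = j + 2) (hH : ∀ i, |g.coeff i| ≤ (H : ℤ))
    (hl : 0 < g.leadingCoeff) (hM : g.eval (M : ℤ) ≤ (B : ℤ)) :
    ∃ U : ℕ, M ≤ U ∧ g.eval (U : ℤ) ≤ (B : ℤ) ∧ ∀ u : ℕ, U < u → (B : ℤ) < g.eval (u : ℤ) := by
  classical
  set Bd := B + (j + 2) * H + 1 with hBd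
  have hMB : M ≤ Bd := by
    by_contra hcon
    have := ev_big g j H B hk hH hl M (by omega)
    omega
  refine ⟨Nat.findGreatest (fun u : ℕ => g.eval (u : ℤ) ≤ (B : ℤ)) Bd,
    Nat.le_findGreatest hMB hM,
    Nat.findGreatest_spec (P := fun u : ℕ => g.eval (u : ℤ) ≤ (B : ℤ)) hMB hM, ?_⟩
  intro u hu
  by_cases h : u ≤ Bd
  · have := Nat.findGreatest_is_greatest hu h
    exact not_le.1 this
  · exact ev_big g j H B hk hH hl u (by omega)

end PGm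

open PGm in
theorem pg : PG := by
  intro k c hk
  obtain ⟨j, rfl⟩ : ∃ j, k = j + 2 := ⟨k - 2, by omega⟩
  obtain ⟨a', ha'⟩ : ∃ a', a' = j + 7 + c := ⟨_, rfl⟩
  refine ⟨a', 2 + (j + 6 + a') * (j + 2), ?_⟩
  intro b'
  obtain ⟨m, hm⟩ : ∃ m, m = 2 * j + a' + c + b' + 12 := ⟨_, rfl⟩
  refine ⟨m * (j + 2) + j + 5, ?_⟩
  intro L H T g hL h1H hgk hl hH hT
  obtain ⟨W, hW⟩ : ∃ W, W = H * 2 ^ L := ⟨_, rfl⟩
  rw [← hW] at hT ⊢
  have h2L : 2 ≤ 2 ^ L := by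
    calc 2 = 2 ^ 1 := by norm_num
      _ ≤ 2 ^ L := Nat.pow_le_pow_right (by norm_num) hL
  have hW2 : 2 ≤ W := by rw [hW]; nlinarith
  have hHW : H ≤ W := by rw [hW]; nlinarith
  have h2LW : 2 ^ L ≤ W := by rw [hW]; nlinarith
  have hW1 : 1 ≤ W := by omega
  have pow2 : ∀ n : ℕ, 2 ^ n ≤ W ^ n := fun n => Nat.pow_le_pow_left hW2 n
  have natW : ∀ n : ℕ, n ≤ W ^ n := fun n => (Nat.lt_two_pow_self).le.trans (pow2 n)
  have monoW : ∀ a b : ℕ, a ≤ b → W ^ a ≤ W ^ b := fun a b h => Nat.pow_le_pow_right (by omega) h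
  obtain ⟨q, hq⟩ : ∃ q, q = 2 ^ (L + a') := ⟨_, rfl⟩
  rw [← hq]
  have hqW : q ≤ W ^ (1 + a') := by
    rw [hq, pow_add, pow_add, pow_one]
    exact Nat.mul_le_mul h2LW (pow2 _)
  have hq1 : 1 ≤ q := by rw [hq]; exact Nat.one_le_two_pow
  have hT1 : 1 ≤ T := le_trans (Nat.one_le_pow _ _ (by omega)) hT
  have hHT : H ≤ T := by
    calc H ≤ W ^ 1 := by rw [pow_one]; exact hHW
      _ ≤ W ^ (m * (j + 2) + j + 5) := monoW _ _ (by omega)
      _ ≤ T := hT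
  have hTq : T ≤ q * T := Nat.le_mul_of_pos_left _ hq1
  -- existence
  obtain ⟨U, -, hU1, hU2⟩ := last g j H (q * T) 0 hgk hH hl (by
    have h0 : g.eval ((0 : ℕ) : ℤ) = g.coeff 0 := by
      rw [Nat.cast_zero, coeff_zero_eq_eval_zero]
    rw [h0]
    have h1 : g.coeff 0 ≤ H := (abs_le.1 (hH 0)).2
    have h2 : (H : ℤ) ≤ ((q * T : ℕ) : ℤ) := by exact_mod_cast hHT.trans hTq
    exact h1.trans h2)
  obtain ⟨V', hV0, hV1, hV2⟩ := last g j H (q * T + T) U hgk hH hl (by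
    have : ((q * T : ℕ) : ℤ) ≤ ((q * T + T : ℕ) : ℤ) := by exact_mod_cast Nat.le_add_right _ _
    exact hU1.trans this)
  obtain ⟨V, rfl⟩ : ∃ V, V' = U + V := ⟨V' - U, by omega⟩
  have hU3 := hU2 (U + 1) (by omega)
  have hV3 := hV2 (U + V + 1) (by omega)
  -- `U` is large
  have hUm : W ^ m ≤ U := by
    by_contra hcon
    have h1 : U + 1 ≤ W ^ m := by omega
    have h2 := ev_le g j H hgk hH (U + 1) (by omega)
    have h3 : q * T < (j + 3) * H * (U + 1) ^ (j + 2) := by exact_mod_cast hU3.trans_le h2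
    have h4 : (j + 3) * H * (U + 1) ^ (j + 2) ≤ W ^ (j + 3) * W * (W ^ m) ^ (j + 2) :=
      Nat.mul_le_mul (Nat.mul_le_mul (natW _) hHW) (Nat.pow_le_pow_left h1 _)
    have h5 : W ^ (j + 3) * W * (W ^ m) ^ (j + 2) = W ^ (m * (j + 2) + j + 4) := by
      rw [← pow_mul]; ring
    have h6 : W ^ (m * (j + 2) + j + 4) ≤ W ^ (m * (j + 2) + j + 5) := monoW _ _ (by omega)
    omega
  -- size conditions
  have bB : (j + 2) * H * 2 ^ (j + 2) ≤ U := by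
    calc (j + 2) * H * 2 ^ (j + 2) ≤ W ^ (j + 2) * W ^ 1 * W ^ (j + 2) :=
          Nat.mul_le_mul (Nat.mul_le_mul (natW _) (by rw [pow_one]; exact hHW)) (pow2 _)
      _ = W ^ (j + 2 + 1 + (j + 2)) := by ring
      _ ≤ W ^ m := monoW _ _ (by omega)
      _ ≤ U := hUm
  have bB2 : (j + 2) * H * q ≤ U := by
    calc (j + 2) * H * q ≤ W ^ (j + 2) * W ^ 1 * W ^ (1 + a') :=
          Nat.mul_le_mul (Nat.mul_le_mul (natW _) (by rw [pow_one]; exact hHW)) hqW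
      _ = W ^ (j + 2 + 1 + (1 + a')) := by ring
      _ ≤ W ^ m := monoW _ _ (by omega)
      _ ≤ U := hUm
  have hQW : 2 ^ (L + c) ≤ W ^ (1 + c) := by
    rw [pow_add, pow_add, pow_one]
    exact Nat.mul_le_mul h2LW (pow2 _)
  have bB3 : 12 * (j + 2) * (q * 2 ^ (L + c)) ≤ U := by
    calc 12 * (j + 2) * (q * 2 ^ (L + c)) ≤ W ^ 4 * W ^ (j + 2) * (W ^ (1 + a') * W ^ (1 + c)) :=
          Nat.mul_le_mul (Nat.mul_le_mul ((by norm_num : 12 ≤ 2 ^ 4).trans (pow2 4)) (natW _))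
            (Nat.mul_le_mul hqW hQW)
      _ = W ^ (4 + (j + 2) + (1 + a' + (1 + c))) := by ring
      _ ≤ W ^ m := monoW _ _ (by omega)
      _ ≤ U := hUm
  have hcore := core g j H U V (q : ℝ) (T : ℝ) (2 ^ (L + c) : ℝ) hgk hH hl h1H
    (by exact_mod_cast hT1) (one_le_pow₀ (by norm_num))
    (by
      rw [hq]
      push_cast
      rw [← pow_add]
      exact pow_le_pow_right₀ (by norm_num) (by omega))
    (by exact_mod_cast hU1) (by exact_mod_cast hU3) (by exact_mod_cast hV1)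
    (by exact_mod_cast hV3) (by exact_mod_cast bB) (by exact_mod_cast bB2)
    (by exact_mod_cast bB3)
  obtain ⟨c1, c2, c3, c4⟩ := hcore
  have c2' : U < 4 * (j + 2) * q * (V + 1) := by exact_mod_cast c2
  have c3' : q * T < 2 * H * U ^ (j + 2) := by exact_mod_cast c3
  have hVb : W ^ b' ≤ V := by
    by_contra hcon
    have h1 : V + 1 ≤ W ^ b' := by omega
    have h2 : 4 * (j + 2) * q * (V + 1) ≤ W ^ 2 * W ^ (j + 2) * W ^ (1 + a') * W ^ b' :=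
      Nat.mul_le_mul (Nat.mul_le_mul (Nat.mul_le_mul (pow2 2) (natW _)) hqW) h1
    have h3 : W ^ 2 * W ^ (j + 2) * W ^ (1 + a') * W ^ b'
        = W ^ (2 + (j + 2) + (1 + a') + b') := by ring
    have h4 : W ^ (2 + (j + 2) + (1 + a') + b') ≤ W ^ m := monoW _ _ (by omega)
    omega
  have hV1' : 1 ≤ V := le_trans (Nat.one_le_pow _ _ (by omega)) hVb
  refine ⟨U, V, hVb, ?_, hU1, hU3, hV1, hV3, ?_, ?_⟩
  · intro v
    rcases Nat.eq_zero_or_pos v with h0 | h0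
    · subst h0
      rw [Nat.add_zero]
      exact_mod_cast c4
    · have h1 := hU2 (U + v) (by omega)
      have h2 : (0 : ℤ) ≤ ((q * T : ℕ) : ℤ) := by positivity
      exact lt_of_le_of_lt h2 h1
  · intro u hu
    exact c1 u hu
  · calc T ≤ q * T := hTq
      _ ≤ 2 * H * U ^ (j + 2) := c3'.le
      _ ≤ W ^ 2 * (W ^ (j + 6 + a') * V) ^ (j + 2) := by
          apply Nat.mul_le_mul
          · rw [pow_two]; exact Nat.mul_le_mul hW2 hHW
          · apply Nat.pow_le_pow_left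
            calc U ≤ 4 * (j + 2) * q * (V + 1) := c2'.le
              _ ≤ 4 * (j + 2) * q * (2 * V) := Nat.mul_le_mul_left _ (by omega)
              _ = (8 * (j + 2) * q) * V := by ring
              _ ≤ (W ^ 3 * W ^ (j + 2) * W ^ (1 + a')) * V :=
                  Nat.mul_le_mul_right _ (Nat.mul_le_mul (Nat.mul_le_mul (pow2 3) (natW _)) hqW)
              _ = W ^ (j + 6 + a') * V := by ring
      _ = W ^ (2 + (j + 6 + a') * (j + 2)) * V ^ (j + 2) := by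
          rw [mul_pow, ← pow_mul]; ring

end Vale.Agent.P042
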