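import Vale.Agent.P042.Core2

/-!
# P042, module H1n: one density increment step
-/

open Polynomial Finset

namespace Vale.Agent.P042

namespace StepAux

theorem ee_add (x y : ℝ) : ee (x + y) = ee x * ee y := by
  unfold ee
  rw [← Complex.exp_add]
  congr 1
  push_cast
  ring

theorem norm_ee (x : ℝ) : ‖ee x‖ = 1 := by
  unfold ee
  exact Complex.norm_exp_ofReal_mul_I _

theorem ee_zero : ee 0 = 1 := by
  unfold ee
  simp

theorem norm_Gs_le (g : ℤ[X]) (a : ℤ) (q : ℕ) : ‖Gs g a q‖ ≤ 1 := by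
  unfold Gs
  rw [norm_div]
  have h1 : ‖∑ u ∈ range q, ee ((a : ℝ) * ((g.eval (u : ℤ) : ℤ) : ℝ) / (q : ℝ))‖ ≤ (q : ℝ) := by
    refine (norm_sum_le _ _).trans ?_
    rw [Finset.sum_congr rfl (fun u _ => norm_ee _)]
    simp
  have h2 : ‖(q : ℂ)‖ = (q : ℝ) := by simp
  rw [h2]
  rcases Nat.eq_zero_or_pos q with h | h
  · subst h; simp
  · exact (div_le_one (by exact_mod_cast h)).2 h1

theorem Gs_one (g : ℤ[X]) : Gs g ((0 : ℕ) : ℤ) 1 = 1 := by
  unfold Gs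
  simp [ee_zero]

/-- the double sum of the model part -/
theorem model_sum (g : ℤ[X]) (A : Finset ℕ) (Q l s₀ K₀ : ℕ) :
    ∑ x ∈ A, ∑ y ∈ A, (∑ q ∈ Icc 1 Q, ∑ r ∈ (range q).filter (fun r => Nat.Coprime r q),
        Gs g r q * ((if ((s₀ * l : ℕ) : ℤ) < (y : ℤ) - (x : ℤ) ∧
          (y : ℤ) - (x : ℤ) ≤ ((s₀ * l + K₀ * l : ℕ) : ℤ) then
            ee (-((r : ℝ) / q * (((y : ℤ) - (x : ℤ) : ℤ) : ℝ))) else 0) / ((K₀ * l : ℕ) : ℂ)))
      = ∑ q ∈ Icc 1 Q, ∑ r ∈ (range q).filter (fun r => Nat.Coprime r q),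
          Gs g r q * RR A l s₀ K₀ ((r : ℝ) / q) := by
  have h1 : ∀ x ∈ A, ∑ y ∈ A, (∑ q ∈ Icc 1 Q, ∑ r ∈ (range q).filter (fun r => Nat.Coprime r q),
        Gs g r q * ((if ((s₀ * l : ℕ) : ℤ) < (y : ℤ) - (x : ℤ) ∧
          (y : ℤ) - (x : ℤ) ≤ ((s₀ * l + K₀ * l : ℕ) : ℤ) then
            ee (-((r : ℝ) / q * (((y : ℤ) - (x : ℤ) : ℤ) : ℝ))) else 0) / ((K₀ * l : ℕ) : ℂ)))
      = ∑ q ∈ Icc 1 Q, ∑ r ∈ (range q).filter (fun r => Nat.Coprime r q), ∑ y ∈ A,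
        Gs g r q * ((if ((s₀ * l : ℕ) : ℤ) < (y : ℤ) - (x : ℤ) ∧
          (y : ℤ) - (x : ℤ) ≤ ((s₀ * l + K₀ * l : ℕ) : ℤ) then
            ee (-((r : ℝ) / q * (((y : ℤ) - (x : ℤ) : ℤ) : ℝ))) else 0) / ((K₀ * l : ℕ) : ℂ)) := by
    intro x _
    rw [Finset.sum_comm]
    refine Finset.sum_congr rfl fun q _ => ?_
    rw [Finset.sum_comm]
  rw [Finset.sum_congr rfl h1, Finset.sum_comm]
  refine Finset.sum_congr rfl fun q _ => ?_
  rw [Finset.sum_comm]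
  refine Finset.sum_congr rfl fun r _ => ?_
  unfold RR
  rw [Finset.sum_div, Finset.mul_sum]
  refine Finset.sum_congr rfl fun x _ => ?_
  rw [Finset.sum_div, Finset.mul_sum]
  refine Finset.sum_congr rfl fun y _ => ?_
  congr 2
  have hiff : (((s₀ * l : ℕ) : ℤ) < (y : ℤ) - (x : ℤ) ∧
          (y : ℤ) - (x : ℤ) ≤ ((s₀ * l + K₀ * l : ℕ) : ℤ)) ↔
      (x + s₀ * l < y ∧ y ≤ x + s₀ * l + K₀ * l) := by
    constructor
    · rintro ⟨h1, h2⟩
      constructor <;> omega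
    · rintro ⟨h1, h2⟩
      constructor <;> omega
  by_cases hc : x + s₀ * l < y ∧ y ≤ x + s₀ * l + K₀ * l
  · rw [if_pos hc, if_pos (hiff.2 hc)]
    push_cast
    rfl
  · rw [if_neg hc, if_neg (fun h => hc (hiff.1 h))]

open Classical in
/-- the sup-norm approximation plus avoidance forces the model correlation to be small -/
theorem no_big (hF : FSUP) (g : ℤ[X]) (A : Finset ℕ) (Q l s₀ K₀ U V : ℕ) (δ : ℝ)
    (hpos : ∀ v ∈ Icc 1 V, 0 < g.eval ((U + v : ℕ) : ℤ))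
    (hmaj : ∀ θ : ℝ,
        ‖(∑ v ∈ Icc 1 V, ee (θ * ((g.eval ((U + v : ℕ) : ℤ) : ℤ) : ℝ))) / (V : ℂ)
          - ∑ q ∈ Icc 1 Q, ∑ r ∈ (range q).filter (fun r => Nat.Coprime r q),
              Gs g r q * ((∑ m ∈ Ioc (s₀ * l) (s₀ * l + K₀ * l),
                ee ((θ - (r : ℝ) / q) * (m : ℝ))) / ((K₀ * l : ℕ) : ℂ))‖ ≤ δ)
    (hav : ∀ x ∈ A, ∀ y ∈ A, ∀ u : ℕ, 1 ≤ u → (y : ℤ) - (x : ℤ) = g.eval (u : ℤ) → x = y) :
    ‖∑ q ∈ Icc 1 Q, ∑ r ∈ (range q).filter (fun r => Nat.Coprime r q),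
          Gs g r q * RR A l s₀ K₀ ((r : ℝ) / q)‖ ≤ δ * A.card := by
  -- the two weights
  set w1 : ℤ → ℂ := fun t => (∑ v ∈ Icc 1 V, if g.eval ((U + v : ℕ) : ℤ) = t then (1 : ℂ) else 0)
    / (V : ℂ) with hw1
  set w2 : ℤ → ℂ := fun t => ∑ q ∈ Icc 1 Q, ∑ r ∈ (range q).filter (fun r => Nat.Coprime r q),
        Gs g r q * ((if ((s₀ * l : ℕ) : ℤ) < t ∧ t ≤ ((s₀ * l + K₀ * l : ℕ) : ℤ) then
            ee (-((r : ℝ) / q * (t : ℝ))) else 0) / ((K₀ * l : ℕ) : ℂ)) with hw2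
  set R : Finset ℤ := (Icc 1 V).image (fun v => g.eval ((U + v : ℕ) : ℤ)) ∪
    Ioc ((s₀ * l : ℕ) : ℤ) ((s₀ * l + K₀ * l : ℕ) : ℤ) with hR
  have hsupp : ∀ t, t ∉ R → w1 t - w2 t = 0 := by
    intro t ht
    have h1 : w1 t = 0 := by
      rw [hw1]
      simp only
      rw [Finset.sum_eq_zero, zero_div]
      intro v hv
      rw [if_neg]
      intro h
      apply ht
      rw [hR, Finset.mem_union]
      left
      rw [← h]
      exact Finset.mem_image_of_mem _ hv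
    have h2 : w2 t = 0 := by
      rw [hw2]
      simp only
      refine Finset.sum_eq_zero fun q _ => Finset.sum_eq_zero fun r _ => ?_
      rw [if_neg]
      · simp
      · intro h
        apply ht
        rw [hR, Finset.mem_union]
        right
        rw [Finset.mem_Ioc]
        exact h
    rw [h1, h2, sub_zero]
  have hfour : ∀ θ : ℝ, ‖∑ t ∈ R, (w1 t - w2 t) * ee (θ * (t : ℝ))‖ ≤ δ := by
    intro θ
    have e1 : ∑ t ∈ R, w1 t * ee (θ * (t : ℝ))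
        = (∑ v ∈ Icc 1 V, ee (θ * ((g.eval ((U + v : ℕ) : ℤ) : ℤ) : ℝ))) / (V : ℂ) := by
      rw [hw1]
      simp only
      have : ∀ t ∈ R, (∑ v ∈ Icc 1 V, if g.eval ((U + v : ℕ) : ℤ) = t then (1 : ℂ) else 0)
          / (V : ℂ) * ee (θ * (t : ℝ))
          = (∑ v ∈ Icc 1 V, if g.eval ((U + v : ℕ) : ℤ) = t then ee (θ * (t : ℝ)) else 0)
          / (V : ℂ) := by
        intro t _
        rw [div_mul_eq_mul_div, Finset.sum_mul]
        congr 1
        refine Finset.sum_congr rfl fun v _ => ?_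
        split_ifs <;> simp
      rw [Finset.sum_congr rfl this, ← Finset.sum_div]
      congr 1
      rw [Finset.sum_comm]
      refine Finset.sum_congr rfl fun v hv => ?_
      rw [Finset.sum_ite_eq]
      rw [if_pos]
      rw [hR, Finset.mem_union]
      left
      exact Finset.mem_image_of_mem _ hv
    have e2 : ∑ t ∈ R, w2 t * ee (θ * (t : ℝ))
        = ∑ q ∈ Icc 1 Q, ∑ r ∈ (range q).filter (fun r => Nat.Coprime r q),
              Gs g r q * ((∑ m ∈ Ioc (s₀ * l) (s₀ * l + K₀ * l),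
                ee ((θ - (r : ℝ) / q) * (m : ℝ))) / ((K₀ * l : ℕ) : ℂ)) := by
      rw [hw2]
      simp only
      have h1 : ∀ t ∈ R, (∑ q ∈ Icc 1 Q, ∑ r ∈ (range q).filter (fun r => Nat.Coprime r q),
          Gs g r q * ((if ((s₀ * l : ℕ) : ℤ) < t ∧ t ≤ ((s₀ * l + K₀ * l : ℕ) : ℤ) then
            ee (-((r : ℝ) / q * (t : ℝ))) else 0) / ((K₀ * l : ℕ) : ℂ))) * ee (θ * (t : ℝ))
          = ∑ q ∈ Icc 1 Q, ∑ r ∈ (range q).filter (fun r => Nat.Coprime r q),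
          Gs g r q * ((if ((s₀ * l : ℕ) : ℤ) < t ∧ t ≤ ((s₀ * l + K₀ * l : ℕ) : ℤ) then
            ee ((θ - (r : ℝ) / q) * (t : ℝ)) else 0) / ((K₀ * l : ℕ) : ℂ)) := by
        intro t _
        rw [Finset.sum_mul]
        refine Finset.sum_congr rfl fun q _ => ?_
        rw [Finset.sum_mul]
        refine Finset.sum_congr rfl fun r _ => ?_
        rw [mul_assoc, div_mul_eq_mul_div]
        congr 2
        split_ifs
        · rw [← ee_add]
          congr 1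
          ring
        · simp
      rw [Finset.sum_congr rfl h1, Finset.sum_comm]
      refine Finset.sum_congr rfl fun q _ => ?_
      rw [Finset.sum_comm]
      refine Finset.sum_congr rfl fun r _ => ?_
      rw [← Finset.mul_sum, ← Finset.sum_div]
      congr 2
      rw [← Finset.sum_filter]
      refine Finset.sum_bij' (fun t _ => t.toNat) (fun m _ => (m : ℤ)) ?_ ?_ ?_ ?_ ?_
      · intro t ht
        rw [Finset.mem_filter] at ht
        rw [Finset.mem_Ioc]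
        have := ht.2
        constructor <;> omega
      · intro m hm
        rw [Finset.mem_Ioc] at hm
        rw [Finset.mem_filter, hR, Finset.mem_union, Finset.mem_Ioc]
        refine ⟨Or.inr ⟨?_, ?_⟩, ?_, ?_⟩ <;> omega
      · intro t ht
        rw [Finset.mem_filter] at ht
        have := ht.2
        have h0 : 0 ≤ t := by omega
        exact Int.toNat_of_nonneg h0
      · intro m hm
        simp
      · intro t ht
        rw [Finset.mem_filter] at ht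
        have := ht.2
        have h0 : 0 ≤ t := by omega
        have h3 : ((t.toNat : ℕ) : ℝ) = (t : ℝ) := by
          have := Int.toNat_of_nonneg h0
          exact_mod_cast this
        rw [h3]
    have e3 : ∑ t ∈ R, (w1 t - w2 t) * ee (θ * (t : ℝ))
        = ∑ t ∈ R, w1 t * ee (θ * (t : ℝ)) - ∑ t ∈ R, w2 t * ee (θ * (t : ℝ)) := by
      rw [← Finset.sum_sub_distrib]
      refine Finset.sum_congr rfl fun t _ => ?_
      ring
    rw [e3, e1, e2]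
    exact hmaj θ
  have hfs := hF A (fun t => w1 t - w2 t) R δ hsupp hfour
  have e4 : ∑ x ∈ A, ∑ y ∈ A, (w1 ((y : ℤ) - (x : ℤ)) - w2 ((y : ℤ) - (x : ℤ)))
      = - ∑ q ∈ Icc 1 Q, ∑ r ∈ (range q).filter (fun r => Nat.Coprime r q),
          Gs g r q * RR A l s₀ K₀ ((r : ℝ) / q) := by
    rw [← model_sum, ← Finset.sum_neg_distrib]
    refine Finset.sum_congr rfl fun x hx => ?_
    rw [← Finset.sum_neg_distrib]
    refine Finset.sum_congr rfl fun y hy => ?_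
    have h1 : w1 ((y : ℤ) - (x : ℤ)) = 0 := by
      rw [hw1]
      simp only
      rw [Finset.sum_eq_zero, zero_div]
      intro v hv
      rw [if_neg]
      intro h
      have hp := hpos v hv
      have hxy := hav x hx y hy (U + v) (by rw [Finset.mem_Icc] at hv; omega) h.symm
      rw [h, hxy] at hp
      omega
    rw [h1, zero_sub]
  rw [e4, norm_neg] at hfs
  exact hfs

/-- powers of two against powers of `W = H 2^(L^t)` -/
theorem two_pow_le (H L t e c : ℕ) (hH : 1 ≤ H) (h : e ≤ c * L ^ t) :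
    2 ^ e ≤ (H * 2 ^ (L ^ t)) ^ c := by
  calc 2 ^ e ≤ 2 ^ (c * L ^ t) := Nat.pow_le_pow_right (by norm_num) h
    _ = (2 ^ (L ^ t)) ^ c := by rw [mul_comm, pow_mul]
    _ ≤ (H * 2 ^ (L ^ t)) ^ c := Nat.pow_le_pow_left (Nat.le_mul_of_pos_left _ hH) c

/-- the density on `[1, J l]` -/
theorem dens_bound (N J L l cA cA' : ℕ) (hJ : 1 ≤ J) (hl : l = N / J) (hl1 : 1 ≤ l)
    (hdens : N ≤ 2 ^ L * cA) (hbig : 34 * (J * 2 ^ L) ≤ N) (hcA' : cA ≤ cA' + J) :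
    (33 / 34 : ℝ) * cA / N ≤ (cA' : ℝ) / (J * l : ℕ) ∧
      (1 : ℝ) / 2 ^ (L + 1) ≤ (cA' : ℝ) / (J * l : ℕ) := by
  have hN1 : 0 < N := by
    have : 0 < J * 2 ^ L := by positivity
    omega
  have hJl : J * l ≤ N := by rw [hl]; exact Nat.mul_div_le N J
  have hJl0 : (0 : ℝ) < ((J * l : ℕ) : ℝ) := by
    have : 0 < J * l := Nat.mul_pos (by omega) (by omega)
    exact_mod_cast this
  have hNr : (0 : ℝ) < N := by exact_mod_cast hN1
  have hcAJ : 34 * J ≤ cA := by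
    have h1 : 2 ^ L * (34 * J) ≤ 2 ^ L * cA := by
      calc 2 ^ L * (34 * J) = 34 * (J * 2 ^ L) := by ring
        _ ≤ N := hbig
        _ ≤ 2 ^ L * cA := hdens
    exact Nat.le_of_mul_le_mul_left h1 (by positivity)
  have h34 : 33 * cA ≤ 34 * cA' := by omega
  have h34r : (33 / 34 : ℝ) * cA ≤ cA' := by
    have : (33 : ℝ) * cA ≤ 34 * cA' := by exact_mod_cast h34
    linarith
  have hJlN : ((J * l : ℕ) : ℝ) ≤ N := by exact_mod_cast hJl
  have first : (33 / 34 : ℝ) * cA / N ≤ (cA' : ℝ) / (J * l : ℕ) := by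
    have hc0 : (0 : ℝ) ≤ cA' := Nat.cast_nonneg _
    calc (33 / 34 : ℝ) * cA / N ≤ (cA' : ℝ) / N := by gcongr
      _ ≤ (cA' : ℝ) / (J * l : ℕ) := by
        exact div_le_div_of_nonneg_left hc0 hJl0 hJlN
  refine ⟨first, le_trans ?_ first⟩
  have hd : (N : ℝ) ≤ 2 ^ L * cA := by exact_mod_cast hdens
  rw [div_le_div_iff₀ (by positivity) hNr]
  rw [pow_succ]
  nlinarith

/-- the case without density increment -/
theorem contra_case (hF : FSUP) (hK : KEYD) (g : ℤ[X]) (A' : Finset ℕ) (μ : ℕ → ℝ)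
    (a a' L Q mm K₀ s₀ J l k U V : ℕ) (α : ℝ) (ha : 2 ≤ a) (hL : 1 ≤ L)
    (hQ : Q = 2 ^ (a * L)) (hmm1 : 1 ≤ mm) (hK₀ : K₀ = Q ^ 2 * 2 ^ (L + 9))
    (hs₀ : s₀ = 2 ^ (L + a') * K₀) (hJ : J = 512 * s₀)
    (hl_X1 : 1000 * mm * Q ^ (10 * L) ≤ l) (hdeg : g.natDegree = k) (hNC : NC g)
    (hα2 : (1 : ℝ) / 2 ^ (L + 1) ≤ α) (hαle : α ≤ 1) (hl1 : 1 ≤ l)
    (hαcard : (A'.card : ℝ) = α * (J * l : ℕ)) (hA'I : A' ⊆ Icc 1 (J * l))
    (hav' : ∀ x ∈ A', ∀ y ∈ A', ∀ u : ℕ, 1 ≤ u → (y : ℤ) - (x : ℤ) = g.eval (u : ℤ) → x = y)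
    (hμ0 : ∀ m, 0 ≤ μ m) (hμ1 : ∑ m ∈ Icc 1 mm, μ m ≤ 1)
    (hμc : ∀ q ∈ Icc 1 Q, ∀ (g : ℤ[X]) (r : ℕ), g.natDegree ≤ k → NC g → Nat.Coprime r q →
      ‖Gs g r q‖ ≤ 2 * ∑ m ∈ Icc 1 mm,
        μ m * (wq m q / (64 * (4096 * (L : ℝ))) ^ (bg m q).card))
    (hglob : ∀ j < J, ∀ m ∈ Icc 1 mm, ∀ c < m, ∀ D ∈ Icc 1 Q, ∀ X : ℕ,
      (((sub (cell A' l j) m (j * l) (l / m + 1) c).filter
          (fun n : ℕ => n ≡ X [MOD D])).card : ℝ)
        ≤ 17 / 16 * α * ((l / m + 1 : ℕ) : ℝ) / D)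
    (hUV : ∀ v ∈ Icc 1 V, 0 < g.eval ((U + v : ℕ) : ℤ))
    (hMaj : ∀ θ : ℝ,
        ‖(∑ v ∈ Icc 1 V, ee (θ * ((g.eval ((U + v : ℕ) : ℤ) : ℤ) : ℝ))) / (V : ℂ)
          - ∑ q ∈ Icc 1 Q, ∑ r ∈ (range q).filter (fun r => Nat.Coprime r q),
              Gs g r q * ((∑ m ∈ Ioc (s₀ * l) (s₀ * l + K₀ * l),
                ee ((θ - (r : ℝ) / q) * (m : ℝ))) / ((K₀ * l : ℕ) : ℂ))‖ ≤ 1 / 2 ^ (L + 6)) :
    False := by
  have hJ1 : 1 ≤ J := by
    have h1 : 0 < K₀ := by rw [hK₀, hQ]; positivity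
    have h2 : 0 < s₀ := by rw [hs₀]; positivity
    omega
  have hJl0 : (0 : ℝ) < ((J * l : ℕ) : ℝ) := by
    have : 0 < J * l := Nat.mul_pos (by omega) (by omega)
    exact_mod_cast this
  have hαpos : 0 < α := lt_of_lt_of_le (by positivity) hα2
  have c1 : 4 ≤ Q := by
    rw [hQ]
    calc 4 = 2 ^ 2 := by norm_num
      _ ≤ 2 ^ (a * L) := Nat.pow_le_pow_right (by norm_num) (by nlinarith)
  have c2 : 1 ≤ 2 * α * Real.exp (2 * L) := by
    have h1 : (1 : ℝ) ≤ 2 * (1 / 2 ^ (L + 1)) * Real.exp (2 * L) := by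
      have h2 : (2 : ℝ) ^ L ≤ Real.exp (2 * L) := by
        have h3 : (2 : ℝ) ≤ Real.exp 2 := by
          have := Real.add_one_le_exp (2 : ℝ)
          linarith
        have h4 : Real.exp (2 * L) = (Real.exp 2) ^ L := by
          rw [← Real.exp_nat_mul]
          ring_nf
        rw [h4]
        exact pow_le_pow_left₀ (by norm_num) h3 L
      rw [pow_succ]
      have h5 : (0 : ℝ) < 2 ^ L := by positivity
      have h6 : 2 * (1 / ((2 : ℝ) ^ L * 2)) * Real.exp (2 * L)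
          = Real.exp (2 * L) / 2 ^ L := by
        field_simp
      rw [h6, le_div_iff₀ h5]
      linarith
    refine h1.trans ?_
    have := Real.exp_pos (2 * (L : ℝ))
    gcongr
  have c3 : 256 * (s₀ + K₀) ≤ J := by
    have : K₀ ≤ s₀ := by rw [hs₀]; exact Nat.le_mul_of_pos_left _ (by positivity)
    rw [hJ]; omega
  have c4 : 256 ≤ K₀ := by
    rw [hK₀]
    have h1 : 256 ≤ 2 ^ (L + 9) := by
      calc 256 = 2 ^ 8 := by norm_num
        _ ≤ _ := Nat.pow_le_pow_right (by norm_num) (by omega)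
    exact h1.trans (Nat.le_mul_of_pos_left _ (by positivity))
  have c5 : 128 * (Q : ℝ) ^ 2 ≤ α * K₀ := by
    have h1 : (1 : ℝ) / 2 ^ (L + 1) * K₀ ≤ α * K₀ := by gcongr
    refine le_trans ?_ h1
    rw [hK₀]
    push_cast
    have h2 : (1 : ℝ) / 2 ^ (L + 1) * ((Q : ℝ) ^ 2 * 2 ^ (L + 9)) = 256 * (Q : ℝ) ^ 2 := by
      have : (2 : ℝ) ^ (L + 9) = 2 ^ (L + 1) * 256 := by
        rw [show L + 9 = (L + 1) + 8 by ring, pow_add _ (L + 1) 8]
        norm_num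
      rw [this]
      field_simp
    rw [h2]
    nlinarith [sq_nonneg (Q : ℝ)]
  have hkey := hK Q J l s₀ K₀ L mm α A' (fun q r => Gs g r q) μ c1
    hL hαpos hαle c2 c3 c4 c5 hmm1 hl_X1 hμ0 hμ1
    (fun q _ r _ => norm_Gs_le g r q)
    (Gs_one g)
    (fun q hq r hr => hμc q hq g r (le_of_eq hdeg) hNC (Finset.mem_filter.1 hr).2)
    hA'I hαcard hglob
  have hnb := no_big hF g A' Q l s₀ K₀ U V (1 / 2 ^ (L + 6)) hUV hMaj hav'
  have hfin := hkey.trans hnb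
  rw [hαcard] at hfin
  have h1 : 1 / 2 * α ^ 2 * ((J * l : ℕ) : ℝ) = (1 / 2 * α) * (α * (J * l : ℕ)) := by ring
  rw [h1] at hfin
  have h2 : 0 < α * ((J * l : ℕ) : ℝ) := mul_pos hαpos hJl0
  have h3 : 1 / 2 * α ≤ 1 / 2 ^ (L + 6) := le_of_mul_le_mul_right hfin h2
  have h4 : (1 : ℝ) / 2 ^ (L + 1) = 32 * (1 / 2 ^ (L + 6)) := by
    rw [show L + 6 = (L + 1) + 5 by ring, pow_add _ (L + 1) 5]
    field_simp
    norm_num
  have h5 : (0 : ℝ) < 1 / 2 ^ (L + 6) := by positivity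
  linarith

open Classical in
/-- counting in the density increment case -/
theorem incr_count (A A' : Finset ℕ) (N l j m c D X : ℕ) (α : ℝ)
    (hA'sub : A' ⊆ A) (hm : 1 ≤ m) (hD : 1 ≤ D) (hN0 : (0 : ℝ) < N)
    (hα1 : (33 / 34 : ℝ) * A.card / N ≤ α) (hα0 : 0 ≤ α)
    (hlt : 17 / 16 * α * ((l / m + 1 : ℕ) : ℝ) / D <
      (((sub (cell A' l j) m (j * l) (l / m + 1) c).filter
          (fun n : ℕ => n ≡ X [MOD D])).card : ℝ)) :
    (33 / 32 : ℝ) * A.card * l ≤ N * ((m * D : ℕ) : ℝ) *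
      ((A.filter (fun n => n ∈ Ioc (j * l) (j * l + l) ∧
            n ≡ j * l + 1 + c + m * X [MOD (m * D)])).card : ℝ) := by
  have hinj : ((sub (cell A' l j) m (j * l) (l / m + 1) c).filter
      (fun n : ℕ => n ≡ X [MOD D])).card ≤
      (A.filter (fun n => n ∈ Ioc (j * l) (j * l + l) ∧
        n ≡ j * l + 1 + c + m * X [MOD (m * D)])).card := by
    apply Finset.card_le_card_of_injOn (fun n => j * l + 1 + c + m * n)
    · intro n hn
      simp only [Finset.coe_filter, Set.mem_ofPred_eq] at hn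
      obtain ⟨hn1, hn2⟩ := hn
      unfold sub cell at hn1
      rw [Finset.mem_filter, Finset.mem_filter] at hn1
      obtain ⟨-, hn3, hn4⟩ := hn1
      simp only [Finset.coe_filter, Set.mem_ofPred_eq]
      refine ⟨hA'sub hn3, ?_, ?_⟩
      · rw [Finset.mem_Ioc] at hn4 ⊢
        have : (j + 1) * l = j * l + l := by ring
        rw [this] at hn4
        exact hn4
      · exact Nat.ModEq.add_left _ (Nat.ModEq.mul_left' m hn2)
    · intro x _ y _ hxy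
      simp only at hxy
      have hm0 : 0 < m := by omega
      have : m * x = m * y := by omega
      exact Nat.eq_of_mul_eq_mul_left hm0 this
  have hinjr : (((sub (cell A' l j) m (j * l) (l / m + 1) c).filter
      (fun n : ℕ => n ≡ X [MOD D])).card : ℝ) ≤
      ((A.filter (fun n => n ∈ Ioc (j * l) (j * l + l) ∧
        n ≡ j * l + 1 + c + m * X [MOD (m * D)])).card : ℝ) := by exact_mod_cast hinj
  set cnt : ℝ := ((A.filter (fun n => n ∈ Ioc (j * l) (j * l + l) ∧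
        n ≡ j * l + 1 + c + m * X [MOD (m * D)])).card : ℝ) with hcnt
  have hm0 : (0 : ℝ) < m := by exact_mod_cast (by omega : 0 < m)
  have hD0 : (0 : ℝ) < D := by exact_mod_cast (by omega : 0 < D)
  have hlm : (l : ℝ) / m ≤ ((l / m + 1 : ℕ) : ℝ) := by
    rw [div_le_iff₀ hm0]
    have := Nat.lt_mul_div_succ l (show 0 < m by omega)
    have h2 : l ≤ (l / m + 1) * m := by
      rw [mul_comm]; exact le_of_lt this
    exact_mod_cast h2
  have hlow : 17 / 16 * α * ((l : ℝ) / m) / D ≤ cnt := by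
    have h1 : 17 / 16 * α * ((l : ℝ) / m) / D ≤ 17 / 16 * α * ((l / m + 1 : ℕ) : ℝ) / D := by
      gcongr
    linarith
  have hα1' : (33 / 34 : ℝ) * A.card ≤ α * N := by
    rw [div_le_iff₀ hN0] at hα1
    exact hα1
  have hl0 : (0 : ℝ) ≤ l := Nat.cast_nonneg _
  calc (33 / 32 : ℝ) * A.card * l = 17 / 16 * ((33 / 34 : ℝ) * A.card) * l := by ring
    _ ≤ 17 / 16 * (α * N) * l := by gcongr
    _ = N * ((m * D : ℝ)) * (17 / 16 * α * ((l : ℝ) / m) / D) := by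
      field_simp
    _ ≤ N * (m * D : ℝ) * cnt := by gcongr
    _ = N * ((m * D : ℕ) : ℝ) * cnt := by push_cast; ring

/-- size bounds -/
theorem sizes (a a' K1 b t L H N Q mm K₀ s₀ J : ℕ) (ht : 2 ≤ t) (hL : 1 ≤ L) (hH : 1 ≤ H)
    (hQ : Q = 2 ^ (a * L)) (hmm : mm = 2 ^ (K1 * L ^ (t - 1))) (hK₀ : K₀ = Q ^ 2 * 2 ^ (L + 9))
    (hs₀ : s₀ = 2 ^ (L + a') * K₀) (hJ : J = 512 * s₀)
    (hN : (H * 2 ^ (L ^ t)) ^ (60 + a' + 12 * a + K1 + b) ≤ N) :
    1 ≤ J ∧ J = 2 ^ (9 + (L + a' + (2 * (a * L) + (L + 9)))) ∧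
      1000 * mm * Q ^ (10 * L) ≤ N / J ∧ (H * 2 ^ L) ^ b ≤ N / J ∧ 34 * (J * 2 ^ L) ≤ N := by
  have hW1 : 1 ≤ H * 2 ^ (L ^ t) := Nat.mul_pos (by omega) (by positivity)
  have hLt : L ≤ L ^ t := by
    calc L = L ^ 1 := (pow_one L).symm
      _ ≤ L ^ t := Nat.pow_le_pow_right hL (by omega)
  have hLt1 : 1 ≤ L ^ t := le_trans hL hLt
  have hL2 : L ^ 2 ≤ L ^ t := Nat.pow_le_pow_right hL ht
  have hLt' : L ^ (t - 1) ≤ L ^ t := Nat.pow_le_pow_right hL (by omega)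
  have hK₀' : K₀ = 2 ^ (2 * (a * L) + (L + 9)) := by
    rw [hK₀, hQ, ← pow_mul, ← pow_add]
    congr 1
    ring
  have hs₀' : s₀ = 2 ^ (L + a' + (2 * (a * L) + (L + 9))) := by
    rw [hs₀, hK₀', ← pow_add]
  have hJ' : J = 2 ^ (9 + (L + a' + (2 * (a * L) + (L + 9)))) := by
    rw [hJ, hs₀', pow_add 2 9]
    norm_num
  have hJ1 : 1 ≤ J := by rw [hJ']; exact Nat.one_le_two_pow
  have hJW : J ≤ (H * 2 ^ (L ^ t)) ^ (20 + a' + 2 * a) := by
    rw [hJ']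
    apply two_pow_le _ _ _ _ _ hH
    have h1 : a * L ≤ a * L ^ t := Nat.mul_le_mul_left a hLt
    have h2 : a' ≤ a' * L ^ t := Nat.le_mul_of_pos_right _ hLt1
    calc 9 + (L + a' + (2 * (a * L) + (L + 9))) = 18 + 2 * L + a' + 2 * (a * L) := by ring
      _ ≤ 18 * L ^ t + 2 * L ^ t + a' * L ^ t + 2 * (a * L ^ t) := by omega
      _ = (20 + a' + 2 * a) * L ^ t := by ring
  have hX1W : 1000 * mm * Q ^ (10 * L) ≤ (H * 2 ^ (L ^ t)) ^ (10 + K1 + 10 * a) := by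
    have h0 : 1000 * mm * Q ^ (10 * L) ≤ 2 ^ (10 + K1 * L ^ (t - 1) + 10 * (a * L ^ 2)) := by
      rw [pow_add, pow_add, hmm, hQ, ← pow_mul]
      have e1 : a * L * (10 * L) = 10 * (a * L ^ 2) := by ring
      rw [e1]
      gcongr
      norm_num
    refine h0.trans (two_pow_le _ _ _ _ _ hH ?_)
    have h1 : a * L ^ 2 ≤ a * L ^ t := Nat.mul_le_mul_left a hL2
    have h2 : K1 * L ^ (t - 1) ≤ K1 * L ^ t := Nat.mul_le_mul_left K1 hLt'
    calc 10 + K1 * L ^ (t - 1) + 10 * (a * L ^ 2)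
        ≤ 10 * L ^ t + K1 * L ^ t + 10 * (a * L ^ t) := by omega
      _ = (10 + K1 + 10 * a) * L ^ t := by ring
  have hX2W : (H * 2 ^ L) ^ b ≤ (H * 2 ^ (L ^ t)) ^ b := by
    apply Nat.pow_le_pow_left
    exact Nat.mul_le_mul_left _ (Nat.pow_le_pow_right (by norm_num) hLt)
  have hX3W : 34 * 2 ^ L ≤ (H * 2 ^ (L ^ t)) ^ 7 := by
    have h0 : 34 * 2 ^ L ≤ 2 ^ (6 + L) := by
      rw [pow_add]
      gcongr
      norm_num
    refine h0.trans (two_pow_le _ _ _ _ _ hH ?_)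
    omega
  have hle : ∀ e : ℕ, e ≤ 60 + a' + 12 * a + K1 + b → (H * 2 ^ (L ^ t)) ^ e ≤ N := fun e he =>
    (Nat.pow_le_pow_right hW1 he).trans hN
  refine ⟨hJ1, hJ', ?_, ?_, ?_⟩
  · rw [Nat.le_div_iff_mul_le (by omega)]
    calc 1000 * mm * Q ^ (10 * L) * J
        ≤ (H * 2 ^ (L ^ t)) ^ (10 + K1 + 10 * a) * (H * 2 ^ (L ^ t)) ^ (20 + a' + 2 * a) :=
          Nat.mul_le_mul hX1W hJW
      _ = (H * 2 ^ (L ^ t)) ^ (10 + K1 + 10 * a + (20 + a' + 2 * a)) := by rw [← pow_add]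
      _ ≤ N := hle _ (by omega)
  · rw [Nat.le_div_iff_mul_le (by omega)]
    calc (H * 2 ^ L) ^ b * J
        ≤ (H * 2 ^ (L ^ t)) ^ b * (H * 2 ^ (L ^ t)) ^ (20 + a' + 2 * a) := Nat.mul_le_mul hX2W hJW
      _ = (H * 2 ^ (L ^ t)) ^ (b + (20 + a' + 2 * a)) := by rw [← pow_add]
      _ ≤ N := hle _ (by omega)
  · calc 34 * (J * 2 ^ L) = J * (34 * 2 ^ L) := by ring
      _ ≤ (H * 2 ^ (L ^ t)) ^ (20 + a' + 2 * a) * (H * 2 ^ (L ^ t)) ^ 7 := Nat.mul_le_mul hJW hX3W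
      _ = (H * 2 ^ (L ^ t)) ^ (20 + a' + 2 * a + 7) := by rw [← pow_add]
      _ ≤ N := hle _ (by omega)

open Classical in
/-- basic facts on the truncated set -/
theorem trunc (A : Finset ℕ) (N J l : ℕ) (hA : A ⊆ Icc 1 N)
    (hNJl : N < J * (l + 1)) :
    A.filter (fun n => n ≤ J * l) ⊆ Icc 1 (J * l) ∧
      A.card ≤ (A.filter (fun n => n ≤ J * l)).card + J := by
  constructor
  · intro n hn
    rw [Finset.mem_filter] at hn
    rw [Finset.mem_Icc]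
    exact ⟨(Finset.mem_Icc.1 (hA hn.1)).1, hn.2⟩
  · have h1 : A ⊆ A.filter (fun n => n ≤ J * l) ∪ Ioc (J * l) N := by
      intro n hn
      rw [Finset.mem_union, Finset.mem_filter, Finset.mem_Ioc]
      by_cases h : n ≤ J * l
      · left; exact ⟨hn, h⟩
      · right; exact ⟨by omega, (Finset.mem_Icc.1 (hA hn)).2⟩
    have h2 := (Finset.card_le_card h1).trans (Finset.card_union_le _ _)
    rw [Nat.card_Ioc] at h2
    have h3 : N - J * l ≤ J := by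
      have : J * (l + 1) = J * l + J := by ring
      omega
    omega

end StepAux

open StepAux in
theorem stepd : MAJ → COVER → FSUP → KEYD → STEPD := by
  intro hM hC hF hK k t hk ht hP
  obtain ⟨a, a', b, ha, hmaj⟩ := hM k hk
  obtain ⟨K1, hcov⟩ := hC k t a hk ht hP
  refine ⟨60 + a' + 12 * a + K1 + b, ?_⟩
  intro L H N g A hL hH hdeg hlc hNC hcoef hN hA hdens hav
  classical
  have hLL' : L ≤ L ^ (t - 1) := by
    calc L = L ^ 1 := (pow_one L).symm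
      _ ≤ L ^ (t - 1) := Nat.pow_le_pow_right hL (by omega)
  obtain ⟨Q, hQ⟩ : ∃ Q, Q = 2 ^ (a * L) := ⟨_, rfl⟩
  obtain ⟨mm, hmm⟩ : ∃ mm, mm = 2 ^ (K1 * L ^ (t - 1)) := ⟨_, rfl⟩
  obtain ⟨K₀, hK₀⟩ : ∃ K₀, K₀ = Q ^ 2 * 2 ^ (L + 9) := ⟨_, rfl⟩
  obtain ⟨s₀, hs₀⟩ : ∃ s₀, s₀ = 2 ^ (L + a') * K₀ := ⟨_, rfl⟩
  obtain ⟨J, hJ⟩ : ∃ J, J = 512 * s₀ := ⟨_, rfl⟩
  obtain ⟨hJ1, hJ', hX1, hX2, hbig⟩ := sizes a a' K1 b t L H N Q mm K₀ s₀ J ht hL hH hQ hmm hK₀ hs₀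
    hJ hN
  obtain ⟨l, hl⟩ : ∃ l, l = N / J := ⟨_, rfl⟩
  rw [← hl] at hX1 hX2
  have hmm1 : 1 ≤ mm := by rw [hmm]; exact Nat.one_le_two_pow
  have hK₀1 : 1 ≤ K₀ := by rw [hK₀, hQ]; exact Nat.mul_pos (by positivity) (by positivity)
  have hl1 : 1 ≤ l := by
    refine le_trans ?_ hX1
    have : 0 < 1000 * mm * Q ^ (10 * L) := by rw [hQ]; positivity
    omega
  have hJlN : J * l ≤ N := by rw [hl]; exact Nat.mul_div_le N J
  have hNJl : N < J * (l + 1) := by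
    have := Nat.lt_mul_div_succ N (show 0 < J by omega)
    rw [hl]; exact this
  obtain ⟨hA'I, hcardA⟩ := trunc A N J l hA hNJl
  have hA'sub : A.filter (fun n => n ≤ J * l) ⊆ A := Finset.filter_subset _ _
  obtain ⟨A', hA'⟩ : ∃ A', A' = A.filter (fun n => n ≤ J * l) := ⟨_, rfl⟩
  rw [← hA'] at hA'I hcardA hA'sub
  have hcard : A'.card ≤ J * l := by
    have := Finset.card_le_card hA'I
    simpa using this
  obtain ⟨hα1, hα2⟩ := dens_bound N J L l A.card A'.card hJ1 hl hl1 hdens hbig hcardA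
  have hJl0 : (0 : ℝ) < ((J * l : ℕ) : ℝ) := by
    have : 0 < J * l := Nat.mul_pos (by omega) (by omega)
    exact_mod_cast this
  obtain ⟨α, hα⟩ : ∃ α : ℝ, α = (A'.card : ℝ) / (J * l : ℕ) := ⟨_, rfl⟩
  rw [← hα] at hα1 hα2
  have hαle : α ≤ 1 := by
    rw [hα, div_le_one hJl0]
    exact_mod_cast hcard
  have hαcard : (A'.card : ℝ) = α * (J * l : ℕ) := by
    rw [hα]
    field_simp
  have hav' : ∀ x ∈ A', ∀ y ∈ A', ∀ u : ℕ, 1 ≤ u → (y : ℤ) - (x : ℤ) = g.eval (u : ℤ) → x = y :=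
    fun x hx y hy => hav x (hA'sub hx) y (hA'sub hy)
  obtain ⟨μ, hμ0, hμ1, hμc⟩ := hcov L hL
  rw [← hmm] at hμ1 hμc
  rw [← hQ] at hμc
  by_cases hglob : (∀ j < J, ∀ m ∈ Icc 1 mm, ∀ c < m, ∀ D ∈ Icc 1 Q, ∀ X : ℕ,
      (((sub (cell A' l j) m (j * l) (l / m + 1) c).filter
          (fun n : ℕ => n ≡ X [MOD D])).card : ℝ)
        ≤ 17 / 16 * α * ((l / m + 1 : ℕ) : ℝ) / D)
  · exfalso
    obtain ⟨U, V, hV1, hUV, hMaj⟩ := hmaj L H (K₀ * l) g hL hH hdeg hlc hNC hcoef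
      (hX2.trans (Nat.le_mul_of_pos_left _ hK₀1))
    have ht0 : 2 ^ (L + a') * (K₀ * l) = s₀ * l := by rw [hs₀]; ring
    rw [ht0, ← hQ] at hMaj
    exact contra_case hF hK g A' μ a a' L Q mm K₀ s₀ J l k U V α ha hL hQ hmm1 hK₀ hs₀ hJ hX1 hdeg
      hNC hα2 hαle hl1 hαcard hA'I hav' hμ0 hμ1 hμc hglob hUV hMaj
  · push Not at hglob
    obtain ⟨j, hj, m, hm, c, hc, D, hD, X, hlt⟩ := hglob
    rw [Finset.mem_Icc] at hm hD
    refine ⟨m * D, l, j * l, j * l + 1 + c + m * X, ?_, ?_, ?_, ?_, ?_⟩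
    · exact Nat.mul_pos (by omega) (by omega)
    · calc m * D ≤ mm * Q := Nat.mul_le_mul hm.2 hD.2
        _ = 2 ^ (K1 * L ^ (t - 1) + a * L) := by rw [hmm, hQ, ← pow_add]
        _ ≤ 2 ^ ((60 + a' + 12 * a + K1 + b) * L ^ (t - 1)) := by
          apply Nat.pow_le_pow_right (by norm_num)
          have h1 : a * L ≤ a * L ^ (t - 1) := Nat.mul_le_mul_left a hLL'
          calc K1 * L ^ (t - 1) + a * L ≤ K1 * L ^ (t - 1) + a * L ^ (t - 1) := by omega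
            _ = (K1 + a) * L ^ (t - 1) := by ring
            _ ≤ _ := Nat.mul_le_mul_right _ (by omega)
    · have h1 : N ≤ J * (2 * l) := by
        refine le_of_lt (lt_of_lt_of_le hNJl ?_)
        exact Nat.mul_le_mul_left _ (by omega)
      calc N ≤ J * (2 * l) := h1
        _ = (J * 2) * l := by ring
        _ ≤ 2 ^ ((60 + a' + 12 * a + K1 + b) * L) * l := by
          apply Nat.mul_le_mul_right
          rw [hJ', ← pow_succ]
          apply Nat.pow_le_pow_right (by norm_num)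
          have h2 : a' ≤ a' * L := Nat.le_mul_of_pos_right _ hL
          calc 9 + (L + a' + (2 * (a * L) + (L + 9))) + 1 = 19 + 2 * L + a' + 2 * (a * L) := by
                ring
            _ ≤ 19 * L + 2 * L + a' * L + 2 * (a * L) := by omega
            _ = (21 + a' + 2 * a) * L := by ring
            _ ≤ (60 + a' + 12 * a + K1 + b) * L := Nat.mul_le_mul_right _ (by omega)
    · calc j * l + l = (j + 1) * l := by ring
        _ ≤ J * l := Nat.mul_le_mul_right _ (by omega)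
        _ ≤ N := hJlN
    · have hN0 : (0 : ℝ) < N := by
        have h1 : 0 < J * 2 ^ L := Nat.mul_pos (by omega) (by positivity)
        have : 0 < N := by omega
        exact_mod_cast this
      have h := incr_count A A' N l j m c D X α hA'sub (by omega) (by omega) hN0 hα1
        (le_trans (by positivity) hα2) hlt
      convert h using 2

end Vale.Agent.P042
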