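import Vale.Agent.P042.Core

open Polynomial Finset

namespace Vale.Agent.P042

namespace SubLAux

/-- cancelling a factor not divisible by `p^m` -/
lemma pow_dvd_cancel {p : ℕ} (hp : p.Prime) {m n : ℕ} {a b : ℤ} (hm : 1 ≤ m)
    (ha : ¬ (((p ^ m : ℕ) : ℤ) ∣ a)) (h : ((p ^ n : ℕ) : ℤ) ∣ a * b) :
    ((p ^ (n - (m - 1)) : ℕ) : ℤ) ∣ b := by
  have hpi : Prime (p : ℤ) := Nat.prime_iff_prime_int.mp hp
  have ha0 : a ≠ 0 := by
    rintro rfl
    exact ha (dvd_zero _)
  have hfin : FiniteMultiplicity (p : ℤ) a :=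
    Int.finiteMultiplicity_iff.2 ⟨by
      simpa using hp.one_lt.ne', ha0⟩
  obtain ⟨c, hc, hpc⟩ := hfin.exists_eq_pow_mul_and_not_dvd
  set j := multiplicity (p : ℤ) a with hj
  have hjm : j < m := by
    by_contra hcon
    push Not at hcon
    apply ha
    rw [hc]
    push_cast
    exact Dvd.dvd.mul_right (pow_dvd_pow _ hcon) _
  by_cases hn : n ≤ j
  · have : n - (m - 1) = 0 := by omega
    rw [this]
    simp
  · push Not at hn
    have h1 : (p : ℤ) ^ (n - j) ∣ c * b := by
      have h2 : (p : ℤ) ^ j * (p : ℤ) ^ (n - j) ∣ (p : ℤ) ^ j * (c * b) := by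
        rw [← pow_add, Nat.add_sub_cancel' hn.le]
        rw [hc] at h
        push_cast at h
        rw [← mul_assoc]
        exact h
      exact (mul_dvd_mul_iff_left (pow_ne_zero _ hpi.ne_zero)).1 h2
    have h3 : (p : ℤ) ^ (n - j) ∣ b := hpi.pow_dvd_of_dvd_mul_left _ hpc h1
    push_cast
    exact (pow_dvd_pow _ (by omega)).trans h3

lemma claim {p : ℕ} (hp : p.Prime) {m : ℕ} (hm : 1 ≤ m) (v : ℕ → ℤ) :
    ∀ (D n : ℕ) (P : ℤ[X]) (s : Finset ℕ), P.natDegree ≤ D → s.card = D + 1 →
      (∀ i ∈ s, ((p ^ n : ℕ) : ℤ) ∣ P.eval (v i)) →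
      (∀ i ∈ s, ∀ j ∈ s, i ≠ j → ¬ (((p ^ m : ℕ) : ℤ) ∣ v i - v j)) →
      D * (m - 1) < n → C (p : ℤ) ∣ P := by
  intro D
  induction D with
  | zero =>
    intro n P s hP hs hr _ hn
    obtain ⟨i, hi⟩ : s.Nonempty := by
      rw [← Finset.card_pos]
      omega
    have h1 := hr i hi
    have h2 : P = C (P.coeff 0) := Polynomial.eq_C_of_natDegree_le_zero hP
    rw [h2] at h1 ⊢
    rw [eval_C] at h1
    apply _root_.map_dvd
    refine dvd_trans ?_ h1
    push_cast
    exact dvd_pow_self _ (by omega)
  | succ D ih =>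
    intro n P s hP hs hr hd hn
    obtain ⟨i, hi⟩ : s.Nonempty := by
      rw [← Finset.card_pos]
      omega
    set P₁ : ℤ[X] := P /ₘ (X - C (v i)) with hP₁
    have hdec : C (P.eval (v i)) + (X - C (v i)) * P₁ = P := by
      have := Polynomial.modByMonic_add_div P (X - C (v i))
      rw [Polynomial.modByMonic_X_sub_C_eq_C_eval] at this
      exact this
    have hdeg : P₁.natDegree ≤ D := by
      rw [hP₁, Polynomial.natDegree_divByMonic _ (Polynomial.monic_X_sub_C _),
        Polynomial.natDegree_X_sub_C]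
      omega
    have hi1 : C (p : ℤ) ∣ P₁ := by
      apply ih (n - (m - 1)) P₁ (s.erase i) hdeg
      · rw [Finset.card_erase_of_mem hi]
        omega
      · intro j hj
        have hj' := Finset.mem_of_mem_erase hj
        have hne := Finset.ne_of_mem_erase hj
        have h1 := hr j hj'
        have h2 := hr i hi
        have h3 : P.eval (v j) = P.eval (v i) + (v j - v i) * P₁.eval (v j) := by
          conv_lhs => rw [← hdec]
          simp
        rw [h3] at h1
        have h4 : ((p ^ n : ℕ) : ℤ) ∣ (v j - v i) * P₁.eval (v j) :=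
          (dvd_add_right h2).1 h1
        exact pow_dvd_cancel hp hm (hd j hj' i hi hne) h4
      · intro j hj k hk hjk
        exact hd j (Finset.mem_of_mem_erase hj) k (Finset.mem_of_mem_erase hk) hjk
      · have : (D + 1) * (m - 1) = D * (m - 1) + (m - 1) := by ring
        omega
    rw [← hdec]
    apply dvd_add
    · apply _root_.map_dvd
      refine dvd_trans ?_ (hr i hi)
      push_cast
      exact dvd_pow_self _ (by omega)
    · exact Dvd.dvd.mul_left hi1 _

end SubLAux

open SubLAux

theorem subl : SUBL := by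
  intro P D p n hD hP hp hc hn
  set m := (n + D - 1) / D with hm
  have hm1 : 1 ≤ m := by
    rw [hm, Nat.one_le_div_iff (by omega)]
    omega
  have hDm : D * m ≤ n + D - 1 := Nat.mul_div_le _ _
  have hmn : m ≤ n := by
    by_contra hcon
    push Not at hcon
    have h1 : D * (n + 1) ≤ D * m := Nat.mul_le_mul_left _ hcon
    have h2 : D * (n + 1) = D * n + D := by ring
    have h3 : n ≤ D * n := Nat.le_mul_of_pos_left _ (by omega)
    omega
  set S := (range (p ^ n)).filter (fun v : ℕ => ((p ^ n : ℕ) : ℤ) ∣ P.eval (v : ℤ)) with hS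
  set T := S.image (fun v => v % p ^ m) with hT
  have hpm : 0 < p ^ m := pow_pos hp.pos _
  have hfib : S.card ≤ p ^ (n - m) * T.card := by
    apply Finset.card_le_mul_card_image
    intro t _
    have h1 : (S.filter (fun x => x % p ^ m = t)).card ≤ (range (p ^ (n - m))).card := by
      apply Finset.card_le_card_of_injOn (fun x => x / p ^ m)
      · intro x hx
        have hx' := (Finset.mem_filter.1 (Finset.mem_coe.1 hx)).1
        rw [hS, Finset.mem_filter, Finset.mem_range] at hx'
        rw [Finset.coe_range, Set.mem_Iio, Nat.div_lt_iff_lt_mul hpm, ← pow_add,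
          Nat.sub_add_cancel hmn]
        exact hx'.1
      · intro x hx y hy hxy
        have hx' := (Finset.mem_filter.1 (Finset.mem_coe.1 hx)).2
        have hy' := (Finset.mem_filter.1 (Finset.mem_coe.1 hy)).2
        have e1 := Nat.div_add_mod x (p ^ m)
        have e2 := Nat.div_add_mod y (p ^ m)
        simp only at hxy
        rw [← e1, ← e2, hxy, hx', hy']
    rwa [Finset.card_range] at h1
  have hTD : T.card ≤ D := by
    by_contra hcon
    push Not at hcon
    obtain ⟨s, hsT, hsc⟩ := Finset.exists_subset_card_eq (show D + 1 ≤ T.card from hcon)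
    have hch : ∀ t ∈ T, ∃ x ∈ S, x % p ^ m = t := by
      intro t ht
      simpa [hT] using ht
    choose! w hw1 hw2 using hch
    have hdvd : C (p : ℤ) ∣ P := by
      apply claim hp hm1 (fun t => ((w t : ℕ) : ℤ)) D n P s hP hsc
      · intro t ht
        have := hw1 t (hsT ht)
        rw [hS, Finset.mem_filter] at this
        exact this.2
      · intro t ht t' ht' hne hd
        apply hne
        have h1 := hw2 t (hsT ht)
        have h2 := hw2 t' (hsT ht')
        have h3 : w t' ≡ w t [MOD p ^ m] := (Nat.modEq_iff_dvd).2 hd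
        rw [← h1, ← h2]
        exact h3.symm
      · have : D * (m - 1) = D * m - D := by
          rw [Nat.mul_sub, mul_one]
        have h5 : D ≤ D * m := Nat.le_mul_of_pos_right _ hm1
        omega
    obtain ⟨i, hi⟩ := hc
    exact hi ((Polynomial.C_dvd_iff_dvd_coeff _ _).1 hdvd i)
  calc S.card * p ^ m ≤ (p ^ (n - m) * D) * p ^ m :=
        Nat.mul_le_mul_right _ (hfib.trans (Nat.mul_le_mul_left _ hTD))
    _ = D * p ^ n := by
        rw [mul_comm (p ^ (n - m)) D, mul_assoc, ← pow_add, Nat.sub_add_cancel hmn]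

end Vale.Agent.P042
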