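import Vale.Agent.P042.Core

/-!
# P042, module C1: recurrence lemma
-/

open Finset

namespace Vale.Agent.P042

namespace Vinm

lemma nn_nonneg (x : ℝ) : 0 ≤ nn x := abs_nonneg _

lemma nn_le (x : ℝ) (z : ℤ) : nn x ≤ |x - z| := round_le x z

lemma nn_add_int (x : ℝ) (z : ℤ) : nn (x + z) = nn x := by
  unfold nn
  rw [round_add_intCast]
  push_cast
  congr 1
  ring

lemma nn_sub_le (x y : ℝ) : nn (x - y) ≤ nn x + nn y := by
  refine (nn_le (x - y) (round x - round y)).trans ?_
  unfold nn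
  push_cast
  have : x - y - ((round x : ℝ) - (round y : ℝ)) = (x - round x) - (y - round y) := by ring
  rw [this]
  exact abs_sub _ _

lemma nn_neg (x : ℝ) : nn (-x) = nn x := by
  apply le_antisymm
  · have h := nn_le (-x) (-(round x))
    have e : |(-x) - ((-(round x) : ℤ) : ℝ)| = nn x := by
      unfold nn; rw [← abs_neg]; push_cast; congr 1; ring
    rw [e] at h; exact h
  · have h := nn_le x (-(round (-x)))
    have e : |x - ((-(round (-x)) : ℤ) : ℝ)| = nn (-x) := by
      unfold nn; rw [← abs_neg]; push_cast; congr 1; ring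
    rw [e] at h; exact h

lemma nn_le_half (x : ℝ) : nn x ≤ 1 / 2 := abs_sub_round x

/-- a set of integers of small diameter is small -/
lemma card_diam (F : Finset ℤ) (l : ℝ) (hl : 0 ≤ l) (h : ∀ x ∈ F, ∀ y ∈ F, (x : ℝ) - y ≤ l) :
    (F.card : ℝ) ≤ l + 1 := by
  rcases F.eq_empty_or_nonempty with h0 | h0
  · subst h0; simp; linarith
  · have h1 : F ⊆ Icc (F.min' h0) (F.max' h0) := fun x hx =>
      Finset.mem_Icc.2 ⟨F.min'_le x hx, F.le_max' x hx⟩
    have h2 := Finset.card_le_card h1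
    rw [Int.card_Icc] at h2
    have h3 := h _ (F.max'_mem h0) _ (F.min'_mem h0)
    have h4 : F.min' h0 ≤ F.max' h0 := F.min'_le _ (F.max'_mem h0)
    have h5 : (F.card : ℤ) ≤ F.max' h0 + 1 - F.min' h0 := by
      have : ((F.max' h0 + 1 - F.min' h0).toNat : ℤ) = F.max' h0 + 1 - F.min' h0 :=
        Int.toNat_of_nonneg (by omega)
      rw [← this]
      exact_mod_cast h2
    have h6 : (F.card : ℝ) ≤ (F.max' h0 : ℝ) + 1 - (F.min' h0 : ℝ) := by exact_mod_cast h5
    linarith

lemma card_diam_nat (F : Finset ℕ) (l : ℝ) (hl : 0 ≤ l) (h : ∀ x ∈ F, ∀ y ∈ F, (x : ℝ) - y ≤ l) :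
    (F.card : ℝ) ≤ l + 1 := by
  have h1 := card_diam (F.image (fun n : ℕ => (n : ℤ))) l hl (by
    intro x hx y hy
    obtain ⟨a, ha, rfl⟩ := Finset.mem_image.1 hx
    obtain ⟨b, hb, rfl⟩ := Finset.mem_image.1 hy
    have := h a ha b hb
    push_cast
    exact this)
  rw [Finset.card_image_of_injective _ Nat.cast_injective] at h1
  exact h1

/-- points of an arithmetic progression close to integers -/
lemma ap (a t s ε : ℝ) (J : ℕ) (hJ : 1 ≤ J) (hs : 0 < s) (ht : |t| = s) (hε : 0 ≤ ε)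
    (hε2 : 2 * ε ≤ 1) :
    (((range J).filter (fun j : ℕ => nn (a + j * t) ≤ ε)).card : ℝ)
      ≤ (J * s + 2) * (2 * ε / s + 1) := by
  classical
  set S := (range J).filter (fun j : ℕ => nn (a + j * t) ≤ ε) with hS
  have hJ1 : (1 : ℝ) ≤ J := by exact_mod_cast hJ
  have him : ((S.image (fun j : ℕ => round (a + j * t))).card : ℝ) ≤ (J * s + 1) + 1 := by
    apply card_diam _ _ (by positivity)
    intro x hx y hy
    obtain ⟨i, hi, rfl⟩ := Finset.mem_image.1 hx
    obtain ⟨j, hj, rfl⟩ := Finset.mem_image.1 hy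
    rw [hS, Finset.mem_filter, Finset.mem_range] at hi hj
    have h1 := (abs_le.1 hi.2).1
    have h2 := (abs_le.1 hj.2).2
    have h3 : ((i : ℝ) - j) * t ≤ J * s := by
      calc ((i : ℝ) - j) * t ≤ |((i : ℝ) - j) * t| := le_abs_self _
        _ = |(i : ℝ) - j| * s := by rw [abs_mul, ht]
        _ ≤ J * s := by
            apply mul_le_mul_of_nonneg_right _ hs.le
            rw [abs_le]
            have hi' : (i : ℝ) < J := by exact_mod_cast hi.1
            have hj' : (j : ℝ) < J := by exact_mod_cast hj.1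
            have hi0 : (0 : ℝ) ≤ i := Nat.cast_nonneg i
            have hj0 : (0 : ℝ) ≤ j := Nat.cast_nonneg j
            constructor <;> linarith
    have h4 : ((i : ℝ) - j) * t = i * t - j * t := by ring
    linarith
  have hfib : ∀ n ∈ S.image (fun j : ℕ => round (a + j * t)),
      (((S.filter (fun j : ℕ => round (a + j * t) = n)).card : ℕ) : ℝ) ≤ 2 * ε / s + 1 := by
    intro n _
    apply card_diam_nat _ _ (by positivity)
    intro i hi j hj
    rw [Finset.mem_filter, hS, Finset.mem_filter] at hi hj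
    have h1 : |a + i * t - n| ≤ ε := by rw [← hi.2]; exact hi.1.2
    have h2 : |a + j * t - n| ≤ ε := by rw [← hj.2]; exact hj.1.2
    rw [le_div_iff₀ hs]
    calc ((i : ℝ) - j) * s ≤ |(i : ℝ) - j| * s := mul_le_mul_of_nonneg_right (le_abs_self _) hs.le
      _ = |((i : ℝ) - j) * t| := by rw [abs_mul, ht]
      _ = |(a + i * t - n) - (a + j * t - n)| := by congr 1; ring
      _ ≤ |a + i * t - n| + |a + j * t - n| := abs_sub _ _
      _ ≤ 2 * ε := by linarith
  have hsum := Finset.card_eq_sum_card_image (fun j : ℕ => round (a + j * t)) S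
  have hc : (S.card : ℝ) ≤ ((S.image (fun j : ℕ => round (a + j * t))).card : ℝ)
      * (2 * ε / s + 1) := by
    rw [hsum]
    push_cast
    refine (Finset.sum_le_sum hfib).trans ?_
    rw [Finset.sum_const, nsmul_eq_mul]
  refine hc.trans ?_
  apply mul_le_mul_of_nonneg_right _ (by positivity)
  linarith

/-- two elements with a small difference -/
lemma pigeon (X : Finset ℕ) (V : ℕ) (δ : ℝ) (hδ : 0 < δ) (hX : X ⊆ Icc 1 V)
    (hc : δ * V ≤ X.card) (hV : 4 / δ ≤ V) :
    ∃ h ∈ X, ∃ h' ∈ X, h' < h ∧ ((h - h' : ℕ) : ℝ) ≤ 2 / δ := by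
  classical
  set m := ⌊2 / δ⌋₊ + 1 with hm
  have hm0 : 0 < m := by omega
  have hm1 : (2 / δ : ℝ) < m := by
    rw [hm]; push_cast; exact Nat.lt_floor_add_one _
  have hm2 : ((m - 1 : ℕ) : ℝ) ≤ 2 / δ := by
    rw [hm, Nat.add_sub_cancel]; exact Nat.floor_le (by positivity)
  have hcard : ((range (V / m + 1)).card : ℝ) < X.card := by
    rw [Finset.card_range]
    push_cast
    have h1 : ((V / m : ℕ) : ℝ) ≤ (V : ℝ) / m := Nat.cast_div_le
    have hmr : (0 : ℝ) < m := by exact_mod_cast hm0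
    have h2 : (V : ℝ) / m ≤ δ * V / 2 := by
      rw [div_le_iff₀ hmr]
      have h3 : 2 < m * δ := by
        rw [div_lt_iff₀ hδ] at hm1; exact hm1
      have hV0 : (0 : ℝ) ≤ V := Nat.cast_nonneg V
      nlinarith
    have h4 : 4 ≤ δ * V := by
      rw [div_le_iff₀ hδ] at hV; linarith
    linarith
  have hmaps : ∀ x ∈ X, x / m ∈ range (V / m + 1) := by
    intro x hx
    have := (Finset.mem_Icc.1 (hX hx)).2
    rw [Finset.mem_range]
    have := Nat.div_le_div_right (c := m) this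
    omega
  obtain ⟨x, hx, y, hy, hxy, he⟩ :=
    Finset.exists_ne_map_eq_of_card_lt_of_maps_to (by exact_mod_cast hcard) hmaps
  have key : ∀ a b : ℕ, a < b → a / m = b / m → ((b - a : ℕ) : ℝ) ≤ 2 / δ := by
    intro a b hab hab2
    have h1 := Nat.div_add_mod a m
    have h2 := Nat.div_add_mod b m
    have h3 := Nat.mod_lt b hm0
    rw [hab2] at h1
    have : b - a ≤ m - 1 := by omega
    calc ((b - a : ℕ) : ℝ) ≤ ((m - 1 : ℕ) : ℝ) := by exact_mod_cast this
      _ ≤ _ := hm2
  rcases lt_or_gt_of_ne hxy with h | h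
  · exact ⟨y, hy, x, hx, h, key x y h he⟩
  · exact ⟨x, hx, y, hy, h, key y x h he.symm⟩

/-- counting `X` by residue classes -/
lemma count (ψ ε s : ℝ) (V y : ℕ) (hy : 1 ≤ y) (hs : 0 < s) (hs1 : s ≤ 1)
    (hsy : nn (y * ψ) = s) (hε : 0 ≤ ε) (hε2 : 2 * ε ≤ 1) :
    (((Icc 1 V).filter (fun h : ℕ => nn ((h : ℝ) * ψ) ≤ ε)).card : ℝ)
      ≤ (V * s + 3 * y) * (2 * ε / s + 1) := by
  classical
  set X := (Icc 1 V).filter (fun h : ℕ => nn ((h : ℝ) * ψ) ≤ ε) with hX
  obtain ⟨t, ht⟩ : ∃ t : ℝ, t = y * ψ - round ((y : ℝ) * ψ) := ⟨_, rfl⟩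
  have hts : |t| = s := by rw [ht, ← hsy]; rfl
  have hmaps : ∀ x ∈ X, x % y ∈ range y := fun x _ => Finset.mem_range.2 (Nat.mod_lt _ hy)
  have hsum := Finset.card_eq_sum_card_fiberwise (f := fun x => x % y) (s := X) (t := range y) hmaps
  have hfib : ∀ r ∈ range y, ((X.filter (fun x => x % y = r)).card : ℝ)
      ≤ (((V / y + 1 : ℕ) : ℝ) * s + 2) * (2 * ε / s + 1) := by
    intro r _
    refine le_trans ?_ (ap (r * ψ) t s ε (V / y + 1) (Nat.le_add_left 1 _) hs hts hε hε2)
    norm_cast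
    apply Finset.card_le_card_of_injOn (fun x => x / y)
    · intro x hx
      rw [Finset.mem_coe, Finset.mem_filter, hX, Finset.mem_filter, Finset.mem_Icc] at hx
      obtain ⟨⟨⟨hx1, hx2⟩, hx3⟩, hx4⟩ := hx
      rw [Finset.mem_coe, Finset.mem_filter, Finset.mem_range]
      refine ⟨?_, ?_⟩
      · exact Nat.lt_succ_of_le (Nat.div_le_div_right (c := y) hx2)
      · obtain ⟨w, hw⟩ : ∃ w, w = x / y := ⟨_, rfl⟩
        have e : (x : ℝ) * ψ = (r * ψ + (w : ℝ) * t)
            + (((w : ℤ) * round ((y : ℝ) * ψ) : ℤ) : ℝ) := by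
          have h1 : (x : ℝ) = y * (w : ℝ) + r := by
            have := Nat.div_add_mod x y
            rw [hx4, ← hw] at this
            exact_mod_cast this.symm
          rw [h1, ht]
          push_cast
          ring
        rw [e, nn_add_int] at hx3
        simp only
        rw [← hw]
        exact hx3
    · intro x hx x' hx' h
      rw [Finset.mem_coe, Finset.mem_filter] at hx hx'
      have h1 := Nat.div_add_mod x y
      have h2 := Nat.div_add_mod x' y
      simp only at h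
      rw [hx.2] at h1
      rw [hx'.2] at h2
      rw [← h1, ← h2, h]
  have hc : (X.card : ℝ) ≤ y * ((((V / y + 1 : ℕ) : ℝ) * s + 2) * (2 * ε / s + 1)) := by
    rw [hsum]
    push_cast
    refine (Finset.sum_le_sum hfib).trans ?_
    rw [Finset.sum_const, Finset.card_range, nsmul_eq_mul]
    push_cast
    exact le_rfl
  refine hc.trans ?_
  rw [← mul_assoc]
  apply mul_le_mul_of_nonneg_right _ (by positivity)
  have h1 : (y : ℝ) * ((V / y : ℕ) : ℝ) ≤ V := by
    exact_mod_cast Nat.mul_div_le V y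
  have hy0 : (1 : ℝ) ≤ y := by exact_mod_cast hy
  push_cast
  nlinarith

end Vinm

open Vinm in
theorem vin : VIN := by
  classical
  intro ψ ε δ V hV hδ hδ1 hε hεδ hX
  set X := (Icc 1 V).filter (fun h : ℕ => nn ((h : ℝ) * ψ) ≤ ε) with hXdef
  have hV1 : (1 : ℝ) ≤ V := by exact_mod_cast hV
  have hV0 : (0 : ℝ) < V := by linarith
  have hδ2 : 0 < δ ^ 2 := by positivity
  have hδ2' : δ ^ 2 ≤ δ := by nlinarith
  by_cases hcase : (V : ℝ) < 8 / δ ^ 2
  · -- small `V`
    have hne : 0 < X.card := by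
      have : (0 : ℝ) < X.card := lt_of_lt_of_le (by positivity) hX
      exact_mod_cast this
    obtain ⟨h, hh⟩ := Finset.card_pos.1 hne
    rw [hXdef, Finset.mem_filter, Finset.mem_Icc] at hh
    refine ⟨h, hh.1.1, ?_, ?_⟩
    · have h1 : (h : ℝ) ≤ V := by exact_mod_cast hh.1.2
      have h2 : 8 / δ ^ 2 ≤ 32 / δ ^ 2 := by
        apply div_le_div_of_nonneg_right (by norm_num) hδ2.le
      linarith
    · refine hh.2.trans ?_
      rw [le_div_iff₀ (by positivity)]
      rw [lt_div_iff₀ hδ2] at hcase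
      nlinarith
  · push Not at hcase
    have h4 : 4 / δ ≤ V := by
      have : 4 / δ ≤ 8 / δ ^ 2 := by
        rw [div_le_div_iff₀ hδ hδ2]; nlinarith
      linarith
    obtain ⟨h, hh, h', hh', hlt, hdiff⟩ := pigeon X V δ hδ (Finset.filter_subset _ _) hX h4
    rw [hXdef, Finset.mem_filter] at hh hh'
    obtain ⟨y, hy⟩ : ∃ y, y = h - h' := ⟨_, rfl⟩
    have hy1 : 1 ≤ y := by omega
    rw [← hy] at hdiff
    have hyr : (y : ℝ) = h - h' := by rw [hy, Nat.cast_sub hlt.le]
    have hs2 : nn (y * ψ) ≤ 2 * ε := by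
      rw [hyr, sub_mul]
      refine (nn_sub_le _ _).trans ?_
      linarith [hh.2, hh'.2]
    have hy32 : (y : ℝ) ≤ 32 / δ ^ 2 := by
      have : 2 / δ ≤ 32 / δ ^ 2 := by
        rw [div_le_div_iff₀ hδ hδ2]; nlinarith
      linarith
    refine ⟨y, hy1, hy32, ?_⟩
    rcases eq_or_lt_of_le (nn_nonneg (y * ψ)) with h0 | h0
    · rw [← h0]; positivity
    · obtain ⟨s, hs⟩ : ∃ s, s = nn ((y : ℝ) * ψ) := ⟨_, rfl⟩
      rw [← hs] at h0 hs2 ⊢
      have hs1 : s ≤ 1 := by linarith
      have hcount := count ψ ε s V y hy1 h0 hs1 hs.symm hε (by linarith)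
      have h5 : (2 * ε / s + 1) ≤ 4 * ε / s := by
        rw [le_div_iff₀ h0, add_mul, div_mul_cancel₀ _ h0.ne']
        linarith
      have h6 : δ * V ≤ (V * s + 3 * y) * (4 * ε / s) := by
        refine (hX.trans hcount).trans ?_
        exact mul_le_mul_of_nonneg_left h5 (by positivity)
      have h7 : (V * s + 3 * y) * (4 * ε / s) = 4 * ε * V + 12 * ε * y / s := by
        field_simp
        ring
      rw [h7] at h6
      have h8 : 4 * ε * V ≤ δ / 16 * V := mul_le_mul_of_nonneg_right (by linarith) hV0.le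
      have h9 : 15 / 16 * δ * V ≤ 12 * ε * y / s := by linarith
      have h10 : 12 * ε * y / s ≤ 24 * ε / (δ * s) := by
        rw [div_le_div_iff₀ h0 (by positivity)]
        have h11 : (y : ℝ) * δ ≤ 2 := by
          rw [le_div_iff₀ hδ] at hdiff; exact hdiff
        have h12 : 0 ≤ 12 * ε * s := by positivity
        nlinarith [mul_le_mul_of_nonneg_left h11 h12]
      have h13 : 15 / 16 * δ * V ≤ 24 * ε / (δ * s) := h9.trans h10
      rw [le_div_iff₀ (by positivity)] at h13
      rw [le_div_iff₀ (by positivity)]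
      nlinarith

end Vale.Agent.P042
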