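import Vale.Agent.P042.HCone
import Vale.Agent.P042.HC
import Vale.Agent.P042.Fou
import Vale.Agent.P042.GeoD
import Vale.Agent.P042.LV1D
import Vale.Agent.P042.LV2D
import Vale.Agent.P042.LV3
import Vale.Agent.P042.Num
import Vale.Agent.P042.Cnt
import Vale.Agent.P042.LevD
import Vale.Agent.P042.Vin
import Vale.Agent.P042.LocP
import Vale.Agent.P042.SubL
import Vale.Agent.P042.Loc
import Vale.Agent.P042.GPow
import Vale.Agent.P042.GB1
import Vale.Agent.P042.Abel
import Vale.Agent.P042.PG
import Vale.Agent.P042.Riem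
import Vale.Agent.P042.Maj
import Vale.Agent.P042.FSup
import Vale.Agent.P042.Cell2
import Vale.Agent.P042.Cell3
import Vale.Agent.P042.EnerD
import Vale.Agent.P042.StepD
import Vale.Agent.P042.AuxPoly
import Vale.Agent.P042.MainD
import Vale.Agent.P042.FinalD
import Vale.Agent.P042.MainE
import Vale.Agent.P042.Bomb

/-!
# P042: assembly, with the missing modules as hypotheses
-/

namespace Vale.Agent.P042

theorem assemblyPre (hweyl : VIN → WEYL) (hcover : LOC → LOC2 → GPOW → COVER)
    (hkeyd : CELL2 → CELL3 → ENERD → LEVD → KEYD) : FINALE := by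
  have hLoc : LOC := loc locp subl
  have hLoc2 : LOC2 := loc2 subl
  have hHC : HC := hc hcone
  have hLV2 : LV2D := lv2d pars
  have hLV3 : LV3 := lv3 hHC pars mixa hLV2
  have hLevD : LEVD := levd (lv1d geod) hLV3 num cnt
  have hKey : KEYD := hkeyd cell2 cell3 enerd hLevD
  have hMaj : MAJ := maj (hweyl vin) (gb1 hLoc gpow) pg abel riem
  have hStep : STEPD := stepd hMaj (hcover hLoc hLoc2 gpow) fsup hKey
  exact finale (maine hStep aux)

end Vale.Agent.P042
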