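import Vale.Agent.P042.Defs

/-!
# P042: interface (internal definitions and the statements of all modules)
-/

open Polynomial Finset

namespace Vale.Agent.P042

noncomputable section

/-- `e(x) = exp(2 π i x)` -/
def ee (x : ℝ) : ℂ := Complex.exp ((2 * Real.pi * x : ℝ) * Complex.I)

/-- local exponent -/
def kap (k : ℕ) : ℕ := 2 * k - 1

/-- normalised complete exponential sum `G(a/q) = E_{u mod q} e(a g(u)/q)` -/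
def Gs (g : ℤ[X]) (a : ℤ) (q : ℕ) : ℂ :=
  (∑ u ∈ range q, ee ((a : ℝ) * ((g.eval (u : ℤ) : ℤ) : ℝ) / (q : ℝ))) / (q : ℂ)

/-- for no prime `p` is `g` constant modulo `p` (as a polynomial) -/
def NC (g : ℤ[X]) : Prop := ∀ p : ℕ, p.Prime → ∃ i : ℕ, 1 ≤ i ∧ ¬ ((p : ℤ) ∣ g.coeff i)

/-- average over a finite type -/
def avg {Ω : Type*} [Fintype Ω] (f : Ω → ℝ) : ℝ := (∑ x, f x) / (Fintype.card Ω : ℝ)

/-! ## A. hypercontractivity -/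

/-- one coordinate, Hilbert-valued; `m` is the mean of `v` -/
def HCONE : Prop :=
  ∀ (H : Type) [NormedAddCommGroup H] [InnerProductSpace ℝ H] (Ω : Type) [Fintype Ω]
    [Nonempty Ω] (v : Ω → H) (s : ℕ), 1 ≤ s → ∀ m : H,
    m = ((Fintype.card Ω : ℝ)⁻¹) • ∑ x, v x →
    avg (fun x => ‖m + (1 / (2 * Real.sqrt (2 * s)) : ℝ) • (v x - m)‖ ^ (2 * s))
      ≤ (avg (fun x => ‖v x‖ ^ 2)) ^ s
        + (2 * (s : ℝ)) ^ s * avg (fun x => ‖v x - m‖ ^ (2 * s))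

section chars
variable {ι : Type} [Fintype ι] [DecidableEq ι] (M : ι → ℕ) [∀ i, NeZero (M i)]

/-- character of the product group -/
def chi (a x : ∀ i, ZMod (M i)) : ℂ := ∏ i, ZMod.stdAddChar (a i * x i)

/-- support of a frequency -/
def spt (a : ∀ i, ZMod (M i)) : Finset ι := univ.filter (fun i => a i ≠ 0)

/-- function with Fourier coefficients `c` -/
def FF (c : (∀ i, ZMod (M i)) → ℂ) (x : ∀ i, ZMod (M i)) : ℂ := ∑ a, c a * chi M a x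

/-- `x` on `S`, `y` off `S` -/
def mix (S : Finset ι) (x y : ∀ i, ZMod (M i)) : ∀ i, ZMod (M i) :=
  fun i => if i ∈ S then x i else y i

/-- residue vector of an integer -/
def rv (n : ℕ) : ∀ i, ZMod (M i) := fun i => (n : ZMod (M i))

end chars

/-- global hypercontractivity, `r = 2 s`, `ρ = 1 / (2 sqrt r)` -/
def HC : Prop :=
  ∀ (ι : Type) [Fintype ι] [DecidableEq ι] (M : ι → ℕ) [∀ i, NeZero (M i)]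
    (c : (∀ i, ZMod (M i)) → ℂ) (s : ℕ), 1 ≤ s →
    avg (fun x => ‖FF M (fun a =>
        ((1 / (2 * Real.sqrt (2 * s)) : ℝ) : ℂ) ^ (spt M a).card * c a) x‖ ^ (2 * s))
      ≤ ∑ S : Finset ι, ((2 * (s : ℝ)) ^ s) ^ S.card *
          avg (fun x => (avg (fun y =>
            ‖FF M (fun a => if S ⊆ spt M a then c a else 0) (mix M S x y)‖ ^ 2)) ^ s)

/-! ## B. level-d inequality -/

/-- character sums over residue classes in an interval -/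
def GEO : Prop :=
  ∀ (ι : Type) [Fintype ι] [DecidableEq ι] (M : ι → ℕ) [∀ i, NeZero (M i)],
    (∀ i j, i ≠ j → Nat.Coprime (M i) (M j)) →
    ∀ (T : Finset ι) (x b : ∀ i, ZMod (M i)) (l : ℕ), Disjoint (spt M b) T →
    ‖∑ n ∈ (range l).filter (fun n : ℕ => ∀ i ∈ T, (n : ZMod (M i)) = x i), chi M b (rv M n)
        - (if b = 0 then (l : ℂ) / ∏ i ∈ T, (M i : ℂ) else 0)‖
      ≤ ∏ i ∈ spt M b, (M i : ℝ)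

section
variable {ι : Type} [Fintype ι] [DecidableEq ι] (M : ι → ℕ) [∀ i, NeZero (M i)]

/-- normalised Fourier coefficient of the part of `E` in the class `n = x_i (i ∈ T)` -/
def co (E : Finset ℕ) (l : ℕ) (T : Finset ι) (x a : ∀ i, ZMod (M i)) : ℂ :=
  ((∏ i ∈ T, (M i : ℂ)) / (l : ℂ)) *
    ∑ n ∈ E.filter (fun n : ℕ => ∀ i ∈ T, (n : ZMod (M i)) = x i),
      (starRingEnd ℂ) (chi M a (rv M n))

end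

/-- transfer: interval average of `|F|^{2s}` versus group average -/
def LV1 : Prop :=
  ∀ (ι : Type) [Fintype ι] [DecidableEq ι] (M : ι → ℕ) [∀ i, NeZero (M i)]
    (Q l s d : ℕ) (T : Finset ι) (x₀ : ∀ i, ZMod (M i)) (c : (∀ i, ZMod (M i)) → ℂ),
    (∀ i j, i ≠ j → Nat.Coprime (M i) (M j)) → (∀ i, M i ≤ Q) → 1 ≤ Q → 1 ≤ s → 1 ≤ l →
    (∀ a, c a ≠ 0 → (spt M a).card = d ∧ Disjoint (spt M a) T) →
    (∏ i ∈ T, (M i : ℝ)) / l *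
        ∑ n ∈ (range l).filter (fun n : ℕ => ∀ i ∈ T, (n : ZMod (M i)) = x₀ i),
          ‖FF M c (rv M n)‖ ^ (2 * s)
      ≤ avg (fun x => ‖FF M c x‖ ^ (2 * s))
        + (∏ i ∈ T, (M i : ℝ)) / l * (Q : ℝ) ^ (2 * s * d) * (∑ a, ‖c a‖) ^ (2 * s)

/-- derivatives are controlled by restrictions -/
def LV2 : Prop :=
  ∀ (ι : Type) [Fintype ι] [DecidableEq ι] (M : ι → ℕ) [∀ i, NeZero (M i)]
    (E : Finset ℕ) (l d : ℕ) (T S : Finset ι) (x₀ x : ∀ i, ZMod (M i)),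
    Disjoint S T → S.card ≤ d →
    avg (fun y => ‖FF M (fun a => if S ⊆ spt M a then
          (if (spt M a).card = d ∧ Disjoint (spt M a) T then co M E l T x₀ a else 0) else 0)
          (mix M S x y)‖ ^ 2)
      ≤ 2 ^ S.card * ∑ T' ∈ S.powerset,
          ∑ a ∈ univ.filter (fun a : (∀ i, ZMod (M i)) =>
              (spt M a).card = d - S.card ∧ Disjoint (spt M a) (T ∪ S)),
            ‖co M E l (T ∪ T') (mix M T x₀ x) a‖ ^ 2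

/-- arithmetic level-d inequality -/
def LEVEL : Prop :=
  ∀ (ι : Type) [Fintype ι] [DecidableEq ι] (M : ι → ℕ) [∀ i, NeZero (M i)]
    (Q l s d₀ : ℕ) (α : ℝ) (E : Finset ℕ),
    (∀ i j, i ≠ j → Nat.Coprime (M i) (M j)) → (∀ i, M i ≤ Q) → Fintype.card ι ≤ Q →
    4 ≤ Q → 1 ≤ s → 0 < α → α ≤ 1 → 1 ≤ 2 * α * Real.exp (2 * s) →
    E ⊆ range l → Q ^ (16 * s * (s + d₀)) ≤ l →
    (∀ T : Finset ι, T.card ≤ d₀ → ∀ x : ∀ i, ZMod (M i),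
      ((E.filter (fun n : ℕ => ∀ i ∈ T, (n : ZMod (M i)) = x i)).card : ℝ)
        ≤ 2 * α * l / ∏ i ∈ T, (M i : ℝ)) →
    ∀ d ≤ d₀,
      ∑ a ∈ univ.filter (fun a : (∀ i, ZMod (M i)) => (spt M a).card = d),
          ‖(∑ n ∈ E, (starRingEnd ℂ) (chi M a (rv M n))) / (l : ℂ)‖ ^ 2
        ≤ 4 * α ^ 2 * (4096 * (s : ℝ)) ^ d

/-! ## C. Weyl sums -/

/-- distance to the nearest integer -/
def nn (x : ℝ) : ℝ := |x - round x|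

/-- Vinogradov-type recurrence lemma -/
def VIN : Prop :=
  ∀ (ψ ε δ : ℝ) (V : ℕ), 1 ≤ V → 0 < δ → δ ≤ 1 → 0 ≤ ε → ε ≤ δ / 64 →
    δ * V ≤ (((Icc 1 V).filter (fun h : ℕ => nn ((h : ℝ) * ψ) ≤ ε)).card : ℝ) →
    ∃ y : ℕ, 1 ≤ y ∧ (y : ℝ) ≤ 32 / δ ^ 2 ∧ nn ((y : ℝ) * ψ) ≤ 32 * ε / (δ ^ 2 * V)

/-- inverse form of Weyl's inequality (no `V^ε` loss) -/
def WEYL : Prop :=
  ∀ k : ℕ, 1 ≤ k → ∃ e : ℕ, ∀ (P : ℝ[X]) (V : ℕ) (δ : ℝ), P.natDegree ≤ k → 1 ≤ V →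
    0 < δ → δ ≤ 1 → δ * V ≤ ‖∑ v ∈ range V, ee (P.eval (v : ℝ))‖ →
    ∃ y : ℕ, 1 ≤ y ∧ (y : ℝ) ≤ (2 / δ) ^ e ∧
      nn ((y : ℝ) * P.coeff k) ≤ (2 / δ) ^ e / (V : ℝ) ^ k

/-! ## D. complete sums -/

/-- Mordell's bound modulo a prime -/
def LOCP : Prop :=
  ∀ k : ℕ, 1 ≤ k → ∃ C : ℕ, ∀ (g : ℤ[X]) (p : ℕ) (a : ℤ), g.natDegree ≤ k → p.Prime →
    (∃ i : ℕ, 1 ≤ i ∧ ¬ ((p : ℤ) ∣ g.coeff i)) → ¬ ((p : ℤ) ∣ a) →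
    ‖Gs g a p‖ ^ k * (p : ℝ) ≤ C

/-- p-adic sublevel sets -/
def SUBL : Prop :=
  ∀ (P : ℤ[X]) (D p n : ℕ), 1 ≤ D → P.natDegree ≤ D → p.Prime →
    (∃ i : ℕ, ¬ ((p : ℤ) ∣ P.coeff i)) → 1 ≤ n →
    ((range (p ^ n)).filter (fun v : ℕ => ((p ^ n : ℕ) : ℤ) ∣ P.eval (v : ℤ))).card
        * p ^ ((n + D - 1) / D) ≤ D * p ^ n

/-- complete sums modulo prime powers -/
def LOC : Prop :=
  ∀ k : ℕ, 2 ≤ k → ∃ C : ℕ, ∀ (g : ℤ[X]) (p e : ℕ) (a : ℤ), g.natDegree ≤ k → p.Prime →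
    (∃ i : ℕ, 1 ≤ i ∧ ¬ ((p : ℤ) ∣ g.coeff i)) → 1 ≤ e → ¬ ((p : ℤ) ∣ a) →
    ‖Gs g a (p ^ e)‖ ^ kap k * ((p : ℝ) ^ e) ≤ C

/-- Chinese remainder theorem for complete sums -/
def GPOW : Prop :=
  ∀ (g : ℤ[X]) (q : ℕ) (a : ℤ), 1 ≤ q → IsCoprime a (q : ℤ) →
    ∃ α : ℕ → ℤ, (∀ p ∈ q.primeFactors, ¬ ((p : ℤ) ∣ α p)) ∧
      Gs g a q = ∏ p ∈ q.primeFactors, Gs g (α p) (p ^ q.factorization p)

/-- complete sums, general modulus -/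
def GB1 : Prop :=
  ∀ k : ℕ, 2 ≤ k → ∃ C : ℕ, ∀ (g : ℤ[X]) (q : ℕ) (a : ℤ), g.natDegree ≤ k → NC g → 1 ≤ q →
    IsCoprime a (q : ℤ) → ‖Gs g a q‖ ^ (2 * kap k) * (q : ℝ) ≤ C

/-- primes `p` with `p^{v_p(q)} > P` -/
def bigp (P q : ℕ) : Finset ℕ := q.primeFactors.filter (fun p => P < p ^ q.factorization p)

/-- complete sums: a factor `C/P` for every big prime power -/
def GB2 : Prop :=
  ∀ k : ℕ, 2 ≤ k → ∃ C : ℕ, 1 ≤ C ∧ ∀ (g : ℤ[X]) (q P : ℕ) (a : ℤ), g.natDegree ≤ k → NC g →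
    1 ≤ q → 1 ≤ P → IsCoprime a (q : ℤ) →
    ‖Gs g a q‖ ^ kap k * (P : ℝ) ^ (bigp P q).card ≤ (C : ℝ) ^ (bigp P q).card

/-! ## E. major arcs -/

/-- Abel summation against a periodic sequence -/
def ABEL : Prop :=
  ∀ (φ ψ : ℕ → ℂ) (q V : ℕ) (G : ℂ) (τ : ℝ), 1 ≤ q → (∀ n, φ (n + q) = φ n) →
    (∀ n, ‖φ n‖ ≤ 1) → ∑ n ∈ range q, φ n = q * G → (∀ n, ‖ψ n‖ ≤ 1) →
    ∑ v ∈ range V, ‖ψ (v + 1) - ψ v‖ ≤ τ →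
    ‖∑ v ∈ range V, φ v * ψ v - G * ∑ v ∈ range V, ψ v‖ ≤ 2 * q * (1 + τ)

/-- increments of `g` -/
def Dl (g : ℤ[X]) (u : ℕ) : ℤ := g.eval ((u + 1 : ℕ) : ℤ) - g.eval (u : ℤ)

/-- polynomial growth: a short interval of arguments whose values fill `(t, t+T]` uniformly -/
def PG : Prop :=
  ∀ k c : ℕ, 2 ≤ k → ∃ a' b₂ : ℕ, ∀ b' : ℕ, ∃ b : ℕ, ∀ (L H T : ℕ) (g : ℤ[X]), 1 ≤ L → 1 ≤ H →
    g.natDegree = k → 0 < g.leadingCoeff → (∀ i, |g.coeff i| ≤ (H : ℤ)) →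
    (H * 2 ^ L) ^ b ≤ T →
    ∃ U V : ℕ, (H * 2 ^ L) ^ b' ≤ V ∧ (∀ v : ℕ, 0 < g.eval ((U + v : ℕ) : ℤ)) ∧
      g.eval (U : ℤ) ≤ ((2 ^ (L + a') * T : ℕ) : ℤ) ∧
      ((2 ^ (L + a') * T : ℕ) : ℤ) < g.eval ((U + 1 : ℕ) : ℤ) ∧
      g.eval ((U + V : ℕ) : ℤ) ≤ ((2 ^ (L + a') * T + T : ℕ) : ℤ) ∧
      ((2 ^ (L + a') * T + T : ℕ) : ℤ) < g.eval ((U + V + 1 : ℕ) : ℤ) ∧
      (∀ u ∈ Icc U (U + V), 0 < Dl g u ∧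
        |(V : ℝ) * (Dl g u : ℝ) - T| ≤ (T : ℝ) / 2 ^ (L + c)) ∧
      T ≤ (H * 2 ^ L) ^ b₂ * V ^ k

/-- Riemann sum comparison -/
def RIEM : Prop :=
  ∀ (g : ℤ[X]) (U V t T : ℕ) (η β : ℝ), 1 ≤ V → 1 ≤ T → 0 ≤ η → η ≤ 1 →
    g.eval (U : ℤ) ≤ (t : ℤ) → (t : ℤ) < g.eval ((U + 1 : ℕ) : ℤ) →
    g.eval ((U + V : ℕ) : ℤ) ≤ ((t + T : ℕ) : ℤ) →
    ((t + T : ℕ) : ℤ) < g.eval ((U + V + 1 : ℕ) : ℤ) →
    (∀ u ∈ Icc U (U + V), 0 < Dl g u ∧ |(V : ℝ) * (Dl g u : ℝ) - T| ≤ η * T) →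
    ‖(∑ v ∈ Icc 1 V, ee (β * ((g.eval ((U + v : ℕ) : ℤ) : ℤ) : ℝ))) / (V : ℂ)
        - (∑ m ∈ Ioc t (t + T), ee (β * (m : ℝ))) / (T : ℂ)‖
      ≤ η + (26 * |β| * T + 6) / V

/-- sup-norm approximation by the major arc model -/
def MAJ : Prop :=
  ∀ k : ℕ, 2 ≤ k → ∃ a a' b : ℕ, 2 ≤ a ∧ ∀ (L H T : ℕ) (g : ℤ[X]), 1 ≤ L → 1 ≤ H →
    g.natDegree = k → 0 < g.leadingCoeff → NC g → (∀ i, |g.coeff i| ≤ (H : ℤ)) →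
    (H * 2 ^ L) ^ b ≤ T →
    ∃ U V : ℕ, 1 ≤ V ∧ (∀ v ∈ Icc 1 V, 0 < g.eval ((U + v : ℕ) : ℤ)) ∧
      ∀ θ : ℝ,
        ‖(∑ v ∈ Icc 1 V, ee (θ * ((g.eval ((U + v : ℕ) : ℤ) : ℤ) : ℝ))) / (V : ℂ)
          - ∑ q ∈ Icc 1 (2 ^ (a * L)), ∑ r ∈ (range q).filter (fun r => Nat.Coprime r q),
              Gs g r q * ((∑ m ∈ Ioc (2 ^ (L + a') * T) (2 ^ (L + a') * T + T),
                ee ((θ - (r : ℝ) / q) * (m : ℝ))) / (T : ℂ))‖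
        ≤ 1 / 2 ^ (L + 6)

/-! ## F. cells -/

/-- Fourier sup bound -/
def FSUP : Prop :=
  ∀ (A : Finset ℕ) (w : ℤ → ℂ) (R : Finset ℤ) (δ : ℝ), (∀ t, t ∉ R → w t = 0) →
    (∀ θ : ℝ, ‖∑ t ∈ R, w t * ee (θ * (t : ℝ))‖ ≤ δ) →
    ‖∑ x ∈ A, ∑ y ∈ A, w ((y : ℤ) - (x : ℤ))‖ ≤ δ * A.card

/-- the part of `A` in the cell `(j l, (j+1) l]` -/
def cell (A : Finset ℕ) (l j : ℕ) : Finset ℕ := A.filter (fun n => n ∈ Ioc (j * l) ((j + 1) * l))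

/-- the correlation of `A` at frequency `θ` -/
def RR (A : Finset ℕ) (l s₀ K₀ : ℕ) (θ : ℝ) : ℂ :=
  (∑ x ∈ A, ∑ y ∈ A, (if x + s₀ * l < y ∧ y ≤ x + s₀ * l + K₀ * l
        then ee (-(θ * ((y : ℝ) - (x : ℝ)))) else 0)) / ((K₀ * l : ℕ) : ℂ)

/-- upper bound for one frequency -/
def CELL2 : Prop :=
  ∀ (A : Finset ℕ) (J l s₀ K₀ : ℕ) (θ : ℝ), 1 ≤ l → 1 ≤ K₀ → A ⊆ Icc 1 (J * l) →
    ‖RR A l s₀ K₀ θ‖
      ≤ (∑ j ∈ range J, ‖∑ n ∈ cell A l j, ee ((n : ℝ) * θ)‖ ^ 2) / l + 2 * A.card / K₀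

/-- lower bound for the zero frequency -/
def CELL3 : Prop :=
  ∀ (A : Finset ℕ) (J l s₀ K₀ : ℕ) (α β : ℝ), 1 ≤ l → 1 ≤ K₀ → A ⊆ Icc 1 (J * l) → 0 ≤ α →
    α ≤ β → (A.card : ℝ) = α * (J * l) →
    (∀ j < J, ((cell A l j).card : ℝ) ≤ β * l) →
    (l : ℝ) ^ 2 * (K₀ - 1) * (J * β * (2 * α - β) - (s₀ + K₀) * β ^ 2)
      ≤ (∑ x ∈ A, ∑ y ∈ A, (if x + s₀ * l < y ∧ y ≤ x + s₀ * l + K₀ * l then (1 : ℝ) else 0))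

/-! ## G. energies -/

/-- `m* = ∏_{p ≤ P} p^{⌊log_p P⌋} = lcm(1..P)` -/
def mst (P : ℕ) : ℕ := ∏ p ∈ (Icc 1 P).filter Nat.Prime, p ^ Nat.log p P

/-- size of `m*` -/
def MST : Prop := ∀ P : ℕ, 1 ≤ P → mst P ≤ 2 ^ (4 * P)

/-- index type: primes up to `Q` -/
abbrev Idx (Q : ℕ) : Type := {p : ℕ // p ∈ (Icc 1 Q).filter Nat.Prime}

/-- local moduli -/
def Mod (P Q : ℕ) (p : Idx Q) : ℕ := (p : ℕ) ^ (Nat.log p Q - Nat.log p P)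

instance (P Q : ℕ) (p : Idx Q) : NeZero (Mod P Q p) :=
  ⟨pow_ne_zero _ (by
    have := (Finset.mem_filter.1 p.2).2
    exact this.ne_zero)⟩

/-- `n` runs over `range l'`, the integer is `z + 1 + c + m* n` -/
def sub (A : Finset ℕ) (m z l' c : ℕ) : Finset ℕ :=
  (range l').filter (fun n => z + 1 + c + m * n ∈ A)

/-- energy inequality: fractions `r/q` with exactly `d` big prime powers -/
def ENER : Prop :=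
  ∀ (P Q l' z d : ℕ) (A : Finset ℕ), 1 ≤ P → 1 ≤ Q →
    A ⊆ Ioc z (z + mst P * l') →
    ∑ q ∈ Icc 1 Q, ∑ r ∈ (range q).filter (fun r => Nat.Coprime r q ∧ (bigp P q).card = d),
        ‖∑ n ∈ A, ee ((n : ℝ) * ((r : ℝ) / q))‖ ^ 2
      ≤ (mst P : ℝ) * ∑ c ∈ range (mst P),
          ∑ x ∈ univ.filter (fun x : (∀ p : Idx Q, ZMod (Mod P Q p)) => (spt (Mod P Q) x).card = d),
            ‖∑ n ∈ sub A (mst P) z l' c, (starRingEnd ℂ) (chi (Mod P Q) x (rv (Mod P Q) n))‖ ^ 2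

/-- the main inequality -/
def KEY : Prop :=
  ∀ (P Q J l' s₀ K₀ s d₀ : ℕ) (α : ℝ) (A : Finset ℕ) (Gc : ℕ → ℕ → ℂ),
    1 ≤ P → 4 ≤ Q → 1 ≤ s → 0 < α → α ≤ 1 → 1 ≤ 2 * α * Real.exp (2 * s) →
    256 * (s₀ + K₀) ≤ J → 256 ≤ K₀ → 128 * (Q : ℝ) ^ 2 ≤ α * K₀ →
    Q ^ (16 * s * (s + d₀)) ≤ l' →
    (∀ q ∈ Icc 1 Q, (bigp P q).card ≤ d₀) →
    (∀ q ∈ Icc 1 Q, ∀ r ∈ (range q).filter (fun r => Nat.Coprime r q), ‖Gc q r‖ ≤ 1) →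
    Gc 1 0 = 1 →
    (∀ q ∈ Icc 1 Q, ∀ r ∈ (range q).filter (fun r => Nat.Coprime r q),
      ‖Gc q r‖ * (64 * (4096 * (s : ℝ))) ^ (bigp P q).card ≤ 1) →
    A ⊆ Icc 1 (J * (mst P * l')) →
    (A.card : ℝ) = α * (J * (mst P * l') : ℕ) →
    (∀ j < J, ∀ c < mst P, ∀ T : Finset (Idx Q), T.card ≤ d₀ →
      ∀ x : (∀ p : Idx Q, ZMod (Mod P Q p)),
      (((sub (cell A (mst P * l') j) (mst P) (j * (mst P * l')) l' c).filter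
          (fun n : ℕ => ∀ i ∈ T, (n : ZMod (Mod P Q i)) = x i)).card : ℝ)
        ≤ 17 / 16 * α * l' / ∏ i ∈ T, (Mod P Q i : ℝ)) →
    1 / 2 * α ^ 2 * (J * (mst P * l') : ℕ) ≤
      ‖∑ q ∈ Icc 1 Q, ∑ r ∈ (range q).filter (fun r => Nat.Coprime r q),
          Gc q r * RR A (mst P * l') s₀ K₀ ((r : ℝ) / q)‖

/-! ## H. density increment and iteration -/

/-- one step -/
def STEP : Prop :=
  ∀ k : ℕ, 2 ≤ k → ∃ K : ℕ, ∀ (L H N : ℕ) (g : ℤ[X]) (A : Finset ℕ), 1 ≤ L → 1 ≤ H →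
    g.natDegree = k → 0 < g.leadingCoeff → NC g → (∀ i, |g.coeff i| ≤ (H : ℤ)) →
    (H * 2 ^ (L ^ kap k)) ^ K ≤ N → A ⊆ Icc 1 N → N ≤ 2 ^ L * A.card →
    (∀ x ∈ A, ∀ y ∈ A, ∀ u : ℕ, 1 ≤ u → (y : ℤ) - (x : ℤ) = g.eval (u : ℤ) → x = y) →
    ∃ q l z c : ℕ, 1 ≤ q ∧ q ≤ 2 ^ (K * L ^ kap k) ∧ N ≤ 2 ^ (K * L) * l ∧ z + l ≤ N ∧
      (33 / 32 : ℝ) * A.card * l
        ≤ N * q * ((A.filter (fun n => n ∈ Ioc z (z + l) ∧ n ≡ c [MOD q])).card : ℝ)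

/-- auxiliary polynomials -/
def AUX : Prop :=
  ∀ (k : ℕ) (h : ℤ[X]), 1 ≤ k → h.natDegree = k → 0 < h.leadingCoeff → Intersective h →
    ∃ Ch : ℕ, 1 ≤ Ch ∧ ∀ X : ℕ, 1 ≤ X → ∃ (lam : ℕ → ℕ) (G : ℕ → ℤ[X]), lam 1 ≤ Ch ∧
      ∀ D : ℕ, 1 ≤ D → D ≤ X →
        1 ≤ lam D ∧ (G D).natDegree = k ∧ 0 < (G D).leadingCoeff ∧ NC (G D) ∧
        (∀ i, |(G D).coeff i| ≤ ((Ch * D ^ k : ℕ) : ℤ)) ∧
        (∀ u : ℕ, 1 ≤ u → ∃ n : ℕ, 1 ≤ n ∧ (lam D : ℤ) * (G D).eval (u : ℤ) = h.eval (n : ℤ)) ∧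
        (∀ q : ℕ, 1 ≤ q → D * q ≤ X → lam D * q ∣ lam (D * q) ∧ lam (D * q) ∣ q ^ k * lam D)

/-- main theorem in dyadic form -/
def MAIN : Prop :=
  ∀ (k : ℕ) (h : ℤ[X]), 2 ≤ k → h.natDegree = k → 0 < h.leadingCoeff → Intersective h →
    ∃ C : ℕ, ∀ (L N : ℕ) (A : Finset ℕ), 1 ≤ L → 1 ≤ N → A ⊆ Icc 1 N → N ≤ 2 ^ L * A.card →
      Avoids h A → N ≤ 2 ^ (C * L ^ (2 * k))

/-- the final statement -/
def FINAL : Prop :=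
  ∀ (k : ℕ) (h : ℤ[X]), 2 ≤ k → h.natDegree = k → 0 < h.leadingCoeff → Intersective h →
    ∃ c : ℝ, 0 < c ∧ ∃ C : ℝ, ∀ N : ℕ, 1 ≤ N →
      (rh h N : ℝ) ≤ C * N * Real.exp (-c * (Real.log N) ^ ((1 : ℝ) / (2 * k)))

end

end Vale.Agent.P042
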