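import Vale.Agent.P042.Core

/-!
# P042: interface, second part (improved exponent `1/t`)

`t = k` with Mordell's bound (`LOCP`), `t = 2` with Weil's bound.
-/

open Polynomial Finset

namespace Vale.Agent.P042

noncomputable section

/-! ## B. level-d inequality, truncated and weighted -/

/-- level weights -/
def lam (j : ℕ) : ℝ := 1 / (2 * (j : ℝ) ^ 2)

section lev
variable {ι : Type} [Fintype ι] [DecidableEq ι] (M : ι → ℕ) [∀ i, NeZero (M i)] (p : ι → ℕ)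

/-- level of a frequency at the coordinate `i` (`addOrderOf (a i) = p i ^ lev`) -/
def lev (a : ∀ i, ZMod (M i)) (i : ι) : ℕ := Nat.log (p i) (addOrderOf (a i))

/-- the denominator of a frequency -/
def md (a : ∀ i, ZMod (M i)) : ℕ := ∏ i, addOrderOf (a i)

/-- weight of a frequency -/
def wt (a : ∀ i, ZMod (M i)) : ℝ := ∏ i ∈ spt M a, lam (lev M p a i) ^ 2

/-- normalised Fourier coefficient of the part of `E` in the class `X` modulo `D` -/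
def coD (E : Finset ℕ) (l D X : ℕ) (a : ∀ i, ZMod (M i)) : ℂ :=
  ((D : ℂ) / (l : ℂ)) * ∑ n ∈ E.filter (fun n : ℕ => n ≡ X [MOD D]),
      (starRingEnd ℂ) (chi M a (rv M n))

/-- frequencies of level `d`, denominator at most `R`, prime to `D` -/
def AA (d D R : ℕ) : Finset (∀ i, ZMod (M i)) :=
  univ.filter (fun a => (spt M a).card = d ∧ md M a ≤ R ∧ ∀ i ∈ spt M a, ¬ p i ∣ D)

/-- weighted level-`d` mass -/
def Sd (E : Finset ℕ) (l D X R d : ℕ) : ℝ := ∑ a ∈ AA M p d D R, wt M p a * ‖coD M E l D X a‖ ^ 2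

end lev

/-- Parseval -/
def PARS : Prop :=
  ∀ (ι : Type) [Fintype ι] [DecidableEq ι] (M : ι → ℕ) [∀ i, NeZero (M i)]
    (c : (∀ i, ZMod (M i)) → ℂ), avg (fun x => ‖FF M c x‖ ^ 2) = ∑ a, ‖c a‖ ^ 2

/-- mixing two uniform points gives a uniform point -/
def MIXA : Prop :=
  ∀ (ι : Type) [Fintype ι] [DecidableEq ι] (M : ι → ℕ) [∀ i, NeZero (M i)] (S : Finset ι)
    (φ : (∀ i, ZMod (M i)) → ℝ), avg (fun x => avg (fun y => φ (mix M S x y))) = avg φ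

/-- character sums over residue classes in an interval -/
def GEOD : Prop :=
  ∀ (ι : Type) [Fintype ι] [DecidableEq ι] (M : ι → ℕ) [∀ i, NeZero (M i)] (p J : ι → ℕ),
    (∀ i, (p i).Prime) → Function.Injective p → (∀ i, M i = p i ^ J i) →
    ∀ (D X l : ℕ) (b : ∀ i, ZMod (M i)), 1 ≤ D → (∀ i ∈ spt M b, ¬ p i ∣ D) →
    ‖∑ n ∈ (range l).filter (fun n : ℕ => n ≡ X [MOD D]), chi M b (rv M n)
        - (if b = 0 then (l : ℂ) / (D : ℂ) else 0)‖ ≤ (md M b : ℝ)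

/-- transfer: interval average of `|F|^{2s}` versus group average -/
def LV1D : Prop :=
  ∀ (ι : Type) [Fintype ι] [DecidableEq ι] (M : ι → ℕ) [∀ i, NeZero (M i)] (p J : ι → ℕ),
    (∀ i, (p i).Prime) → Function.Injective p → (∀ i, M i = p i ^ J i) →
    ∀ (D X R l s : ℕ) (c : (∀ i, ZMod (M i)) → ℂ), 1 ≤ D → 1 ≤ s → 1 ≤ l →
    (∀ a, c a ≠ 0 → md M a ≤ R ∧ ∀ i ∈ spt M a, ¬ p i ∣ D) →
    (D : ℝ) / l * ∑ n ∈ (range l).filter (fun n : ℕ => n ≡ X [MOD D]), ‖FF M c (rv M n)‖ ^ (2 * s)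
      ≤ avg (fun x => ‖FF M c x‖ ^ (2 * s))
        + (D : ℝ) / l * (R : ℝ) ^ (2 * s) * (∑ a, ‖c a‖) ^ (2 * s)

/-- number of frequencies with denominator at most `R` -/
def CNT : Prop :=
  ∀ (ι : Type) [Fintype ι] [DecidableEq ι] (M : ι → ℕ) [∀ i, NeZero (M i)] (p J : ι → ℕ),
    (∀ i, (p i).Prime) → Function.Injective p → (∀ i, M i = p i ^ J i) →
    ∀ R : ℕ, (univ.filter (fun a : (∀ i, ZMod (M i)) => md M a ≤ R)).card ≤ R ^ 2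

/-- derivatives (at levels `τ` on `S`) are controlled by restrictions -/
def LV2D : Prop :=
  ∀ (ι : Type) [Fintype ι] [DecidableEq ι] (M : ι → ℕ) [∀ i, NeZero (M i)] (p J : ι → ℕ),
    (∀ i, (p i).Prime) → Function.Injective p → (∀ i, M i = p i ^ J i) →
    ∀ (E : Finset ℕ) (l D X R d : ℕ) (S : Finset ι) (τ : ι → ℕ) (x : ∀ i, ZMod (M i)) (U : ℝ),
    1 ≤ D → S.card ≤ d →
    (∀ D' X' R' : ℕ, 1 ≤ D' → D' * R' ≤ D * R → Sd M p E l D' X' R' (d - S.card) ≤ U) →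
    avg (fun y => ‖FF M (fun a =>
          if a ∈ AA M p d D R ∧ S ⊆ spt M a ∧ ∀ i ∈ S, lev M p a i = τ i then
            ((∏ i ∈ spt M a \ S, lam (lev M p a i) ^ 2 : ℝ) : ℂ) * coD M E l D X a else 0)
          (mix M S x y)‖ ^ 2)
      ≤ 4 ^ S.card * U

/-- hypercontractive estimate for the level-`d` part -/
def LV3 : Prop :=
  ∀ (ι : Type) [Fintype ι] [DecidableEq ι] (M : ι → ℕ) [∀ i, NeZero (M i)] (p J : ι → ℕ),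
    (∀ i, (p i).Prime) → Function.Injective p → (∀ i, M i = p i ^ J i) →
    ∀ (E : Finset ℕ) (l D X R d s : ℕ) (V : ℕ → ℝ), 1 ≤ D → 1 ≤ s →
    (∀ j ∈ Icc 1 d, ∀ D' X' R' : ℕ, 1 ≤ D' → D' * R' ≤ D * R →
      Sd M p E l D' X' R' (d - j) ≤ V j) →
    avg (fun x => ‖FF M (fun a => if a ∈ AA M p d D R then
          ((wt M p a : ℝ) : ℂ) * coD M E l D X a else 0) x‖ ^ (2 * s))
      ≤ (8 * (s : ℝ)) ^ (s * d) * ((Sd M p E l D X R d) ^ s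
          + ∑ j ∈ Icc 1 d, (2 * (s : ℝ)) ^ (s * j) * (d.choose j : ℝ) * Sd M p E l D X R d
              * (4 ^ j * V j) ^ (s - 1))

/-- numerical end of the level-`d` induction -/
def NUM : Prop :=
  ∀ (s d : ℕ) (Y ν : ℝ), 1 ≤ s → 1 ≤ d → 0 ≤ Y → Real.exp (2 * s) * ν ≤ 1 / 4 →
    Y ^ (2 * s) ≤ Real.exp (2 * s) * ((8 * (s : ℝ)) ^ (s * d) * (Y ^ s
      + ∑ j ∈ Icc 1 d, (2 * (s : ℝ)) ^ (s * j) * (d.choose j : ℝ) * Y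
          * (4 ^ j * (4096 * (s : ℝ)) ^ (d - j)) ^ (s - 1)) + ν) →
    Y ≤ (4096 * (s : ℝ)) ^ d

/-- arithmetic level-d inequality -/
def LEVD : Prop :=
  ∀ (ι : Type) [Fintype ι] [DecidableEq ι] (M : ι → ℕ) [∀ i, NeZero (M i)] (p J : ι → ℕ),
    (∀ i, (p i).Prime) → Function.Injective p → (∀ i, M i = p i ^ J i) →
    ∀ (R₀ l s : ℕ) (α : ℝ) (E : Finset ℕ),
    4 ≤ R₀ → 1 ≤ s → 0 < α → α ≤ 1 → 1 ≤ 2 * α * Real.exp (2 * s) →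
    E ⊆ range l → R₀ ^ (10 * s) ≤ l →
    (∀ D X : ℕ, 1 ≤ D → D ≤ R₀ →
      ((E.filter (fun n : ℕ => n ≡ X [MOD D])).card : ℝ) ≤ 2 * α * l / D) →
    ∀ d : ℕ,
      ∑ a ∈ univ.filter (fun a : (∀ i, ZMod (M i)) => (spt M a).card = d ∧ md M a ≤ R₀),
          wt M p a * ‖(∑ n ∈ E, (starRingEnd ℂ) (chi M a (rv M n))) / (l : ℂ)‖ ^ 2
        ≤ 4 * α ^ 2 * (4096 * (s : ℝ)) ^ d

/-! ## D. local bounds -/

/-- bound `p^{-1/t}` at primes -/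
def PRM (k t : ℕ) : Prop :=
  ∃ C : ℕ, ∀ (g : ℤ[X]) (p : ℕ) (a : ℤ), g.natDegree ≤ k → p.Prime →
    (∃ i : ℕ, 1 ≤ i ∧ ¬ ((p : ℤ) ∣ g.coeff i)) → ¬ ((p : ℤ) ∣ a) →
    ‖Gs g a p‖ ^ t * (p : ℝ) ≤ C

/-- Weil's bound -/
def WEIL : Prop := ∀ k : ℕ, 1 ≤ k → PRM k 2

/-- proper prime powers: `C/p` -/
def LOC2 : Prop :=
  ∀ k : ℕ, 2 ≤ k → ∃ C : ℕ, ∀ (g : ℤ[X]) (p e : ℕ) (a : ℤ), g.natDegree ≤ k → p.Prime →
    (∃ i : ℕ, 1 ≤ i ∧ ¬ ((p : ℤ) ∣ g.coeff i)) → 2 ≤ e → ¬ ((p : ℤ) ∣ a) →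
    ‖Gs g a (p ^ e)‖ * (p : ℝ) ≤ C

/-- primes `p` with `v_p(q) > v_p(m)` -/
def bg (m q : ℕ) : Finset ℕ :=
  q.primeFactors.filter (fun p => m.factorization p < q.factorization p)

/-- the weight of the part of `q` outside `m` -/
def wq (m q : ℕ) : ℝ := ∏ p ∈ bg m q, lam (q.factorization p - m.factorization p) ^ 2

/-- random covering modulus -/
def COVER : Prop :=
  ∀ k t a : ℕ, 2 ≤ k → 2 ≤ t → PRM k t → ∃ K : ℕ, ∀ L : ℕ, 1 ≤ L → ∃ μ : ℕ → ℝ,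
    (∀ m, 0 ≤ μ m) ∧ ∑ m ∈ Icc 1 (2 ^ (K * L ^ (t - 1))), μ m ≤ 1 ∧
    ∀ q ∈ Icc 1 (2 ^ (a * L)), ∀ (g : ℤ[X]) (r : ℕ), g.natDegree ≤ k → NC g → Nat.Coprime r q →
      ‖Gs g r q‖ ≤ 2 * ∑ m ∈ Icc 1 (2 ^ (K * L ^ (t - 1))),
        μ m * (wq m q / (64 * (4096 * (L : ℝ))) ^ (bg m q).card)

/-! ## G. energies -/

/-- local moduli -/
def Mq (Q : ℕ) (i : Idx Q) : ℕ := (i : ℕ) ^ (Nat.log i Q)

instance (Q : ℕ) (i : Idx Q) : NeZero (Mq Q i) :=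
  ⟨pow_ne_zero _ (by
    have := (Finset.mem_filter.1 i.2).2
    exact this.ne_zero)⟩

/-- the primes -/
def prq (Q : ℕ) (i : Idx Q) : ℕ := (i : ℕ)

/-- energy inequality: fractions `r/q`, modulus `m` -/
def ENERD : Prop :=
  ∀ (m Q l' z d : ℕ) (A : Finset ℕ), 1 ≤ m → 1 ≤ Q → A ⊆ Ioc z (z + m * l') →
    ∑ q ∈ Icc 1 Q, ∑ r ∈ (range q).filter (fun r => Nat.Coprime r q ∧ (bg m q).card = d),
        wq m q * ‖∑ n ∈ A, ee ((n : ℝ) * ((r : ℝ) / q))‖ ^ 2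
      ≤ (m : ℝ) * ∑ c ∈ range m,
          ∑ x ∈ univ.filter (fun x : (∀ i : Idx Q, ZMod (Mq Q i)) =>
              (spt (Mq Q) x).card = d ∧ md (Mq Q) x ≤ Q),
            wt (Mq Q) (prq Q) x *
              ‖∑ n ∈ sub A m z l' c, (starRingEnd ℂ) (chi (Mq Q) x (rv (Mq Q) n))‖ ^ 2

/-- the main inequality -/
def KEYD : Prop :=
  ∀ (Q J l s₀ K₀ s mm : ℕ) (α : ℝ) (A : Finset ℕ) (Gc : ℕ → ℕ → ℂ) (μ : ℕ → ℝ),
    4 ≤ Q → 1 ≤ s → 0 < α → α ≤ 1 → 1 ≤ 2 * α * Real.exp (2 * s) →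
    256 * (s₀ + K₀) ≤ J → 256 ≤ K₀ → 128 * (Q : ℝ) ^ 2 ≤ α * K₀ →
    1 ≤ mm → 1000 * mm * Q ^ (10 * s) ≤ l →
    (∀ m, 0 ≤ μ m) → ∑ m ∈ Icc 1 mm, μ m ≤ 1 →
    (∀ q ∈ Icc 1 Q, ∀ r ∈ (range q).filter (fun r => Nat.Coprime r q), ‖Gc q r‖ ≤ 1) →
    Gc 1 0 = 1 →
    (∀ q ∈ Icc 1 Q, ∀ r ∈ (range q).filter (fun r => Nat.Coprime r q),
      ‖Gc q r‖ ≤ 2 * ∑ m ∈ Icc 1 mm,
        μ m * (wq m q / (64 * (4096 * (s : ℝ))) ^ (bg m q).card)) →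
    A ⊆ Icc 1 (J * l) →
    (A.card : ℝ) = α * (J * l : ℕ) →
    (∀ j < J, ∀ m ∈ Icc 1 mm, ∀ c < m, ∀ D ∈ Icc 1 Q, ∀ X : ℕ,
      (((sub (cell A l j) m (j * l) (l / m + 1) c).filter
          (fun n : ℕ => n ≡ X [MOD D])).card : ℝ)
        ≤ 17 / 16 * α * ((l / m + 1 : ℕ) : ℝ) / D) →
    1 / 2 * α ^ 2 * (J * l : ℕ) ≤
      ‖∑ q ∈ Icc 1 Q, ∑ r ∈ (range q).filter (fun r => Nat.Coprime r q),
          Gc q r * RR A l s₀ K₀ ((r : ℝ) / q)‖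

/-! ## H. density increment and iteration -/

/-- one step -/
def STEPD : Prop :=
  ∀ k t : ℕ, 2 ≤ k → 2 ≤ t → PRM k t → ∃ K : ℕ, ∀ (L H N : ℕ) (g : ℤ[X]) (A : Finset ℕ),
    1 ≤ L → 1 ≤ H →
    g.natDegree = k → 0 < g.leadingCoeff → NC g → (∀ i, |g.coeff i| ≤ (H : ℤ)) →
    (H * 2 ^ (L ^ t)) ^ K ≤ N → A ⊆ Icc 1 N → N ≤ 2 ^ L * A.card →
    (∀ x ∈ A, ∀ y ∈ A, ∀ u : ℕ, 1 ≤ u → (y : ℤ) - (x : ℤ) = g.eval (u : ℤ) → x = y) →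
    ∃ q l z c : ℕ, 1 ≤ q ∧ q ≤ 2 ^ (K * L ^ (t - 1)) ∧ N ≤ 2 ^ (K * L) * l ∧ z + l ≤ N ∧
      (33 / 32 : ℝ) * A.card * l
        ≤ N * q * ((A.filter (fun n => n ∈ Ioc z (z + l) ∧ n ≡ c [MOD q])).card : ℝ)

/-- main theorem in dyadic form -/
def MAIND : Prop :=
  ∀ (k t : ℕ) (h : ℤ[X]), 2 ≤ k → 2 ≤ t → PRM k t → h.natDegree = k → 0 < h.leadingCoeff →
    Intersective h →
    ∃ C : ℕ, ∀ (L N : ℕ) (A : Finset ℕ), 1 ≤ L → 1 ≤ N → A ⊆ Icc 1 N → N ≤ 2 ^ L * A.card →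
      Avoids h A → N ≤ 2 ^ (C * L ^ t)

/-- the final statement -/
def FINALD : Prop :=
  ∀ (k t : ℕ) (h : ℤ[X]), 2 ≤ k → 2 ≤ t → PRM k t → h.natDegree = k → 0 < h.leadingCoeff →
    Intersective h →
    ∃ c : ℝ, 0 < c ∧ ∃ C : ℝ, ∀ N : ℕ, 1 ≤ N →
      (rh h N : ℝ) ≤ C * N * Real.exp (-c * (Real.log N) ^ ((1 : ℝ) / t))

end

end Vale.Agent.P042
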