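import Mathlib

/-!
# P042: definitions used in the final statement
-/

open Polynomial

namespace Vale.Agent.P042

/-- `h` is intersective: it has a root modulo every positive integer. -/
def Intersective (h : ℤ[X]) : Prop :=
  ∀ q : ℕ, 1 ≤ q → ∃ t : ℤ, (q : ℤ) ∣ h.eval t

/-- `(A - A) ∩ h(ℕ₊) ⊆ {0}`. -/
def Avoids (h : ℤ[X]) (A : Finset ℕ) : Prop :=
  ∀ a ∈ A, ∀ b ∈ A, ∀ n : ℕ, 1 ≤ n → (a : ℤ) - (b : ℤ) = h.eval (n : ℤ) → (a : ℤ) - (b : ℤ) = 0

open Classical in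
/-- `r_h(N)`: the largest size of a subset of `[N]` no difference of which is a nonzero
value `h(n)`, `n ≥ 1`. -/
noncomputable def rh (h : ℤ[X]) (N : ℕ) : ℕ :=
  ((Finset.Icc 1 N).powerset.filter (fun A => Avoids h A)).sup Finset.card

end Vale.Agent.P042
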