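import Vale.Agent.P042.Core

open Polynomial Finset

namespace Vale.Agent.P042

theorem gb2_norm_ee (x : ℝ) : ‖ee x‖ = 1 := by
  unfold ee
  exact Complex.norm_exp_ofReal_mul_I _

theorem gb2_norm_Gs_le (g : ℤ[X]) (a : ℤ) (q : ℕ) : ‖Gs g a q‖ ≤ 1 := by
  unfold Gs
  rw [norm_div, Complex.norm_natCast]
  rcases Nat.eq_zero_or_pos q with h | h
  · subst h; simp
  · have hq : (0 : ℝ) < q := by exact_mod_cast h
    rw [div_le_one hq]
    calc ‖∑ u ∈ range q, ee ((a : ℝ) * ((g.eval (u : ℤ) : ℤ) : ℝ) / (q : ℝ))‖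
        ≤ ∑ u ∈ range q, ‖ee ((a : ℝ) * ((g.eval (u : ℤ) : ℤ) : ℝ) / (q : ℝ))‖ := norm_sum_le _ _
      _ = ∑ u ∈ range q, (1 : ℝ) := sum_congr rfl (fun u _ => gb2_norm_ee _)
      _ = q := by simp

theorem gb2 : LOC → GPOW → GB2 := by
  intro hloc hgp k hk
  obtain ⟨C0, hC0⟩ := hloc k hk
  refine ⟨C0 + 1, by omega, ?_⟩
  intro g q P a hg hnc hq hP hcop
  obtain ⟨α, hα, hprod⟩ := hgp g q a hq hcop
  have hfac : ∀ p ∈ bigp P q,
      ‖Gs g (α p) (p ^ q.factorization p)‖ ^ kap k * (P : ℝ) ≤ ((C0 + 1 : ℕ) : ℝ) := by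
    intro p hp'
    obtain ⟨hp, hbig⟩ := mem_filter.1 hp'
    have hpp : p.Prime := Nat.prime_of_mem_primeFactors hp
    have he : 1 ≤ q.factorization p :=
      (hpp.dvd_iff_one_le_factorization (by omega)).1 (Nat.dvd_of_mem_primeFactors hp)
    have hb := hC0 g p (q.factorization p) (α p) hg hpp (hnc p hpp) he (hα p hp)
    have hbig' : (P : ℝ) ≤ (p : ℝ) ^ q.factorization p := by exact_mod_cast hbig.le
    have hG0 : 0 ≤ ‖Gs g (α p) (p ^ q.factorization p)‖ ^ kap k := by positivity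
    calc ‖Gs g (α p) (p ^ q.factorization p)‖ ^ kap k * (P : ℝ)
        ≤ ‖Gs g (α p) (p ^ q.factorization p)‖ ^ kap k * ((p : ℝ) ^ q.factorization p) :=
          mul_le_mul_of_nonneg_left hbig' hG0
      _ ≤ C0 := hb
      _ ≤ ((C0 + 1 : ℕ) : ℝ) := by push_cast; linarith
  have hnorm : ‖Gs g a q‖ ≤ ∏ p ∈ bigp P q, ‖Gs g (α p) (p ^ q.factorization p)‖ := by
    rw [hprod, norm_prod]
    unfold bigp
    rw [prod_filter]
    apply prod_le_prod (fun p _ => norm_nonneg _)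
    intro p _
    split_ifs
    · exact le_refl _
    · exact gb2_norm_Gs_le _ _ _
  calc ‖Gs g a q‖ ^ kap k * (P : ℝ) ^ (bigp P q).card
      ≤ (∏ p ∈ bigp P q, ‖Gs g (α p) (p ^ q.factorization p)‖) ^ kap k
          * (P : ℝ) ^ (bigp P q).card := by
        apply mul_le_mul_of_nonneg_right _ (by positivity)
        exact pow_le_pow_left₀ (norm_nonneg _) hnorm _
    _ = ∏ p ∈ bigp P q, (‖Gs g (α p) (p ^ q.factorization p)‖ ^ kap k * (P : ℝ)) := by
        rw [prod_mul_distrib, prod_pow, prod_const]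
    _ ≤ ∏ p ∈ bigp P q, (((C0 + 1 : ℕ) : ℝ)) :=
        prod_le_prod (fun p _ => by positivity) hfac
    _ = ((C0 + 1 : ℕ) : ℝ) ^ (bigp P q).card := by rw [prod_const]

end Vale.Agent.P042
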