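import Vale.Agent.P042.Core

/-!
# P042, module B1: character sums over residue classes in an interval
-/

open Polynomial Finset

set_option linter.unusedSectionVars false

namespace Vale.Agent.P042

namespace GeoAux

variable {ι : Type} [Fintype ι] [DecidableEq ι] (M : ι → ℕ) [∀ i, NeZero (M i)]

lemma chi_rv_add (b : ∀ i, ZMod (M i)) (m n : ℕ) :
    chi M b (rv M (m + n)) = chi M b (rv M m) * chi M b (rv M n) := by
  unfold chi rv
  rw [← Finset.prod_mul_distrib]
  refine Finset.prod_congr rfl (fun i _ => ?_)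
  rw [Nat.cast_add, mul_add, AddChar.map_add_eq_mul]

lemma chi_rv_mul (b : ∀ i, ZMod (M i)) (n m : ℕ) :
    chi M b (rv M (n * m)) = chi M b (rv M n) ^ m := by
  induction m with
  | zero =>
    unfold chi rv
    simp
  | succ m ih =>
    rw [Nat.mul_succ, chi_rv_add, ih, pow_succ]

lemma norm_chi (a x : ∀ i, ZMod (M i)) : ‖chi M a x‖ = 1 := by
  unfold chi
  rw [norm_prod]
  refine Finset.prod_eq_one (fun i _ => ?_)
  exact AddChar.norm_apply _ _

lemma chi_zero (x : ∀ i, ZMod (M i)) : chi M 0 x = 1 := by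
  unfold chi
  refine Finset.prod_eq_one (fun i _ => ?_)
  rw [Pi.zero_apply, zero_mul, AddChar.map_zero_eq_one]

/-- a bounded geometric sum -/
lemma geom_bound (w : ℂ) (B R : ℕ) (hB : w ^ B = 1) (hw : w ≠ 1) (hn : ‖w‖ = 1) (hB0 : 0 < B) :
    ‖∑ m ∈ range R, w ^ m‖ ≤ B := by
  have h1 : ∑ m ∈ range R, w ^ m = ∑ m ∈ range (R % B), w ^ m := by
    rw [geom_sum_eq hw, geom_sum_eq hw]
    have : w ^ R = w ^ (R % B) := by
      conv_lhs => rw [← Nat.div_add_mod R B, pow_add, pow_mul, hB, one_pow, one_mul]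
    rw [this]
  rw [h1]
  calc ‖∑ m ∈ range (R % B), w ^ m‖ ≤ ∑ m ∈ range (R % B), ‖w ^ m‖ := norm_sum_le _ _
    _ = ((R % B : ℕ) : ℝ) := by
        simp [hn]
    _ ≤ B := by
        exact_mod_cast (Nat.mod_lt _ hB0).le

/-- the residue class as an arithmetic progression -/
lemma class_eq (hcop : ∀ i j, i ≠ j → Nat.Coprime (M i) (M j)) (T : Finset ι)
    (x : ∀ i, ZMod (M i)) :
    ∃ n₀ : ℕ, n₀ < ∏ i ∈ T, M i ∧ ∀ n : ℕ,
      ((∀ i ∈ T, (n : ZMod (M i)) = x i) ↔ n ≡ n₀ [MOD ∏ i ∈ T, M i]) := by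
  classical
  have hne : ∀ i ∈ T, M i ≠ 0 := fun i _ => NeZero.ne (M i)
  have hpw : Set.Pairwise (T : Set ι) (Function.onFun Nat.Coprime M) :=
    fun i _ j _ hij => hcop i j hij
  obtain ⟨k, hk⟩ := Nat.chineseRemainderOfFinset (fun i => (x i).val) M T hne hpw
  have hpos : 0 < ∏ i ∈ T, M i := Finset.prod_pos (fun i hi => Nat.pos_of_ne_zero (hne i hi))
  refine ⟨k % ∏ i ∈ T, M i, Nat.mod_lt _ hpos, ?_⟩
  intro n
  have hcast : ∀ i ∈ T, ((n : ZMod (M i)) = x i ↔ n ≡ k [MOD M i]) := by
    intro i hi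
    have h1 : x i = ((k : ℕ) : ZMod (M i)) := by
      have h2 := (ZMod.natCast_eq_natCast_iff k (x i).val (M i)).2 (hk i hi)
      rw [h2, ZMod.natCast_zmod_val]
    rw [h1, ZMod.natCast_eq_natCast_iff]
  have hmod : n ≡ k % (∏ i ∈ T, M i) [MOD ∏ i ∈ T, M i] ↔ n ≡ k [MOD ∏ i ∈ T, M i] := by
    constructor
    · intro h
      exact h.trans (Nat.mod_modEq _ _)
    · intro h
      exact h.trans (Nat.mod_modEq _ _).symm
  rw [hmod]
  constructor
  · intro h
    rw [Nat.modEq_iff_dvd]
    push_cast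
    refine Finset.prod_dvd_of_coprime ?_ ?_
    · intro i _ j _ hij
      exact Nat.isCoprime_iff_coprime.2 (hcop i j hij)
    · intro i hi
      have := (hcast i hi).1 (h i hi)
      rwa [Nat.modEq_iff_dvd] at this
  · intro h i hi
    refine (hcast i hi).2 ?_
    exact h.of_dvd (Finset.dvd_prod_of_mem M hi)

/-- filter of a range by a residue class -/
lemma filter_class (D l n₀ : ℕ) (hD : 0 < D) (hn : n₀ < D) :
    (range l).filter (fun n : ℕ => n ≡ n₀ [MOD D])
      = (range ((l + (D - 1 - n₀)) / D)).image (fun m => n₀ + D * m) := by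
  ext n
  rw [mem_filter, mem_range, mem_image]
  constructor
  · rintro ⟨h1, h2⟩
    have h3 : n % D = n₀ := by
      have : n % D = n₀ % D := h2
      rwa [Nat.mod_eq_of_lt hn] at this
    refine ⟨n / D, ?_, ?_⟩
    · rw [mem_range]
      rw [Nat.lt_iff_add_one_le, Nat.le_div_iff_mul_le hD]
      have h4 : D * (n / D) + n % D = n := Nat.div_add_mod n D
      have h5 : (n / D + 1) * D = D * (n / D) + D := by ring
      rw [h5]
      omega
    · rw [← h3, add_comm]
      exact Nat.div_add_mod n D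
  · rintro ⟨m, hm, rfl⟩
    rw [mem_range, Nat.lt_iff_add_one_le, Nat.le_div_iff_mul_le hD] at hm
    have h5 : (m + 1) * D = D * m + D := by ring
    rw [h5] at hm
    refine ⟨by omega, ?_⟩
    unfold Nat.ModEq
    rw [Nat.add_mul_mod_self_left]

end GeoAux

open GeoAux in
theorem geo : GEO := by
  intro ι _ _ M _ hcop T x b l hdis
  obtain ⟨n₀, hn₀, hiff⟩ := class_eq M hcop T x
  set D := ∏ i ∈ T, M i with hD
  have hDpos : 0 < D := lt_of_le_of_lt (Nat.zero_le _) hn₀
  have hfil : (range l).filter (fun n : ℕ => ∀ i ∈ T, (n : ZMod (M i)) = x i)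
      = (range ((l + (D - 1 - n₀)) / D)).image (fun m => n₀ + D * m) := by
    rw [← filter_class D l n₀ hDpos hn₀]
    refine Finset.filter_congr (fun n _ => hiff n)
  set R := (l + (D - 1 - n₀)) / D with hR
  have hinj : Set.InjOn (fun m => n₀ + D * m) (range R : Set ℕ) := by
    intro a _ c _ h
    have h' : n₀ + D * a = n₀ + D * c := h
    have : D * a = D * c := by omega
    exact Nat.eq_of_mul_eq_mul_left hDpos this
  rw [hfil, Finset.sum_image hinj]
  have hDc : (∏ i ∈ T, (M i : ℂ)) = (D : ℂ) := by rw [hD]; push_cast; rfl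
  rw [hDc]
  have hsum : ∑ m ∈ range R, chi M b (rv M (n₀ + D * m))
      = chi M b (rv M n₀) * ∑ m ∈ range R, chi M b (rv M D) ^ m := by
    rw [Finset.mul_sum]
    refine Finset.sum_congr rfl (fun m _ => ?_)
    rw [chi_rv_add, chi_rv_mul]
  by_cases hb : b = 0
  · subst hb
    rw [if_pos rfl]
    have hs0 : spt M (0 : ∀ i, ZMod (M i)) = ∅ := by
      unfold spt
      ext i
      simp
    rw [hs0, Finset.prod_empty]
    simp only [chi_zero, Finset.sum_const, card_range, nsmul_eq_mul, mul_one]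
    have hDr : (0 : ℝ) < D := by exact_mod_cast hDpos
    have h1 : ((R : ℂ) - (l : ℂ) / (D : ℂ)) = (((R : ℝ) - (l : ℝ) / (D : ℝ) : ℝ) : ℂ) := by
      push_cast
      ring
    rw [h1, Complex.norm_real, Real.norm_eq_abs, abs_le]
    have hup : (R : ℝ) * D ≤ l + (D - 1 - n₀ : ℕ) := by
      have : R * D ≤ l + (D - 1 - n₀) := Nat.div_mul_le_self _ _
      exact_mod_cast this
    have hlo : (l : ℝ) + (D - 1 - n₀ : ℕ) < (R + 1) * D := by
      have : l + (D - 1 - n₀) < (R + 1) * D := by
        rw [hR, mul_comm]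
        exact Nat.lt_mul_div_succ _ hDpos
      exact_mod_cast this
    have hc1 : ((D - 1 - n₀ : ℕ) : ℝ) ≤ D := by
      exact_mod_cast (by omega : D - 1 - n₀ ≤ D)
    have hc2 : (0 : ℝ) ≤ ((D - 1 - n₀ : ℕ) : ℝ) := Nat.cast_nonneg _
    constructor
    · rw [neg_le_sub_iff_le_add, div_le_iff₀ hDr]
      nlinarith
    · rw [sub_le_iff_le_add, ← sub_le_iff_le_add', le_div_iff₀ hDr]
      nlinarith
  · rw [if_neg hb, sub_zero, hsum, norm_mul, norm_chi, one_mul]
    -- w
    set B := ∏ i ∈ spt M b, M i with hBdef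
    have hBpos : 0 < B := Finset.prod_pos (fun i _ => Nat.pos_of_ne_zero (NeZero.ne (M i)))
    have hBr : (∏ i ∈ spt M b, (M i : ℝ)) = (B : ℝ) := by rw [hBdef]; push_cast; rfl
    rw [hBr]
    refine geom_bound _ B R ?_ ?_ (norm_chi M _ _) hBpos
    · rw [← chi_rv_mul]
      unfold chi rv
      refine Finset.prod_eq_one (fun i _ => ?_)
      by_cases hi : b i = 0
      · rw [hi, zero_mul, AddChar.map_zero_eq_one]
      · have hmem : i ∈ spt M b := by
          unfold spt
          rw [mem_filter]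
          exact ⟨mem_univ _, hi⟩
        have hdvd : M i ∣ D * B := Dvd.dvd.mul_left (Finset.dvd_prod_of_mem M hmem) D
        have : ((D * B : ℕ) : ZMod (M i)) = 0 := (ZMod.natCast_eq_zero_iff _ _).2 hdvd
        rw [this, mul_zero, AddChar.map_zero_eq_one]
    · intro hw
      have : ∃ i, b i ≠ 0 := by
        by_contra hcon
        push Not at hcon
        exact hb (funext hcon)
      obtain ⟨i, hi⟩ := this
      have hmem : i ∈ spt M b := by
        unfold spt
        rw [mem_filter]
        exact ⟨mem_univ _, hi⟩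
      set B' := ∏ j ∈ (spt M b).erase i, M j with hB'
      have h1 : chi M b (rv M (D * B')) = 1 := by rw [chi_rv_mul, hw, one_pow]
      have h2 : chi M b (rv M (D * B'))
          = ZMod.stdAddChar (b i * ((D * B' : ℕ) : ZMod (M i))) := by
        unfold chi rv
        rw [Finset.prod_eq_single i]
        · intro j _ hj
          by_cases hbj : b j = 0
          · rw [hbj, zero_mul, AddChar.map_zero_eq_one]
          · have hmemj : j ∈ (spt M b).erase i := by
              rw [mem_erase]
              refine ⟨hj, ?_⟩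
              unfold spt
              rw [mem_filter]
              exact ⟨mem_univ _, hbj⟩
            have hdvd : M j ∣ D * B' := Dvd.dvd.mul_left (Finset.dvd_prod_of_mem M hmemj) D
            have : ((D * B' : ℕ) : ZMod (M j)) = 0 := (ZMod.natCast_eq_zero_iff _ _).2 hdvd
            rw [this, mul_zero, AddChar.map_zero_eq_one]
        · intro h
          exact absurd (mem_univ i) h
      rw [h1] at h2
      have h3 : b i * ((D * B' : ℕ) : ZMod (M i)) = 0 := by
        have := h2.symm
        rw [← (ZMod.stdAddChar (N := M i)).map_zero_eq_one] at this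
        exact ZMod.injective_stdAddChar this
      have hcopD : Nat.Coprime (D * B') (M i) := by
        refine Nat.Coprime.mul_left ?_ ?_
        · rw [hD]
          refine Nat.Coprime.prod_left (fun j hj => ?_)
          refine hcop j i ?_
          rintro rfl
          exact (Finset.disjoint_left.1 hdis hmem) hj
        · rw [hB']
          refine Nat.Coprime.prod_left (fun j hj => ?_)
          exact hcop j i (Finset.mem_erase.1 hj).1
      have hunit : IsUnit ((D * B' : ℕ) : ZMod (M i)) := (ZMod.isUnit_iff_coprime _ _).2 hcopD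
      exact hi ((hunit.mul_left_eq_zero).1 h3)

end Vale.Agent.P042
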