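import Vale.Agent.P042.Core

/-!
# P042, module A1: hypercontractivity, one coordinate
-/

open Finset

namespace Vale.Agent.P042

namespace HConeAux

/-- second order bound for `(a^2+Z)^s` -/
theorem pow_second_order (s : ℕ) (x Z B : ℝ) (hx : 0 ≤ x) (hxB : x ≤ B) (hB : x + Z ≤ B)
    (hxZ : 0 ≤ x + Z) :
    (x + Z) ^ (s + 2) ≤ x ^ (s + 2) + (s + 2) * x ^ (s + 1) * Z
      + ((s + 2) * (s + 1) / 2) * Z ^ 2 * B ^ s := by
  induction s with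
  | zero => 
    norm_num
    nlinarith [sq_nonneg Z]
  | succ n ih =>
    have hB0 : 0 ≤ B := hx.trans hxB
    have h1 : (x + Z) ^ (n + 1 + 2) = (x + Z) * (x + Z) ^ (n + 2) := by ring
    rw [h1]
    have h2 : (x + Z) * (x + Z) ^ (n + 2) ≤ (x + Z) * (x ^ (n + 2) + (n + 2) * x ^ (n + 1) * Z
      + ((n + 2) * (n + 1) / 2) * Z ^ 2 * B ^ n) := mul_le_mul_of_nonneg_left ih hxZ
    refine h2.trans ?_
    have h3 : (x + Z) * (((n + 2) * (n + 1) / 2) * Z ^ 2 * B ^ n)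
        ≤ B * (((n + 2) * (n + 1) / 2) * Z ^ 2 * B ^ n) := by
      apply mul_le_mul_of_nonneg_right hB
      positivity
    have h4 : x ^ (n + 1) ≤ B ^ (n + 1) := pow_le_pow_left₀ hx hxB _
    have h5 : (n + 2) * x ^ (n + 1) * Z ^ 2 ≤ (n + 2) * B ^ (n + 1) * Z ^ 2 := by
      gcongr
    have e1 : (x + Z) * (x ^ (n + 2) + (n + 2) * x ^ (n + 1) * Z
      + ((n + 2) * (n + 1) / 2) * Z ^ 2 * B ^ n)
      = x ^ (n + 3) + (n + 3) * x ^ (n + 2) * Z + (n + 2) * x ^ (n + 1) * Z ^ 2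
        + (x + Z) * (((n + 2) * (n + 1) / 2) * Z ^ 2 * B ^ n) := by ring
    rw [e1]
    have e2 : B * (((n + 2) * (n + 1) / 2) * Z ^ 2 * B ^ n)
        = ((n + 2) * (n + 1) / 2) * Z ^ 2 * B ^ (n + 1) := by ring
    push_cast
    have e3 : (((n : ℝ) + 1 + 2) * (n + 1 + 1) / 2) * Z ^ 2 * B ^ (n + 1)
        = (n + 2) * B ^ (n + 1) * Z ^ 2 + ((n + 2) * (n + 1) / 2) * Z ^ 2 * B ^ (n + 1) := by ring
    rw [e3, ← e2]
    have e4 : x ^ (n + 1 + 2) + ((n : ℝ) + 1 + 2) * x ^ (n + 1 + 1) * Z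
        = x ^ (n + 3) + (n + 3) * x ^ (n + 2) * Z := by ring
    rw [e4]
    linarith

/-- pointwise expansion -/
theorem pointwise_exp (s : ℕ) (hs : 1 ≤ s) (a t ρ ip : ℝ) (ha : 0 ≤ a) (ht : 0 ≤ t) (hρ : 0 ≤ ρ)
    (hip : |ip| ≤ a * t) :
    (a ^ 2 + 2 * ρ * ip + ρ ^ 2 * t ^ 2) ^ s ≤ a ^ (2 * s) + 2 * s * ρ * a ^ (2 * s - 2) * ip
      + s * (2 * s - 1) * ρ ^ 2 * t ^ 2 * (a + ρ * t) ^ (2 * s - 2) := by
  obtain ⟨h1, h2⟩ := abs_le.1 hip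
  rcases Nat.lt_or_ge s 2 with hs2 | hs2
  · have : s = 1 := by omega
    subst this
    norm_num
  · obtain ⟨n, rfl⟩ : ∃ n, s = n + 2 := ⟨s - 2, by omega⟩
    have hx : 0 ≤ a ^ 2 := by positivity
    have hρt : 0 ≤ ρ * t := by positivity
    have hB1 : a ^ 2 ≤ (a + ρ * t) ^ 2 := pow_le_pow_left₀ ha (by linarith) 2
    have hB2 : a ^ 2 + (2 * ρ * ip + ρ ^ 2 * t ^ 2) ≤ (a + ρ * t) ^ 2 := by
      have : ρ * ip ≤ ρ * (a * t) := mul_le_mul_of_nonneg_left h2 hρ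
      nlinarith
    have hxZ : 0 ≤ a ^ 2 + (2 * ρ * ip + ρ ^ 2 * t ^ 2) := by
      have : ρ * (-(a * t)) ≤ ρ * ip := mul_le_mul_of_nonneg_left h1 hρ
      nlinarith [sq_nonneg (a - ρ * t)]
    have key := pow_second_order n (a ^ 2) (2 * ρ * ip + ρ ^ 2 * t ^ 2) ((a + ρ * t) ^ 2) hx hB1 hB2
      hxZ
    have e0 : a ^ 2 + 2 * ρ * ip + ρ ^ 2 * t ^ 2 = a ^ 2 + (2 * ρ * ip + ρ ^ 2 * t ^ 2) := by ring
    rw [e0]
    refine key.trans ?_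
    have e1 : 2 * (n + 2) - 2 = 2 * (n + 1) := by omega
    rw [e1]
    have hZ2 : (2 * ρ * ip + ρ ^ 2 * t ^ 2) ^ 2 ≤ 4 * ρ ^ 2 * t ^ 2 * (a + ρ * t) ^ 2 := by
      have hZabs : |2 * ρ * ip + ρ ^ 2 * t ^ 2| ≤ 2 * ρ * t * (a + ρ * t) := by
        rw [abs_le]
        have h3 : ρ * ip ≤ ρ * (a * t) := mul_le_mul_of_nonneg_left h2 hρ
        have h4 : ρ * (-(a * t)) ≤ ρ * ip := mul_le_mul_of_nonneg_left h1 hρ
        constructor <;> nlinarith [mul_nonneg hρt hρt, mul_nonneg ha hρt]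
      have := sq_le_sq' (by linarith [abs_le.1 hZabs |>.1]) (abs_le.1 hZabs).2
      calc (2 * ρ * ip + ρ ^ 2 * t ^ 2) ^ 2 ≤ (2 * ρ * t * (a + ρ * t)) ^ 2 := this
        _ = _ := by ring
    have hpow : (a ^ 2) ^ (n + 1) ≤ ((a + ρ * t) ^ 2) ^ (n + 1) := pow_le_pow_left₀ hx hB1 _
    have t1 : ((n : ℝ) + 2) * (a ^ 2) ^ (n + 1) * (ρ ^ 2 * t ^ 2)
        ≤ ((n : ℝ) + 2) * ((a + ρ * t) ^ 2) ^ (n + 1) * (ρ ^ 2 * t ^ 2) := by gcongr
    have t2 : (((n : ℝ) + 2) * (n + 1) / 2) * (2 * ρ * ip + ρ ^ 2 * t ^ 2) ^ 2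
          * ((a + ρ * t) ^ 2) ^ n
        ≤ (((n : ℝ) + 2) * (n + 1) / 2) * (4 * ρ ^ 2 * t ^ 2 * (a + ρ * t) ^ 2)
          * ((a + ρ * t) ^ 2) ^ n := by gcongr
    have e2 : (a ^ 2) ^ (n + 2) = a ^ (2 * (n + 2)) := by rw [← pow_mul]
    have e3 : (a ^ 2) ^ (n + 1) = a ^ (2 * (n + 1)) := by rw [← pow_mul]
    have e4 : ((a + ρ * t) ^ 2) ^ (n + 1) = (a + ρ * t) ^ (2 * (n + 1)) := by rw [← pow_mul]
    have e5 : (4 * ρ ^ 2 * t ^ 2 * (a + ρ * t) ^ 2) * ((a + ρ * t) ^ 2) ^ n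
        = 4 * ρ ^ 2 * t ^ 2 * (a + ρ * t) ^ (2 * (n + 1)) := by rw [← e4]; ring
    rw [mul_assoc (((n : ℝ) + 2) * (n + 1) / 2) (4 * ρ ^ 2 * t ^ 2 * (a + ρ * t) ^ 2), e5] at t2
    rw [e3, e4] at t1
    rw [e2, e3]
    push_cast
    nlinarith [t1, t2]

/-- the exponential factor -/
theorem one_add_pow_le (s : ℕ) (hs : 1 ≤ s) : (1 + 1 / (2 * (s : ℝ))) ^ (2 * s - 2) ≤ 3 := by
  have hs0 : (0 : ℝ) < s := by exact_mod_cast hs
  have h1 : 1 + 1 / (2 * (s : ℝ)) ≤ Real.exp (1 / (2 * s)) := by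
    have := Real.add_one_le_exp (1 / (2 * (s : ℝ)))
    linarith
  calc (1 + 1 / (2 * (s : ℝ))) ^ (2 * s - 2) ≤ (Real.exp (1 / (2 * s))) ^ (2 * s - 2) :=
        pow_le_pow_left₀ (by positivity) h1 _
    _ = Real.exp (((2 * s - 2 : ℕ) : ℝ) * (1 / (2 * s))) := by rw [← Real.exp_nat_mul]
    _ ≤ Real.exp 1 := by
        apply Real.exp_le_exp.2
        rw [mul_one_div, div_le_one (by positivity)]
        have : 2 * s - 2 ≤ 2 * s := by omega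
        exact_mod_cast this
    _ ≤ 3 := le_of_lt Real.exp_one_lt_three

/-- splitting the second order term -/
theorem second_term (s : ℕ) (hs : 1 ≤ s) (a t ρ : ℝ) (ha : 0 ≤ a) (ht : 0 ≤ t) (hρ : 0 ≤ ρ)
    (hρ2 : ρ ^ 2 = 1 / (8 * s)) :
    s * (2 * s - 1) * ρ ^ 2 * t ^ 2 * (a + ρ * t) ^ (2 * s - 2)
      ≤ s * a ^ (2 * s - 2) * t ^ 2 + (2 * (s : ℝ)) ^ s * t ^ (2 * s) := by
  have hs0 : (0 : ℝ) < s := by exact_mod_cast hs
  have hs1 : (1 : ℝ) ≤ s := by exact_mod_cast hs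
  rw [hρ2]
  have e1 : (s : ℝ) * (2 * s - 1) * (1 / (8 * s)) = (2 * s - 1) / 8 := by field_simp
  rw [e1]
  have hc : (0 : ℝ) ≤ (2 * s - 1) / 8 := by linarith
  rcases le_or_gt (2 * s * (ρ * t)) a with h | h
  · have h1 : a + ρ * t ≤ a * (1 + 1 / (2 * s)) := by
      have : ρ * t ≤ a * (1 / (2 * s)) := by
        rw [mul_one_div, le_div_iff₀ (by positivity)]
        linarith
      linarith
    have h2 : (a + ρ * t) ^ (2 * s - 2) ≤ a ^ (2 * s - 2) * 3 := by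
      calc (a + ρ * t) ^ (2 * s - 2) ≤ (a * (1 + 1 / (2 * s))) ^ (2 * s - 2) :=
            pow_le_pow_left₀ (by positivity) h1 _
        _ = a ^ (2 * s - 2) * (1 + 1 / (2 * s)) ^ (2 * s - 2) := by rw [mul_pow]
        _ ≤ a ^ (2 * s - 2) * 3 := by
            gcongr
            exact one_add_pow_le s hs
    have h3 : (2 * (s : ℝ) - 1) / 8 * t ^ 2 * (a + ρ * t) ^ (2 * s - 2)
        ≤ (2 * (s : ℝ) - 1) / 8 * t ^ 2 * (a ^ (2 * s - 2) * 3) := by gcongr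
    have h4 : 0 ≤ a ^ (2 * s - 2) * t ^ 2 := by positivity
    have h5 : (0 : ℝ) ≤ (2 * (s : ℝ)) ^ s * t ^ (2 * s) := by positivity
    nlinarith
  · have h1 : a + ρ * t ≤ (2 * s + 1) * ρ * t := by linarith
    have h2 : (a + ρ * t) ^ (2 * s - 2) ≤ (2 * (s : ℝ)) ^ (s - 1) * t ^ (2 * s - 2) := by
      have e2 : 2 * s - 2 = 2 * (s - 1) := by omega
      have h3 : ((2 * s + 1) * ρ * t) ^ 2 ≤ (2 * s) * t ^ 2 := by
        have : ((2 * (s : ℝ) + 1) * ρ * t) ^ 2 = (2 * s + 1) ^ 2 * ρ ^ 2 * t ^ 2 := by ring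
        rw [this, hρ2]
        have h4 : (2 * (s : ℝ) + 1) ^ 2 * (1 / (8 * s)) ≤ 2 * s := by
          rw [mul_one_div, div_le_iff₀ (by positivity)]
          nlinarith
        gcongr
      calc (a + ρ * t) ^ (2 * s - 2) ≤ ((2 * s + 1) * ρ * t) ^ (2 * s - 2) :=
            pow_le_pow_left₀ (by positivity) h1 _
        _ = (((2 * s + 1) * ρ * t) ^ 2) ^ (s - 1) := by rw [e2, pow_mul]
        _ ≤ ((2 * s) * t ^ 2) ^ (s - 1) := pow_le_pow_left₀ (by positivity) h3 _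
        _ = (2 * (s : ℝ)) ^ (s - 1) * t ^ (2 * s - 2) := by
            rw [mul_pow, ← pow_mul, e2]
    have h3 : (2 * (s : ℝ) - 1) / 8 * t ^ 2 * (a + ρ * t) ^ (2 * s - 2)
        ≤ (2 * (s : ℝ) - 1) / 8 * t ^ 2 * ((2 * (s : ℝ)) ^ (s - 1) * t ^ (2 * s - 2)) := by gcongr
    have e3 : t ^ (2 * s) = t ^ 2 * t ^ (2 * s - 2) := by
      rw [← pow_add]; congr 1; omega
    have e4 : (2 * (s : ℝ)) ^ s = (2 * s) * (2 * (s : ℝ)) ^ (s - 1) := by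
      rw [← pow_succ']; congr 1; omega
    rw [e3, e4]
    have h6 : 0 ≤ (2 * (s : ℝ)) ^ (s - 1) * (t ^ 2 * t ^ (2 * s - 2)) := by positivity
    have h7 : 0 ≤ (s : ℝ) * a ^ (2 * s - 2) * t ^ 2 := by positivity
    nlinarith

/-- Bernoulli -/
theorem bernoulli (s : ℕ) (hs : 1 ≤ s) (x y : ℝ) (hx : 0 ≤ x) (hy : 0 ≤ y) :
    x ^ s + s * x ^ (s - 1) * y ≤ (x + y) ^ s := by
  obtain ⟨n, rfl⟩ : ∃ n, s = n + 1 := ⟨s - 1, by omega⟩
  simp only [Nat.add_sub_cancel]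
  induction n with
  | zero => norm_num
  | succ n ih =>
    have ih' := ih (by omega)
    have h1 : (x + y) ^ (n + 1 + 1) = (x + y) * (x + y) ^ (n + 1) := by ring
    rw [h1]
    have h2 : (x + y) * (x ^ (n + 1) + ((n + 1 : ℕ) : ℝ) * x ^ n * y) ≤ (x + y) * (x + y) ^ (n + 1) :=
      mul_le_mul_of_nonneg_left ih' (by positivity)
    refine le_trans ?_ h2
    push_cast
    have h3 : 0 ≤ ((n : ℝ) + 1) * x ^ n * y * y := by positivity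
    have h4 : (x + y) * (x ^ (n + 1) + ((n : ℝ) + 1) * x ^ n * y)
        = x ^ (n + 1 + 1) + ((n : ℝ) + 1 + 1) * x ^ (n + 1) * y + ((n : ℝ) + 1) * x ^ n * y * y := by
      ring
    linarith

end HConeAux

open HConeAux in
theorem hcone : HCONE := by
  intro H _ _ Ω _ _ v s hs m hm
  have hs0 : (0 : ℝ) < s := by exact_mod_cast hs
  set N : ℝ := (Fintype.card Ω : ℝ) with hN
  have hN0 : 0 < N := by
    rw [hN]; exact_mod_cast Fintype.card_pos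
  set ρ : ℝ := 1 / (2 * Real.sqrt (2 * s)) with hρ
  have hρ0 : 0 ≤ ρ := by rw [hρ]; positivity
  have hρ2 : ρ ^ 2 = 1 / (8 * s) := by
    rw [hρ, div_pow, mul_pow, Real.sq_sqrt (by positivity)]
    ring
  have hsum : ∑ x, (v x - m) = 0 := by
    rw [Finset.sum_sub_distrib, Finset.sum_const, Finset.card_univ, hm]
    rw [← Nat.cast_smul_eq_nsmul ℝ, smul_smul, mul_inv_cancel₀ (ne_of_gt hN0), one_smul, sub_self]
  have hip : ∑ x, inner ℝ m (v x - m) = 0 := by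
    rw [← inner_sum, hsum, inner_zero_right]
  -- mean square
  have hms : avg (fun x => ‖v x‖ ^ 2) = ‖m‖ ^ 2 + avg (fun x => ‖v x - m‖ ^ 2) := by
    unfold avg
    have h1 : ∀ x, ‖v x‖ ^ 2 = ‖m‖ ^ 2 + 2 * inner ℝ m (v x - m) + ‖v x - m‖ ^ 2 := by
      intro x
      have : v x = m + (v x - m) := by abel
      conv_lhs => rw [this]
      rw [norm_add_sq_real]
    rw [Finset.sum_congr rfl (fun x _ => h1 x), Finset.sum_add_distrib, Finset.sum_add_distrib,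
      ← Finset.mul_sum, hip, Finset.sum_const, Finset.card_univ, nsmul_eq_mul]
    field_simp
    ring
  -- pointwise
  have hpt : ∀ x, ‖m + ρ • (v x - m)‖ ^ (2 * s) ≤ ‖m‖ ^ (2 * s)
      + 2 * s * ρ * ‖m‖ ^ (2 * s - 2) * inner ℝ m (v x - m)
      + (s * ‖m‖ ^ (2 * s - 2) * ‖v x - m‖ ^ 2 + (2 * (s : ℝ)) ^ s * ‖v x - m‖ ^ (2 * s)) := by
    intro x
    have h1 : ‖m + ρ • (v x - m)‖ ^ 2
        = ‖m‖ ^ 2 + 2 * ρ * inner ℝ m (v x - m) + ρ ^ 2 * ‖v x - m‖ ^ 2 := by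
      rw [norm_add_sq_real, inner_smul_right, norm_smul, mul_pow, Real.norm_eq_abs, sq_abs]
      ring
    rw [pow_mul, h1]
    have h2 := pointwise_exp s hs ‖m‖ ‖v x - m‖ ρ (inner ℝ m (v x - m)) (norm_nonneg _)
      (norm_nonneg _) hρ0 (abs_real_inner_le_norm _ _)
    have h3 := second_term s hs ‖m‖ ‖v x - m‖ ρ (norm_nonneg _) (norm_nonneg _) hρ0 hρ2
    linarith
  have havg : avg (fun x => ‖m + ρ • (v x - m)‖ ^ (2 * s)) ≤ ‖m‖ ^ (2 * s)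
      + s * ‖m‖ ^ (2 * s - 2) * avg (fun x => ‖v x - m‖ ^ 2)
      + (2 * (s : ℝ)) ^ s * avg (fun x => ‖v x - m‖ ^ (2 * s)) := by
    unfold avg
    rw [div_le_iff₀ hN0]
    refine (Finset.sum_le_sum (fun x _ => hpt x)).trans ?_
    rw [Finset.sum_add_distrib, Finset.sum_add_distrib, Finset.sum_add_distrib, ← Finset.mul_sum,
      ← Finset.mul_sum, ← Finset.mul_sum, hip, Finset.sum_const, Finset.card_univ, nsmul_eq_mul]
    apply le_of_eq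
    field_simp
    ring
  refine havg.trans ?_
  have hb := bernoulli s hs (‖m‖ ^ 2) (avg (fun x => ‖v x - m‖ ^ 2)) (by positivity) (by
    unfold avg; positivity)
  rw [hms]
  have e1 : (‖m‖ ^ 2) ^ s = ‖m‖ ^ (2 * s) := by rw [← pow_mul]
  have e2 : (‖m‖ ^ 2) ^ (s - 1) = ‖m‖ ^ (2 * s - 2) := by
    rw [← pow_mul]; congr 1; omega
  rw [e1, e2] at hb
  linarith

end Vale.Agent.P042
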