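import Vale.Agent.P042.Core

/-!
# P042, module G1: size of `m*`
-/

open Polynomial Finset

namespace Vale.Agent.P042

theorem mst_le : MST := by
  intro P hP
  unfold mst
  set S := (Icc 1 P).filter Nat.Prime with hS
  set S1 := S.filter (fun p => P < p ^ 2) with hS1
  set S2 := S.filter (fun p => ¬ P < p ^ 2) with hS2
  have hsplit : ∏ p ∈ S, p ^ Nat.log p P = (∏ p ∈ S1, p ^ Nat.log p P) * ∏ p ∈ S2, p ^ Nat.log p P :=
    (Finset.prod_filter_mul_prod_filter_not S (fun p => P < p ^ 2) _).symm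
  have b1 : ∏ p ∈ S1, p ^ Nat.log p P ≤ 4 ^ P := by
    have e1 : ∏ p ∈ S1, p ^ Nat.log p P = ∏ p ∈ S1, p := by
      refine Finset.prod_congr rfl (fun p hp => ?_)
      rw [hS1, mem_filter, hS, mem_filter, mem_Icc] at hp
      obtain ⟨⟨⟨h1, h2⟩, h3⟩, h4⟩ := hp
      have : Nat.log p P = 1 := by
        rw [Nat.log_eq_iff (Or.inl one_ne_zero)]
        constructor
        · simpa using h2
        · simpa using h4
      rw [this, pow_one]
    rw [e1]
    refine le_trans ?_ (primorial_le_four_pow P)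
    unfold primorial
    refine Finset.prod_le_prod_of_subset_of_one_le' ?_ ?_
    · intro p hp
      rw [hS1, mem_filter, hS, mem_filter, mem_Icc] at hp
      rw [mem_filter, mem_range]
      exact ⟨by omega, hp.1.2⟩
    · intro p hp _
      exact (Finset.mem_filter.1 hp).2.one_lt.le
  have b2 : ∏ p ∈ S2, p ^ Nat.log p P ≤ 4 ^ P := by
    have hcard : S2.card ≤ Nat.sqrt P := by
      have : S2 ⊆ Icc 1 (Nat.sqrt P) := by
        intro p hp
        rw [hS2, mem_filter, hS, mem_filter, mem_Icc] at hp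
        obtain ⟨⟨⟨h1, h2⟩, h3⟩, h4⟩ := hp
        rw [mem_Icc]
        refine ⟨h1, ?_⟩
        rw [Nat.le_sqrt']
        omega
      calc S2.card ≤ (Icc 1 (Nat.sqrt P)).card := Finset.card_le_card this
        _ = Nat.sqrt P := by simp
    have hP4 : P ≤ 4 ^ Nat.sqrt P := by
      have h1 : P < (Nat.sqrt P + 1) ^ 2 := by
        have := Nat.lt_succ_sqrt P
        rw [sq]
        exact this
      have h2 : Nat.sqrt P + 1 ≤ 2 ^ Nat.sqrt P := Nat.lt_two_pow_self
      calc P ≤ (Nat.sqrt P + 1) ^ 2 := h1.le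
        _ ≤ (2 ^ Nat.sqrt P) ^ 2 := Nat.pow_le_pow_left h2 2
        _ = 4 ^ Nat.sqrt P := by
            rw [← pow_mul, mul_comm, pow_mul]
            norm_num
    calc ∏ p ∈ S2, p ^ Nat.log p P ≤ ∏ _p ∈ S2, P := by
          refine Finset.prod_le_prod' (fun p _ => ?_)
          exact Nat.pow_log_le_self p (by omega)
      _ = P ^ S2.card := by rw [Finset.prod_const]
      _ ≤ P ^ Nat.sqrt P := Nat.pow_le_pow_right hP hcard
      _ ≤ (4 ^ Nat.sqrt P) ^ Nat.sqrt P := Nat.pow_le_pow_left hP4 _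
      _ = 4 ^ (Nat.sqrt P * Nat.sqrt P) := by rw [← pow_mul]
      _ ≤ 4 ^ P := Nat.pow_le_pow_right (by norm_num) (Nat.sqrt_le P)
  rw [hsplit]
  calc (∏ p ∈ S1, p ^ Nat.log p P) * ∏ p ∈ S2, p ^ Nat.log p P ≤ 4 ^ P * 4 ^ P :=
        Nat.mul_le_mul b1 b2
    _ = 2 ^ (4 * P) := by
        rw [← mul_pow, pow_mul]
        norm_num

end Vale.Agent.P042
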