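import Vale.Agent.P042.Core

open Polynomial Finset

namespace Vale.Agent.P042
namespace Riem

theorem norm_ee (x : ℝ) : ‖ee x‖ = 1 := by
  unfold ee
  exact Complex.norm_exp_ofReal_mul_I _

theorem ee_sub_le (x y : ℝ) : ‖ee x - ee y‖ ≤ 2 * Real.pi * |x - y| := by
  have h1 : ee x = ee y * Complex.exp (Complex.I * ((2 * Real.pi * (x - y) : ℝ) : ℂ)) := by
    unfold ee
    rw [← Complex.exp_add]
    congr 1
    push_cast
    ring
  have h2 : ee x - ee y
      = ee y * (Complex.exp (Complex.I * ((2 * Real.pi * (x - y) : ℝ) : ℂ)) - 1) := by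
    rw [mul_sub, ← h1, mul_one]
  rw [h2, norm_mul, norm_ee, one_mul]
  calc ‖Complex.exp (Complex.I * ((2 * Real.pi * (x - y) : ℝ) : ℂ)) - 1‖
      ≤ ‖(2 * Real.pi * (x - y) : ℝ)‖ := Real.norm_exp_I_mul_ofReal_sub_one_le
    _ = 2 * Real.pi * |x - y| := by
        rw [Real.norm_eq_abs, abs_mul, abs_of_pos (by positivity)]

/-- sum over an integer interval -/
noncomputable def F (β : ℝ) (a b : ℤ) : ℂ := ∑ m ∈ Ioc a b, ee (β * (m : ℝ))

theorem F_add {β : ℝ} {a b c : ℤ} (h1 : a ≤ b) (h2 : b ≤ c) :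
    F β a c = F β a b + F β b c := by
  unfold F
  rw [← Ioc_union_Ioc_eq_Ioc h1 h2, sum_union (Ioc_disjoint_Ioc_of_le le_rfl)]

theorem card_cast {a b : ℤ} (h : a ≤ b) : ((Ioc a b).card : ℝ) = (b : ℝ) - a := by
  have h1 : (Ioc a b).card = (b - a).toNat := Int.card_Ioc a b
  have h2 : (((b - a).toNat : ℤ) : ℝ) = ((b - a : ℤ) : ℝ) := by
    rw [Int.toNat_of_nonneg (by omega)]
  rw [h1]
  push_cast at h2
  exact h2

theorem F_norm {β : ℝ} {a b : ℤ} (h : a ≤ b) : ‖F β a b‖ ≤ (b : ℝ) - a := by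
  unfold F
  calc ‖∑ m ∈ Ioc a b, ee (β * (m : ℝ))‖ ≤ ∑ m ∈ Ioc a b, ‖ee (β * (m : ℝ))‖ := norm_sum_le _ _
    _ = ∑ m ∈ Ioc a b, (1 : ℝ) := sum_congr rfl (fun m _ => norm_ee _)
    _ = (b : ℝ) - a := by rw [sum_const, nsmul_eq_mul, mul_one, card_cast h]

theorem F_near {β : ℝ} {a b : ℤ} (h : a ≤ b) :
    ‖F β a b - (((b : ℝ) - a : ℝ) : ℂ) * ee (β * b)‖
      ≤ 2 * Real.pi * |β| * ((b : ℝ) - a) ^ 2 := by
  have e1 : F β a b - (((b : ℝ) - a : ℝ) : ℂ) * ee (β * b)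
      = ∑ m ∈ Ioc a b, (ee (β * (m : ℝ)) - ee (β * b)) := by
    rw [sum_sub_distrib, sum_const, nsmul_eq_mul]
    unfold F
    congr 2
    rw [← card_cast h]; simp
  rw [e1]
  have hba : (0 : ℝ) ≤ (b : ℝ) - a := by
    have : (a : ℝ) ≤ b := by exact_mod_cast h
    linarith
  have hpi : (0 : ℝ) ≤ 2 * Real.pi := by positivity
  calc ‖∑ m ∈ Ioc a b, (ee (β * (m : ℝ)) - ee (β * b))‖
      ≤ ∑ m ∈ Ioc a b, ‖ee (β * (m : ℝ)) - ee (β * b)‖ := norm_sum_le _ _
    _ ≤ ∑ m ∈ Ioc a b, 2 * Real.pi * |β| * ((b : ℝ) - a) := by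
        apply sum_le_sum
        intro m hm
        obtain ⟨hm1, hm2⟩ := mem_Ioc.1 hm
        have hm1' : (a : ℝ) ≤ m := by exact_mod_cast hm1.le
        have hm2' : (m : ℝ) ≤ b := by exact_mod_cast hm2
        calc ‖ee (β * (m : ℝ)) - ee (β * b)‖ ≤ 2 * Real.pi * |β * m - β * b| := ee_sub_le _ _
          _ = 2 * Real.pi * |β| * |(m : ℝ) - b| := by
              rw [← mul_sub, abs_mul]; ring
          _ ≤ 2 * Real.pi * |β| * ((b : ℝ) - a) := by
              apply mul_le_mul_of_nonneg_left _ (mul_nonneg hpi (abs_nonneg _))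
              rw [abs_le]; constructor <;> linarith
    _ = 2 * Real.pi * |β| * ((b : ℝ) - a) ^ 2 := by
        rw [sum_const, nsmul_eq_mul, card_cast h]; ring

theorem F_tele (β : ℝ) (G : ℕ → ℤ) (V : ℕ) (h : ∀ v < V, G v ≤ G (v + 1)) :
    G 0 ≤ G V ∧ F β (G 0) (G V) = ∑ v ∈ range V, F β (G v) (G (v + 1)) := by
  induction V with
  | zero => simp [F]
  | succ V ih =>
    obtain ⟨h1, h2⟩ := ih (fun v hv => h v (by omega))
    have h3 := h V (by omega)
    refine ⟨h1.trans h3, ?_⟩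
    rw [sum_range_succ, ← h2, F_add h1 h3]

end Riem

theorem riem : RIEM := by
  intro g U V t T η β hV hT hη0 hη1 h1 h2 h3 h4 hD
  set G : ℕ → ℤ := fun v => g.eval ((U + v : ℕ) : ℤ) with hG
  have hVr : (1 : ℝ) ≤ V := by exact_mod_cast hV
  have hTr : (1 : ℝ) ≤ T := by exact_mod_cast hT
  have hV0 : (0 : ℝ) < V := by linarith
  have hT0 : (0 : ℝ) < T := by linarith
  have hDl : ∀ v, Dl g (U + v) = G (v + 1) - G v := by
    intro v; simp only [Dl, hG]; rfl
  have hstep : ∀ v ≤ V, G v < G (v + 1) ∧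
      |(V : ℝ) * ((G (v + 1) : ℝ) - G v) - T| ≤ η * T := by
    intro v hv
    obtain ⟨ha, hb⟩ := hD (U + v) (mem_Icc.2 ⟨by omega, by omega⟩)
    rw [hDl] at ha hb
    push_cast at hb
    exact ⟨by omega, hb⟩
  have hgap : ∀ v ≤ V, (G (v + 1) : ℝ) - G v ≤ 2 * T / V := by
    intro v hv
    have hb := (abs_le.1 (hstep v hv).2).2
    rw [le_div_iff₀ hV0]
    nlinarith
  have hgap0 : ∀ v ≤ V, (0 : ℝ) ≤ (G (v + 1) : ℝ) - G v := by
    intro v hv
    have : (G v : ℝ) ≤ G (v + 1) := by exact_mod_cast (hstep v hv).1.le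
    linarith
  have hG0 : G 0 ≤ (t : ℤ) := by simpa [hG] using h1
  have hG1 : (t : ℤ) < G 1 := by simpa [hG] using h2
  have hGV : G V ≤ ((t + T : ℕ) : ℤ) := by simpa [hG] using h3
  have hGV1 : ((t + T : ℕ) : ℤ) < G (V + 1) := by
    have : U + (V + 1) = U + V + 1 := by ring
    simp only [hG]
    rw [this]; exact h4
  obtain ⟨hmono, htele⟩ := Riem.F_tele β G V (fun v hv => (hstep v hv.le).1.le)
  -- the sum over the natural interval
  have hS : ∑ m ∈ Ioc t (t + T), ee (β * (m : ℝ)) = Riem.F β t ((t + T : ℕ) : ℤ) := by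
    unfold Riem.F
    have himg : (Ioc (t : ℤ) ((t + T : ℕ) : ℤ))
        = (Ioc t (t + T)).image (fun n : ℕ => (n : ℤ)) := by
      ext m
      simp only [mem_Ioc, mem_image]
      constructor
      · rintro ⟨ha, hb⟩
        refine ⟨m.toNat, ⟨by omega, by omega⟩, by omega⟩
      · rintro ⟨n, ⟨ha, hb⟩, rfl⟩
        exact ⟨by exact_mod_cast ha, by exact_mod_cast hb⟩
    rw [himg, sum_image (fun a _ b _ hab => by exact_mod_cast hab)]
    apply sum_congr rfl
    intro m _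
    push_cast
    rfl
  have htT : (t : ℤ) ≤ ((t + T : ℕ) : ℤ) := by push_cast; omega
  -- F(t, t+T) = F(G0, GV) - F(G0,t) + F(GV,t+T)
  have e1 : Riem.F β (G 0) ((t + T : ℕ) : ℤ)
      = Riem.F β (G 0) t + Riem.F β t ((t + T : ℕ) : ℤ) := Riem.F_add hG0 htT
  have e2 : Riem.F β (G 0) ((t + T : ℕ) : ℤ)
      = Riem.F β (G 0) (G V) + Riem.F β (G V) ((t + T : ℕ) : ℤ) := Riem.F_add hmono hGV
  have b1 : ‖Riem.F β (G 0) t‖ ≤ 2 * T / V := by
    refine (Riem.F_norm hG0).trans ?_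
    have h5 := hgap 0 (by omega)
    have h6 : ((t : ℤ) : ℝ) ≤ G 1 := by exact_mod_cast hG1.le
    simp only [zero_add] at h5
    linarith
  have b2 : ‖Riem.F β (G V) ((t + T : ℕ) : ℤ)‖ ≤ 2 * T / V := by
    refine (Riem.F_norm hGV).trans ?_
    have h5 := hgap V le_rfl
    have h6 : (((t + T : ℕ) : ℤ) : ℝ) ≤ G (V + 1) := by exact_mod_cast hGV1.le
    linarith
  -- blocks
  have b3 : ‖∑ v ∈ range V, (Riem.F β (G v) (G (v + 1))
      - (((G (v + 1) : ℝ) - G v : ℝ) : ℂ) * ee (β * G (v + 1)))‖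
        ≤ 8 * Real.pi * |β| * T ^ 2 / V := by
    calc _ ≤ ∑ v ∈ range V, ‖Riem.F β (G v) (G (v + 1))
      - (((G (v + 1) : ℝ) - G v : ℝ) : ℂ) * ee (β * G (v + 1))‖ := norm_sum_le _ _
      _ ≤ ∑ v ∈ range V, 2 * Real.pi * |β| * (2 * T / V) ^ 2 := by
          apply sum_le_sum
          intro v hv
          have hv' : v ≤ V := (mem_range.1 hv).le
          refine (Riem.F_near (hstep v hv').1.le).trans ?_
          have hpi : (0 : ℝ) ≤ 2 * Real.pi * |β| := by positivity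
          apply mul_le_mul_of_nonneg_left _ hpi
          exact pow_le_pow_left₀ (hgap0 v hv') (hgap v hv') 2
      _ = 8 * Real.pi * |β| * T ^ 2 / V := by
          rw [sum_const, card_range, nsmul_eq_mul]
          field_simp
          ring
  -- weights
  have b4 : ‖∑ v ∈ range V, ((((G (v + 1) : ℝ) - G v) / T - 1 / V : ℝ) : ℂ)
      * ee (β * G (v + 1))‖ ≤ η := by
    calc _ ≤ ∑ v ∈ range V, ‖((((G (v + 1) : ℝ) - G v) / T - 1 / V : ℝ) : ℂ)
          * ee (β * G (v + 1))‖ := norm_sum_le _ _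
      _ ≤ ∑ v ∈ range V, η / V := by
          apply sum_le_sum
          intro v hv
          have hv' : v ≤ V := (mem_range.1 hv).le
          rw [norm_mul, Riem.norm_ee, mul_one, Complex.norm_real, Real.norm_eq_abs]
          have e : ((G (v + 1) : ℝ) - G v) / T - 1 / V
              = ((V : ℝ) * ((G (v + 1) : ℝ) - G v) - T) / (T * V) := by
            field_simp
          rw [e, abs_div, abs_of_pos (mul_pos hT0 hV0), div_le_div_iff₀ (mul_pos hT0 hV0) hV0]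
          have := (hstep v hv').2
          nlinarith
      _ = η := by
          rw [sum_const, card_range, nsmul_eq_mul]
          field_simp
  have hsumV : ∑ v ∈ Icc 1 V, ee (β * ((g.eval ((U + v : ℕ) : ℤ) : ℤ) : ℝ))
      = ∑ v ∈ range V, ee (β * G (v + 1)) := by
    rw [range_eq_Ico, sum_Ico_add' (fun v => ee (β * ((g.eval ((U + v : ℕ) : ℤ) : ℤ) : ℝ))) 0 V 1]
    apply sum_congr _ (fun _ _ => rfl)
    ext v; simp only [mem_Icc, mem_Ico]; omega
  have hTc : (T : ℂ) ≠ 0 := by exact_mod_cast hT0.ne'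
  have hVc : (V : ℂ) ≠ 0 := by exact_mod_cast hV0.ne'
  have hid : (∑ v ∈ Icc 1 V, ee (β * ((g.eval ((U + v : ℕ) : ℤ) : ℤ) : ℝ))) / (V : ℂ)
        - (∑ m ∈ Ioc t (t + T), ee (β * (m : ℝ))) / (T : ℂ)
      = - (∑ v ∈ range V, ((((G (v + 1) : ℝ) - G v) / T - 1 / V : ℝ) : ℂ)
          * ee (β * G (v + 1)))
        - (∑ v ∈ range V, (Riem.F β (G v) (G (v + 1))
            - (((G (v + 1) : ℝ) - G v : ℝ) : ℂ) * ee (β * G (v + 1)))) / (T : ℂ)
        + (Riem.F β (G 0) t) / T - (Riem.F β (G V) ((t + T : ℕ) : ℤ)) / T := by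
    have hS' : Riem.F β t ((t + T : ℕ) : ℤ)
        = Riem.F β (G 0) (G V) + Riem.F β (G V) ((t + T : ℕ) : ℤ) - Riem.F β (G 0) t := by
      rw [← e2, e1]; ring
    have hA : ∑ v ∈ range V, ((((G (v + 1) : ℝ) - G v) / T - 1 / V : ℝ) : ℂ)
          * ee (β * G (v + 1))
        = (∑ v ∈ range V, (((G (v + 1) : ℝ) - G v : ℝ) : ℂ) * ee (β * G (v + 1))) / T
          - (∑ v ∈ range V, ee (β * G (v + 1))) / V := by
      rw [sum_div, sum_div, ← sum_sub_distrib]
      apply sum_congr rfl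
      intro v _
      push_cast
      field_simp
    rw [hS, hS', hsumV, hA, sum_sub_distrib, ← htele]
    field_simp
    ring
  rw [hid]
  have n1 : ‖(∑ v ∈ range V, (Riem.F β (G v) (G (v + 1))
            - (((G (v + 1) : ℝ) - G v : ℝ) : ℂ) * ee (β * G (v + 1)))) / (T : ℂ)‖
      ≤ 8 * Real.pi * |β| * T / V := by
    rw [norm_div, Complex.norm_natCast, div_le_iff₀ hT0]
    refine b3.trans (le_of_eq ?_)
    ring
  have n2 : ‖(Riem.F β (G 0) t) / (T : ℂ)‖ ≤ 2 / V := by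
    rw [norm_div, Complex.norm_natCast, div_le_iff₀ hT0]
    refine b1.trans (le_of_eq ?_)
    ring
  have n3 : ‖(Riem.F β (G V) ((t + T : ℕ) : ℤ)) / (T : ℂ)‖ ≤ 2 / V := by
    rw [norm_div, Complex.norm_natCast, div_le_iff₀ hT0]
    refine b2.trans (le_of_eq ?_)
    ring
  have hpi : 8 * Real.pi * |β| * T / V ≤ 26 * |β| * T / V := by
    have h8 : 8 * Real.pi ≤ 26 := by
      have := Real.pi_lt_d2
      linarith
    have h9 : 0 ≤ |β| * T / V := by positivity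
    have : 8 * Real.pi * |β| * T / V = 8 * Real.pi * (|β| * T / V) := by ring
    rw [this]
    have : 26 * |β| * T / V = 26 * (|β| * T / V) := by ring
    rw [this]
    exact mul_le_mul_of_nonneg_right h8 h9
  have hfin : η + (26 * |β| * T + 6) / V = η + 26 * |β| * T / V + 2 / V + 2 / V + 2 / V := by
    ring
  have h2V : (0 : ℝ) ≤ 2 / V := by positivity
  have tri := norm_sub_le (- (∑ v ∈ range V, ((((G (v + 1) : ℝ) - G v) / T - 1 / V : ℝ) : ℂ)
          * ee (β * G (v + 1)))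
        - (∑ v ∈ range V, (Riem.F β (G v) (G (v + 1))
            - (((G (v + 1) : ℝ) - G v : ℝ) : ℂ) * ee (β * G (v + 1)))) / (T : ℂ)
        + (Riem.F β (G 0) t) / T) ((Riem.F β (G V) ((t + T : ℕ) : ℤ)) / T)
  have tri2 := norm_add_le (- (∑ v ∈ range V, ((((G (v + 1) : ℝ) - G v) / T - 1 / V : ℝ) : ℂ)
          * ee (β * G (v + 1)))
        - (∑ v ∈ range V, (Riem.F β (G v) (G (v + 1))
            - (((G (v + 1) : ℝ) - G v : ℝ) : ℂ) * ee (β * G (v + 1)))) / (T : ℂ))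
        ((Riem.F β (G 0) t) / T)
  have tri3 := norm_sub_le (- (∑ v ∈ range V, ((((G (v + 1) : ℝ) - G v) / T - 1 / V : ℝ) : ℂ)
          * ee (β * G (v + 1))))
        ((∑ v ∈ range V, (Riem.F β (G v) (G (v + 1))
            - (((G (v + 1) : ℝ) - G v : ℝ) : ℂ) * ee (β * G (v + 1)))) / (T : ℂ))
  rw [norm_neg] at tri3
  rw [hfin]
  linarith

end Vale.Agent.P042
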