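import Vale.Agent.P042.WeilCore

/-!
# P042: base lemmas for Weil's bound
-/

open Polynomial Finset

namespace Vale.Agent.P042

noncomputable section

section
variable (p : ℕ) [Fact p.Prime]

instance : CharP (KK p) p := charP_of_injective_algebraMap (algebraMap (ZMod p) (KK p)).injective p

theorem alg_inj : Function.Injective (algebraMap (ZMod p) (KK p)) := (algebraMap (ZMod p) (KK p)).injective

theorem mem_Fx {n : ℕ} (hn : 1 ≤ n) (x : KK p) : x ∈ Fx p n ↔ x ^ (p ^ n) = x := by
  have hne : (X ^ (p ^ n) - X : (KK p)[X]) ≠ 0 :=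
    FiniteField.X_pow_card_pow_sub_X_ne_zero (KK p) (by omega) (Fact.out : p.Prime).one_lt
  unfold Fx
  simp [hne, sub_eq_zero]

theorem alg_pow (c : ZMod p) : (algebraMap (ZMod p) (KK p) c) ^ p = algebraMap (ZMod p) (KK p) c := by
  rw [← map_pow, ZMod.pow_card]

theorem fix_mem {x : KK p} (hx : x ^ p = x) : ∃ c : ZMod p, algebraMap (ZMod p) (KK p) c = x := by
  classical
  have hne : (X ^ (p ^ 1) - X : (KK p)[X]) ≠ 0 :=
    FiniteField.X_pow_card_pow_sub_X_ne_zero (KK p) (by omega) (Fact.out : p.Prime).one_lt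
  have hdeg : (X ^ (p ^ 1) - X : (KK p)[X]).natDegree = p ^ 1 :=
    FiniteField.X_pow_card_pow_sub_X_natDegree_eq (KK p) (by omega) (Fact.out : p.Prime).one_lt
  have h1 : (univ.image (fun c : ZMod p => algebraMap (ZMod p) (KK p) c)) ⊆ (X ^ (p ^ 1) - X : (KK p)[X]).roots.toFinset := by
    intro y hy
    simp only [mem_image, mem_univ, true_and] at hy
    obtain ⟨c, rfl⟩ := hy
    rw [Multiset.mem_toFinset, mem_roots hne]
    simp [alg_pow]
  have h2 : (X ^ (p ^ 1) - X : (KK p)[X]).roots.toFinset.card ≤ (univ.image (fun c : ZMod p => algebraMap (ZMod p) (KK p) c)).card := by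
    rw [card_image_of_injective _ (alg_inj p), card_univ, ZMod.card]
    calc (X ^ (p ^ 1) - X : (KK p)[X]).roots.toFinset.card ≤ Multiset.card (X ^ (p ^ 1) - X : (KK p)[X]).roots := Multiset.toFinset_card_le _
      _ ≤ (X ^ (p ^ 1) - X : (KK p)[X]).natDegree := card_roots' _
      _ = p := by rw [hdeg, pow_one]
  have h3 := eq_of_subset_of_card_le h1 h2
  have h4 : x ∈ (X ^ (p ^ 1) - X : (KK p)[X]).roots.toFinset := by
    rw [Multiset.mem_toFinset, mem_roots hne]
    simp [hx]
  rw [← h3] at h4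
  simpa using h4

theorem psK_alg (c : ZMod p) : psK p (algebraMap (ZMod p) (KK p) c) = ZMod.stdAddChar c := by
  classical
  unfold psK
  rw [Finset.sum_eq_single c]
  · simp
  · intro b _ hb
    rw [if_neg]
    intro h
    exact hb (alg_inj p h)
  · simp

theorem psK_add {z w : KK p} (hz : z ^ p = z) (hw : w ^ p = w) : psK p (z + w) = psK p z * psK p w := by
  obtain ⟨a, rfl⟩ := fix_mem p hz
  obtain ⟨b, rfl⟩ := fix_mem p hw
  rw [← map_add, psK_alg, psK_alg, psK_alg, AddChar.map_add_eq_mul]

/-- Frobenius -/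
abbrev fr : KK p →+* KK p := frobenius (KK p) p

theorem fr_apply (x : KK p) : fr p x = x ^ p := frobenius_def _ _

theorem fr_iter (n : ℕ) (x : KK p) : (fr p)^[n] x = x ^ (p ^ n) := iterate_frobenius _ _ _

theorem fr_alg (c : ZMod p) : fr p (algebraMap (ZMod p) (KK p) c) = algebraMap (ZMod p) (KK p) c := by
  rw [fr_apply, alg_pow]

theorem fr_comp_alg : (fr p).comp (algebraMap (ZMod p) (KK p)) = algebraMap (ZMod p) (KK p) := by
  ext c
  exact fr_alg p c

/-- base change of a polynomial -/
abbrev bc (g : (ZMod p)[X]) : (KK p)[X] := g.map (algebraMap (ZMod p) (KK p))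

theorem bc_fr (g : (ZMod p)[X]) : (bc p g).map (fr p) = bc p g := by
  unfold bc
  rw [Polynomial.map_map, fr_comp_alg]

theorem evK_fr (f : (ZMod p)[X]) (x : KK p) : evK p f (fr p x) = fr p (evK p f x) := by
  have h : eval (fr p x) (bc p f) = fr p (eval x (bc p f)) := by
    conv_lhs => rw [← bc_fr p f]
    rw [Polynomial.eval_map, Polynomial.eval₂_hom]
  exact h

theorem evK_pow (f : (ZMod p)[X]) (x : KK p) : evK p f (x ^ p) = (evK p f x) ^ p := by
  have := evK_fr p f x
  rwa [fr_apply, fr_apply] at this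

theorem evK_pow_pow (f : (ZMod p)[X]) (x : KK p) (i : ℕ) : evK p f (x ^ (p ^ i)) = (evK p f x) ^ (p ^ i) := by
  induction i with
  | zero => simp
  | succ i ih => rw [pow_succ, pow_mul, evK_pow, ih, ← pow_mul]

theorem roots_fr (g : (ZMod p)[X]) : (bc p g).roots.map (fr p) = (bc p g).roots := by
  have hs : (bc p g).Splits := IsAlgClosed.splits _
  have h := Splits.roots_map_of_injective hs (i := fr p) (fr p).injective
  rw [bc_fr] at h
  exact h.symm

theorem rsum_fix (f g : (ZMod p)[X]) : (((bc p g).roots.map (fun β => evK p f β)).sum) ^ p = ((bc p g).roots.map (fun β => evK p f β)).sum := by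
  rw [← fr_apply, map_multiset_sum, Multiset.map_map]
  conv_rhs => rw [← roots_fr p g, Multiset.map_map]
  congr 1
  apply Multiset.map_congr rfl
  intro x _
  simp only [Function.comp]
  rw [evK_fr]

theorem chiF_mul (f g h : (ZMod p)[X]) (hg : g ≠ 0) (hh : h ≠ 0) : chiF p f (g * h) = chiF p f g * chiF p f h := by
  unfold chiF
  rw [← psK_add p (rsum_fix p f g) (rsum_fix p f h)]
  congr 1
  rw [← Multiset.sum_add, ← Multiset.map_add, Polynomial.map_mul, roots_mul]
  rw [← Polynomial.map_mul]
  exact (Polynomial.map_ne_zero_iff (alg_inj p)).mpr (mul_ne_zero hg hh)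

theorem chiF_one (f : (ZMod p)[X]) : chiF p f 1 = 1 := by
  have h0 : psK p 0 = 1 := by
    have := psK_alg p 0
    rw [map_zero] at this
    rw [this]
    simp
  unfold chiF
  rw [Polynomial.map_one, roots_one]
  simpa using h0

end

end

end Vale.Agent.P042
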