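import Vale.Agent.P042.Core2

/-!
# P042: interface for Weil's bound (`WEIL`)
-/

open Polynomial Finset

namespace Vale.Agent.P042

noncomputable section

/-- Bombieri-Stepanov: number of `x` in a field with `Q^2` elements (`Q = p^m`) with trace condition -/
def BOMB : Prop :=
  ∀ p d : ℕ, p.Prime → 1 ≤ d → ¬ p ∣ d → ∃ C : ℕ,
    ∀ (F : Type) [Field F] [Fintype F] [DecidableEq F] [CharP F p] (m : ℕ) (f : F[X]) (c : F),
      1 ≤ m → Fintype.card F = (p ^ m) ^ 2 → f.natDegree = d →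
      (univ.filter (fun x : F => (∑ i ∈ range m, (f.eval x) ^ (p ^ i))
          + (∑ i ∈ range m, (f.eval x) ^ (p ^ i)) ^ (p ^ m) = c)).card * p
        ≤ (p ^ m) ^ 2 + C * p ^ m

section
variable (p : ℕ) [Fact p.Prime]

/-- algebraic closure of the prime field -/
abbrev KK : Type := AlgebraicClosure (ZMod p)

/-- elements of the field with `p^n` elements -/
def Fx (n : ℕ) : Finset (KK p) :=
  letI := Classical.decEq (KK p)
  (X ^ (p ^ n) - X : (KK p)[X]).roots.toFinset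

open Classical in
/-- the standard additive character of `ZMod p`, on the image of `ZMod p` in `KK p` -/
def psK (z : KK p) : ℂ :=
  ∑ c : ZMod p, if algebraMap (ZMod p) (KK p) c = z then ZMod.stdAddChar c else 0

/-- value of `f` at a point of the closure -/
def evK (f : (ZMod p)[X]) (x : KK p) : KK p := (f.map (algebraMap (ZMod p) (KK p))).eval x

/-- trace of `f(x)` for `x` in the field with `p^n` elements -/
def Tn (f : (ZMod p)[X]) (n : ℕ) (x : KK p) : KK p := ∑ i ∈ range n, evK p f (x ^ (p ^ i))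

/-- character sum over the field with `p^n` elements -/
def SS (f : (ZMod p)[X]) (n : ℕ) : ℂ := ∑ x ∈ Fx p n, psK p (Tn p f n x)

/-- character on polynomials -/
def chiF (f g : (ZMod p)[X]) : ℂ :=
  psK p (((g.map (algebraMap (ZMod p) (KK p))).roots.map (fun β => evK p f β)).sum)

/-- monic polynomials of degree `m` -/
def monicP (m : ℕ) (a : Fin m → ZMod p) : (ZMod p)[X] := X ^ m + ∑ i : Fin m, C (a i) * X ^ (i : ℕ)

/-- coefficients of the L-function -/
def cc (f : (ZMod p)[X]) (m : ℕ) : ℂ := ∑ a : Fin m → ZMod p, chiF p f (monicP p m a)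

end

/-- logarithmic derivative of the L-function -/
def LFN : Prop :=
  ∀ (p : ℕ) [Fact p.Prime] (f : (ZMod p)[X]) (m : ℕ),
    (m : ℂ) * cc p f m = ∑ n ∈ Icc 1 m, SS p f n * cc p f (m - n)

/-- the L-function is a polynomial -/
def VAN : Prop :=
  ∀ (p : ℕ) [Fact p.Prime] (f : (ZMod p)[X]) (d m : ℕ), f.natDegree = d → 1 ≤ d → d < p → d ≤ m →
    cc p f m = 0

/-- square root cancellation over large fields -/
def SNB : Prop :=
  ∀ (p : ℕ) [Fact p.Prime] (f : (ZMod p)[X]) (d : ℕ), f.natDegree = d → 1 ≤ d → d < p →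
    ∃ C : ℝ, ∀ n : ℕ, 1 ≤ n → ‖SS p f (2 * n)‖ ≤ C * (p : ℝ) ^ n

/-- Newton: recursion gives power sums -/
def NEWT : Prop :=
  ∀ (c S : ℕ → ℂ) (D : ℕ), c 0 = 1 → (∀ m, D < m → c m = 0) →
    (∀ m : ℕ, (m : ℂ) * c m = ∑ n ∈ Icc 1 m, S n * c (m - n)) →
    ∃ α : Fin D → ℂ, ∀ n : ℕ, 1 ≤ n → S n = - ∑ i, α i ^ n

/-- growth of power sums controls the roots -/
def ROOTB : Prop :=
  ∀ (D : ℕ) (α : Fin D → ℂ) (R C : ℝ), 0 < R → (∀ n : ℕ, 1 ≤ n → ‖∑ i, α i ^ (2 * n)‖ ≤ C * R ^ n) →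
    ∀ i, ‖α i‖ ^ 2 ≤ R

end

end Vale.Agent.P042
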